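import Vale.Agent.P299.Q.BB

/-!
# The flattening theorem
-/

open CategoryTheory TopologicalSpace Opposite TopCat AlgebraicGeometry Order

namespace Vale.Agent.P299.Q

/-- [Hironaka; Raynaud–Gruson] The flattening theorem, with resolution of singularities. Let `Z` be a
smooth projective variety and `k ⊆ ℂ(Z)` a subfield which contains `ℂ`. There are a smooth projective
variety `Y` with function field `k`, a normal integral scheme `Z₁` with a proper birational morphism
`b : Z₁ → Z` and an equidimensional morphism `c : Z₁ → Y`, and a resolution of singularities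
`a : Z' → Z₁`. A morphism is equidimensional if all components of its fibres have the same dimension;
then the image of a point of codimension one has codimension at most one. -/
def Flattening : Prop :=
  ∀ (Z : Var) (k : IntermediateField ℂ Z.K), ∃ (Y Z' : Var) (Z₁ : Scheme.{0})
    (_ : IsIntegral Z₁) (a : Z'.X ⟶ Z₁) (b : Z₁ ⟶ Z.X) (c : Z₁ ⟶ Y.X)
    (μ : DomHom Z' Z) (φ : DomHom Z' Y),
    (∀ z : Z₁, IsIntegrallyClosed (Z₁.presheaf.stalk z)) ∧ IsProper b ∧ IsDominant a ∧
    μ.f = a ≫ b ∧ φ.f = a ≫ c ∧ μ.Birational ∧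
    (∀ g : Z.K, g ∈ k ↔ ∃ h : Y.K, φ.pull h = μ.pull g) ∧
    ∀ z : Z₁, coheight z = 1 → coheight (c z) ≤ 1

end Vale.Agent.P299.Q
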