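import Vale.Agent.P299.Q.Pull
import Vale.Agent.P299.G.Scheme
import Vale.Agent.P299.G.Det

/-!
# Rational vector fields and twisted tensors

Local generators of the vector fields, finiteness of the space of rational vector fields, the
divisor of a rational tensor, and the determinant trick for twisted tensors.
-/

open CategoryTheory TopologicalSpace Opposite TopCat AlgebraicGeometry Order

namespace Vale.Agent.P299.Q

variable {X : Var}

/-- The local ring of `X` at `x` as a subring of the function field. -/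
noncomputable def locRing (X : Var) (x : X.X) : Subring X.K :=
  (algebraMap (X.X.presheaf.stalk x) X.K).range

theorem mem_locRing {x : X.X} {f : X.K} :
    f ∈ locRing X x ↔ ∃ b : X.X.presheaf.stalk x, algebraMap _ X.K b = f := Iff.rfl

theorem germ_mem_locRing {U : X.X.Opens} [Nonempty U] {x : X.X} (hx : x ∈ U) (g : Γ(X.X, U)) :
    X.X.germToFunctionField U g ∈ locRing X x :=
  ⟨X.X.presheaf.germ U x hx g, Scheme.algebraMap_germ_eq_germToFunctionField X.X hx g⟩

theorem const_mem_locRing (x : X.X) (c : ℂ) : algebraMap ℂ X.K c ∈ locRing X x := by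
  rw [algebraMap_eq]
  exact germ_mem_locRing (U := ⊤) True.intro _

theorem regDer_iff_locRing {x : X.X} {v : X.Der} :
    RegDer x v ↔ ∀ f ∈ locRing X x, v f ∈ locRing X x := by
  constructor
  · rintro h f ⟨a, rfl⟩
    obtain ⟨b, hb⟩ := h a
    exact ⟨b, hb.symm⟩
  · intro h a
    obtain ⟨b, hb⟩ := h (algebraMap _ X.K a) ⟨a, rfl⟩
    exact ⟨b, hb.symm⟩

/-- The constants as functions on `U`. -/
noncomputable def cst (U : X.X.Opens) : ℂ →+* Γ(X.X, U) :=
  (X.X.presheaf.map (homOfLE (le_top : U ≤ ⊤)).op).hom.comp (constants X.X)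

theorem germ_cst (U : X.X.Opens) [Nonempty U] (c : ℂ) :
    X.X.germToFunctionField U (cst U c) = algebraMap ℂ X.K c := by
  rw [algebraMap_eq]
  have h : genericPoint X.X ∈ U :=
    ((genericPoint_spec X.X).mem_open_set_iff U.isOpen).mpr (by simpa using ‹Nonempty U›)
  have h1 := X.X.presheaf.germ_res (homOfLE (le_top : U ≤ ⊤)) (genericPoint X.X) h
  exact congrArg (fun φ => φ.hom (constants X.X c)) h1

theorem cst_finiteType (U : X.X.Opens) (hU : IsAffineOpen U) : (cst U : ℂ →+* Γ(X.X, U)).FiniteType := by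
  have h1 := (X.X ↘ SpecC).finiteType_appLE (isAffineOpen_top SpecC) hU (le_top)
  have h2 : (cst U : ℂ →+* Γ(X.X, U)) = ((X.X ↘ SpecC).appLE ⊤ U le_top).hom.comp
      (Scheme.ΓSpecIso (CommRingCat.of ℂ)).inv.hom := by
    ext c
    rfl
  rw [h2]
  refine RingHom.FiniteType.comp h1 (RingHom.FiniteType.of_surjective _ ?_)
  exact (Scheme.ΓSpecIso (CommRingCat.of ℂ)).symm.commRingCatIsoToRingEquiv.surjective

theorem exists_gens (U : X.X.Opens) (hU : IsAffineOpen U) :
    ∃ s : Finset Γ(X.X, U), ∀ S : Subring Γ(X.X, U), (∀ c : ℂ, cst U c ∈ S) →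
      (∀ g ∈ s, g ∈ S) → S = ⊤ := by
  have h := cst_finiteType U hU
  let _ := (cst U : ℂ →+* Γ(X.X, U)).toAlgebra
  have h1 : Algebra.FiniteType ℂ Γ(X.X, U) := h
  obtain ⟨s, hs⟩ := h1.out
  refine ⟨s, fun S hS1 hS2 => ?_⟩
  let S' : Subalgebra ℂ Γ(X.X, U) := { S.toSubsemiring with algebraMap_mem' := fun c => hS1 c }
  have h2 : Algebra.adjoin ℂ (s : Set Γ(X.X, U)) ≤ S' := Algebra.adjoin_le fun g hg => hS2 g hg
  rw [hs] at h2
  rw [eq_top_iff]
  intro g _
  exact h2 (show g ∈ (⊤ : Subalgebra ℂ Γ(X.X, U)) from trivial)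

/-- `s` generates the ring of functions on `U` over the constants. -/
def IsGens (U : X.X.Opens) (s : Finset Γ(X.X, U)) : Prop :=
  ∀ S : Subring Γ(X.X, U), (∀ c : ℂ, cst U c ∈ S) → (∀ g ∈ s, g ∈ S) → S = ⊤

/-- A derivation is regular at a point of an affine open set iff its values on the generators of
the coordinate ring are. -/
theorem regDer_iff {U : X.X.Opens} (hU : IsAffineOpen U) [Nonempty U] {s : Finset Γ(X.X, U)}
    (hs : IsGens U s) {x : X.X} (hx : x ∈ U) (v : X.Der) :
    RegDer x v ↔ ∀ g ∈ s, v (X.X.germToFunctionField U g) ∈ locRing X x := by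
  rw [regDer_iff_locRing]
  refine ⟨fun h g _ => h _ (germ_mem_locRing hx g), fun h => ?_⟩
  let S : Subring Γ(X.X, U) :=
    { carrier := {g | v (X.X.germToFunctionField U g) ∈ locRing X x}
      mul_mem' := fun {a b} ha hb => by
        simp only [Set.mem_ofPred_eq, map_mul, Derivation.leibniz, smul_eq_mul] at ha hb ⊢
        exact add_mem (mul_mem (germ_mem_locRing hx a) hb) (mul_mem (germ_mem_locRing hx b) ha)
      one_mem' := by
        simp only [Set.mem_ofPred_eq, map_one, Derivation.map_one_eq_zero]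
        exact zero_mem _
      add_mem' := fun {a b} ha hb => by
        simp only [Set.mem_ofPred_eq, map_add] at ha hb ⊢
        exact add_mem ha hb
      zero_mem' := by
        simp only [Set.mem_ofPred_eq, map_zero]
        exact zero_mem _
      neg_mem' := fun {a} ha => by
        simp only [Set.mem_ofPred_eq, map_neg] at ha ⊢
        exact neg_mem ha }
  have hS : S = ⊤ := hs S (fun c => by
    change v (X.X.germToFunctionField U (cst U c)) ∈ locRing X x
    rw [germ_cst, Derivation.map_algebraMap]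
    exact zero_mem _) h
  have hall : ∀ g : Γ(X.X, U), v (X.X.germToFunctionField U g) ∈ locRing X x := by
    intro g
    have : g ∈ S := by rw [hS]; exact Subring.mem_top _
    exact this
  rintro f ⟨a, rfl⟩
  let _ := TopCat.Presheaf.algebra_section_stalk X.X.presheaf (U := U) ⟨x, hx⟩
  have hloc := hU.isLocalization_stalk ⟨x, hx⟩
  obtain ⟨⟨p, t⟩, hpt⟩ := IsLocalization.surj (hU.primeIdealOf ⟨x, hx⟩).asIdeal.primeCompl a
  have htu := IsLocalization.map_units (X.X.presheaf.stalk x) t
  simp only at hpt htu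
  obtain ⟨u, hu⟩ := htu
  have h1 : algebraMap (X.X.presheaf.stalk x) X.K a *
      X.X.germToFunctionField U (t : Γ(X.X, U)) = X.X.germToFunctionField U p := by
    have := congrArg (algebraMap (X.X.presheaf.stalk x) X.K) hpt
    rw [map_mul] at this
    have e1 : algebraMap (X.X.presheaf.stalk x) X.K (algebraMap Γ(X.X, U) _ (t : Γ(X.X, U))) =
        X.X.germToFunctionField U (t : Γ(X.X, U)) :=
      Scheme.algebraMap_germ_eq_germToFunctionField X.X hx _
    have e2 : algebraMap (X.X.presheaf.stalk x) X.K (algebraMap Γ(X.X, U) _ p) =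
        X.X.germToFunctionField U p :=
      Scheme.algebraMap_germ_eq_germToFunctionField X.X hx _
    rw [← e1, ← e2]
    exact this
  have h2 := congrArg v h1
  rw [Derivation.leibniz, smul_eq_mul, smul_eq_mul] at h2
  have h3 : X.X.germToFunctionField U (t : Γ(X.X, U)) *
      algebraMap (X.X.presheaf.stalk x) X.K (↑u⁻¹ : X.X.presheaf.stalk x) = 1 := by
    have e1 : algebraMap (X.X.presheaf.stalk x) X.K (algebraMap Γ(X.X, U) _ (t : Γ(X.X, U))) =
        X.X.germToFunctionField U (t : Γ(X.X, U)) :=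
      Scheme.algebraMap_germ_eq_germToFunctionField X.X hx _
    rw [← e1, ← hu, ← map_mul, Units.mul_inv, map_one]
  have h4 : v (algebraMap (X.X.presheaf.stalk x) X.K a) =
      algebraMap (X.X.presheaf.stalk x) X.K (↑u⁻¹ : X.X.presheaf.stalk x) *
        (v (X.X.germToFunctionField U p) - algebraMap (X.X.presheaf.stalk x) X.K a *
          v (X.X.germToFunctionField U (t : Γ(X.X, U)))) := by
    rw [← h2]
    linear_combination (-1 : X.K) * v (algebraMap (X.X.presheaf.stalk x) X.K a) * h3
  rw [h4]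
  exact mul_mem ⟨_, rfl⟩ (sub_mem (hall p) (mul_mem ⟨_, rfl⟩ (hall _)))

/-- A rational vector field is determined by its values on generators. -/
theorem der_ext {U : X.X.Opens} (hU : IsAffineOpen U) [Nonempty U] {s : Finset Γ(X.X, U)}
    (hs : IsGens U s) {v w : X.Der}
    (h : ∀ g ∈ s, v (X.X.germToFunctionField U g) = w (X.X.germToFunctionField U g)) : v = w := by
  let S : Subring Γ(X.X, U) :=
    { carrier := {g | v (X.X.germToFunctionField U g) = w (X.X.germToFunctionField U g)}
      mul_mem' := fun {a b} ha hb => by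
        simp only [Set.mem_ofPred_eq, map_mul, Derivation.leibniz, smul_eq_mul] at ha hb ⊢
        rw [ha, hb]
      one_mem' := by
        simp only [Set.mem_ofPred_eq, map_one, Derivation.map_one_eq_zero]
      add_mem' := fun {a b} ha hb => by
        simp only [Set.mem_ofPred_eq, map_add] at ha hb ⊢
        rw [ha, hb]
      zero_mem' := by
        simp only [Set.mem_ofPred_eq, map_zero]
      neg_mem' := fun {a} ha => by
        simp only [Set.mem_ofPred_eq, map_neg] at ha ⊢
        rw [ha] }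
  have hS : S = ⊤ := hs S (fun c => by
    change v (X.X.germToFunctionField U (cst U c)) = w (X.X.germToFunctionField U (cst U c))
    rw [germ_cst, Derivation.map_algebraMap, Derivation.map_algebraMap]) h
  have hall : ∀ g : Γ(X.X, U),
      v (X.X.germToFunctionField U g) = w (X.X.germToFunctionField U g) := by
    intro g
    have : g ∈ S := by rw [hS]; exact Subring.mem_top _
    exact this
  have hfr := functionField_isFractionRing_of_isAffineOpen X.X U hU
  ext f
  obtain ⟨p, q, hq, rfl⟩ := IsFractionRing.div_surjective (A := Γ(X.X, U)) f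
  change v (X.X.germToFunctionField U p / X.X.germToFunctionField U q) =
    w (X.X.germToFunctionField U p / X.X.germToFunctionField U q)
  rw [Derivation.leibniz_div, Derivation.leibniz_div, hall, hall]

/-- The values of a rational vector field on the generators. -/
noncomputable def valueMap (U : X.X.Opens) [Nonempty U] (s : Finset Γ(X.X, U)) :
    X.Der →ₗ[X.K] (s → X.K) where
  toFun v g := v (X.X.germToFunctionField U g.1)
  map_add' _ _ := rfl
  map_smul' _ _ := rfl

theorem valueMap_injective {U : X.X.Opens} (hU : IsAffineOpen U) [Nonempty U]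
    {s : Finset Γ(X.X, U)} (hs : IsGens U s) : Function.Injective (valueMap U s) := by
  intro v w h
  exact der_ext hU hs fun g hg => congrFun h ⟨g, hg⟩

theorem exists_affine_nonempty (X : Var) : ∃ U : X.X.Opens, IsAffineOpen U ∧ Nonempty U := by
  obtain ⟨_, ⟨U, hU, rfl⟩, hx, -⟩ := X.X.isBasis_affineOpens.exists_subset_of_mem_open
    (Set.mem_univ (genericPoint X.X)) isOpen_univ
  exact ⟨U, hU, ⟨⟨_, hx⟩⟩⟩

instance instFiniteDer (X : Var) : Module.Finite X.K X.Der := by
  obtain ⟨U, hU, hne⟩ := exists_affine_nonempty X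
  obtain ⟨s, hs⟩ := exists_gens U hU
  exact Module.Finite.of_injective (valueMap U s) (valueMap_injective hU hs)

/-- Every rational vector field is the combination of fixed ones with its values on the generators
as coefficients. -/
theorem exists_frame {U : X.X.Opens} (hU : IsAffineOpen U) [Nonempty U] {s : Finset Γ(X.X, U)}
    (hs : IsGens U s) : ∃ w : s → X.Der, ∀ v : X.Der,
      v = ∑ g, v (X.X.germToFunctionField U g.1) • w g := by
  classical
  obtain ⟨Λ, hΛ⟩ := (valueMap U s).exists_leftInverse_of_injective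
    (LinearMap.ker_eq_bot.2 (valueMap_injective hU hs))
  refine ⟨fun g => Λ (Pi.single g 1), fun v => ?_⟩
  have h1 : Λ (valueMap U s v) = v := congrArg (fun f => f v) hΛ
  conv_lhs => rw [← h1, pi_eq_sum_univ' (valueMap U s v)]
  rw [map_sum]
  refine Finset.sum_congr rfl fun g _ => ?_
  rw [LinearMap.map_smul]
  rfl

/-- A multiple of a rational vector field is regular at a given point. -/
theorem exists_smul_regDer {U : X.X.Opens} (hU : IsAffineOpen U) [Nonempty U]
    {s : Finset Γ(X.X, U)} (hs : IsGens U s) {x : X.X} (hx : x ∈ U) (v : X.Der) :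
    ∃ a : X.K, a ≠ 0 ∧ RegDer x (a • v) := by
  classical
  obtain ⟨b, hb⟩ := IsLocalization.exist_integer_multiples_of_finset
    (nonZeroDivisors (X.X.presheaf.stalk x)) (s.image fun g => v (X.X.germToFunctionField U g))
  refine ⟨algebraMap _ X.K (b : X.X.presheaf.stalk x), ?_, ?_⟩
  · simp
  · rw [regDer_iff hU hs hx]
    intro g hg
    obtain ⟨c, hc⟩ := hb _ (Finset.mem_image_of_mem _ hg)
    refine ⟨c, ?_⟩
    rw [hc, Derivation.smul_apply, smul_eq_mul, Algebra.smul_def]

/-! ### Orders of the values of tensors -/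

theorem ord_nonneg_of_locRing {x : X.X} {f : X.K} (hf : f ∈ locRing X x) :
    0 ≤ Scheme.ord f x := by
  obtain ⟨a, rfl⟩ := hf
  exact ord_nonneg_of_stalk x a

theorem locRing_of_ord_nonneg {x : X.X} (hx : coheight x = 1) {f : X.K}
    (hf : f ≠ 0 → 0 ≤ Scheme.ord f x) : f ∈ locRing X x := by
  by_cases h : f = 0
  · rw [h]; exact zero_mem _
  · have := X.dvr x hx
    obtain ⟨a, ha⟩ := exists_stalk_of_ord_nonneg x hx h (hf h)
    exact ⟨a, ha⟩

theorem ord_sum_ge {ι : Type*} (T : Finset ι) (f : ι → X.K) (c : ℤ) {x : X.X}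
    (hx : coheight x = 1) (h : ∀ i ∈ T, f i ≠ 0 → c ≤ Scheme.ord (f i) x)
    (h0 : ∑ i ∈ T, f i ≠ 0) : c ≤ Scheme.ord (∑ i ∈ T, f i) x := by
  have h1 : ∑ i ∈ T, f i ∈ polar (X := X.X) (fun _ => -c) x := by
    refine Submodule.sum_mem _ fun i hi => ?_
    rw [mem_polar]
    intro _ hne
    have := h i hi hne
    linarith
  rw [mem_polar] at h1
  have := h1 hx h0
  linarith

/-- The expansion of the values of a tensor in terms of its values on a frame. -/
theorem tensor_expand {U : X.X.Opens} [Nonempty U] {s : Finset Γ(X.X, U)} {w : s → X.Der}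
    (hw : ∀ v : X.Der, v = ∑ g, v (X.X.germToFunctionField U g.1) • w g) {N : ℕ}
    (e : X.Ten N) (v : Fin N → X.Der) :
    e v = ∑ φ : Fin N → s, (∏ i, v i (X.X.germToFunctionField U (φ i).1)) *
      e (fun i => w (φ i)) := by
  classical
  conv_lhs => rw [show v = fun i => ∑ g, v i (X.X.germToFunctionField U g.1) • w g from
    funext fun i => hw (v i)]
  rw [MultilinearMap.map_sum]
  refine Finset.sum_congr rfl fun φ _ => ?_
  rw [MultilinearMap.map_smul_univ, smul_eq_mul]

theorem ord_value_ge {U : X.X.Opens} (hU : IsAffineOpen U) [Nonempty U] {s : Finset Γ(X.X, U)}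
    (hs : IsGens U s) {w : s → X.Der}
    (hw : ∀ v : X.Der, v = ∑ g, v (X.X.germToFunctionField U g.1) • w g) {N : ℕ}
    (e : X.Ten N) {x : X.X} (hx : coheight x = 1) (hxU : x ∈ U) (c : ℤ)
    (hc : ∀ φ : Fin N → s, e (fun i => w (φ i)) ≠ 0 →
      c ≤ Scheme.ord (e (fun i => w (φ i))) x)
    (v : Fin N → X.Der) (hv : ∀ i, RegDer x (v i)) (h0 : e v ≠ 0) : c ≤ Scheme.ord (e v) x := by
  rw [tensor_expand hw] at h0 ⊢
  refine ord_sum_ge _ _ c hx (fun φ _ hφ => ?_) h0
  have h1 := left_ne_zero_of_mul hφ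
  have h2 := right_ne_zero_of_mul hφ
  rw [Scheme.ord_mul h1 h2]
  have h3 : ∏ i, v i (X.X.germToFunctionField U (φ i).1) ∈ locRing X x :=
    prod_mem fun i _ => (regDer_iff hU hs hxU _).1 (hv i) _ (φ i).2
  have h4 := ord_nonneg_of_locRing h3
  have h5 := hc φ h2
  linarith

theorem exists_frame_ne_zero {U : X.X.Opens} [Nonempty U] {s : Finset Γ(X.X, U)} {w : s → X.Der}
    (hw : ∀ v : X.Der, v = ∑ g, v (X.X.germToFunctionField U g.1) • w g) {N : ℕ}
    {e : X.Ten N} (he : e ≠ 0) : ∃ φ : Fin N → s, e (fun i => w (φ i)) ≠ 0 := by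
  by_contra h
  push Not at h
  apply he
  ext v
  rw [tensor_expand hw]
  simp [h]

/-- At a point of codimension one the orders of the values of a nonzero tensor on regular vector
fields have a least element. -/
theorem exists_isLeast_value {N : ℕ} {e : X.Ten N} (he : e ≠ 0) {x : X.X}
    (hx : coheight x = 1) :
    ∃ n : ℤ, IsLeast {n : ℤ | ∃ v : Fin N → X.Der, (∀ i, RegDer x (v i)) ∧ e v ≠ 0 ∧
      Scheme.ord (e v) x = n} n := by
  classical
  obtain ⟨_, ⟨U, hU, rfl⟩, hxU, -⟩ := X.X.isBasis_affineOpens.exists_subset_of_mem_open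
    (Set.mem_univ x) isOpen_univ
  have hne : Nonempty U := ⟨⟨x, hxU⟩⟩
  obtain ⟨s, hs⟩ := exists_gens U hU
  obtain ⟨w, hw⟩ := exists_frame hU hs
  obtain ⟨φ₀, hφ₀⟩ := exists_frame_ne_zero hw he
  choose a ha0 ha using fun v => exists_smul_regDer hU hs hxU v
  have hmem : ∃ n : ℤ, ∃ v : Fin N → X.Der, (∀ i, RegDer x (v i)) ∧ e v ≠ 0 ∧
      Scheme.ord (e v) x = n := by
    refine ⟨_, fun i => a (w (φ₀ i)) • w (φ₀ i), fun i => ha _, ?_, rfl⟩
    rw [MultilinearMap.map_smul_univ, smul_eq_mul]
    exact mul_ne_zero (Finset.prod_ne_zero_iff.2 fun i _ => ha0 _) hφ₀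
  have hbdd : ∃ b : ℤ, ∀ z : ℤ, (∃ v : Fin N → X.Der, (∀ i, RegDer x (v i)) ∧ e v ≠ 0 ∧
      Scheme.ord (e v) x = z) → b ≤ z := by
    refine ⟨-∑ φ : Fin N → s, |Scheme.ord (e (fun i => w (φ i))) x|, ?_⟩
    rintro z ⟨v, hv, hv0, rfl⟩
    refine ord_value_ge hU hs hw e hx hxU _ (fun φ _ => ?_) v hv hv0
    have h1 : |Scheme.ord (e (fun i => w (φ i))) x| ≤
        ∑ φ : Fin N → s, |Scheme.ord (e (fun i => w (φ i))) x| :=
      Finset.single_le_sum (f := fun φ : Fin N → s => |Scheme.ord (e (fun i => w (φ i))) x|)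
        (fun _ _ => abs_nonneg _) (Finset.mem_univ φ)
    have h2 := neg_abs_le (Scheme.ord (e (fun i => w (φ i))) x)
    linarith
  obtain ⟨lb, hlb, hmin⟩ := Int.exists_least_of_bdd hbdd hmem
  exact ⟨lb, hlb, fun z hz => hmin z hz⟩

/-- **Every nonzero rational tensor has a divisor.** -/
theorem exists_isDivTensor {N : ℕ} {e : X.Ten N} (he : e ≠ 0) : ∃ D : Div X.X, IsDivTensor e D := by
  classical
  choose n hn using fun (x : X.X) (hx : coheight x = 1) => exists_isLeast_value he hx
  obtain ⟨U, hU, hne⟩ := exists_affine_nonempty X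
  obtain ⟨s, hs⟩ := exists_gens U hU
  obtain ⟨w, hw⟩ := exists_frame hU hs
  obtain ⟨φ₀, hφ₀⟩ := exists_frame_ne_zero hw he
  have hgen : genericPoint X.X ∈ U :=
    ((genericPoint_spec X.X).mem_open_set_iff U.isOpen).mpr (by simpa using hne)
  -- the exceptional points
  let B1 : Set X.X := {x | x ∈ ((U : Set X.X)ᶜ) ∧ coheight x = 1}
  let B2 : Set X.X := ⋃ g : s, ⋃ g' : s, {x | w g (X.X.germToFunctionField U g'.1) ≠ 0 ∧
    Scheme.ord (w g (X.X.germToFunctionField U g'.1)) x ≠ 0}
  let B3 : Set X.X := ⋃ φ : Fin N → s, {x | e (fun i => w (φ i)) ≠ 0 ∧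
    Scheme.ord (e (fun i => w (φ i))) x ≠ 0}
  have hB1 : B1.Finite := G.finite_codim_one _ U.isOpen.isClosed_compl (by simpa using hgen)
  have hB2 : B2.Finite := by
    refine Set.finite_iUnion fun g => Set.finite_iUnion fun g' => ?_
    by_cases h : w g (X.X.germToFunctionField U g'.1) = 0
    · refine Set.Finite.subset Set.finite_empty fun x hx => absurd h hx.1
    · exact (G.finite_ord_ne_zero _ h).subset fun x hx => hx.2
  have hB3 : B3.Finite := by
    refine Set.finite_iUnion fun φ => ?_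
    by_cases h : e (fun i => w (φ i)) = 0
    · refine Set.Finite.subset Set.finite_empty fun x hx => absurd h hx.1
    · exact (G.finite_ord_ne_zero _ h).subset fun x hx => hx.2
  have hfin : {x : X.X | coheight x = 1 ∧ (if h : coheight x = 1 then n x h else 0) ≠ 0}.Finite := by
    refine ((hB1.union hB2).union hB3).subset ?_
    rintro x ⟨hx, hx0⟩
    rw [dif_pos hx] at hx0
    by_contra hcon
    have h1 : x ∉ B1 := fun h => hcon (Or.inl (Or.inl h))
    have h2 : x ∉ B2 := fun h => hcon (Or.inl (Or.inr h))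
    have h3 : x ∉ B3 := fun h => hcon (Or.inr h)
    have hxU : x ∈ U := by
      by_contra h
      exact h1 ⟨h, hx⟩
    have hval : ∀ φ : Fin N → s, e (fun i => w (φ i)) ≠ 0 →
        Scheme.ord (e (fun i => w (φ i))) x = 0 := by
      intro φ hφ
      by_contra h
      exact h3 (Set.mem_iUnion.2 ⟨φ, hφ, h⟩)
    have hreg : ∀ g : s, RegDer x (w g) := by
      intro g
      rw [regDer_iff hU hs hxU]
      intro g' hg'
      refine locRing_of_ord_nonneg hx fun hne => ?_
      by_contra h
      refine h2 (Set.mem_iUnion₂.2 ⟨g, ⟨g', hg'⟩, hne, fun h0 => h ?_⟩)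
      rw [h0]
    apply hx0
    refine le_antisymm ?_ ?_
    · exact (hn x hx).2 ⟨fun i => w (φ₀ i), fun i => hreg _, hφ₀, hval φ₀ hφ₀⟩
    · obtain ⟨v, hv, hv0, hv1⟩ := (hn x hx).1
      rw [← hv1]
      exact ord_value_ge hU hs hw e hx hxU 0 (fun φ hφ => (hval φ hφ).ge) v hv hv0
  refine ⟨mkDiv _ hfin, fun x hx => ?_⟩
  rw [coef_mkDiv _ hfin hx, dif_pos hx]
  exact hn x hx

end Vale.Agent.P299.Q
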