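import Vale.Agent.P299.Q.DomHom
import Vale.Agent.P299.G.LocEq

/-!
# Pull back of divisors
-/

open CategoryTheory TopologicalSpace Opposite TopCat AlgebraicGeometry Order IsLocalRing

namespace Vale.Agent.P299.Q

open Vale.Agent.P299.G

variable {X Y Z : Var}

/-- The pull back of regular functions at a point. -/
noncomputable abbrev DomHom.stalk (φ : DomHom X Y) (x : X.X) :
    Y.X.presheaf.stalk (φ.f x) →+* X.X.presheaf.stalk x :=
  (φ.f.stalkMap x).hom

/-- The pull back of rational functions is compatible with the pull back of regular functions. -/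
lemma DomHom.pull_toK (φ : DomHom X Y) (x : X.X) (a : Y.X.presheaf.stalk (φ.f x)) :
    φ.pull (toK (φ.f x) a) = toK x (φ.stalk x a) := by
  have h1 : φ.pull.comp (toK (φ.f x)) = (toK x).comp (φ.stalk x) := by
    have h2 : (genericPoint X.X) ⤳ x := genericPoint_specializes x
    have h3 := Scheme.Hom.stalkSpecializes_stalkMap φ.f (genericPoint X.X) x h2
    have h4 : toK x = (X.X.presheaf.stalkSpecializes h2).hom := rfl
    have h5 : toK (φ.f x) = (Y.X.presheaf.stalkSpecializes
      (genericPoint_specializes (φ.f x))).hom := rfl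
    rw [h4, h5]
    unfold DomHom.pull DomHom.stalk
    rw [← CommRingCat.hom_comp, ← CommRingCat.hom_comp, ← CommRingCat.hom_comp, ← h3,
      Presheaf.stalkSpecializes_comp_assoc]
  exact congrArg (fun r => r a) h1

/-- The theorem of Auslander and Buchsbaum: the local rings of a smooth variety are factorial. -/
def AuslanderBuchsbaum : Prop :=
  ∀ (X : Var) (x : X.X), UniqueFactorizationMonoid (X.X.presheaf.stalk x)

section orders

variable {T : Scheme.{0}} [IsIntegral T] [IsLocallyNoetherian T]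

lemma coef_of_ne {D : Div T} {x : T} (hx : coheight x ≠ 1) : coef D x = 0 := by
  unfold coef
  rw [dif_neg hx]

lemma coef_mk {D : Div T} {x : T} (hx : coheight x = 1) : coef D x = D ⟨x, hx⟩ := by
  unfold coef
  rw [dif_pos hx]

@[simp] lemma coef_val (D : Div T) (x : {x : T // coheight x = 1}) : coef D x.1 = D x :=
  coef_mk x.2

@[simp] lemma coef_zero (x : T) : coef (0 : Div T) x = 0 := by
  unfold coef
  split_ifs <;> rfl

@[simp] lemma coef_add (D D' : Div T) (x : T) : coef (D + D') x = coef D x + coef D' x := by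
  unfold coef
  split_ifs
  · rfl
  · simp

@[simp] lemma coef_neg (D : Div T) (x : T) : coef (-D) x = -coef D x := by
  unfold coef
  split_ifs
  · rfl
  · simp

@[simp] lemma coef_sub (D D' : Div T) (x : T) : coef (D - D') x = coef D x - coef D' x := by
  rw [sub_eq_add_neg, coef_add, coef_neg, sub_eq_add_neg]

@[simp] lemma coef_nsmul (n : ℕ) (D : Div T) (x : T) : coef (n • D) x = n * coef D x := by
  induction n with
  | zero => simp
  | succ n ih =>
    rw [succ_nsmul, coef_add, ih]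
    push_cast
    ring

@[simp] lemma coef_zsmul (n : ℤ) (D : Div T) (x : T) : coef (n • D) x = n * coef D x := by
  cases n with
  | ofNat n =>
    rw [Int.ofNat_eq_natCast, natCast_zsmul, coef_nsmul]
  | negSucc n =>
    rw [negSucc_zsmul, coef_neg, coef_nsmul, Int.negSucc_eq]
    push_cast
    ring

lemma div_ext {D D' : Div T} (h : ∀ x : T, coheight x = 1 → coef D x = coef D' x) : D = D' := by
  ext ⟨x, hx⟩
  have := h x hx
  rwa [coef_mk hx, coef_mk hx] at this

lemma finite_coef (D : Div T) : {x : T | coef D x ≠ 0}.Finite := by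
  have h := D.hasFiniteSupport.image (Subtype.val : {x : T // coheight x = 1} → T)
  refine h.subset ?_
  intro x hx
  by_cases hc : coheight x = 1
  · refine ⟨⟨x, hc⟩, ?_, rfl⟩
    rw [Function.mem_support]
    rwa [Set.mem_ofPred_eq, coef_mk hc] at hx
  · exact absurd (coef_of_ne hc) hx

/-- The divisor with given finitely supported coefficients. -/
noncomputable def mkDiv (c : T → ℤ) (h : {x : T | coheight x = 1 ∧ c x ≠ 0}.Finite) : Div T :=
  Finsupp.ofSupportFinite (fun x : {x : T // coheight x = 1} => c x.1)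
    ((h.preimage Subtype.val_injective.injOn).subset fun x hx => ⟨x.2, hx⟩)

lemma coef_mkDiv (c : T → ℤ) (h : {x : T | coheight x = 1 ∧ c x ≠ 0}.Finite) {x : T}
    (hx : coheight x = 1) : coef (mkDiv c h) x = c x := by
  rw [coef_mk hx]
  rfl

end orders

section gen

variable {T : Scheme.{0}} [IsIntegral T] [IsLocallyNoetherian T]

lemma GenAt.ne_zero {D : Div T} {s : T.functionField} {x : T} (h : GenAt D s x) : s ≠ 0 := h.1

lemma GenAt.ord {D : Div T} {s : T.functionField} {x : T} (h : GenAt D s x)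
    (hx : coheight x = 1) : Scheme.ord s x = -coef D x := by
  have := h.2 x hx (specializes_refl x)
  linarith

lemma GenAt.of_specializes {D : Div T} {s : T.functionField} {x y : T} (h : GenAt D s x)
    (hyx : y ⤳ x) : GenAt D s y :=
  ⟨h.1, fun z hz hzy => h.2 z hz (hzy.trans hyx)⟩

lemma GenAt.mul {D D' : Div T} {s s' : T.functionField} {x : T} (h : GenAt D s x)
    (h' : GenAt D' s' x) : GenAt (D + D') (s * s') x := by
  refine ⟨mul_ne_zero h.1 h'.1, fun y hy hyx => ?_⟩
  have h1 := h.2 y hy hyx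
  have h2 := h'.2 y hy hyx
  rw [Scheme.ord_mul h.1 h'.1, coef_add]
  linarith

lemma GenAt.inv {D : Div T} {s : T.functionField} {x : T} (h : GenAt D s x) :
    GenAt (-D) s⁻¹ x := by
  refine ⟨inv_ne_zero h.1, fun y hy hyx => ?_⟩
  have h1 := h.2 y hy hyx
  rw [ord_inv h.1 y, coef_neg]
  linarith

lemma genAt_zero_one (x : T) : GenAt (0 : Div T) 1 x :=
  ⟨one_ne_zero, fun y _ _ => by rw [ord_one, coef_zero, add_zero]⟩

lemma GenAt.pow {D : Div T} {s : T.functionField} {x : T} (h : GenAt D s x) (n : ℕ) :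
    GenAt (n • D) (s ^ n) x := by
  induction n with
  | zero => simpa using genAt_zero_one x
  | succ n ih =>
    rw [succ_nsmul, pow_succ]
    exact ih.mul h

/-- Two generators differ by a unit. -/
lemma GenAt.exists_unit {D : Div T} {s s' : T.functionField} {x : T} [RegOne T]
    [UniqueFactorizationMonoid (T.presheaf.stalk x)] (h : GenAt D s x)
    (h' : GenAt D s' x) : ∃ a : T.presheaf.stalk x, IsUnit a ∧ s = toK x a * s' := by
  obtain ⟨a, ha, hau⟩ := exists_unit_of_forall_ord_eq_zero RegOne.dvr x (s / s')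
    (div_ne_zero h.1 h'.1) (fun y hy hyx => by
      rw [ord_div h.1 h'.1 y]
      have h1 := h.2 y hy hyx
      have h2 := h'.2 y hy hyx
      linarith)
  refine ⟨a, ha, ?_⟩
  rw [hau, div_mul_cancel₀ _ h'.1]

/-- Local generators exist. -/
lemma exists_genAt (D : Div T) (x : T) [RegOne T]
    [UniqueFactorizationMonoid (T.presheaf.stalk x)] : ∃ s, GenAt D s x := by
  obtain ⟨g, hg0, hg⟩ := exists_local_equation RegOne.dvr x (fun y => -coef D y)
    ((finite_coef D).subset fun y hy => by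
      have := hy.2.2
      simpa using this)
  refine ⟨g, hg0, fun y hy hyx => ?_⟩
  rw [hg y hy hyx]
  ring

end gen

section pull

/-- The pull backs of two local generators have the same order. -/
lemma ord_pull_eq (φ : DomHom X Y) {D : Div Y.X} {g g' : Y.K} {x : X.X}
    [UniqueFactorizationMonoid (Y.X.presheaf.stalk (φ.f x))]
    (h : GenAt D g (φ.f x)) (h' : GenAt D g' (φ.f x)) :
    Scheme.ord (φ.pull g) x = Scheme.ord (φ.pull g') x := by
  obtain ⟨a, ha, hau⟩ := h.exists_unit h'
  have h1 : φ.pull (toK (φ.f x) a) ≠ 0 := by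
    rw [φ.pull_toK]
    exact toK_ne_zero (ha.map _).ne_zero
  have h2 : φ.pull g' ≠ 0 := (map_ne_zero φ.pull).2 h'.1
  rw [hau, map_mul, Scheme.ord_mul h1 h2, φ.pull_toK, ord_toK_of_isUnit (ha.map _), zero_add]

/-- Generators pull back to functions with the expected order everywhere. -/
lemma IsPullback.ord_pull (hAB : AuslanderBuchsbaum) {φ : DomHom X Y} {B : Div Y.X}
    {D : Div X.X} (h : IsPullback φ B D) {x : X.X} (hx : coheight x = 1) {g : Y.K}
    (hg : GenAt B g (φ.f x)) : Scheme.ord (φ.pull g) x = -coef D x := by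
  have := hAB Y (φ.f x)
  obtain ⟨g', hg', hD⟩ := h x hx
  have h1 : GenAt (-B) g⁻¹ (φ.f x) := hg.inv
  have h2 := ord_pull_eq φ h1 hg'
  rw [hD, ← h2, map_inv₀, ord_inv ((map_ne_zero φ.pull).2 hg.1)]
  ring

/-- Generators pull back to generators. -/
lemma IsPullback.genAt (hAB : AuslanderBuchsbaum) {φ : DomHom X Y} {B : Div Y.X}
    {D : Div X.X} (h : IsPullback φ B D) {x : X.X} {g : Y.K}
    (hg : GenAt B g (φ.f x)) : GenAt D (φ.pull g) x := by
  refine ⟨(map_ne_zero φ.pull).2 hg.1, fun y hy hyx => ?_⟩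
  rw [h.ord_pull hAB hy (hg.of_specializes (hyx.map φ.f.continuous))]
  ring

lemma IsPullback.unique (hAB : AuslanderBuchsbaum) {φ : DomHom X Y} {B : Div Y.X}
    {D D' : Div X.X} (h : IsPullback φ B D) (h' : IsPullback φ B D') : D = D' := by
  refine div_ext fun x hx => ?_
  have := hAB Y (φ.f x)
  obtain ⟨g, hg, h1⟩ := h x hx
  obtain ⟨g', hg', h2⟩ := h' x hx
  rw [h1, h2, ord_pull_eq φ hg hg']

lemma IsPullback.add {φ : DomHom X Y} {B B' : Div Y.X}
    {D D' : Div X.X} (h : IsPullback φ B D) (h' : IsPullback φ B' D') :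
    IsPullback φ (B + B') (D + D') := by
  intro x hx
  obtain ⟨g, hg, h1⟩ := h x hx
  obtain ⟨g', hg', h2⟩ := h' x hx
  refine ⟨g * g', ?_, ?_⟩
  · rw [neg_add]
    exact hg.mul hg'
  · rw [coef_add, h1, h2, map_mul, Scheme.ord_mul ((map_ne_zero φ.pull).2 hg.1)
      ((map_ne_zero φ.pull).2 hg'.1)]

lemma IsPullback.neg {φ : DomHom X Y} {B : Div Y.X} {D : Div X.X} (h : IsPullback φ B D) :
    IsPullback φ (-B) (-D) := by
  intro x hx
  obtain ⟨g, hg, h1⟩ := h x hx
  refine ⟨g⁻¹, hg.inv, ?_⟩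
  rw [coef_neg, h1, map_inv₀, ord_inv ((map_ne_zero φ.pull).2 hg.1)]

lemma isPullback_zero (φ : DomHom X Y) : IsPullback φ 0 0 := by
  intro x hx
  refine ⟨1, ?_, ?_⟩
  · rw [neg_zero]
    exact genAt_zero_one _
  · rw [coef_zero, map_one, ord_one]

lemma IsPullback.sub {φ : DomHom X Y} {B B' : Div Y.X}
    {D D' : Div X.X} (h : IsPullback φ B D) (h' : IsPullback φ B' D') :
    IsPullback φ (B - B') (D - D') := by
  rw [sub_eq_add_neg, sub_eq_add_neg]
  exact h.add h'.neg

lemma IsPullback.nsmul {φ : DomHom X Y} {B : Div Y.X} {D : Div X.X} (h : IsPullback φ B D)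
    (n : ℕ) : IsPullback φ (n • B) (n • D) := by
  induction n with
  | zero => simpa using isPullback_zero φ
  | succ n ih =>
    rw [succ_nsmul, succ_nsmul]
    exact ih.add h

/-- The pull back of an effective divisor is effective. -/
lemma IsPullback.nonneg (hAB : AuslanderBuchsbaum) {φ : DomHom X Y} {B : Div Y.X}
    {D : Div X.X} (h : IsPullback φ B D) (hB : ∀ y : Y.X, coheight y = 1 → 0 ≤ coef B y)
    (x : X.X) (hx : coheight x = 1) : 0 ≤ coef D x := by
  have := hAB Y (φ.f x)
  obtain ⟨g, hg, h1⟩ := h x hx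
  obtain ⟨a, ha⟩ := exists_of_forall_ord_nonneg Y.dvr (φ.f x) g
    (fun y hy hyx => by
    have h2 := hg.2 y hy hyx
    have h3 := hB y hy
    rw [coef_neg] at h2
    linarith)
  rw [h1, ← ha, φ.pull_toK]
  exact ord_toK_nonneg _

/-- The pull back of the divisor of a rational function. -/
lemma IsPullback.isDivOf (hAB : AuslanderBuchsbaum) {φ : DomHom X Y} {B : Div Y.X}
    {D : Div X.X} (h : IsPullback φ B D) {g : Y.K} (hg : IsDivOf g B) :
    IsDivOf (φ.pull g) D := by
  refine ⟨(map_ne_zero φ.pull).2 hg.1, fun x hx => ?_⟩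
  have h1 : GenAt (-B) g (φ.f x) := ⟨hg.1, fun y hy _ => by
    rw [hg.2 y hy, coef_neg, add_neg_cancel]⟩
  have := h.neg.ord_pull hAB hx h1
  rw [this, coef_neg, neg_neg]

/-- Near every point a divisor has a local equation. -/
lemma exists_genAt_nhds {T : Scheme.{0}} [IsIntegral T] [IsNoetherian T] (D : Div T) (x : T)
    {s : T.functionField} (hs : GenAt D s x) :
    ∃ U : T.Opens, x ∈ U ∧ ∀ y ∈ U, GenAt D s y := by
  have hf1 : {y : T | coheight y = 1 ∧ Scheme.ord s y + coef D y ≠ 0}.Finite := by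
    refine ((finite_ord_ne_zero s hs.1).union (finite_coef D)).subset ?_
    rintro y ⟨-, hy⟩
    by_contra hcon
    simp only [Set.mem_union, Set.mem_ofPred_eq, not_or, not_not] at hcon
    exact hy (by rw [hcon.1, hcon.2, add_zero])
  let F : Set T := ⋃ y ∈ hf1.toFinset, closure {y}
  have hF : IsClosed F := isClosed_biUnion_finset fun _ _ => isClosed_closure
  refine ⟨⟨Fᶜ, hF.isOpen_compl⟩, ?_, ?_⟩
  · intro hxF
    obtain ⟨y, hy, hxy⟩ := Set.mem_iUnion₂.1 hxF
    rw [Set.Finite.mem_toFinset] at hy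
    exact hy.2 (hs.2 y hy.1 (specializes_iff_mem_closure.2 hxy))
  · intro y hy
    refine ⟨hs.1, fun z hz hzy => ?_⟩
    by_contra hcon
    apply hy
    refine Set.mem_iUnion₂.2 ⟨z, ?_, specializes_iff_mem_closure.1 hzy⟩
    rw [Set.Finite.mem_toFinset]
    exact ⟨hz, hcon⟩

instance (X : Var) : IsNoetherian X.X := by
  have : CompactSpace X.X := by
    have h1 : QuasiCompact (X.X ↘ SpecC) := inferInstance
    have h2 := h1.isCompact_preimage (U := ⊤) isOpen_univ isCompact_univ
    exact ⟨h2⟩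
  exact { }

/-- **Existence of the pull back.** -/
theorem exists_isPullback (hAB : AuslanderBuchsbaum) (φ : DomHom X Y) (B : Div Y.X) :
    ∃ D : Div X.X, IsPullback φ B D := by
  classical
  have key : ∀ y : Y.X, ∃ g : Y.K, ∃ U : Y.X.Opens, y ∈ U ∧ ∀ z ∈ U, GenAt (-B) g z := by
    intro y
    have := hAB Y y
    obtain ⟨g, hg⟩ := exists_genAt (-B) y
    obtain ⟨U, hyU, hU⟩ := exists_genAt_nhds (-B) y hg
    exact ⟨g, U, hyU, hU⟩
  choose g U hyU hU using key
  obtain ⟨t, ht⟩ := isCompact_univ.elim_finite_subcover (fun y : Y.X => (U y : Set Y.X))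
    (fun y => (U y).isOpen) (fun y _ => Set.mem_iUnion.2 ⟨y, hyU y⟩)
  have hcov : ∀ y : Y.X, ∃ z ∈ t, y ∈ U z := by
    intro y
    obtain ⟨z, hz, hyz⟩ := Set.mem_iUnion₂.1 (ht (Set.mem_univ y))
    exact ⟨z, hz, hyz⟩
  choose c hct hc using hcov
  have hfin : {x : X.X | coheight x = 1 ∧
      Scheme.ord (φ.pull (g (c (φ.f x)))) x ≠ 0}.Finite := by
    refine (Set.Finite.biUnion t.finite_toSet (t := fun z => {x : X.X |
      Scheme.ord (φ.pull (g z)) x ≠ 0}) fun z _ =>
        finite_ord_ne_zero _ ((map_ne_zero φ.pull).2 ?_)).subset ?_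
    · exact (hU z z (hyU z)).1
    · rintro x ⟨-, hx⟩
      exact Set.mem_iUnion₂.2 ⟨c (φ.f x), hct _, hx⟩
  refine ⟨mkDiv (fun x => Scheme.ord (φ.pull (g (c (φ.f x)))) x) hfin, fun x hx => ?_⟩
  exact ⟨g (c (φ.f x)), hU _ _ (hc _), coef_mkDiv _ hfin hx⟩

/-- Functoriality of the pull back. -/
lemma IsPullback.comp (hAB : AuslanderBuchsbaum) {φ : DomHom X Y} {ψ : DomHom Y Z}
    {C : Div Z.X} {B : Div Y.X} {D : Div X.X} (h : IsPullback ψ C B) (h' : IsPullback φ B D) :
    IsPullback (φ.comp ψ) C D := by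
  intro x hx
  have := hAB Z (ψ.f (φ.f x))
  obtain ⟨g, hg⟩ := exists_genAt (-C) (ψ.f (φ.f x))
  refine ⟨g, hg, ?_⟩
  have h1 : GenAt (-B) (ψ.pull g) (φ.f x) := h.neg.genAt hAB hg
  have h2 := h'.neg.ord_pull hAB hx h1
  rw [DomHom.pull_comp, h2, coef_neg, neg_neg]

/-- Sections pull back to sections. -/
lemma IsPullback.pull_mem_H0 (hAB : AuslanderBuchsbaum) {φ : DomHom X Y} {B : Div Y.X}
    {D : Div X.X} (h : IsPullback φ B D) {s : Y.K} (hs : s ∈ H0 (coef B)) :
    φ.pull s ∈ H0 (coef D) := by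
  rw [mem_H0] at hs ⊢
  intro x hx hs0
  have := hAB Y (φ.f x)
  have hs0' : s ≠ 0 := by
    rintro rfl
    exact hs0 (map_zero _)
  obtain ⟨g, hg⟩ := exists_genAt B (φ.f x)
  obtain ⟨a, ha⟩ := exists_of_forall_ord_nonneg Y.dvr (φ.f x) (s / g)
    (fun y hy hyx => by
      rw [ord_div hs0' hg.1 y]
      have h2 := hg.2 y hy hyx
      have h3 := hs y hy hs0'
      linarith)
  have h4 := h.ord_pull hAB hx hg
  have h5 : s = toK (φ.f x) a * g := by rw [ha, div_mul_cancel₀ _ hg.1]
  have h6 : φ.pull (toK (φ.f x) a) ≠ 0 := by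
    rw [Ne, map_eq_zero]
    rintro h0
    rw [h0, zero_mul] at h5
    exact hs0' h5
  rw [h5, map_mul, Scheme.ord_mul h6 ((map_ne_zero φ.pull).2 hg.1), h4, φ.pull_toK]
  have := ord_toK_nonneg (y := x) (φ.stalk x a)
  linarith

/-- The pull back of divisors, as a homomorphism. -/
noncomputable def DomHom.pb (φ : DomHom X Y) (hAB : AuslanderBuchsbaum) :
    Div Y.X →+ Div X.X where
  toFun B := (exists_isPullback hAB φ B).choose
  map_zero' := ((exists_isPullback hAB φ 0).choose_spec).unique hAB (isPullback_zero φ)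
  map_add' B B' := ((exists_isPullback hAB φ (B + B')).choose_spec).unique hAB
    (((exists_isPullback hAB φ B).choose_spec).add ((exists_isPullback hAB φ B').choose_spec))

lemma DomHom.isPullback_pb (φ : DomHom X Y) (hAB : AuslanderBuchsbaum) (B : Div Y.X) :
    IsPullback φ B (φ.pb hAB B) := (exists_isPullback hAB φ B).choose_spec

lemma IsPullback.eq_pb (hAB : AuslanderBuchsbaum) {φ : DomHom X Y} {B : Div Y.X} {D : Div X.X}
    (h : IsPullback φ B D) : D = φ.pb hAB B := h.unique hAB (φ.isPullback_pb hAB B)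

lemma DomHom.pb_comp (hAB : AuslanderBuchsbaum) (φ : DomHom X Y) (ψ : DomHom Y Z)
    (C : Div Z.X) : (φ.comp ψ).pb hAB C = φ.pb hAB (ψ.pb hAB C) :=
  (((ψ.isPullback_pb hAB C).comp hAB (φ.isPullback_pb hAB _)).eq_pb hAB).symm

/-- The order of a rational function at a prime of `X` lying over the prime `φ x` of `Y`, and the
coefficient of the pull back. -/
lemma IsPullback.coef_eq_mult (hAB : AuslanderBuchsbaum) {φ : DomHom X Y} {B : Div Y.X}
    {D : Div X.X} (h : IsPullback φ B D) {x : X.X} (hx : coheight x = 1)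
    (hy : coheight (φ.f x) = 1) {m : ℤ}
    (hm : ∀ g : Y.K, g ≠ 0 → Scheme.ord (φ.pull g) x = m * Scheme.ord g (φ.f x)) :
    coef D x = m * coef B (φ.f x) := by
  have := hAB Y (φ.f x)
  obtain ⟨g, hg, h1⟩ := h x hx
  have h2 := hg.2 _ hy (specializes_refl _)
  rw [h1, hm g hg.1]
  rw [coef_neg] at h2
  have h3 : Scheme.ord g (φ.f x) = coef B (φ.f x) := by linarith
  rw [h3]

/-- The pull back has coefficient zero at the primes which dominate `Y`. -/
lemma IsPullback.coef_eq_zero {φ : DomHom X Y} {B : Div Y.X}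
    {D : Div X.X} (h : IsPullback φ B D) {x : X.X} (hx : coheight x = 1)
    (hy : φ.f x = genericPoint Y.X) : coef D x = 0 := by
  obtain ⟨g, hg, h1⟩ := h x hx
  rw [h1, φ.ord_pull_of_generic x hy hg.1]

end pull

end Vale.Agent.P299.Q
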