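import Mathlib.AlgebraicGeometry.Morphisms.Affine
import Mathlib.AlgebraicGeometry.Morphisms.Separated
import Vale.Agent.P299.Q.Pull

/-!
# Calculus of ample divisors
-/

open CategoryTheory TopologicalSpace Opposite TopCat AlgebraicGeometry Order

namespace Vale.Agent.P299.Q

section Sections

variable {X : Scheme.{0}} [IsIntegral X] [IsLocallyNoetherian X]

theorem genAt_pow_iff {D : Div X} {s : X.functionField} {m : ℕ} (hm : 0 < m) {y : X} :
    GenAt (m • D) (s ^ m) y ↔ GenAt D s y := by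
  constructor
  · rintro ⟨h1, h2⟩
    have hs : s ≠ 0 := fun h => h1 (by rw [h, zero_pow hm.ne'])
    refine ⟨hs, fun z hz hzy => ?_⟩
    have h3 := h2 z hz hzy
    rw [ord_pow hs, coef_nsmul, ← mul_add] at h3
    rcases mul_eq_zero.1 h3 with h | h
    · exfalso; exact hm.ne' (by exact_mod_cast h)
    · exact h
  · intro h
    exact h.pow m

variable [X.Over SpecC] [RegOne X]

theorem H0_mul {D D' : Div X} {s t : X.functionField} (hs : s ∈ H0 (coef D))
    (ht : t ∈ H0 (coef D')) : s * t ∈ H0 (coef (D + D')) := by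
  rw [mem_H0] at *
  intro x hx hst
  have hs0 := left_ne_zero_of_mul hst
  have ht0 := right_ne_zero_of_mul hst
  have h1 := hs x hx hs0
  have h2 := ht x hx ht0
  rw [Scheme.ord_mul hs0 ht0, coef_add]
  omega

theorem H0_pow {D : Div X} {s : X.functionField} (hs : s ∈ H0 (coef D)) (m : ℕ) :
    s ^ m ∈ H0 (coef (m • D)) := by
  rw [mem_H0] at *
  intro x hx hst
  by_cases hs0 : s = 0
  · subst hs0
    rcases Nat.eq_zero_or_pos m with h | h
    · subst h
      rw [pow_zero, ord_one, coef_nsmul]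
      simp
    · rw [zero_pow h.ne'] at hst
      exact absurd rfl hst
  · have h1 := hs x hx hs0
    rw [ord_pow hs0, coef_nsmul, ← mul_add]
    positivity

theorem genAt_mul_iff {D D' : Div X} {s t : X.functionField} (hs : s ∈ H0 (coef D))
    (ht : t ∈ H0 (coef D')) {y : X} :
    GenAt (D + D') (s * t) y ↔ GenAt D s y ∧ GenAt D' t y := by
  constructor
  · rintro ⟨h1, h2⟩
    have hs0 := left_ne_zero_of_mul h1
    have ht0 := right_ne_zero_of_mul h1
    rw [mem_H0] at hs ht
    refine ⟨⟨hs0, fun z hz hzy => ?_⟩, ⟨ht0, fun z hz hzy => ?_⟩⟩ <;>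
    · have h3 := h2 z hz hzy
      have h4 := hs z hz hs0
      have h5 := ht z hz ht0
      rw [Scheme.ord_mul hs0 ht0, coef_add] at h3
      omega
  · rintro ⟨h1, h2⟩
    exact h1.mul h2

theorem H0_ne_bot_iff {D : Div X} : H0 (coef D) ≠ ⊥ ↔ ∃ s ∈ H0 (coef D), s ≠ 0 := by
  rw [Ne, Submodule.eq_bot_iff]
  push Not
  rfl

theorem H0_add_ne_bot {D D' : Div X} (h : H0 (coef D) ≠ ⊥) (h' : H0 (coef D') ≠ ⊥) :
    H0 (coef (D + D')) ≠ ⊥ := by
  rw [H0_ne_bot_iff] at *
  obtain ⟨s, hs, hs0⟩ := h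
  obtain ⟨t, ht, ht0⟩ := h'
  exact ⟨s * t, H0_mul hs ht, mul_ne_zero hs0 ht0⟩

theorem H0_nsmul_ne_bot {D : Div X} (h : H0 (coef D) ≠ ⊥) (m : ℕ) :
    H0 (coef (m • D)) ≠ ⊥ := by
  rw [H0_ne_bot_iff] at *
  obtain ⟨s, hs, hs0⟩ := h
  exact ⟨s ^ m, H0_pow hs m, pow_ne_zero _ hs0⟩

/-- An effective divisor has a section. -/
theorem H0_ne_bot_of_nonneg {D : Div X} (h : 0 ≤ D) : H0 (coef D) ≠ ⊥ := by
  rw [H0_ne_bot_iff]
  refine ⟨1, ?_, one_ne_zero⟩
  rw [mem_H0]
  intro x hx _
  rw [ord_one, zero_add, coef_mk hx]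
  exact h _

/-- If a section `s` of `O_X(D)` does not generate at `y`, there is a prime divisor through `y` on
which it vanishes. -/
theorem exists_of_not_genAt {D : Div X} {s : X.functionField} (hs : s ∈ H0 (coef D)) (hs0 : s ≠ 0)
    {y : X} (h : ¬ GenAt D s y) :
    ∃ z : X, coheight z = 1 ∧ z ⤳ y ∧ 1 ≤ Scheme.ord s z + coef D z := by
  unfold GenAt at h
  push Not at h
  obtain ⟨z, hz, hzy, hne⟩ := h hs0
  refine ⟨z, hz, hzy, ?_⟩
  have := (mem_H0.1 hs) z hz hs0
  omega

/-- The key construction: if `U = X_s` for a section `s` of `O_X(A)`, if `g` has no poles as a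
section of `O_X(D)` on `U` and generates `O_X(D)` exactly at the points of `V` in `U`, then for
large `k` the function `g s^k` is a section of `O_X(D + kA)` which generates exactly on `V`. -/
theorem mul_pow_section {A D : Div X} {s g : X.functionField} {U V : Set X} (hVU : V ⊆ U)
    (hs : s ∈ H0 (coef A)) (hs0 : s ≠ 0) (hU : ∀ y, y ∈ U ↔ GenAt A s y) (hg0 : g ≠ 0)
    (hgU : ∀ z ∈ U, coheight z = 1 → 0 ≤ Scheme.ord g z + coef D z)
    (hV : ∀ y ∈ U, y ∈ V ↔ GenAt D g y) {k : ℕ}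
    (hk : ∀ z, -(Scheme.ord g z + coef D z) < k) :
    g * s ^ k ∈ H0 (coef (D + k • A)) ∧ ∀ y, y ∈ V ↔ GenAt (D + k • A) (g * s ^ k) y := by
  have key : ∀ z : X, coheight z = 1 → z ∉ U →
      1 ≤ Scheme.ord (g * s ^ k) z + coef (D + k • A) z := by
    intro z hz hzU
    have h1 : ¬ GenAt A s z := fun h => hzU ((hU z).2 h)
    obtain ⟨w, hw, hwz, h2⟩ := exists_of_not_genAt hs hs0 h1
    have hwz' : w = z := by
      have h3 : z ≤ w := hwz
      by_cases h4 : w ≤ z
      · have h5 : z ⤳ w := h4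
        exact (h5.antisymm hwz).eq.symm
      · exfalso
        have h5 := coheight_add_one_le (lt_of_le_not_ge h3 h4)
        rw [hz, hw] at h5
        exact absurd h5 (by decide)
    rw [hwz'] at h2
    rw [Scheme.ord_mul hg0 (pow_ne_zero _ hs0), ord_pow hs0, coef_add, coef_nsmul]
    have h3 := hk z
    have h4 : (k : ℤ) * 1 ≤ k * (Scheme.ord s z + coef A z) :=
      mul_le_mul_of_nonneg_left h2 (by positivity)
    nlinarith
  have key2 : ∀ z : X, coheight z = 1 → z ∈ U →
      Scheme.ord (g * s ^ k) z + coef (D + k • A) z = Scheme.ord g z + coef D z := by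
    intro z hz hzU
    have h1 := ((hU z).1 hzU).2 z hz (specializes_refl z)
    rw [Scheme.ord_mul hg0 (pow_ne_zero _ hs0), ord_pow hs0, coef_add, coef_nsmul]
    have h2 : (k : ℤ) * (Scheme.ord s z + coef A z) = 0 := by rw [h1, mul_zero]
    linarith
  have hgen : ∀ {y z : X}, y ∈ U → z ⤳ y → z ∈ U := fun {y z} hy hz =>
    (hU z).2 (((hU y).1 hy).of_specializes hz)
  refine ⟨?_, fun y => ?_⟩
  · rw [mem_H0]
    intro z hz _
    by_cases hzU : z ∈ U
    · rw [key2 z hz hzU]
      exact hgU z hzU hz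
    · have := key z hz hzU
      omega
  · constructor
    · intro hy
      have hyU := hVU hy
      have h1 := (hV y hyU).1 hy
      refine ⟨mul_ne_zero hg0 (pow_ne_zero _ hs0), fun z hz hzy => ?_⟩
      rw [key2 z hz (hgen hyU hzy)]
      exact h1.2 z hz hzy
    · rintro ⟨_, h⟩
      have hyU : y ∈ U := by
        by_contra hyU
        have h1 : ¬ GenAt A s y := fun h => hyU ((hU y).2 h)
        obtain ⟨z, hz, hzy, h2⟩ := exists_of_not_genAt hs hs0 h1
        have hzU : z ∉ U := fun hzU => by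
          have := ((hU z).1 hzU).2 z hz (specializes_refl z)
          omega
        have h3 := key z hz hzU
        rw [h z hz hzy] at h3
        omega
      refine (hV y hyU).2 ⟨hg0, fun z hz hzy => ?_⟩
      rw [← key2 z hz (hgen hyU hzy)]
      exact h z hz hzy

end Sections

/-- A function with finite support is bounded below by `-k`, strictly. -/
theorem exists_bound {X : Type*} {g : X → ℤ} (hg : {z | g z ≠ 0}.Finite) :
    ∃ k : ℕ, 0 < k ∧ ∀ z, -g z < k := by
  obtain ⟨b, hb⟩ := (hg.image fun z => (g z).natAbs).bddAbove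
  refine ⟨b + 1, Nat.succ_pos _, fun z => ?_⟩
  by_cases hz : g z = 0
  · rw [hz]; push_cast; omega
  · have := hb (Set.mem_image_of_mem (fun z => (g z).natAbs) hz)
    have h2 : (g z).natAbs ≤ b := this
    push_cast
    omega

section Ample

variable {X : Var}

theorem affineOpen_inf {U V : X.X.Opens} (hU : IsAffineOpen U) (hV : IsAffineOpen V) :
    IsAffineOpen (U ⊓ V) := by
  have h1 : IsSeparated (X.X ↘ SpecC) := inferInstance
  have h2 : X.X.IsSeparated := by
    rw [Scheme.isSeparated_iff, ← Limits.terminal.comp_from (X.X ↘ SpecC)]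
    infer_instance
  exact hU.inf hV

/-- Sums of ample divisors are ample. -/
theorem IsAmple.add {A B : Div X.X} (hA : IsAmple A) (hB : IsAmple B) : IsAmple (A + B) := by
  intro x
  obtain ⟨m, hm, s, hs, U, hUa, hxU, hU⟩ := hA x
  obtain ⟨k, hk, t, ht, V, hVa, hxV, hV⟩ := hB x
  refine ⟨k * m, by positivity, s ^ k * t ^ m, ?_, U ⊓ V, affineOpen_inf hUa hVa, ⟨hxU, hxV⟩,
    fun y => ?_⟩
  · have h := H0_mul (H0_pow hs k) (H0_pow ht m)
    rw [← mul_smul, ← mul_smul, mul_comm m k, ← smul_add] at h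
    exact h
  · have h1 : (k * m) • (A + B) = k • (m • A) + m • (k • B) := by
      rw [← mul_smul, ← mul_smul, mul_comm m k, ← smul_add]
    rw [h1, genAt_mul_iff (H0_pow hs k) (H0_pow ht m), genAt_pow_iff hk, genAt_pow_iff hm, ← hU y,
      ← hV y]
    exact Iff.rfl

theorem IsAmple.nsmul {A : Div X.X} (hA : IsAmple A) {m : ℕ} (hm : 0 < m) : IsAmple (m • A) := by
  intro x
  obtain ⟨k, hk, s, hs, U, hUa, hxU, hU⟩ := hA x
  refine ⟨k, hk, s ^ m, ?_, U, hUa, hxU, fun y => ?_⟩
  · have h := H0_pow hs m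
    rwa [← mul_smul, mul_comm m k, mul_smul] at h
  · have h1 : k • m • A = m • k • A := by rw [← mul_smul, ← mul_smul, mul_comm]
    rw [h1, genAt_pow_iff hm, ← hU y]

theorem IsAmple.of_nsmul {A : Div X.X} {m : ℕ} (hm : 0 < m) (hA : IsAmple (m • A)) :
    IsAmple A := by
  intro x
  obtain ⟨k, hk, s, hs, U, hUa, hxU, hU⟩ := hA x
  refine ⟨k * m, by positivity, s, ?_, U, hUa, hxU, fun y => ?_⟩
  · rwa [mul_smul]
  · rw [mul_smul, ← hU y]

theorem IsAmple.isNef {A : Div X.X} (hA : IsAmple A) : IsNef A := by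
  intro B hB m
  rcases Nat.eq_zero_or_pos m with h | h
  · subst h; simpa using hB
  · exact (hA.nsmul h).add hB

theorem IsNef.add {D D' : Div X.X} (h : IsNef D) (h' : IsNef D') : IsNef (D + D') := by
  intro A hA m
  have h1 := h (m • D' + A) (h' A hA m) m
  rwa [← add_assoc, ← smul_add] at h1

theorem IsNef.nsmul {D : Div X.X} (h : IsNef D) (k : ℕ) : IsNef (k • D) := by
  intro A hA m
  have h1 := h A hA (m * k)
  rwa [mul_smul] at h1

theorem isNef_zero : IsNef (0 : Div X.X) := by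
  intro A hA m
  simpa using hA

theorem IsAmple.add_nef {A D : Div X.X} (hA : IsAmple A) (hD : IsNef D) : IsAmple (D + A) := by
  simpa using hD A hA 1

/-- An ample divisor has a multiple with a nonzero section. -/
theorem IsAmple.exists_section {A : Div X.X} (hA : IsAmple A) :
    ∃ m : ℕ, 0 < m ∧ H0 (coef (m • A)) ≠ ⊥ := by
  obtain ⟨m, hm, s, hs, U, hUa, hxU, hU⟩ := hA (genericPoint X.X)
  exact ⟨m, hm, H0_ne_bot_iff.2 ⟨s, hs, ((hU _).1 hxU).1⟩⟩

theorem IsGenerated.add {D D' : Div X.X} (h : IsGenerated D) (h' : IsGenerated D') :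
    IsGenerated (D + D') := by
  intro x
  obtain ⟨s, hs, hsx⟩ := h x
  obtain ⟨t, ht, htx⟩ := h' x
  exact ⟨s * t, H0_mul hs ht, hsx.mul htx⟩

theorem isGenerated_zero : IsGenerated (0 : Div X.X) := fun x =>
  ⟨1, by
    rw [mem_H0]
    intro z _ _
    rw [ord_one, coef_zero, add_zero], genAt_zero_one x⟩

theorem IsGenerated.nsmul {D : Div X.X} (h : IsGenerated D) (m : ℕ) : IsGenerated (m • D) := by
  induction m with
  | zero => rw [zero_smul]; exact isGenerated_zero
  | succ m ih => rw [succ_nsmul]; exact ih.add h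

theorem IsGenerated.exists_section {D : Div X.X} (h : IsGenerated D) : H0 (coef D) ≠ ⊥ := by
  obtain ⟨s, hs, hsx⟩ := h (genericPoint X.X)
  exact H0_ne_bot_iff.2 ⟨s, hs, hsx.1⟩

variable (hUFD : ∀ x : X.X, UniqueFactorizationMonoid (X.X.presheaf.stalk x))

include hUFD

/-- Inside every open set there are affine neighbourhoods of the form `X_s`. -/
theorem IsAmple.exists_small {A : Div X.X} (hA : IsAmple A) (x : X.X) (W : X.X.Opens)
    (hxW : x ∈ W) : ∃ m : ℕ, 0 < m ∧ ∃ s ∈ H0 (coef (m • A)), ∃ U : X.X.Opens,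
      IsAffineOpen U ∧ x ∈ U ∧ U ≤ W ∧ ∀ y : X.X, y ∈ U ↔ GenAt (m • A) s y := by
  obtain ⟨m, hm, s, hs, U, hUa, hxU, hU⟩ := hA x
  have hs0 : s ≠ 0 := ((hU x).1 hxU).1
  obtain ⟨f, hfW, hxf⟩ := hUa.exists_basicOpen_le (V := W) ⟨x, hxW⟩ hxU
  have hne : Nonempty U := ⟨⟨x, hxU⟩⟩
  have hgU : genericPoint X.X ∈ U :=
    ((genericPoint_spec X.X).mem_open_set_iff U.isOpen).2 ⟨x, trivial, hxU⟩
  set g : X.X.functionField := X.X.germToFunctionField U f with hg
  have hgerm : ∀ (y : X.X) (hy : y ∈ U), G.toK y (X.X.presheaf.germ U y hy f) = g := by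
    intro y hy
    rw [hg]
    have := TopCat.Presheaf.germ_stalkSpecializes_apply X.X.presheaf hy
      ((genericPoint_spec X.X).specializes (Set.mem_univ y)) f
    exact this
  have hxu : IsUnit (X.X.presheaf.germ U x hxU f) := (X.X.mem_basicOpen f x hxU).1 hxf
  have hg0 : g ≠ 0 := by
    rw [← hgerm x hxU]
    exact G.toK_ne_zero hxu.ne_zero
  have hfin : {z : X.X | Scheme.ord g z + coef (0 : Div X.X) z ≠ 0}.Finite := by
    refine (G.finite_ord_ne_zero g hg0).subset fun z hz => ?_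
    simpa using hz
  obtain ⟨k, hk, hkb⟩ := exists_bound hfin
  have hbU : X.X.basicOpen f ≤ U := X.X.basicOpen_le f
  obtain ⟨h1, h2⟩ := mul_pow_section (A := m • A) (D := (0 : Div X.X)) (s := s) (g := g)
    (U := (U : Set X.X)) (V := (X.X.basicOpen f : Set X.X)) (k := k) hbU hs hs0 hU hg0
    (fun z hz hz1 => by
      rw [coef_zero, add_zero, ← hgerm z hz]
      exact G.ord_toK_nonneg _)
    (fun y hy => by
      rw [SetLike.mem_coe, X.X.mem_basicOpen f y hy]
      constructor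
      · intro hu
        refine ⟨hg0, fun z hz hzy => ?_⟩
        have hzU : z ∈ U := (hU z).2 (((hU y).1 hy).of_specializes hzy)
        rw [coef_zero, add_zero, ← hgerm y hy, ← G.toK_toStalk hzy]
        exact G.ord_toK_of_isUnit (hu.map (G.toStalk hzy))
      · rintro ⟨_, h⟩
        have := hUFD y
        obtain ⟨a, ha, hag⟩ := G.exists_unit_of_forall_ord_eq_zero X.dvr y g hg0
          (fun z hz hzy => by simpa using h z hz hzy)
        rw [← hgerm y hy] at hag
        have : a = X.X.presheaf.germ U y hy f := G.toK_injective y hag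
        rwa [← this]) hkb
  rw [zero_add] at h1 h2
  refine ⟨k * m, by positivity, g * s ^ k, ?_, X.X.basicOpen f, hUa.basicOpen f, hxf, hfW,
    fun y => ?_⟩
  · rwa [mul_smul]
  · rw [mul_smul]
    exact h2 y

/-- For `A` ample and every divisor `D`, some `D + CA` is ample and generated by its sections. -/
theorem IsAmple.exists_add {A : Div X.X} (hA : IsAmple A) (D : Div X.X) :
    ∃ C : ℕ, 0 < C ∧ IsAmple (D + C • A) ∧ IsGenerated (D + C • A) := by
  have key : ∀ x : X.X, ∃ (m k : ℕ) (U : X.X.Opens), 0 < m ∧ IsAffineOpen U ∧ x ∈ U ∧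
      ∀ j : ℕ, k ≤ j → ∃ t ∈ H0 (coef (D + j • (m • A))),
        ∀ y, y ∈ U ↔ GenAt (D + j • (m • A)) t y := by
    intro x
    have := hUFD x
    obtain ⟨g, hgx⟩ := exists_genAt D x
    obtain ⟨W, hxW, hW⟩ := exists_genAt_nhds D x hgx
    obtain ⟨m, hm, s, hs, U, hUa, hxU, hUW, hU⟩ := hA.exists_small hUFD x W hxW
    have hs0 : s ≠ 0 := ((hU x).1 hxU).1
    have hg0 : g ≠ 0 := hgx.1
    have hfin : {z : X.X | Scheme.ord g z + coef D z ≠ 0}.Finite := by
      refine ((G.finite_ord_ne_zero g hg0).union (finite_coef D)).subset fun z hz => ?_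
      by_contra hc
      simp only [Set.mem_union, Set.mem_ofPred_eq, not_or, not_not] at hc
      rw [Set.mem_ofPred_eq, hc.1, hc.2] at hz
      exact hz (by norm_num)
    obtain ⟨k, hk, hkb⟩ := exists_bound hfin
    refine ⟨m, k, U, hm, hUa, hxU, fun j hj => ?_⟩
    obtain ⟨h1, h2⟩ := mul_pow_section (A := m • A) (D := D) (s := s) (g := g)
      (U := (U : Set X.X)) (V := (U : Set X.X)) (k := j) (le_refl _) hs hs0 hU hg0
      (fun z hz hz1 => ((hW z (hUW hz)).2 z hz1 (specializes_refl z)).ge)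
      (fun y hy => ⟨fun _ => hW y (hUW hy), fun _ => hy⟩)
      (fun z => (hkb z).trans_le (by exact_mod_cast hj))
    exact ⟨g * s ^ j, h1, h2⟩
  choose m k U hm hUa hxU ht using key
  obtain ⟨F, hF⟩ := (isCompact_univ (X := X.X)).elim_finite_subcover
    (fun x => (U x : Set X.X)) (fun x => (U x).isOpen)
    (fun x _ => Set.mem_iUnion.2 ⟨x, hxU x⟩)
  set M : ℕ := ∏ x ∈ F, m x with hM
  have hMpos : 0 < M := Finset.prod_pos fun x _ => hm x
  set K : ℕ := 1 + ∑ x ∈ F, k x with hK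
  have hsec : ∀ y : X.X, ∃ t ∈ H0 (coef (D + (M * K) • A)), ∃ V : X.X.Opens, IsAffineOpen V ∧
      y ∈ V ∧ ∀ z, z ∈ V ↔ GenAt (D + (M * K) • A) t z := by
    intro y
    obtain ⟨x, hxF, hyx⟩ := Set.mem_iUnion₂.1 (hF (Set.mem_univ y))
    obtain ⟨q, hq⟩ : m x ∣ M := Finset.dvd_prod_of_mem _ hxF
    have hqpos : 0 < q := Nat.pos_of_ne_zero fun h => by
      rw [h, mul_zero] at hq
      omega
    have hkx : k x ≤ q * K := by
      have h1 : k x ≤ ∑ x ∈ F, k x := Finset.single_le_sum (fun _ _ => Nat.zero_le _) hxF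
      calc k x ≤ K := by omega
        _ ≤ q * K := Nat.le_mul_of_pos_left _ hqpos
    obtain ⟨t, ht1, ht2⟩ := ht x (q * K) hkx
    have he : (q * K) • (m x • A) = (M * K) • A := by
      rw [← mul_smul, hq]
      congr 1
      ring
    rw [he] at ht1 ht2
    exact ⟨t, ht1, U x, hUa x, hyx, ht2⟩
  refine ⟨M * K, by positivity, fun y => ?_, fun y => ?_⟩
  · obtain ⟨t, ht1, V, hV, hyV, ht2⟩ := hsec y
    exact ⟨1, one_pos, t, by rwa [one_smul], V, hV, hyV, by simpa [one_smul] using ht2⟩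
  · obtain ⟨t, ht1, V, hV, hyV, ht2⟩ := hsec y
    exact ⟨t, ht1, (ht2 y).1 hyV⟩

/-- For `A` ample and every divisor `D`, the divisors `mA + D` are ample and generated by their
sections for all large `m`. -/
theorem IsAmple.forall_add {A : Div X.X} (hA : IsAmple A) (D : Div X.X) :
    ∃ m₀ : ℕ, ∀ m ≥ m₀, IsAmple (m • A + D) ∧ IsGenerated (m • A + D) := by
  obtain ⟨M, hM, hMA, hMG⟩ := hA.exists_add hUFD 0
  rw [zero_add] at hMA hMG
  have h1 : ∀ r : ℕ, ∃ C : ℕ, IsAmple ((D + r • A) + C • (M • A)) ∧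
      IsGenerated ((D + r • A) + C • (M • A)) := by
    intro r
    obtain ⟨C, _, h1, h2⟩ := hMA.exists_add hUFD (D + r • A)
    exact ⟨C, h1, h2⟩
  choose C hC1 hC2 using h1
  refine ⟨∑ r ∈ Finset.range M, (r + M * C r), fun m hm => ?_⟩
  have hr : m % M < M := Nat.mod_lt _ hM
  have hle : m % M + M * C (m % M) ≤ m := by
    refine le_trans ?_ hm
    exact Finset.single_le_sum (f := fun r => r + M * C r) (fun _ _ => Nat.zero_le _)
      (Finset.mem_range.2 hr)
  have hdiv : C (m % M) ≤ m / M := by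
    rw [Nat.le_div_iff_mul_le hM]
    have h3 := Nat.div_add_mod m M
    have h4 : M * C (m % M) ≤ M * (m / M) := by omega
    rw [mul_comm]
    omega
  obtain ⟨q, hq⟩ := Nat.exists_eq_add_of_le hdiv
  have he : m • A + D = q • (M • A) + ((D + (m % M) • A) + C (m % M) • (M • A)) := by
    have h5 : m = (m % M) + M * (C (m % M) + q) := by
      rw [← hq]; exact (Nat.mod_add_div m M).symm
    have h6 : m • A = (m % M) • A + (C (m % M) • (M • A) + q • (M • A)) := by
      rw [← add_smul, ← mul_smul, ← add_smul]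
      congr 1
      rw [mul_comm (C (m % M) + q) M]
      exact h5
    rw [h6]
    abel
  rw [he]
  refine ⟨?_, (hMG.nsmul q).add (hC2 _)⟩
  have h7 := (hMA.isNef.nsmul q)
  exact (hC1 _).add_nef h7

end Ample

end Vale.Agent.P299.Q
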