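import Vale.Agent.P299.Q.BB
import Vale.Agent.P299.Q.Ample

/-!
# Positivity of pull backs

The pull back of a nef divisor is nef; the pull back of an ample divisor under a birational
morphism is big (Kodaira's lemma).
-/

open CategoryTheory TopologicalSpace Opposite TopCat AlgebraicGeometry Order

namespace Vale.Agent.P299.Q

variable {X Y : Var}

/-- The sum of a base point free and an ample divisor is ample. -/
theorem IsAmple.add_generated (hUFD : ∀ x : X.X, UniqueFactorizationMonoid (X.X.presheaf.stalk x))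
    {A D : Div X.X} (hA : IsAmple A) (hD : IsGenerated D) : IsAmple (D + A) := by
  intro x
  obtain ⟨t, ht, htx⟩ := hD x
  obtain ⟨W, hxW, hW⟩ := exists_genAt_nhds D x htx
  obtain ⟨m, hm, s, hs, U, hUa, hxU, hUW, hU⟩ := hA.exists_small hUFD x W hxW
  refine ⟨m, hm, t ^ m * s, ?_, U, hUa, hxU, fun y => ?_⟩
  · have h := H0_mul (H0_pow ht m) hs
    rwa [← smul_add] at h
  · rw [smul_add, genAt_mul_iff (H0_pow ht m) hs, genAt_pow_iff hm, hU y]
    exact ⟨fun h => ⟨hW y (hUW ((hU y).2 h)), h⟩, fun h => h.2⟩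

/-- The pull back of a base point free divisor is base point free. -/
theorem IsPullback.isGenerated (hAB : AuslanderBuchsbaum) {φ : DomHom X Y} {B : Div Y.X}
    {D : Div X.X} (h : IsPullback φ B D) (hB : IsGenerated B) : IsGenerated D := by
  intro x
  obtain ⟨s, hs, hsx⟩ := hB (φ.f x)
  exact ⟨φ.pull s, h.pull_mem_H0 hAB hs, h.genAt hAB hsx⟩

/-- The pull back of a nef divisor is nef. -/
theorem nefPullback (hAB : FactorialStalks) : NefPullback := by
  intro X Y φ D D' h hD A' hA' m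
  obtain ⟨B, hB⟩ := Y.ample
  obtain ⟨B', hB'⟩ := exists_isPullback hAB φ B
  obtain ⟨C, hC, hCA, -⟩ := hA'.exists_add (hAB X) (-B')
  -- `C (m D' + A') = (C m D' + B') + (C A' - B')`
  apply IsAmple.of_nsmul hC
  have h1 : IsAmple ((C * m) • D + B) := hD B hB (C * m)
  obtain ⟨m₀, hm₀⟩ := h1.forall_add (hAB Y) 0
  have h2 := (hm₀ (m₀ + 1) (Nat.le_succ _)).2
  rw [add_zero] at h2
  have h3 : IsPullback φ ((m₀ + 1) • ((C * m) • D + B)) ((m₀ + 1) • ((C * m) • D' + B')) :=
    ((h.nsmul _).add hB').nsmul _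
  have h4 := h3.isGenerated hAB h2
  have h5 : IsAmple ((m₀ + 1) • ((C * m) • D' + B') + (m₀ + 1) • (-B' + C • A')) :=
    (hCA.nsmul (Nat.succ_pos _)).add_generated (hAB X) h4
  rw [← smul_add] at h5
  have h6 := IsAmple.of_nsmul (Nat.succ_pos _) h5
  have h7 : C • (m • D' + A') = (C * m) • D' + B' + (-B' + C • A') := by
    rw [smul_add, mul_smul]
    abel
  rw [h7]
  exact h6

/-- For `A` ample and a point `y` of `Y` which is not the generic point, some multiple of `A` has a
nonzero section whose pull back vanishes along every prime divisor over `y`. -/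
theorem IsAmple.exists_vanishing (hAB : AuslanderBuchsbaum) {A : Div Y.X} (hA : IsAmple A)
    {A' : Div X.X} {φ : DomHom X Y} (hA' : IsPullback φ A A') {x : X.X} (hx : coheight x = 1)
    (hy : φ.f x ≠ genericPoint Y.X) :
    ∃ k : ℕ, ∃ t ∈ H0 (coef (k • A)), t ≠ 0 ∧ 1 ≤ Scheme.ord (φ.pull t) x + k * coef A' x := by
  set y := φ.f x with hyx
  obtain ⟨m, hm, s, hs, U, hUa, hyU, hU⟩ := hA y
  have hs0 : s ≠ 0 := ((hU y).1 hyU).1
  have hηU : genericPoint Y.X ∈ U :=
    ((genericPoint_spec Y.X).mem_open_set_iff U.isOpen).2 ⟨y, trivial, hyU⟩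
  let W : Y.X.Opens := ⟨(closure {y})ᶜ, isClosed_closure.isOpen_compl⟩
  have hηW : genericPoint Y.X ∈ W := by
    intro h
    have h1 : y ⤳ genericPoint Y.X := by
      rw [specializes_iff_mem_closure]
      exact h
    exact hy (h1.antisymm (genericPoint_specializes y)).eq
  obtain ⟨f, hfW, hηf⟩ := hUa.exists_basicOpen_le (V := W) ⟨genericPoint Y.X, hηW⟩ hηU
  have hyf : y ∉ Y.X.basicOpen f := fun h => hfW h (subset_closure rfl)
  have hne : Nonempty U := ⟨⟨y, hyU⟩⟩
  set g : Y.X.functionField := Y.X.germToFunctionField U f with hg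
  have hgerm : ∀ (z : Y.X) (hz : z ∈ U), G.toK z (Y.X.presheaf.germ U z hz f) = g := by
    intro z hz
    rw [hg]
    exact TopCat.Presheaf.germ_stalkSpecializes_apply Y.X.presheaf hz
      ((genericPoint_spec Y.X).specializes (Set.mem_univ z)) f
  have hηu : IsUnit (Y.X.presheaf.germ U _ hηU f) := (Y.X.mem_basicOpen f _ hηU).1 hηf
  have hyu : ¬ IsUnit (Y.X.presheaf.germ U y hyU f) := fun h =>
    hyf ((Y.X.mem_basicOpen f y hyU).2 h)
  have hg0 : g ≠ 0 := by
    rw [← hgerm _ hηU]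
    exact G.toK_ne_zero hηu.ne_zero
  have ha0 : Y.X.presheaf.germ U y hyU f ≠ 0 := by
    intro h0
    apply hg0
    rw [← hgerm y hyU, h0, map_zero]
  have hfin : {z : Y.X | Scheme.ord g z + coef (0 : Div Y.X) z ≠ 0}.Finite := by
    refine (G.finite_ord_ne_zero g hg0).subset fun z hz => ?_
    simpa using hz
  obtain ⟨k, hk, hkb⟩ := exists_bound hfin
  obtain ⟨h1, -⟩ := mul_pow_section (A := m • A) (D := (0 : Div Y.X)) (s := s) (g := g)
    (U := (U : Set Y.X)) (V := {z | z ∈ U ∧ GenAt (0 : Div Y.X) g z}) (k := k)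
    (fun z hz => hz.1) hs hs0 hU hg0
    (fun z hz hz1 => by
      rw [coef_zero, add_zero, ← hgerm z hz]
      exact G.ord_toK_nonneg _)
    (fun z hz => ⟨fun h => h.2, fun h => ⟨hz, h⟩⟩) hkb
  rw [zero_add, ← mul_smul] at h1
  refine ⟨k * m, g * s ^ k, h1, mul_ne_zero hg0 (pow_ne_zero _ hs0), ?_⟩
  have h2 : GenAt (m • A') (φ.pull s) x := (hA'.nsmul m).genAt hAB ((hU y).1 hyU)
  have h3 := h2.ord hx
  rw [coef_nsmul] at h3
  have h4 : 1 ≤ Scheme.ord (φ.pull g) x := by
    have h5 : φ.pull g = G.toK x (φ.stalk x (Y.X.presheaf.germ U y hyU f)) := by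
      rw [← φ.pull_toK, ← hgerm y hyU]
    have h6 : φ.stalk x (Y.X.presheaf.germ U y hyU f) ≠ 0 := by
      intro h0
      apply ha0
      apply φ.stalkMap_injective x
      rw [map_zero]
      exact h0
    have h7 : ¬ IsUnit (φ.stalk x (Y.X.presheaf.germ U y hyU f)) := fun h =>
      hyu (isUnit_of_map_unit (φ.f.stalkMap x).hom _ h)
    have h8 : 0 ≤ Scheme.ord (G.toK x (φ.stalk x (Y.X.presheaf.germ U y hyU f))) x :=
      G.ord_toK_nonneg _
    have h9 : Scheme.ord (G.toK x (φ.stalk x (Y.X.presheaf.germ U y hyU f))) x ≠ 0 := fun h =>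
      h7 (G.isUnit_of_ord_eq_zero X.dvr hx h6 h)
    rw [h5]
    omega
  have hps0 : φ.pull s ≠ 0 := φ.pull_ne_zero hs0
  rw [map_mul, map_pow, Scheme.ord_mul (φ.pull_ne_zero hg0) (pow_ne_zero _ hps0), ord_pow hps0, h3]
  push_cast
  have h10 : (k : ℤ) * -(m * coef A' x) = -(k * m * coef A' x) := by ring
  rw [h10]
  linarith

/-- Kodaira's lemma. -/
theorem kodairaLemma (hAB : FactorialStalks) : KodairaLemma := by
  classical
  intro X Y μ hμ H H' h hH A
  have key : ∀ x : X.X, coheight x = 1 → ∃ k : ℕ, ∃ t ∈ H0 (coef (k • H')), t ≠ 0 ∧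
      1 ≤ Scheme.ord t x + k * coef H' x := by
    intro x hx
    have hgen : μ.f x ≠ genericPoint Y.X := by
      intro hgen
      obtain ⟨u, hu0, hu⟩ := G.exists_uniformizer X.dvr hx
      obtain ⟨v, hv⟩ := hμ.2 (G.toK x u)
      have hv0 : v ≠ 0 := by
        rintro rfl
        rw [map_zero] at hv
        exact G.toK_ne_zero hu0 hv.symm
      have := μ.ord_pull_of_generic x hgen hv0
      rw [hv, hu] at this
      exact one_ne_zero this
    obtain ⟨k, t, ht, ht0, h1⟩ := hH.exists_vanishing hAB h hx hgen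
    exact ⟨k, μ.pull t, (h.nsmul k).pull_mem_H0 hAB ht, μ.pull_ne_zero ht0, h1⟩
  have key2 : ∀ (N : ℕ) (S : Finset {x : X.X // coheight x = 1}), ∃ k : ℕ,
      ∃ t ∈ H0 (coef (k • H')), t ≠ 0 ∧ ∀ x ∈ S, (N : ℤ) ≤ Scheme.ord t x.1 + k * coef H' x.1 := by
    intro N S
    induction S using Finset.induction_on with
    | empty =>
      refine ⟨0, 1, ?_, one_ne_zero, by simp⟩
      rw [mem_H0]
      intro x _ _
      rw [ord_one, zero_smul, coef_zero, add_zero]
    | insert x S hxS ih =>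
      obtain ⟨k, t, ht, ht0, hS⟩ := ih
      obtain ⟨l, u, hu, hu0, hul⟩ := key x.1 x.2
      have h1 : t * u ^ N ∈ H0 (coef ((k + N * l) • H')) := by
        have := H0_mul ht (H0_pow hu N)
        rwa [← mul_smul, ← add_smul] at this
      have hord : ∀ z : X.X, Scheme.ord (t * u ^ N) z + ((k + N * l : ℕ) : ℤ) * coef H' z =
          (Scheme.ord t z + k * coef H' z) + N * (Scheme.ord u z + l * coef H' z) := by
        intro z
        rw [Scheme.ord_mul ht0 (pow_ne_zero _ hu0), ord_pow hu0]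
        push_cast
        ring
      have hunn : ∀ z : X.X, coheight z = 1 → 0 ≤ Scheme.ord u z + l * coef H' z := by
        intro z hz
        have := (mem_H0.1 hu) z hz hu0
        rwa [coef_nsmul] at this
      have htnn : ∀ z : X.X, coheight z = 1 → 0 ≤ Scheme.ord t z + k * coef H' z := by
        intro z hz
        have := (mem_H0.1 ht) z hz ht0
        rwa [coef_nsmul] at this
      refine ⟨k + N * l, t * u ^ N, h1, mul_ne_zero ht0 (pow_ne_zero _ hu0), fun z hz => ?_⟩
      rw [hord z.1]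
      rcases Finset.mem_insert.1 hz with rfl | hz
      · have h2 := htnn z.1 z.2
        have h3 : (N : ℤ) * 1 ≤ N * (Scheme.ord u z.1 + l * coef H' z.1) :=
          mul_le_mul_of_nonneg_left hul (by positivity)
        linarith
      · have h2 := hS z hz
        have h3 : 0 ≤ (N : ℤ) * (Scheme.ord u z.1 + l * coef H' z.1) :=
          mul_nonneg (by positivity) (hunn z.1 z.2)
        linarith
  obtain ⟨k, t, ht, ht0, hS⟩ := key2 (∑ x ∈ A.support, (A x).natAbs) A.support
  obtain ⟨m, hm, hmH⟩ := hH.exists_section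
  obtain ⟨u, hu, hu0⟩ := H0_ne_bot_iff.1 hmH
  have hu' := (h.nsmul m).pull_mem_H0 hAB hu
  have hu0' := μ.pull_ne_zero hu0
  refine ⟨k + m, by omega, H0_ne_bot_iff.2 ⟨t * μ.pull u, ?_, mul_ne_zero ht0 hu0'⟩⟩
  rw [mem_H0]
  intro x hx _
  have h1 := (mem_H0.1 ht) x hx ht0
  have h2 := (mem_H0.1 hu') x hx hu0'
  rw [coef_nsmul] at h1 h2
  rw [Scheme.ord_mul ht0 hu0', coef_sub, coef_nsmul, coef_mk (D := A) hx]
  push_cast
  by_cases hxA : (⟨x, hx⟩ : {x : X.X // coheight x = 1}) ∈ A.support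
  · have h3 := hS _ hxA
    have h4 : (A ⟨x, hx⟩).natAbs ≤ ∑ x ∈ A.support, (A x).natAbs :=
      Finset.single_le_sum (f := fun x => (A x).natAbs) (fun _ _ => Nat.zero_le _) hxA
    have h5 : A ⟨x, hx⟩ ≤ ((A ⟨x, hx⟩).natAbs : ℤ) := Int.le_natAbs
    have h6 : ((A ⟨x, hx⟩).natAbs : ℤ) ≤ ((∑ x ∈ A.support, (A x).natAbs : ℕ) : ℤ) := by
      exact_mod_cast h4
    change _ ≤ Scheme.ord t x + k * coef H' x at h3
    nlinarith
  · have h3 : A ⟨x, hx⟩ = 0 := Finsupp.notMem_support_iff.1 hxA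
    rw [h3]
    nlinarith

/-- The basic facts on ample divisors. -/
theorem ampleFacts (hAB : FactorialStalks) : AmpleFacts := fun X _ hA =>
  ⟨fun D => hA.forall_add (hAB X) D, fun _ hB => hA.add hB⟩

end Vale.Agent.P299.Q
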