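import Mathlib.AlgebraicGeometry.AlgClosed.Basic
import Mathlib.Analysis.Calculus.ContDiff.Operations
import Mathlib.Analysis.Complex.Polynomial.Basic
import Vale.Agent.P299.Q.Tensor

/-!
# Semipositive metrics: values at closed points, sums and pull backs
-/

open CategoryTheory TopologicalSpace Opposite TopCat AlgebraicGeometry Order

namespace Vale.Agent.P299.Q

open Vale.Agent.P299.G

section Value

variable {X Y : Var}

/-- The evaluation of the constants at a point: `ℂ → κ(x)`. -/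
noncomputable def resConst (X : Var) (x : X.X) : ℂ →+* X.X.residueField x :=
  (X.X.residue x).hom.comp ((X.X.presheaf.germ ⊤ x (Opens.mem_top x)).hom.comp (constants X.X))

theorem toK_germ_const (x : X.X) (c : ℂ) :
    toK x ((X.X.presheaf.germ ⊤ x (Opens.mem_top x)).hom (constants X.X c)) =
      algebraMap ℂ X.K c := by
  rw [algebraMap_eq]
  exact Scheme.algebraMap_germ_eq_germToFunctionField X.X (U := ⊤) (x := x) (Opens.mem_top x) _

theorem fromSpecStalk_appTop' (x : X.X) :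
    (X.X.fromSpecStalk x).appTop ≫ (Scheme.ΓSpecIso (X.X.presheaf.stalk x)).hom =
      X.X.presheaf.germ ⊤ x (Opens.mem_top x) := by
  rw [Scheme.fromSpecStalk_appTop]
  simp

theorem fromSpecResidueField_appTop (x : X.X) :
    (X.X.fromSpecResidueField x).appTop ≫ (Scheme.ΓSpecIso (X.X.residueField x)).hom =
      X.X.presheaf.germ ⊤ x (Opens.mem_top x) ≫ X.X.residue x := by
  have h : X.X.fromSpecResidueField x = Spec.map (X.X.residue x) ≫ X.X.fromSpecStalk x := rfl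
  rw [h, Scheme.Hom.comp_appTop, Category.assoc, Scheme.ΓSpecIso_naturality, ← Category.assoc,
    fromSpecStalk_appTop']

theorem resConst_surjective (x : X.X) (hx : IsClosed {x}) :
    Function.Surjective (resConst X x) := by
  have h1 : Spec.map (CommRingCat.ofHom (resConst X x)) =
      X.X.fromSpecResidueField x ≫ (X.X ↘ SpecC) := by
    apply ext_of_isAffine
    rw [← cancel_mono (Scheme.ΓSpecIso (X.X.residueField x)).hom, Scheme.Hom.comp_appTop,
      Category.assoc, fromSpecResidueField_appTop]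
    refine (Scheme.ΓSpecIso_naturality (CommRingCat.ofHom (resConst X x))).trans ?_
    have e1 : CommRingCat.ofHom (resConst X x) =
        (Scheme.ΓSpecIso (CommRingCat.of ℂ)).inv ≫ (X.X ↘ SpecC).appTop ≫
          X.X.presheaf.germ ⊤ x (Opens.mem_top x) ≫ X.X.residue x := rfl
    rw [e1, Iso.hom_inv_id_assoc]
  have h2 := SpecMap_residueFieldIsoBase_inv (X.X ↘ SpecC) x hx
  rw [← h1] at h2
  have h3 := Spec.map_injective h2
  have h4 : Function.Surjective (residueFieldIsoBase (X.X ↘ SpecC) x hx).inv.hom :=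
    (residueFieldIsoBase (X.X ↘ SpecC) x hx).symm.commRingCatIsoToRingEquiv.surjective
  rw [h3] at h4
  exact h4

theorem residue_eq_zero_iff {x : X.X} (a : X.X.presheaf.stalk x) :
    (X.X.residue x).hom a = 0 ↔ a ∈ IsLocalRing.maximalIdeal (X.X.presheaf.stalk x) :=
  IsLocalRing.residue_eq_zero_iff a

/-- Regular functions have values at closed points. -/
theorem exists_hasValue (x : X.X) (hx : IsClosed {x}) (a : X.X.presheaf.stalk x) :
    ∃ c : ℂ, HasValue (toK x a) x c := by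
  obtain ⟨c, hc⟩ := resConst_surjective x hx ((X.X.residue x).hom a)
  refine ⟨c, a - (X.X.presheaf.germ ⊤ x (Opens.mem_top x)).hom (constants X.X c), ?_, ?_⟩
  · rw [← residue_eq_zero_iff, map_sub, sub_eq_zero]
    exact hc.symm
  · rw [map_sub]
    congr 1
    exact toK_germ_const x c

theorem HasValue.unique {f : X.K} {x : X.X} {c c' : ℂ} (h : HasValue f x c)
    (h' : HasValue f x c') : c = c' := by
  obtain ⟨a, ha, hac⟩ := h
  obtain ⟨b, hb, hbc⟩ := h'
  by_contra hne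
  have h1 : a - b = (X.X.presheaf.germ ⊤ x (Opens.mem_top x)).hom (constants X.X (c' - c)) := by
    apply toK_injective x
    rw [toK_germ_const, map_sub]
    change algebraMap _ X.K a - algebraMap _ X.K b = _
    rw [hac, hbc, map_sub]
    ring
  have h2 : IsUnit (a - b) := by
    rw [h1]
    exact ((isUnit_iff_ne_zero.2 (sub_ne_zero.2 (Ne.symm hne))).map (constants X.X)).map _
  exact (IsLocalRing.mem_maximalIdeal _).1 (Ideal.sub_mem _ ha hb) h2

theorem hasValue_const (x : X.X) (c : ℂ) : HasValue (algebraMap ℂ X.K c) x c :=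
  ⟨0, Ideal.zero_mem _, by rw [map_zero, sub_self]⟩

theorem HasValue.add {f g : X.K} {x : X.X} {c d : ℂ} (h : HasValue f x c)
    (h' : HasValue g x d) : HasValue (f + g) x (c + d) := by
  obtain ⟨a, ha, hac⟩ := h
  obtain ⟨b, hb, hbc⟩ := h'
  refine ⟨a + b, Ideal.add_mem _ ha hb, ?_⟩
  rw [map_add, hac, hbc, map_add]
  ring

theorem HasValue.mul {f g : X.K} {x : X.X} {c d : ℂ} (h : HasValue f x c)
    (h' : HasValue g x d) : HasValue (f * g) x (c * d) := by
  obtain ⟨a, ha, hac⟩ := h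
  obtain ⟨b, hb, hbc⟩ := h'
  set C := (X.X.presheaf.germ ⊤ x (Opens.mem_top x)).hom (constants X.X c) with hC
  set D := (X.X.presheaf.germ ⊤ x (Opens.mem_top x)).hom (constants X.X d) with hD
  have hC' : algebraMap (X.X.presheaf.stalk x) X.K C = algebraMap ℂ X.K c := toK_germ_const x c
  have hD' : algebraMap (X.X.presheaf.stalk x) X.K D = algebraMap ℂ X.K d := toK_germ_const x d
  refine ⟨a * b + a * D + b * C, Ideal.add_mem _ (Ideal.add_mem _ (Ideal.mul_mem_right _ _ ha)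
    (Ideal.mul_mem_right _ _ ha)) (Ideal.mul_mem_right _ _ hb), ?_⟩
  rw [map_add, map_add, map_mul, map_mul, map_mul, hac, hbc, hC', hD', map_mul]
  ring

/-- The value of a unit is nonzero. -/
theorem HasValue.ne_zero {x : X.X} {a : X.X.presheaf.stalk x} (ha : IsUnit a) {c : ℂ}
    (h : HasValue (toK x a) x c) : c ≠ 0 := by
  rintro rfl
  obtain ⟨b, hb, hbc⟩ := h
  rw [map_zero, sub_zero] at hbc
  have : b = a := toK_injective x hbc
  subst this
  exact (IsLocalRing.mem_maximalIdeal _).1 hb ha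

/-- Values pull back. -/
theorem HasValue.pull (φ : DomHom X Y) {f : Y.K} {x : X.X} {c : ℂ}
    (h : HasValue f (φ.f x) c) : HasValue (φ.pull f) x c := by
  obtain ⟨a, ha, hac⟩ := h
  refine ⟨(φ.f.stalkMap x).hom a, ?_, ?_⟩
  · rw [IsLocalRing.mem_maximalIdeal] at ha ⊢
    exact fun hu => ha (isUnit_of_map_unit (φ.f.stalkMap x).hom a hu)
  · have h1 := φ.pull_stalk x a
    rw [hac, map_sub, φ.pull_constant] at h1
    exact h1.symm

theorem isClosed_map (φ : DomHom X Y) [IsProper φ.f] {x : X.X} (hx : IsClosed {x}) :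
    IsClosed {φ.f x} := by
  have h := φ.f.isClosedMap _ hx
  rwa [Set.image_singleton] at h

/-- The value of a function (`0` if it is not defined). -/
noncomputable def valueAt (f : X.K) (x : X.X) : ℂ :=
  open Classical in if h : ∃ c, HasValue f x c then h.choose else 0

theorem HasValue.valueAt {f : X.K} {x : X.X} {c : ℂ} (h : HasValue f x c) : valueAt f x = c := by
  have h' : ∃ c, HasValue f x c := ⟨c, h⟩
  unfold Q.valueAt
  rw [dif_pos h']
  exact h'.choose_spec.unique h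

/-- The quotient of two generators has a nonzero value. -/
theorem exists_ratio (hAB : AuslanderBuchsbaum) {D : Div X.X} {f f' : X.K} {x : X.X}
    (hx : IsClosed {x}) (hf : GenAt D f x) (hf' : GenAt D f' x) :
    ∃ c : ℂ, c ≠ 0 ∧ HasValue (f' / f) x c := by
  have := hAB X x
  obtain ⟨a, ha, hau⟩ := hf'.exists_unit hf
  have h1 : f' / f = toK x a := by
    rw [hau, mul_div_assoc, div_self hf.1, mul_one]
  obtain ⟨c, hc⟩ := exists_hasValue x hx a
  exact ⟨c, HasValue.ne_zero ha hc, by rw [h1]; exact hc⟩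

end Value

section Levi

variable {E F : Type*} [NormedAddCommGroup E] [NormedSpace ℂ E] [NormedAddCommGroup F]
  [NormedSpace ℂ F]

/-- The Levi form of a function on a complex vector space. -/
noncomputable def leviE (Φ : E → ℝ) (z v : E) : ℝ :=
  iteratedFDeriv ℝ 2 Φ z ![v, v] + iteratedFDeriv ℝ 2 Φ z ![Complex.I • v, Complex.I • v]

theorem two_le_infty : (2 : WithTop ℕ∞) ≤ ((⊤ : ℕ∞) : WithTop ℕ∞) :=
  show ((2 : ℕ∞) : WithTop ℕ∞) ≤ ((⊤ : ℕ∞) : WithTop ℕ∞) from WithTop.coe_le_coe.2 le_top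

theorem leviE_comp (L : E →L[ℂ] F) {Φ : F → ℝ} {W : Set F} (hW : IsOpen W)
    (hΦ : ContDiffOn ℝ ((⊤ : ℕ∞) : WithTop ℕ∞) Φ W) {z : E} (hz : L z ∈ W) (v : E) :
    leviE (Φ ∘ L) z v = leviE Φ (L z) (L v) := by
  have hW' : IsOpen (L ⁻¹' W) := hW.preimage L.continuous
  have hz' : z ∈ L ⁻¹' W := hz
  have h1 := (L.restrictScalars ℝ).iteratedFDerivWithin_comp_right (i := 2) hΦ hW.uniqueDiffOn
    hW'.uniqueDiffOn hz two_le_infty
  have h2 : iteratedFDeriv ℝ 2 (Φ ∘ L) z = (iteratedFDeriv ℝ 2 Φ (L z)).compContinuousLinearMap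
      fun _ => L.restrictScalars ℝ := by
    rw [← iteratedFDerivWithin_of_isOpen 2 hW' hz', ← iteratedFDerivWithin_of_isOpen 2 hW hz]
    exact h1
  unfold leviE
  rw [h2]
  simp only [ContinuousMultilinearMap.compContinuousLinearMap_apply]
  congr 2
  · funext i
    fin_cases i <;> rfl
  · funext i
    fin_cases i <;> simp

theorem leviE_add {Φ Ψ : E → ℝ} {z : E} (hΦ : ContDiffAt ℝ 2 Φ z) (hΨ : ContDiffAt ℝ 2 Ψ z)
    (v : E) : leviE (Φ + Ψ) z v = leviE Φ z v + leviE Ψ z v := by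
  unfold leviE
  rw [iteratedFDeriv_add_apply (i := 2) hΦ hΨ]
  simp only [add_apply]
  ring

end Levi

section Local

variable {X Y : Var}

/-- Tangent vectors for coordinates indexed by any type. -/
def IsTangentE {ι : Type} (g : ι → X.K) (x : X.X) (v : ι → ℂ) : Prop :=
  ∃ δ : X.K → ℂ, (∀ c, δ (algebraMap ℂ X.K c) = 0) ∧
    (∀ a b : X.K, ∀ α β : ℂ, HasValue a x α → HasValue b x β →
      δ (a + b) = δ a + δ b ∧ δ (a * b) = α * δ b + β * δ a) ∧
    ∀ i, v i = δ (g i)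

/-- The second part of the definition of `SemiPos`, at the point `x`, with coordinates indexed by a
finite type. -/
def LocalWeight (ι : Type) [Fintype ι] (D : Div X.X) (w : X.K → X.X → ℝ) (x : X.X) : Prop :=
  ∃ (U : X.X.Opens) (f : X.K) (g : ι → Γ(X.X, U)) (_ : Nonempty U) (Φ : (ι → ℂ) → ℝ)
    (W : Set (ι → ℂ)),
    IsAffineOpen U ∧ x ∈ U ∧ (∀ y ∈ U, GenAt D f y) ∧
    (∀ S : Subring Γ(X.X, U), (∀ c : ℂ, cst U c ∈ S) → (∀ i, g i ∈ S) → S = ⊤) ∧
    IsOpen W ∧ ContDiffOn ℝ ((⊤ : ℕ∞) : WithTop ℕ∞) Φ W ∧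
    (∃ z ∈ W, ∀ i, HasValue (X.X.germToFunctionField U (g i)) x (z i)) ∧
    ∀ y ∈ U, IsClosed {y} → ∀ z ∈ W,
      (∀ i, HasValue (X.X.germToFunctionField U (g i)) y (z i)) →
      w f y = Φ z ∧
      ∀ v, IsTangentE (fun i => X.X.germToFunctionField U (g i)) y v → 0 ≤ leviE Φ z v

/-- Change of the index type. -/
theorem LocalWeight.reindex {ι κ : Type} [Fintype ι] [Fintype κ] (e : ι ≃ κ) {D : Div X.X}
    {w : X.K → X.X → ℝ} {x : X.X} (h : LocalWeight ι D w x) : LocalWeight κ D w x := by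
  obtain ⟨U, f, g, hne, Φ, W, hU, hx, hf, hgen, hW, hΦ, ⟨z, hz, hzv⟩, hloc⟩ := h
  let L : (κ → ℂ) →L[ℂ] (ι → ℂ) :=
    ContinuousLinearMap.pi fun i => ContinuousLinearMap.proj (e i)
  have hL : ∀ u i, L u i = u (e i) := fun u i => rfl
  refine ⟨U, f, g ∘ e.symm, hne, Φ ∘ L, L ⁻¹' W, hU, hx, hf, fun S h1 h2 => hgen S h1 fun i => ?_,
    hW.preimage L.continuous, ?_, ⟨z ∘ e.symm, ?_, fun i => hzv (e.symm i)⟩,
    fun y hy hyc u hu hval => ?_⟩
  · have := h2 (e i)
    simpa using this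
  · exact hΦ.comp (L.restrictScalars ℝ).contDiff.contDiffOn fun u hu => hu
  · have : L (z ∘ e.symm) = z := by
      funext i
      simp [hL]
    change L (z ∘ e.symm) ∈ W
    rwa [this]
  · obtain ⟨h1, h2⟩ := hloc y hy hyc (L u) hu (fun i => by
      have := hval (e i)
      simpa [hL] using this)
    refine ⟨h1, fun v hv => ?_⟩
    have h3 : leviE (Φ ∘ L) u v = leviE Φ (L u) (L v) := leviE_comp L hW hΦ hu v
    change 0 ≤ leviE (Φ ∘ L) u v
    rw [h3]
    apply h2
    obtain ⟨δ, hδ1, hδ2, hδ3⟩ := hv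
    refine ⟨δ, hδ1, hδ2, fun i => ?_⟩
    have := hδ3 (e i)
    simpa [hL] using this

theorem semiPos_iff (D : Div X.X) : SemiPos D ↔ ∃ w : X.K → X.X → ℝ,
    (∀ (f f' : X.K) (x : X.X) (c : ℂ), IsClosed {x} → GenAt D f x → GenAt D f' x →
      HasValue (f' / f) x c → w f' x = w f x - Real.log (‖c‖ ^ 2)) ∧
    ∀ x : X.X, IsClosed {x} → ∃ N : ℕ, LocalWeight (Fin N) D w x := by
  unfold SemiPos
  refine exists_congr fun w => and_congr_right fun _ => forall₂_congr fun x hx => ?_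
  constructor
  · rintro ⟨U, f, N, g, hne, Φ, W, hU, hxU, hf, hgen, hW, hΦ, hz, hloc⟩
    refine ⟨N, U, f, g, hne, Φ, W, hU, hxU, hf, fun S h1 h2 => ?_, hW, hΦ, hz, hloc⟩
    rw [eq_top_iff, ← hgen, Subring.closure_le]
    rintro _ (⟨i, rfl⟩ | ⟨c, rfl⟩)
    · exact h2 i
    · exact h1 c
  · rintro ⟨N, U, f, g, hne, Φ, W, hU, hxU, hf, hgen, hW, hΦ, hz, hloc⟩
    refine ⟨U, f, N, g, hne, Φ, W, hU, hxU, hf, hgen _ (fun c => ?_) (fun i => ?_), hW, hΦ, hz,
      hloc⟩
    · exact Subring.subset_closure (Or.inr ⟨c, rfl⟩)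
    · exact Subring.subset_closure (Or.inl ⟨i, rfl⟩)

/-- Construction of a semipositive metric from its values `ρ` on generators `e`. -/
theorem semiPos_of_local (hAB : AuslanderBuchsbaum) {D : Div X.X} (e : X.X → X.K)
    (he : ∀ x, IsClosed {x} → GenAt D (e x) x) (ρ : X.X → ℝ)
    (hloc : ∀ x, IsClosed {x} → ∃ (ι : Type) (_ : Fintype ι),
      LocalWeight ι D (fun h y => ρ y - Real.log (‖valueAt (h / e y) y‖ ^ 2)) x) :
    SemiPos D := by
  rw [semiPos_iff]
  refine ⟨fun h y => ρ y - Real.log (‖valueAt (h / e y) y‖ ^ 2), ?_, fun x hx => ?_⟩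
  · intro f f' x c hx hf hf' hc
    obtain ⟨c₁, hc₁, hv₁⟩ := exists_ratio hAB hx (he x hx) hf
    obtain ⟨c₂, hc₂, hv₂⟩ := exists_ratio hAB hx hf hf'
    have hcc : c = c₂ := hc.unique hv₂
    subst hcc
    have h1 : HasValue (f' / e x) x (c * c₁) := by
      have := hc.mul hv₁
      have e1 : f' / f * (f / e x) = f' / e x := by
        field_simp [hf.1]
      rwa [e1] at this
    change _ - Real.log (‖valueAt (f' / e x) x‖ ^ 2) =
      _ - Real.log (‖valueAt (f / e x) x‖ ^ 2) - _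
    rw [h1.valueAt, hv₁.valueAt, norm_mul, mul_pow, Real.log_mul]
    · ring
    · exact pow_ne_zero 2 (norm_ne_zero_iff.2 hc₂)
    · exact pow_ne_zero 2 (norm_ne_zero_iff.2 hc₁)
  · obtain ⟨ι, hι, h⟩ := hloc x hx
    exact ⟨_, h.reindex (Fintype.equivFin ι)⟩

theorem germ_restrict {U V : X.X.Opens} [Nonempty U] [Nonempty V] (h : V ≤ U) (s : Γ(X.X, U)) :
    X.X.germToFunctionField V (X.X.presheaf.map (homOfLE h).op s) =
      X.X.germToFunctionField U s := by
  have hV : genericPoint X.X ∈ V :=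
    ((genericPoint_spec X.X).mem_open_set_iff V.isOpen).mpr (by simpa using ‹Nonempty V›)
  exact X.X.presheaf.germ_res_apply (homOfLE h) (genericPoint X.X) hV s

theorem exists_hasValue_germ {U : X.X.Opens} [Nonempty U] (g : Γ(X.X, U)) {x : X.X} (hx : x ∈ U)
    (hxc : IsClosed {x}) : ∃ c : ℂ, HasValue (X.X.germToFunctionField U g) x c := by
  obtain ⟨c, hc⟩ := exists_hasValue x hxc (X.X.presheaf.germ U x hx g)
  refine ⟨c, ?_⟩
  have h : toK x (X.X.presheaf.germ U x hx g) = X.X.germToFunctionField U g :=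
    Scheme.algebraMap_germ_eq_germToFunctionField X.X hx g
  rwa [h] at hc

theorem exists_affine_le {W : X.X.Opens} {x : X.X} (hx : x ∈ W) :
    ∃ V : X.X.Opens, IsAffineOpen V ∧ x ∈ V ∧ V ≤ W := by
  obtain ⟨_, ⟨V, hV, rfl⟩, hxV, hVW⟩ :=
    X.X.isBasis_affineOpens.exists_subset_of_mem_open hx W.isOpen
  exact ⟨V, hV, hxV, hVW⟩

/-- Pull back of semipositive metrics. -/
theorem semiPos_pull (hAB : AuslanderBuchsbaum) (φ : DomHom X Y) [IsProper φ.f] {D : Div Y.X}
    {D' : Div X.X} (h : IsPullback φ D D') (hD : SemiPos D) : SemiPos D' := by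
  classical
  obtain ⟨w, hw1, hw2⟩ := (semiPos_iff D).1 hD
  have hgen : ∀ y : Y.X, ∃ s, GenAt D s y := fun y => by
    have := hAB Y y
    exact exists_genAt D y
  choose e₀ he₀ using hgen
  refine semiPos_of_local hAB (fun x => φ.pull (e₀ (φ.f x)))
    (fun x _ => h.genAt hAB (he₀ _)) (fun x => w (e₀ (φ.f x)) (φ.f x)) fun x hx => ?_
  obtain ⟨N, U, f, g, hne, Φ, W, hU, hyU, hf, hgen, hW, hΦ, ⟨z₀, hz₀, hz₀v⟩, hloc⟩ :=
    hw2 (φ.f x) (isClosed_map φ hx)
  obtain ⟨V, hV, hxV, hVU⟩ := exists_affine_le (W := φ.f ⁻¹ᵁ U) (x := x) hyU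
  obtain ⟨s, hs⟩ := exists_gens V hV
  have hneV : Nonempty V := ⟨⟨x, hxV⟩⟩
  have hneU : Nonempty (φ.f ⁻¹ᵁ U : X.X.Opens) := ⟨⟨x, hyU⟩⟩
  let gg : Fin N ⊕ s → Γ(X.X, V) :=
    Sum.elim (fun i => X.X.presheaf.map (homOfLE hVU).op (φ.f.app U (g i))) (fun i => i.1)
  have hgg : ∀ i, X.X.germToFunctionField V (gg (Sum.inl i)) =
      φ.pull (Y.X.germToFunctionField U (g i)) := by
    intro i
    have h1 : X.X.germToFunctionField V (gg (Sum.inl i)) =
      X.X.germToFunctionField (φ.f ⁻¹ᵁ U) (φ.f.app U (g i)) := germ_restrict hVU _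
    rw [h1]
    exact (φ.pull_germ_of_mem U _ _ (g i)).symm
  let L : (Fin N ⊕ s → ℂ) →L[ℂ] (Fin N → ℂ) :=
    ContinuousLinearMap.pi fun i => ContinuousLinearMap.proj (Sum.inl i)
  have hL : ∀ u i, L u i = u (Sum.inl i) := fun u i => rfl
  have hsval : ∀ i : s, ∃ c, HasValue (X.X.germToFunctionField V i.1) x c := fun i =>
    exists_hasValue_germ i.1 hxV hx
  choose zs hzs using hsval
  refine ⟨Fin N ⊕ s, inferInstance, V, φ.pull f, gg, hneV, Φ ∘ L, L ⁻¹' W, hV, hxV,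
    fun y hy => h.genAt hAB (hf _ (hVU hy)), fun S h1 h2 => hs S h1 fun i hi => h2 (Sum.inr ⟨i, hi⟩),
    hW.preimage L.continuous, ?_, ⟨Sum.elim z₀ zs, ?_, ?_⟩, fun y hy hyc u hu hval => ?_⟩
  · exact hΦ.comp (L.restrictScalars ℝ).contDiff.contDiffOn fun u hu => hu
  · have : L (Sum.elim z₀ zs) = z₀ := by
      funext i
      simp [hL]
    change L (Sum.elim z₀ zs) ∈ W
    rwa [this]
  · rintro (i | i)
    · rw [hgg]
      exact (hz₀v i).pull φ
    · exact hzs i
  · have hφy : φ.f y ∈ U := hVU hy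
    have hφyc := isClosed_map φ hyc
    have hLv : ∀ i, HasValue (Y.X.germToFunctionField U (g i)) (φ.f y) (L u i) := by
      intro i
      obtain ⟨c, hc⟩ := exists_hasValue_germ (g i) hφy hφyc
      have h1 := hc.pull φ
      rw [← hgg] at h1
      have h2 := h1.unique (hval (Sum.inl i))
      rw [hL, ← h2]
      exact hc
    obtain ⟨h1, h2⟩ := hloc (φ.f y) hφy hφyc (L u) hu hLv
    obtain ⟨c, hc0, hc⟩ := exists_ratio hAB hφyc (he₀ (φ.f y)) (hf _ hφy)
    refine ⟨?_, fun v hv => ?_⟩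
    · have h3 := hc.pull φ
      rw [map_div₀] at h3
      change _ - Real.log (‖valueAt (φ.pull f / φ.pull (e₀ (φ.f y))) y‖ ^ 2) = Φ (L u)
      rw [h3.valueAt, ← h1]
      exact (hw1 _ _ _ c hφyc (he₀ (φ.f y)) (hf _ hφy) hc).symm
    · rw [leviE_comp L hW hΦ hu v]
      apply h2
      obtain ⟨δ, hδ1, hδ2, hδ3⟩ := hv
      refine ⟨fun a => δ (φ.pull a), fun c => ?_, fun a b α β ha hb => ?_, fun i => ?_⟩
      · change δ (φ.pull (algebraMap ℂ Y.K c)) = 0
        rw [φ.pull_constant]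
        exact hδ1 c
      · change δ (φ.pull (a + b)) = _ ∧ δ (φ.pull (a * b)) = _
        rw [map_add, map_mul]
        exact hδ2 _ _ α β (ha.pull φ) (hb.pull φ)
      · exact (hδ3 (Sum.inl i)).trans (congrArg δ (hgg i))

/-- Sums of semipositive metrics. -/
theorem semiPos_add (hAB : AuslanderBuchsbaum) {D D' : Div X.X} (hD : SemiPos D)
    (hD' : SemiPos D') : SemiPos (D + D') := by
  classical
  obtain ⟨w, hw1, hw2⟩ := (semiPos_iff D).1 hD
  obtain ⟨w', hw1', hw2'⟩ := (semiPos_iff D').1 hD'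
  have hgen : ∀ x : X.X, ∃ s, GenAt D s x := fun x => by
    have := hAB X x
    exact exists_genAt D x
  have hgen' : ∀ x : X.X, ∃ s, GenAt D' s x := fun x => by
    have := hAB X x
    exact exists_genAt D' x
  choose e he using hgen
  choose e' he' using hgen'
  refine semiPos_of_local hAB (fun x => e x * e' x) (fun x _ => (he x).mul (he' x))
    (fun x => w (e x) x + w' (e' x) x) fun x hx => ?_
  obtain ⟨N, U, f, g, hne, Φ, W, hU, hxU, hf, hgen, hW, hΦ, ⟨z₀, hz₀, hz₀v⟩, hloc⟩ := hw2 x hx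
  obtain ⟨N', U', f', g', hne', Φ', W', hU', hxU', hf', hgen', hW', hΦ', ⟨z₀', hz₀', hz₀v'⟩,
    hloc'⟩ := hw2' x hx
  obtain ⟨V, hV, hxV, hVU⟩ := exists_affine_le (W := U ⊓ U') (x := x) ⟨hxU, hxU'⟩
  have hVU1 : V ≤ U := hVU.trans inf_le_left
  have hVU2 : V ≤ U' := hVU.trans inf_le_right
  obtain ⟨s, hs⟩ := exists_gens V hV
  have hneV : Nonempty V := ⟨⟨x, hxV⟩⟩
  let gg : (Fin N ⊕ Fin N') ⊕ s → Γ(X.X, V) :=
    Sum.elim (Sum.elim (fun i => X.X.presheaf.map (homOfLE hVU1).op (g i))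
      (fun i => X.X.presheaf.map (homOfLE hVU2).op (g' i))) (fun i => i.1)
  have hgg : ∀ i, X.X.germToFunctionField V (gg (Sum.inl (Sum.inl i))) =
      X.X.germToFunctionField U (g i) := fun i => germ_restrict hVU1 _
  have hgg' : ∀ i, X.X.germToFunctionField V (gg (Sum.inl (Sum.inr i))) =
      X.X.germToFunctionField U' (g' i) := fun i => germ_restrict hVU2 _
  let L : ((Fin N ⊕ Fin N') ⊕ s → ℂ) →L[ℂ] (Fin N → ℂ) :=
    ContinuousLinearMap.pi fun i => ContinuousLinearMap.proj (Sum.inl (Sum.inl i))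
  let L' : ((Fin N ⊕ Fin N') ⊕ s → ℂ) →L[ℂ] (Fin N' → ℂ) :=
    ContinuousLinearMap.pi fun i => ContinuousLinearMap.proj (Sum.inl (Sum.inr i))
  have hL : ∀ u i, L u i = u (Sum.inl (Sum.inl i)) := fun u i => rfl
  have hL' : ∀ u i, L' u i = u (Sum.inl (Sum.inr i)) := fun u i => rfl
  have hsval : ∀ i : s, ∃ c, HasValue (X.X.germToFunctionField V i.1) x c := fun i =>
    exists_hasValue_germ i.1 hxV hx
  choose zs hzs using hsval
  have hc1 : ContDiffOn ℝ ((⊤ : ℕ∞) : WithTop ℕ∞) (Φ ∘ L) (L ⁻¹' W) :=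
    hΦ.comp (L.restrictScalars ℝ).contDiff.contDiffOn fun u hu => hu
  have hc2 : ContDiffOn ℝ ((⊤ : ℕ∞) : WithTop ℕ∞) (Φ' ∘ L') (L' ⁻¹' W') :=
    hΦ'.comp (L'.restrictScalars ℝ).contDiff.contDiffOn fun u hu => hu
  refine ⟨(Fin N ⊕ Fin N') ⊕ s, inferInstance, V, f * f', gg, hneV, Φ ∘ L + Φ' ∘ L',
    L ⁻¹' W ∩ L' ⁻¹' W', hV, hxV,
    fun y hy => (hf y (hVU1 hy)).mul (hf' y (hVU2 hy)),
    fun S h1 h2 => hs S h1 fun i hi => h2 (Sum.inr ⟨i, hi⟩),
    (hW.preimage L.continuous).inter (hW'.preimage L'.continuous), ?_,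
    ⟨Sum.elim (Sum.elim z₀ z₀') zs, ⟨?_, ?_⟩, ?_⟩, fun y hy hyc u hu hval => ?_⟩
  · exact (hc1.mono Set.inter_subset_left).add (hc2.mono Set.inter_subset_right)
  · have : L (Sum.elim (Sum.elim z₀ z₀') zs) = z₀ := by
      funext i
      simp [hL]
    change L (Sum.elim (Sum.elim z₀ z₀') zs) ∈ W
    rwa [this]
  · have : L' (Sum.elim (Sum.elim z₀ z₀') zs) = z₀' := by
      funext i
      simp [hL']
    change L' (Sum.elim (Sum.elim z₀ z₀') zs) ∈ W'
    rwa [this]
  · rintro ((i | i) | i)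
    · rw [hgg]
      exact hz₀v i
    · rw [hgg']
      exact hz₀v' i
    · exact hzs i
  · obtain ⟨h1, h2⟩ := hloc y (hVU1 hy) hyc (L u) hu.1 (fun i => by
      rw [← hgg]
      exact hval _)
    obtain ⟨h1', h2'⟩ := hloc' y (hVU2 hy) hyc (L' u) hu.2 (fun i => by
      rw [← hgg']
      exact hval _)
    obtain ⟨c, hc0, hc⟩ := exists_ratio hAB hyc (he y) (hf y (hVU1 hy))
    obtain ⟨c', hc0', hc'⟩ := exists_ratio hAB hyc (he' y) (hf' y (hVU2 hy))
    refine ⟨?_, fun v hv => ?_⟩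
    · have h3 : HasValue (f * f' / (e y * e' y)) y (c * c') := by
        have := hc.mul hc'
        rwa [div_mul_div_comm] at this
      change _ - Real.log (‖valueAt (f * f' / (e y * e' y)) y‖ ^ 2) = Φ (L u) + Φ' (L' u)
      rw [h3.valueAt, ← h1, ← h1', norm_mul, mul_pow, Real.log_mul,
        hw1 _ _ _ c hyc (he y) (hf y (hVU1 hy)) hc,
        hw1' _ _ _ c' hyc (he' y) (hf' y (hVU2 hy)) hc']
      · ring
      · exact pow_ne_zero 2 (norm_ne_zero_iff.2 hc0)
      · exact pow_ne_zero 2 (norm_ne_zero_iff.2 hc0')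
    · have hd1 : ContDiffAt ℝ 2 (Φ ∘ L) u :=
        (hc1.contDiffAt ((hW.preimage L.continuous).mem_nhds hu.1)).of_le two_le_infty
      have hd2 : ContDiffAt ℝ 2 (Φ' ∘ L') u :=
        (hc2.contDiffAt ((hW'.preimage L'.continuous).mem_nhds hu.2)).of_le two_le_infty
      rw [leviE_add hd1 hd2, leviE_comp L hW hΦ hu.1 v, leviE_comp L' hW' hΦ' hu.2 v]
      obtain ⟨δ, hδ1, hδ2, hδ3⟩ := hv
      refine add_nonneg (h2 _ ⟨δ, hδ1, hδ2, fun i => ?_⟩) (h2' _ ⟨δ, hδ1, hδ2, fun i => ?_⟩)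
      · exact (hδ3 (Sum.inl (Sum.inl i))).trans (congrArg δ (hgg i))
      · exact (hδ3 (Sum.inl (Sum.inr i))).trans (congrArg δ (hgg' i))

/-- The trivial metric. -/
theorem semiPos_zero (hAB : AuslanderBuchsbaum) : SemiPos (0 : Div X.X) := by
  classical
  refine semiPos_of_local hAB (fun _ => 1) (fun x _ => genAt_zero_one x) (fun _ => 0)
    fun x hx => ?_
  obtain ⟨V, hV, hxV, -⟩ := exists_affine_le (W := ⊤) (x := x) trivial
  obtain ⟨s, hs⟩ := exists_gens V hV
  have hneV : Nonempty V := ⟨⟨x, hxV⟩⟩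
  have hsval : ∀ i : s, ∃ c, HasValue (X.X.germToFunctionField V i.1) x c := fun i =>
    exists_hasValue_germ i.1 hxV hx
  choose zs hzs using hsval
  refine ⟨s, inferInstance, V, 1, fun i => i.1, hneV, fun _ => 0, Set.univ, hV, hxV,
    fun y _ => genAt_zero_one y, fun S h1 h2 => hs S h1 fun i hi => h2 ⟨i, hi⟩, isOpen_univ,
    contDiffOn_const, ⟨zs, trivial, hzs⟩, fun y hy hyc u _ hval => ⟨?_, fun v _ => ?_⟩⟩
  · have h1 : HasValue ((1 : X.K) / 1) y 1 := by
      have := hasValue_const y (1 : ℂ)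
      rwa [map_one, ← div_one (1 : X.K)] at this
    change 0 - Real.log (‖valueAt ((1 : X.K) / 1) y‖ ^ 2) = 0
    rw [h1.valueAt]
    simp
  · unfold leviE
    have h0 : iteratedFDeriv ℝ 2 (fun _ : s → ℂ => (0 : ℝ)) u = 0 := by
      have := iteratedFDeriv_fun_zero (𝕜 := ℝ) (E := s → ℂ) (F := ℝ) (n := 2)
      exact congrFun this u
    rw [h0]
    simp

/-- Multiples of semipositive metrics. -/
theorem semiPos_nsmul (hAB : AuslanderBuchsbaum) {D : Div X.X} (hD : SemiPos D) (m : ℕ) :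
    SemiPos (m • D) := by
  induction m with
  | zero => rw [zero_smul]; exact semiPos_zero hAB
  | succ m ih => rw [succ_nsmul]; exact semiPos_add hAB ih hD

end Local

end Vale.Agent.P299.Q
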