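import Vale.Agent.P299.Q.Snapper
import Vale.Agent.P299.Q.SemiPos
import Vale.Agent.P299.Q.PullPos

/-!
# Vanishing theorems of Kodaira type, and `χ = h⁰`
-/

open CategoryTheory TopologicalSpace Opposite TopCat AlgebraicGeometry Order

namespace Vale.Agent.P299.Q

variable {X : Var}

/-- A basis of the rational vector fields defines a nonzero rational top form: there is a
canonical divisor. -/
theorem exists_isCanonicalDivisor (X : Var) : ∃ κ : Div X.X, IsCanonicalDivisor κ := by
  classical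
  by_cases hfin : Module.Finite X.K X.Der
  · let b := Module.finBasis X.K X.Der
    let ω : X.Ten X.dim := b.det.toMultilinearMap
    have hω : ω ≠ 0 := by
      intro h
      have h1 : ω b = 0 := by rw [h]; rfl
      have h2 : b.det b = 1 := b.det_self
      have h3 : b.det b = ω b := rfl
      rw [h3, h1] at h2
      exact zero_ne_one h2
    obtain ⟨κ, hκ⟩ := exists_isDivTensor hω
    exact ⟨κ, ω, hω, fun v i j hv hij => b.det.map_eq_zero_of_eq v hv hij, hκ⟩
  · have h0 : X.dim = 0 := Module.finrank_of_not_finite hfin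
    have hempty : IsEmpty (Fin X.dim) := by rw [h0]; infer_instance
    let ω : X.Ten X.dim := MultilinearMap.constOfIsEmpty X.K _ 1
    have hω : ω ≠ 0 := by
      intro h
      have h1 : ω (fun i => isEmptyElim i) = 0 := by rw [h]; rfl
      exact one_ne_zero (α := X.K) h1
    obtain ⟨κ, hκ⟩ := exists_isDivTensor hω
    exact ⟨κ, ω, hω, fun v i => isEmptyElim i, hκ⟩

/-- If all the higher cohomology spaces of `O_X(D)` vanish then `χ(D) = h⁰(D)`. -/
theorem chi_eq_finrank {D : Div X.X}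
    (h : ∀ i > 0, Subsingleton (Coh (secSheaf (S := (X.X : TopCat.{0})) id ⊤ D) i)) :
    chi D = Module.finrank ℂ (H0 (coef D)) := by
  unfold chi
  rw [Finset.sum_range_succ', Finset.sum_eq_zero, zero_add, pow_zero, one_mul, hh_zero, top_inf_eq]
  intro i _
  have := h (i + 1) (Nat.succ_pos i)
  have h1 : hh (S := (X.X : TopCat.{0})) id ⊤ D (i + 1) = 0 := Module.finrank_zero_of_subsingleton
  rw [h1]
  simp

theorem IsNef.isPsef' {D : Div X.X} (h : IsNef D) : IsPsef D :=
  fun A hA m => (h A hA m).exists_section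

/-- **Kodaira vanishing** for `κ + M`, `M` nef and big. -/
theorem kodaira_of_big (hKN : KollarNadelVanishing) (hAB : FactorialStalks) {κ : Div X.X}
    (hκ : IsCanonicalDivisor κ) {M A : Div X.X} (hM : IsNef M) (hA : IsAmple A) {c : ℕ}
    (hc : 0 < c) (hcM : IsPsef (c • M - A)) :
    ∀ i > 0, Subsingleton (Coh (secSheaf (S := (X.X : TopCat.{0})) id ⊤ (κ + M)) i) := by
  intro i hi
  have hid : (⇑(DomHom.id X).f : X.X → X.X) = id := by
    funext x
    rfl
  have h := hKN X X (DomHom.id X) κ 0 M A M A hκ (semiPos_zero hAB) hM hA (isPullback_id hAB M)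
    (isPullback_id hAB A) ⟨c, hc, by rwa [zero_add]⟩ i hi
  rw [add_zero] at h
  exact h

/-- **Kodaira vanishing** for `κ + M`, `M` ample. -/
theorem kodaira (hKN : KollarNadelVanishing) (hAB : FactorialStalks) {κ : Div X.X}
    (hκ : IsCanonicalDivisor κ) {M : Div X.X} (hM : IsAmple M) :
    ∀ i > 0, Subsingleton (Coh (secSheaf (S := (X.X : TopCat.{0})) id ⊤ (κ + M)) i) := by
  refine kodaira_of_big hKN hAB hκ (hM.isNef) hM (c := 2) two_pos ?_
  have : 2 • M - M = M := by rw [two_smul]; abel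
  rw [this]
  exact hM.isNef.isPsef'

/-- `χ(κ + M) = h⁰(κ + M)` for `M` nef and big. -/
theorem chi_canonical_of_big (hKN : KollarNadelVanishing) (hAB : FactorialStalks) {κ : Div X.X}
    (hκ : IsCanonicalDivisor κ) {M A : Div X.X} (hM : IsNef M) (hA : IsAmple A) {c : ℕ}
    (hc : 0 < c) (hcM : IsPsef (c • M - A)) :
    chi (κ + M) = Module.finrank ℂ (H0 (coef (κ + M))) :=
  chi_eq_finrank (kodaira_of_big hKN hAB hκ hM hA hc hcM)

/-- `χ(κ + M) = h⁰(κ + M)` for `M` ample. -/
theorem chi_canonical (hKN : KollarNadelVanishing) (hAB : FactorialStalks) {κ : Div X.X}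
    (hκ : IsCanonicalDivisor κ) {M : Div X.X} (hM : IsAmple M) :
    chi (κ + M) = Module.finrank ℂ (H0 (coef (κ + M))) :=
  chi_eq_finrank (kodaira hKN hAB hκ hM)

/-- `H^i(D + kH + N) = 0`, for `H` ample, all large `k`, all nef `N` and `i > 0`. -/
theorem exists_vanishing_forall (hKN : KollarNadelVanishing) (hAB : FactorialStalks)
    {H : Div X.X} (hH : IsAmple H) (D : Div X.X) :
    ∃ k₀ : ℕ, ∀ k ≥ k₀, ∀ N : Div X.X, IsNef N → ∀ i > 0,
      Subsingleton (Coh (secSheaf (S := (X.X : TopCat.{0})) id ⊤ (D + k • H + N)) i) := by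
  obtain ⟨κ, hκ⟩ := exists_isCanonicalDivisor X
  obtain ⟨k₀, hk₀⟩ := hH.forall_add (hAB X) (D - κ)
  refine ⟨k₀, fun k hk N hN i hi => ?_⟩
  have h1 : IsAmple (N + (k • H + (D - κ))) := (hk₀ k hk).1.add_nef hN
  have h2 := kodaira hKN hAB hκ h1 i hi
  have e : D + k • H + N = κ + (N + (k • H + (D - κ))) := by abel
  rw [e]
  exact h2

/-- `χ(D + kH + N) = h⁰(D + kH + N)`, for `H` ample, all large `k` and all nef `N`. -/
theorem exists_chi_eq_finrank (hKN : KollarNadelVanishing) (hAB : FactorialStalks)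
    {H : Div X.X} (hH : IsAmple H) (D : Div X.X) :
    ∃ k₀ : ℕ, ∀ k ≥ k₀, ∀ N : Div X.X, IsNef N →
      chi (D + k • H + N) = Module.finrank ℂ (H0 (coef (D + k • H + N))) := by
  obtain ⟨k₀, hk₀⟩ := exists_vanishing_forall hKN hAB hH D
  exact ⟨k₀, fun k hk N hN => chi_eq_finrank (hk₀ k hk N hN)⟩

end Vale.Agent.P299.Q
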