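import Vale.Agent.P299.Q.BB
import Vale.Agent.P299.Q.Pull

/-!
# Strict transforms, invariance of pull backs
-/

open CategoryTheory TopologicalSpace Opposite TopCat AlgebraicGeometry Order

namespace Vale.Agent.P299.Q

open Vale.Agent.P299.G

section Birational

variable {X Y : Var}

instance (φ : DomHom X Y) : IsProper φ.f := by
  have h : IsProper (φ.f ≫ (Y.X ↘ SpecC)) := by
    rw [φ.over]
    infer_instance
  exact IsProper.of_comp φ.f (Y.X ↘ SpecC)

theorem DomHom.surjective (φ : DomHom X Y) (y : Y.X) : ∃ x : X.X, φ.f x = y := by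
  have := φ.isDominant
  have h : Surjective φ.f := inferInstance
  exact h.surj y

/-- For a birational morphism the local ring at a point over a prime divisor `y` is the local ring
at `y`. -/
theorem stalkMap_bijective_of_birational (μ : DomHom X Y) (hb : μ.Birational) (x : X.X)
    (hy : coheight (μ.f x) = 1) : Function.Bijective (μ.f.stalkMap x).hom := by
  refine ⟨μ.stalkMap_injective x, fun b => ?_⟩
  have := Y.dvr (μ.f x) hy
  obtain ⟨g, hg⟩ := hb.2 (algebraMap (X.X.presheaf.stalk x) X.K b)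
  rcases ValuationRing.isInteger_or_isInteger (Y.X.presheaf.stalk (μ.f x)) g with h | h
  · obtain ⟨a, ha⟩ := h
    refine ⟨a, ?_⟩
    have h1 := μ.pull_stalk x a
    rw [ha, hg] at h1
    exact (FaithfulSMul.algebraMap_injective _ _ h1).symm
  · obtain ⟨a, ha⟩ := h
    by_cases hg0 : g = 0
    · refine ⟨0, ?_⟩
      rw [hg0, map_zero] at hg
      rw [map_zero]
      exact (FaithfulSMul.algebraMap_injective _ _ (by rw [← hg, map_zero])).symm.symm
    have h1 := μ.pull_stalk x a
    rw [ha, map_inv₀, hg] at h1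
    have hb0 : algebraMap (X.X.presheaf.stalk x) X.K b ≠ 0 := by
      rw [← hg]; exact μ.pull_ne_zero hg0
    have h2 : (μ.f.stalkMap x).hom a * b = 1 := by
      apply FaithfulSMul.algebraMap_injective (X.X.presheaf.stalk x) X.K
      rw [map_mul, map_one]
      have h3 : algebraMap (X.X.presheaf.stalk x) X.K ((μ.f.stalkMap x).hom a) =
        (algebraMap (X.X.presheaf.stalk x) X.K b)⁻¹ := h1.symm
      rw [h3, inv_mul_cancel₀ hb0]
    have hu : IsUnit ((μ.f.stalkMap x).hom a) := IsUnit.of_mul_eq_one _ h2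
    have hu' : IsUnit a := isUnit_of_map_unit (μ.f.stalkMap x).hom a hu
    obtain ⟨c, hc⟩ := hu'.exists_right_inv
    refine ⟨c, ?_⟩
    have h4 : (μ.f.stalkMap x).hom a * (μ.f.stalkMap x).hom c = 1 := by
      rw [← map_mul, hc, map_one]
    calc (μ.f.stalkMap x).hom c = ((μ.f.stalkMap x).hom a * b) * (μ.f.stalkMap x).hom c := by
          rw [h2, one_mul]
      _ = ((μ.f.stalkMap x).hom a * (μ.f.stalkMap x).hom c) * b := by ring
      _ = b := by rw [h4, one_mul]

/-- A point over a prime divisor of `Y` under a birational morphism is a prime divisor of `X` with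
the same valuation. -/
theorem ord_pull_of_birational (μ : DomHom X Y) (hb : μ.Birational) (x : X.X)
    (hy : coheight (μ.f x) = 1) :
    coheight x = 1 ∧ ∀ g : Y.K, Scheme.ord (μ.pull g) x = Scheme.ord g (μ.f x) := by
  have hbij := stalkMap_bijective_of_birational μ hb x hy
  let e : Y.X.presheaf.stalk (μ.f x) ≃+* X.X.presheaf.stalk x :=
    RingEquiv.ofBijective (μ.f.stalkMap x).hom hbij
  have hx : coheight x = 1 := by
    have h1 := ringKrullDim_eq_of_ringEquiv e
    rw [ringKrullDim_stalk_eq_coheight, ringKrullDim_stalk_eq_coheight, hy] at h1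
    exact_mod_cast h1.symm
  refine ⟨hx, ?_⟩
  obtain ⟨m, hm, h⟩ := μ.exists_mult x hx hy
  obtain ⟨t, ht0, ht⟩ := exists_uniformizer (fun y hy => X.dvr y hy) hx
  obtain ⟨g, hg⟩ := hb.2 (toK x t)
  have hg0 : g ≠ 0 := by
    rintro rfl
    rw [map_zero] at hg
    rw [← hg] at ht
    simp at ht
  have h1 := h g hg0
  rw [hg, ht] at h1
  have hm1 : m = 1 := by
    have h2 : m ∣ 1 := ⟨_, h1⟩
    exact Int.eq_one_of_dvd_one (by linarith) h2
  intro g'
  by_cases hg' : g' = 0
  · subst hg'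
    rw [map_zero]; simp
  · rw [h g' hg', hm1, one_mul]

/-- Strict transforms of prime divisors. -/
theorem exists_strict (μ : DomHom X Y) (hb : μ.Birational) (y : Y.X) (hy : coheight y = 1) :
    ∃ x : X.X, coheight x = 1 ∧ μ.f x = y ∧
      ∀ g : Y.K, Scheme.ord (μ.pull g) x = Scheme.ord g y := by
  obtain ⟨x, rfl⟩ := μ.surjective y
  obtain ⟨h1, h2⟩ := ord_pull_of_birational μ hb x hy
  exact ⟨x, h1, rfl, h2⟩

/-- The pull back has the same coefficients along strict transforms. -/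
theorem IsPullback.coef_strict {μ : DomHom X Y} {B : Div Y.X} {D : Div X.X}
    (h : IsPullback μ B D) {x : X.X} (hx : coheight x = 1) (hy : coheight (μ.f x) = 1)
    (ho : ∀ g : Y.K, Scheme.ord (μ.pull g) x = Scheme.ord g (μ.f x)) :
    coef D x = coef B (μ.f x) := by
  obtain ⟨g, hg, hD⟩ := h x hx
  rw [hD, ho, hg.ord hy, coef_neg, neg_neg]

end Birational

section Torus

variable {r : ℕ} {X Y : Var} (τ : TAct r X)

theorem TAct.pull_act_mul (s t : Fin r → ℂˣ) (g : X.K) :
    (τ.act (s * t)).pull g = (τ.act s).pull ((τ.act t).pull g) := by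
  rw [← DomHom.pull_comp]
  have h : τ.act (s * t) = (τ.act s).comp (τ.act t) := by
    have h1 := τ.act_mul s t
    cases h2 : τ.act (s * t)
    rw [h2] at h1
    simp only at h1
    subst h1
    rfl
  rw [h]

theorem TAct.act_one' : τ.act 1 = DomHom.id X := by
  have h1 := τ.act_one
  cases h2 : τ.act 1
  rw [h2] at h1
  simp only at h1
  subst h1
  rfl

theorem TAct.pull_act_inv (t : Fin r → ℂˣ) (g : X.K) :
    (τ.act t⁻¹).pull ((τ.act t).pull g) = g := by
  rw [← τ.pull_act_mul, inv_mul_cancel, τ.act_one', DomHom.pull_id]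

theorem TAct.act_birational (t : Fin r → ℂˣ) : (τ.act t).Birational := by
  refine ⟨(τ.act t).pull_injective, fun g => ⟨(τ.act t⁻¹).pull g, ?_⟩⟩
  have := τ.pull_act_inv t⁻¹ g
  rwa [inv_inv] at this

theorem TAct.act_act_inv (t : Fin r → ℂˣ) (x : X.X) : (τ.act t).f ((τ.act t⁻¹).f x) = x := by
  have h : (τ.act t⁻¹).f ≫ (τ.act t).f = 𝟙 X.X := by
    rw [← τ.act_mul, inv_mul_cancel, τ.act_one]
  have h2 : (τ.act t).f ((τ.act t⁻¹).f x) = ((τ.act t⁻¹).f ≫ (τ.act t).f) x := by
    simp
  rw [h2, h]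
  simp

theorem TAct.act_inv_act (t : Fin r → ℂˣ) (x : X.X) : (τ.act t⁻¹).f ((τ.act t).f x) = x := by
  have := τ.act_act_inv t⁻¹ x
  rwa [inv_inv] at this

/-- The action as an isomorphism of partially ordered sets. -/
noncomputable def TAct.orderIso (t : Fin r → ℂˣ) : X.X ≃o X.X where
  toFun := (τ.act t).f
  invFun := (τ.act t⁻¹).f
  left_inv := τ.act_inv_act t
  right_inv := τ.act_act_inv t
  map_rel_iff' := by
    intro a b
    change (τ.act t).f b ⤳ (τ.act t).f a ↔ b ⤳ a
    constructor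
    · intro h
      have h1 := h.map (τ.act t⁻¹).f.continuous
      rwa [τ.act_inv_act, τ.act_inv_act] at h1
    · intro h
      exact h.map (τ.act t).f.continuous

theorem TAct.coheight_act (t : Fin r → ℂˣ) (x : X.X) :
    coheight ((τ.act t).f x) = coheight x :=
  coheight_orderIso (τ.orderIso t) x

theorem TAct.ord_act (t : Fin r → ℂˣ) (g : X.K) (x : X.X) :
    Scheme.ord ((τ.act t).pull g) x = Scheme.ord g ((τ.act t).f x) := by
  by_cases hx : coheight x = 1
  · have hy : coheight ((τ.act t).f x) = 1 := by rw [τ.coheight_act, hx]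
    exact (ord_pull_of_birational (τ.act t) (τ.act_birational t) x hy).2 g
  · have hy : coheight ((τ.act t).f x) ≠ 1 := by rwa [τ.coheight_act]
    rw [Scheme.ord_eq_zero_of_coheight_neq_one hx, Scheme.ord_eq_zero_of_coheight_neq_one hy]

theorem DomHom.ext' {φ ψ : DomHom X Y} (h : φ.f = ψ.f) : φ = ψ := by
  cases φ; cases ψ
  simp only at h
  subst h
  rfl

theorem pull_comm {X' : Var} {τ' : TAct r X'} {μ : DomHom X' X} {t : Fin r → ℂˣ}
    (h : (τ'.act t).f ≫ μ.f = μ.f ≫ (τ.act t).f) (g : X.K) :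
    (τ'.act t).pull (μ.pull g) = μ.pull ((τ.act t).pull g) := by
  rw [← DomHom.pull_comp, ← DomHom.pull_comp]
  have h1 : (τ'.act t).comp μ = μ.comp (τ.act t) := DomHom.ext' h
  rw [h1]

/-- For an equivariant birational morphism the invariant functions correspond. -/
theorem mem_inv_pull {X' : Var} {τ' : TAct r X'} {μ : DomHom X' X}
    (h : ∀ t, (τ'.act t).f ≫ μ.f = μ.f ≫ (τ.act t).f) (g : X.K) :
    μ.pull g ∈ τ'.inv ↔ g ∈ τ.inv := by
  constructor
  · intro hg t
    have h1 : (τ'.act t).pull (μ.pull g) = μ.pull g := hg t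
    rw [pull_comm τ (h t)] at h1
    exact μ.pull_injective h1
  · intro hg t
    rw [pull_comm τ (h t)]
    rw [hg t]

theorem TAct.mul_mem {f g : X.K} (hf : f ∈ τ.inv) (hg : g ∈ τ.inv) : f * g ∈ τ.inv :=
  fun t => by rw [map_mul, hf t, hg t]

theorem TAct.pow_mem {f : X.K} (hf : f ∈ τ.inv) (n : ℕ) : f ^ n ∈ τ.inv :=
  fun t => by rw [map_pow, hf t]

theorem TAct.inv_mem {f : X.K} (hf : f ∈ τ.inv) : f⁻¹ ∈ τ.inv :=
  fun t => by rw [map_inv₀, hf t]

theorem TAct.div_mem {f g : X.K} (hf : f ∈ τ.inv) (hg : g ∈ τ.inv) : f / g ∈ τ.inv :=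
  fun t => by rw [map_div₀, hf t, hg t]

theorem TAct.pull_mem {φ : DomHom X Y} (h : τ.InvHom φ) (g : Y.K) : φ.pull g ∈ τ.inv := by
  intro t
  rw [← DomHom.pull_comp]
  have h1 : (τ.act t).comp φ = φ := DomHom.ext' (h t)
  rw [h1]

theorem TAct.InvDiv.add {D D' : Div X.X} (h : τ.InvDiv D) (h' : τ.InvDiv D') :
    τ.InvDiv (D + D') := fun t x => by rw [coef_add, coef_add, h t x, h' t x]

theorem TAct.InvDiv.neg {D : Div X.X} (h : τ.InvDiv D) : τ.InvDiv (-D) :=
  fun t x => by rw [coef_neg, coef_neg, h t x]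

theorem TAct.InvDiv.sub {D D' : Div X.X} (h : τ.InvDiv D) (h' : τ.InvDiv D') :
    τ.InvDiv (D - D') := fun t x => by rw [coef_sub, coef_sub, h t x, h' t x]

theorem TAct.InvDiv.nsmul {D : Div X.X} (h : τ.InvDiv D) (n : ℕ) : τ.InvDiv (n • D) :=
  fun t x => by rw [coef_nsmul, coef_nsmul, h t x]

/-- The pull back of an invariant divisor under an equivariant morphism is invariant. -/
theorem TAct.InvDiv.pull (hAB : AuslanderBuchsbaum) {X' : Var} {τ' : TAct r X'}
    {μ : DomHom X' X} (heq : ∀ t, (τ'.act t).f ≫ μ.f = μ.f ≫ (τ.act t).f) {D : Div X.X}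
    {D' : Div X'.X} (hD : τ.InvDiv D) (h : IsPullback μ D D') : τ'.InvDiv D' := by
  intro t x
  by_cases hx : coheight x = 1
  · have hx' : coheight ((τ'.act t).f x) = 1 := by rw [τ'.coheight_act, hx]
    have hpt : μ.f ((τ'.act t).f x) = (τ.act t).f (μ.f x) := by
      have h1 : μ.f ((τ'.act t).f x) = ((τ'.act t).f ≫ μ.f) x := by simp
      have h2 : (τ.act t).f (μ.f x) = (μ.f ≫ (τ.act t).f) x := by simp
      rw [h1, h2, heq t]
    have := hAB X (μ.f x)
    obtain ⟨g, hg⟩ := exists_genAt D (μ.f x)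
    have hg' : GenAt D ((τ.act t⁻¹).pull g) (μ.f ((τ'.act t).f x)) := by
      refine ⟨(τ.act t⁻¹).pull_ne_zero hg.1, fun q hq hqx => ?_⟩
      rw [τ.ord_act, ← hD t⁻¹ q]
      apply hg.2
      · rw [τ.coheight_act, hq]
      · rw [hpt] at hqx
        have h3 := hqx.map (τ.act t⁻¹).f.continuous
        rwa [τ.act_inv_act] at h3
    have h4 := h.ord_pull hAB hx' hg'
    have h5 := h.ord_pull hAB hx hg
    rw [← pull_comm τ (heq t⁻¹), τ'.ord_act, τ'.act_inv_act] at h4
    linarith
  · have hx' : coheight ((τ'.act t).f x) ≠ 1 := by rwa [τ'.coheight_act]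
    rw [coef_of_ne hx, coef_of_ne hx']

/-- The pull back of a divisor under an invariant morphism is invariant. -/
theorem TAct.InvDiv.of_invHom (hAB : AuslanderBuchsbaum) {φ : DomHom X Y} (hφ : τ.InvHom φ)
    {A : Div Y.X} {A' : Div X.X} (h : IsPullback φ A A') : τ.InvDiv A' := by
  intro t x
  by_cases hx : coheight x = 1
  · have hx' : coheight ((τ.act t).f x) = 1 := by rw [τ.coheight_act, hx]
    have hpt : φ.f ((τ.act t).f x) = φ.f x := by
      have h1 : φ.f ((τ.act t).f x) = ((τ.act t).f ≫ φ.f) x := by simp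
      rw [h1, hφ t]
    have := hAB Y (φ.f x)
    obtain ⟨g, hg⟩ := exists_genAt A (φ.f x)
    have h4 := h.ord_pull hAB hx' (g := g) (by rw [hpt]; exact hg)
    have h5 := h.ord_pull hAB hx hg
    rw [← τ.ord_act, τ.pull_mem hφ g t] at h4
    linarith
  · have hx' : coheight ((τ.act t).f x) ≠ 1 := by rwa [τ.coheight_act]
    rw [coef_of_ne hx, coef_of_ne hx']

end Torus

end Vale.Agent.P299.Q
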