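import Vale.Agent.P299.Q.Koszul
import Vale.Agent.P299.Q.Ample
import Vale.Agent.P299.Q.Strict

/-!
# Castelnuovo–Mumford regularity

Let `A` be ample and generated by the sections `s_1, …, s_N`, and let `F = (φ_* O_X(D))^T`. If
`H^i(Y, F(k - i)) = 0` for all `k ≥ 0` and `0 < i ≤ N` then `F` is generated by its global sections.
-/

open CategoryTheory TopologicalSpace Opposite TopCat AlgebraicGeometry Order

namespace Vale.Agent.P299.Q

open Vale.Agent.P299.G

/-- A base point free divisor is generated by finitely many sections. -/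
theorem exists_generators {Y : Var} {A : Div Y.X} (hA : IsGenerated A) :
    ∃ (N : ℕ) (s : Fin N → Y.K), (∀ j, s j ∈ H0 (coef A)) ∧ ∀ y : Y.X, ∃ j, GenAt A (s j) y := by
  classical
  choose g hg hgen using hA
  have key : ∀ y : Y.X, ∃ U : Y.X.Opens, y ∈ U ∧ ∀ z ∈ U, GenAt A (g y) z := fun y =>
    exists_genAt_nhds A y (hgen y)
  choose U hyU hU using key
  obtain ⟨t, ht⟩ := (isCompact_univ (X := Y.X)).elim_finite_subcover
    (fun y : Y.X => (U y : Set Y.X)) (fun y => (U y).isOpen)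
    (fun y _ => Set.mem_iUnion.2 ⟨y, hyU y⟩)
  refine ⟨t.card, fun j => g (t.equivFin.symm j).1, fun j => hg _, fun y => ?_⟩
  obtain ⟨z, hz, hyz⟩ := Set.mem_iUnion₂.1 (ht (Set.mem_univ y))
  refine ⟨t.equivFin ⟨z, hz⟩, ?_⟩
  change GenAt A (g (t.equivFin.symm (t.equivFin ⟨z, hz⟩)).1) y
  rw [Equiv.symm_apply_apply]
  exact hU z y hyz

/-- If the pull back of the section `s` of `O_Y(B)` generates at the prime divisor `x`, then `s`
generates at `φ(x)`. -/
theorem IsPullback.genAt_of_pull (hAB : FactorialStalks) {X Y : Var} {φ : DomHom X Y}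
    {B : Div Y.X} {D : Div X.X} (h : IsPullback φ B D) {x : X.X} (hx : coheight x = 1) {s : Y.K}
    (hs : s ∈ H0 (coef B)) (hgen : GenAt D (φ.pull s) x) : GenAt B s (φ.f x) := by
  have hs0 : s ≠ 0 := by
    rintro rfl
    exact hgen.1 (map_zero _)
  have := hAB Y (φ.f x)
  obtain ⟨g, hg⟩ := exists_genAt B (φ.f x)
  obtain ⟨a, ha⟩ := exists_of_forall_ord_nonneg Y.dvr (φ.f x) (s / g)
    (fun y hy hyx => by
      rw [ord_div hs0 hg.1 y]
      have h2 := hg.2 y hy hyx
      have h3 := (mem_H0.1 hs) y hy hs0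
      linarith)
  have h5 : s = toK (φ.f x) a * g := by rw [ha, div_mul_cancel₀ _ hg.1]
  have ha0 : a ≠ 0 := by
    rintro rfl
    rw [map_zero, zero_mul] at h5
    exact hs0 h5
  have h6 : φ.pull (toK (φ.f x) a) ≠ 0 := φ.pull_ne_zero (toK_ne_zero ha0)
  have h4 := h.ord_pull hAB hx hg
  have h7 : Scheme.ord (toK x (φ.stalk x a)) x = 0 := by
    have h8 := hgen.2 x hx (specializes_refl x)
    rw [h5, map_mul, Scheme.ord_mul h6 (φ.pull_ne_zero hg.1), h4, φ.pull_toK] at h8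
    linarith
  have h10 : φ.stalk x a ≠ 0 := by
    intro h0
    apply ha0
    apply φ.stalkMap_injective x
    rw [map_zero]
    exact h0
  have h9 : IsUnit (φ.stalk x a) :=
    Vale.Agent.P299.G.isUnit_of_ord_eq_zero X.dvr hx h10 h7
  have hau : IsUnit a := isUnit_of_map_unit (φ.f.stalkMap x).hom _ h9
  refine ⟨hs0, fun z hz hzx => ?_⟩
  rw [h5, Scheme.ord_mul (toK_ne_zero ha0) hg.1, ← toK_toStalk hzx,
    ord_toK_of_isUnit (hau.map (toStalk hzx)), zero_add]
  exact hg.2 z hz hzx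

section CM

variable {r N : ℕ} {X Y : Var}

/-- The stalk at `y`, in the function field of `X`, of the sheaf `(φ_* O_X(D))^T`. -/
noncomputable abbrev locSec (τ : TAct r X) (φ : DomHom X Y) (D : Div X.X) (y : Y.X) :
    Submodule ℂ X.K :=
  τ.inv ⊓ ⨅ x, ⨅ _ : φ.f x = y, polar (coef D) x

theorem mem_locSec {τ : TAct r X} {φ : DomHom X Y} {D : Div X.X} {y : Y.X} {f : X.K} :
    f ∈ locSec τ φ D y ↔ f ∈ τ.inv ∧ ∀ x, φ.f x = y → f ∈ polar (coef D) x := by
  rw [Submodule.mem_inf]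
  simp only [Submodule.mem_iInf]

variable (hAB : FactorialStalks) (τ : TAct r X) (φ : DomHom X Y) (hφ : τ.InvHom φ) (D : Div X.X)
  {A : Div Y.X} {A' : Div X.X} (hA' : IsPullback φ A A') (s : Fin N → Y.K)
  (hs : ∀ j, s j ∈ H0 (coef A)) (hgen : ∀ y : Y.X, ∃ j, GenAt A (s j) y)
  (hvan : ∀ k i : ℕ, 0 < i → i ≤ N → Subsingleton
    (Coh (secSheaf (S := (Y.X : TopCat.{0})) φ.f τ.inv (D + k • A' - i • A')) i))

include hAB hφ hA' hs hgen hvan

/-- The multiplication map `H^0(F(k))^N → H^0(F(k+1))` is surjective. -/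
theorem exists_of_mem_H0 (k : ℕ) (f : X.K) (hf : f ∈ τ.inv)
    (hfD : f ∈ H0 (coef (D + (k + 1) • A'))) :
    ∃ g : Fin N → X.K, (∀ j, g j ∈ τ.inv ∧ g j ∈ H0 (coef (D + k • A'))) ∧
      f = ∑ j, φ.pull (s j) * g j := by
  have : Nonempty ((Y.X : TopCat.{0}) : Type) := ⟨genericPoint Y.X⟩
  have hS : ∀ j, φ.pull (s j) ∈ H0 (coef A') := fun j => hA'.pull_mem_H0 hAB (hs j)
  obtain ⟨g, hg, hfg⟩ := koszul_surjective (T := (Y.X : TopCat.{0})) (K := X.K)
    (s := fun j => φ.pull (s j))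
    (M := fun p y => locSec τ φ (D + (k + 1) • A' - p • A') y)
    (fun p y f hf j => by
      rw [mem_locSec] at hf ⊢
      refine ⟨τ.mul_mem (τ.pull_mem hφ _) hf.1, fun x hx hx1 hne => ?_⟩
      have h1 := left_ne_zero_of_mul hne
      have h2 := right_ne_zero_of_mul hne
      have h3 := (mem_H0.1 (hS j)) x hx1 h1
      have h4 := hf.2 x hx hx1 h2
      rw [Scheme.ord_mul h1 h2]
      rw [coef_sub, coef_nsmul] at h4 ⊢
      push_cast at h4
      linarith)
    (fun y₀ => by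
      obtain ⟨j, hj⟩ := hgen y₀
      obtain ⟨V, hyV, hV⟩ := exists_genAt_nhds A y₀ hj
      refine ⟨V, hyV, j, φ.pull_ne_zero hj.1, fun p y hy f hf => ?_⟩
      rw [mem_locSec] at hf ⊢
      refine ⟨τ.mul_mem (τ.inv_mem (τ.pull_mem hφ _)) hf.1, fun x hx hx1 hne => ?_⟩
      have h2 := right_ne_zero_of_mul hne
      have h4 := hf.2 x hx hx1 h2
      have h5 : GenAt A' (φ.pull (s j)) x := hA'.genAt hAB (hV _ (by rw [hx]; exact hy))
      have h6 := h5.ord hx1
      rw [Scheme.ord_mul (inv_ne_zero h5.1) h2, ord_inv h5.1, h6]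
      rw [coef_sub, coef_nsmul] at h4 ⊢
      push_cast
      linarith)
    (fun i hi hiN => by
      have h := hvan k i hi hiN
      have e : D + (k + 1) • A' - (i + 1) • A' = D + k • A' - i • A' := by
        rw [add_smul k, add_smul i]
        abel
      change Subsingleton (Coh (secSheaf (S := (Y.X : TopCat.{0})) φ.f τ.inv
        (D + (k + 1) • A' - (i + 1) • A')) i)
      rw [e]
      exact h)
    f (fun y => by
      rw [mem_locSec]
      refine ⟨hf, fun x _ => ?_⟩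
      rw [zero_smul, sub_zero]
      exact mem_polar.2 fun hx1 hne => (mem_H0.1 hfD) x hx1 hne)
  refine ⟨g, fun j => ⟨((mem_locSec.1 (hg j (genericPoint Y.X))).1), ?_⟩, hfg⟩
  rw [mem_H0]
  intro x hx hne
  have h1 := (mem_locSec.1 (hg j (φ.f x))).2 x rfl hx hne
  have e : D + (k + 1) • A' - 1 • A' = D + k • A' := by
    rw [add_smul k]
    abel
  rw [e] at h1
  exact h1

/-- `H^0(F(k))` is generated by `H^0(O_Y(kA)) ⊗ H^0(F)`. -/
theorem mem_span_of_mem_H0 (k : ℕ) (f : X.K) (hf : f ∈ τ.inv)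
    (hfD : f ∈ H0 (coef (D + k • A'))) :
    f ∈ Submodule.span ℂ {h : X.K | ∃ u ∈ H0 (coef (k • A)), ∃ g ∈ τ.inv,
      g ∈ H0 (coef D) ∧ h = φ.pull u * g} := by
  induction k generalizing f with
  | zero =>
    rw [zero_smul, add_zero] at hfD
    refine Submodule.subset_span ⟨1, ?_, f, hf, hfD, by rw [map_one, one_mul]⟩
    rw [mem_H0]
    intro y _ _
    rw [ord_one, zero_smul, coef_zero, add_zero]
  | succ k ih =>
    obtain ⟨g, hg, rfl⟩ := exists_of_mem_H0 hAB τ φ hφ D hA' s hs hgen hvan k f hf hfD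
    refine Submodule.sum_mem _ fun j _ => ?_
    have h1 := ih (g j) (hg j).1 (hg j).2
    refine Submodule.span_induction (p := fun h _ => φ.pull (s j) * h ∈ Submodule.span ℂ
      {h : X.K | ∃ u ∈ H0 (coef ((k + 1) • A)), ∃ g ∈ τ.inv, g ∈ H0 (coef D) ∧
        h = φ.pull u * g}) ?_ ?_ ?_ ?_ h1
    · rintro _ ⟨u, hu, g, hg, hgD, rfl⟩
      refine Submodule.subset_span ⟨u * s j, ?_, g, hg, hgD, ?_⟩
      · have := H0_mul hu (hs j)
        rwa [succ_nsmul]
      · rw [map_mul]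
        ring
    · rw [mul_zero]
      exact Submodule.zero_mem _
    · intro a b _ _ ha hb
      rw [mul_add]
      exact Submodule.add_mem _ ha hb
    · intro c a _ ha
      rw [mul_smul_comm]
      exact Submodule.smul_mem _ c ha

/-- **Castelnuovo–Mumford regularity** [Mumford; Lazarsfeld, Positivity I, Theorem 1.8.5]. -/
theorem castelnuovo_mumford (hA : IsAmple A) (y : Y.X) (U : Y.X.Opens) (hyU : y ∈ U) (f : X.K)
    (hf : f ∈ τ.inv) (hfU : ∀ x : X.X, φ.f x ∈ U → f ∈ polar (coef D) x) :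
    ∃ (n : ℕ) (a : Fin n → Y.X.presheaf.stalk y) (s : Fin n → X.K),
      (∀ j, s j ∈ τ.inv ∧ s j ∈ H0 (coef D)) ∧
      f = ∑ j, φ.pull (algebraMap _ Y.K (a j)) * s j := by
  by_cases hf0 : f = 0
  · exact ⟨0, Fin.elim0, Fin.elim0, fun j => j.elim0, by rw [hf0]; simp⟩
  obtain ⟨m, hm, t, ht, V, -, hyV, hVU, hV⟩ := hA.exists_small (hAB Y) y U hyU
  have hty : GenAt (m • A) t y := (hV y).1 hyV
  have hmA' : IsPullback φ (m • A) (m • A') := hA'.nsmul m
  have htp : φ.pull t ∈ H0 (coef (m • A')) := hmA'.pull_mem_H0 hAB ht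
  have htp0 : φ.pull t ≠ 0 := φ.pull_ne_zero hty.1
  have hfin : {z : X.X | Scheme.ord f z + coef D z ≠ 0}.Finite := by
    refine ((finite_ord_ne_zero f hf0).union (finite_coef D)).subset fun z hz => ?_
    by_contra hc
    simp only [Set.mem_union, Set.mem_ofPred_eq, not_or, not_not] at hc
    rw [Set.mem_ofPred_eq, hc.1, hc.2] at hz
    exact hz (by norm_num)
  obtain ⟨k, hk, hkb⟩ := exists_bound hfin
  obtain ⟨h1, -⟩ := mul_pow_section (A := m • A') (D := D) (s := φ.pull t) (g := f)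
    (U := {z | GenAt (m • A') (φ.pull t) z})
    (V := {z | GenAt (m • A') (φ.pull t) z ∧ GenAt D f z}) (k := k)
    (fun z hz => hz.1) htp htp0 (fun z => Iff.rfl) hf0
    (fun z hz hz1 => hfU z (hVU ((hV _).2 (hmA'.genAt_of_pull hAB hz1 ht hz))) hz1 hf0)
    (fun z hz => ⟨fun h => h.2, fun h => ⟨hz, h⟩⟩) hkb
  rw [← mul_smul] at h1
  have h2 := mem_span_of_mem_H0 hAB τ φ hφ D hA' s hs hgen hvan (k * m) (f * φ.pull t ^ k)
    (τ.mul_mem hf (τ.pow_mem (τ.pull_mem hφ t) k)) h1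
  have key : ∀ h ∈ Submodule.span ℂ {h : X.K | ∃ u ∈ H0 (coef ((k * m) • A)), ∃ g ∈ τ.inv,
      g ∈ H0 (coef D) ∧ h = φ.pull u * g},
      ∃ (n : ℕ) (a : Fin n → Y.X.presheaf.stalk y) (s : Fin n → X.K),
        (∀ j, s j ∈ τ.inv ∧ s j ∈ H0 (coef D)) ∧
        h / φ.pull t ^ k = ∑ j, φ.pull (algebraMap _ Y.K (a j)) * s j := by
    intro h hh
    refine Submodule.span_induction (p := fun h _ =>
      ∃ (n : ℕ) (a : Fin n → Y.X.presheaf.stalk y) (s : Fin n → X.K),
        (∀ j, s j ∈ τ.inv ∧ s j ∈ H0 (coef D)) ∧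
        h / φ.pull t ^ k = ∑ j, φ.pull (algebraMap _ Y.K (a j)) * s j) ?_ ?_ ?_ ?_ hh
    · rintro _ ⟨u, hu, g, hg, hgD, rfl⟩
      have := hAB Y y
      obtain ⟨a, ha⟩ := exists_of_forall_ord_nonneg Y.dvr y (u / t ^ k) (fun z hz hzy => by
        by_cases hu0 : u = 0
        · rw [hu0, zero_div, Scheme.ord_zero]
          simp
        rw [ord_div hu0 (pow_ne_zero _ hty.1) z, ord_pow hty.1]
        have h3 := hty.2 z hz hzy
        have h4 := (mem_H0.1 hu) z hz hu0
        rw [coef_nsmul] at h3 h4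
        push_cast at h4
        have h5 : Scheme.ord t z = -(m * coef A z) := by linarith
        rw [h5]
        linarith)
      refine ⟨1, fun _ => a, fun _ => g, fun _ => ⟨hg, hgD⟩, ?_⟩
      rw [Fin.sum_univ_one]
      have h5 : algebraMap (Y.X.presheaf.stalk y) Y.K a = u / t ^ k := ha
      rw [h5, map_div₀, map_pow]
      ring
    · exact ⟨0, Fin.elim0, Fin.elim0, fun j => j.elim0, by simp⟩
    · rintro h h' - - ⟨n, a, s, hs, h1⟩ ⟨n', a', s', hs', h1'⟩
      refine ⟨n + n', Fin.append a a', Fin.append s s', fun j => ?_, ?_⟩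
      · refine Fin.addCases (fun j => ?_) (fun j => ?_) j
        · rw [Fin.append_left]
          exact hs j
        · rw [Fin.append_right]
          exact hs' j
      · rw [Fin.sum_univ_add, add_div, h1, h1']
        simp only [Fin.append_left, Fin.append_right]
    · rintro c h - ⟨n, a, s, hs, h1⟩
      refine ⟨n, a, fun j => c • s j, fun j => ⟨Submodule.smul_mem _ c (hs j).1,
        Submodule.smul_mem _ c (hs j).2⟩, ?_⟩
      rw [smul_div_assoc, h1, Finset.smul_sum]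
      exact Finset.sum_congr rfl fun j _ => (mul_smul_comm _ _ _).symm
  obtain ⟨n, a, u, hu, h3⟩ := key _ h2
  refine ⟨n, a, u, hu, ?_⟩
  rw [← h3, mul_div_cancel_right₀ _ (pow_ne_zero _ htp0)]

end CM

end Vale.Agent.P299.Q
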