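import Vale.Agent.P299.Q.Torus

/-!
# The published theorems used in the proof, as propositions

Throughout `T = (ℂ^*)^r` is a torus acting algebraically; `r = 0` is the case without group.
-/

open CategoryTheory TopologicalSpace Opposite TopCat AlgebraicGeometry Order

namespace Vale.Agent.P299.Q

/-- A dominant morphism is birational if it induces an isomorphism of function fields. -/
def DomHom.Birational {X Y : Var} (φ : DomHom X Y) : Prop := Function.Bijective φ.pull

/-! ### Elementary facts on divisors -/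

/-- [Auslander–Buchsbaum] The local rings of a smooth variety are factorial. -/
def FactorialStalks : Prop :=
  ∀ (X : Var) (x : X.X), UniqueFactorizationMonoid (X.X.presheaf.stalk x)

/-- [Hartshorne II.7.5, II.7.6] If `A` is ample and `D` any divisor, then `mA + D` is ample and
generated by global sections for all large `m`; the sum of two ample divisors is ample. -/
def AmpleFacts : Prop :=
  ∀ (X : Var) (A : Div X.X), IsAmple A →
    (∀ D : Div X.X, ∃ m₀ : ℕ, ∀ m ≥ m₀, IsAmple (m • A + D) ∧ IsGenerated (m • A + D)) ∧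
    ∀ B : Div X.X, IsAmple B → IsAmple (A + B)

/-- [Kleiman] The pull back of a nef divisor is nef. -/
def NefPullback : Prop :=
  ∀ (X Y : Var) (φ : DomHom X Y) (D : Div Y.X) (D' : Div X.X), IsPullback φ D D' → IsNef D →
    IsNef D'

/-- [Kodaira's lemma] The pull back of an ample divisor under a birational morphism is big. -/
def KodairaLemma : Prop :=
  ∀ (X Y : Var) (μ : DomHom X Y), μ.Birational → ∀ (H : Div Y.X) (H' : Div X.X),
    IsPullback μ H H' → IsAmple H → IsBig H'

/-- A nonzero rational section of `(Ω^1_X)^{⊗N}` has a divisor. -/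
def TensorDivisor : Prop :=
  ∀ (X : Var) (N : ℕ) (e : X.Ten N), e ≠ 0 → ∃ D : Div X.X, IsDivTensor e D

/-! ### Intersection numbers -/

/-- [Kleiman, Toward a numerical theory of ampleness, Ch. I] The basic properties of intersection
numbers. -/
def IntersectionTheory : Prop :=
  -- multilinearity
  (∀ X : Var, ∃ I : MultilinearMap ℤ (fun _ : Fin X.dim => Div X.X) ℤ, ∀ D, I D = inter D) ∧
  -- invariance under linear equivalence
  (∀ (X : Var) (D : Fin X.dim → Div X.X) (i : Fin X.dim) (g : X.K),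
    IsDivOf g (D i) → inter D = 0) ∧
  -- positivity
  (∀ (X : Var) (D : Fin X.dim → Div X.X) (i : Fin X.dim), 0 ≤ D i → (∀ j ≠ i, IsNef (D j)) →
    0 ≤ inter D) ∧
  (∀ (X : Var) (D : Fin X.dim → Div X.X), (∀ j, IsNef (D j)) → 0 ≤ inter D) ∧
  (∀ (X : Var) (H : Div X.X), IsAmple H → 0 < inter (fun _ : Fin X.dim => H)) ∧
  -- projection formula for a birational morphism
  (∀ (X Y : Var) (μ : DomHom X Y), μ.Birational → ∀ (h : X.dim = Y.dim)
    (D : Fin Y.dim → Div Y.X) (D' : Fin X.dim → Div X.X),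
    (∀ i, IsPullback μ (D (Fin.cast h i)) (D' i)) → inter D' = inter D) ∧
  (∀ (X Y : Var) (μ : DomHom X Y), μ.Birational → ∀ (D : Fin X.dim → Div X.X) (i : Fin X.dim),
    (∀ x : X.X, coef (D i) x ≠ 0 → coheight (μ.f x) ≠ 1) →
    (∀ j ≠ i, ∃ B : Div Y.X, IsPullback μ B (D j)) → inter D = 0)

/-- [Siu, An effective Matsusaka big theorem; Lazarsfeld, Positivity I, Theorem 2.2.15] If `N` and
`B` are nef and `N^n > n N^{n-1}·B`, then `N - B` is big. -/
def SiuCriterion : Prop :=
  ∀ (X : Var) (N B : Div X.X) (i : Fin X.dim), IsNef N → IsNef B →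
    (X.dim : ℤ) * inter (Function.update (fun _ => N) i B) < inter (fun _ : Fin X.dim => N) →
    IsBig (N - B)

/-! ### Cohomology -/

/-- [Snapper; Kleiman, Ch. I.1] The Euler characteristic of a coherent sheaf twisted by the powers
of a line bundle is a polynomial, for the sheaf `(φ_* O_X(D))^T`. -/
def SnapperTheoremAt (r : ℕ) : Prop :=
  ∀ (X Y : Var) (τ : TAct r X) (φ : DomHom X Y), τ.InvHom φ →
    ∀ (D : Div X.X) (M : Div Y.X) (M' : Div X.X), τ.InvDiv D → IsPullback φ M M' →
    ∃ p : Polynomial ℚ, ∀ k : ℕ,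
      ∑ i ∈ Finset.range (Y.dim + 1), (-1 : ℚ) ^ i * τ.hY φ (D + k • M') i = p.eval (k : ℚ)

/-- [Castelnuovo–Mumford; Lazarsfeld, Positivity I, Theorem 1.8.5] Let `A` be ample and generated
by its sections. If `H^i(Y, F ⊗ O(-iA)) = 0` for all `0 < i ≤ dim Y`, then `F` is generated by global
sections, for the sheaf `F = (φ_* O_X(D))^T`. -/
def CastelnuovoMumford (r : ℕ) : Prop :=
  ∀ (X Y : Var) (τ : TAct r X) (φ : DomHom X Y), τ.InvHom φ →
    ∀ (D : Div X.X) (A : Div Y.X) (A' : Div X.X), τ.InvDiv D → IsPullback φ A A' → IsAmple A →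
    IsGenerated A → (∀ i : ℕ, 0 < i → i ≤ Y.dim → τ.hY φ (D - i • A') i = 0) →
    ∀ (y : Y.X) (U : Y.X.Opens), y ∈ U → ∀ f ∈ τ.inv,
      (∀ x : X.X, φ.f x ∈ U → f ∈ polar (coef D) x) →
      ∃ (n : ℕ) (a : Fin n → Y.X.presheaf.stalk y) (s : Fin n → X.K),
        (∀ j, s j ∈ τ.inv ∧ s j ∈ H0 (coef D)) ∧
        f = ∑ j, φ.pull (algebraMap _ Y.K (a j)) * s j

/-- [Kollár; Ohsawa; Fujino–Matsumura, Injectivity theorem for pseudo-effective line bundles and its
applications, Theorem D] Kollár–Nadel vanishing: let `S` be a divisor on `X` with a smooth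
semipositive metric, `M` nef and `A` ample on `Y`, and suppose that `c(S + φ^*M) - φ^*A` is
pseudo-effective for some `c > 0`. Then `H^i(Y, φ_*(K_X + S + φ^*M)) = 0` for all `i > 0`; here for
the direct summand of the `T`-invariants. -/
def KollarNadelVanishingAt (r : ℕ) : Prop :=
  ∀ (X Y : Var) (τ : TAct r X) (φ : DomHom X Y), τ.InvHom φ →
    ∀ (κ S : Div X.X) (M A : Div Y.X) (M' A' : Div X.X), τ.IsCanonical κ → τ.InvDiv κ →
    τ.InvDiv S → SemiPos S → IsNef M → IsAmple A → IsPullback φ M M' → IsPullback φ A A' →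
    (∃ c : ℕ, 0 < c ∧ IsPsef (c • (S + M') - A')) →
    ∀ i > 0, Subsingleton
      (Coh (secSheaf (S := (Y.X : TopCat.{0})) φ.f τ.inv (κ + S + M')) i)

/-- [Enoki, Takegoshi, Mourougane; Demailly–Peternell–Schneider, Pseudo-effective line bundles on
compact Kähler manifolds, Theorem 2.1.1] Hard Lefschetz: if `S` has a smooth semipositive metric
then `H^0(X, Ω^{n-i} ⊗ S) → H^i(X, K_X + S)` is surjective, and it commutes with `T` for a suitable
choice of the metrics; hence the same for the `T`-invariants. -/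
def HardLefschetzAt (r : ℕ) : Prop :=
  ∀ (X : Var) (τ : TAct r X) (κ S : Div X.X), τ.IsCanonical κ → τ.InvDiv κ →
    τ.InvDiv S → SemiPos S → ∀ i : ℕ, τ.h (κ + S) i ≠ 0 →
    ∃ p : ℕ, p + i = X.dim ∧ ∃ e : X.Ten p, e ≠ 0 ∧ IsAlt e ∧ τ.InvTensor e ∧ IsTwTensor e S

/-- [Kawamata; Viehweg; Grauert–Riemenschneider] If `S` is nef and `S^n > 0` then
`H^i(X, K_X + S) = 0` for `i > 0`; in particular for the `T`-invariants. -/
def KawamataViehwegAt (r : ℕ) : Prop :=
  ∀ (X : Var) (τ : TAct r X) (κ S : Div X.X), τ.IsCanonical κ → τ.InvDiv κ →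
    τ.InvDiv S → IsNef S → 0 < inter (fun _ : Fin X.dim => S) → ∀ i > 0, τ.h (κ + S) i = 0

/-! ### Positivity -/

/-- [Kodaira; Demailly] A divisor with a smooth semipositive metric is nef. -/
def SemiPosNef : Prop := ∀ (X : Var) (D : Div X.X), SemiPos D → IsNef D

/-- [Cao; Ou, Generic nefness of tangent sheaves; with Mehta–Ramanathan] If `-K_X` is nef, the
tensor powers of the tangent bundle are generically nef: a section of `(Ω^1_X)^{⊗N} ⊗ O(-D)` can
exist only if `D·H^{n-1} ≤ 0` for all ample `H`. -/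
def GenericNefness : Prop :=
  ∀ (X : Var) (τ : TAct 0 X) (κ : Div X.X), τ.IsCanonical κ → IsNef (-κ) →
    ∀ (N : ℕ) (e : X.Ten N) (D H : Div X.X), e ≠ 0 → IsTwTensor e (-D) → IsAmple H →
    ∀ i : Fin X.dim, inter (Function.update (fun _ => H) i D) ≤ 0

/-- [Nakayama, Zariski-decomposition and abundance, III.1, V.1; Ein–Lazarsfeld–Mustață–Nakamaye–
Popa, Asymptotic invariants of base loci] If the order of vanishing of the linear systems
`|jD + B|` along every prime divisor over `Y` is bounded as `j → ∞`, then `D` is nef. -/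
def NakayamaCriterion : Prop :=
  ∀ (Y : Var) (D B : Div Y.X),
    (∀ (Y' : Var) (p : DomHom Y' Y), p.Birational → ∀ G : Y'.X, coheight G = 1 → ∃ c : ℤ,
      ∀ j : ℕ, ∃ s ∈ H0 (coef (j • D + B)), s ≠ 0 ∧ ∀ P : Div Y'.X,
        IsPullback p (j • D + B) P → Scheme.ord (p.pull s) G + coef P G ≤ c) →
    IsNef D

/-! ### Models -/

/-- [Hironaka; Raynaud–Gruson; Sumihiro, Kollár] The flattening theorem with resolution of
singularities. Let `T` act on `Z` and let `k` be a subfield of the field of `T`-invariant rational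
functions on `Z`. There are a smooth projective variety `Y` with function field `k`, a normal
projective `T`-variety `Z₁` with a birational equivariant morphism `Z₁ → Z` and an equidimensional
morphism `Z₁ → Y`, and an equivariant resolution of singularities `Z' → Z₁`. The set `W` consists
of the points of codimension one of `Z'` which are not contracted by `Z' → Z₁`. The property `star`
holds since a Cartier divisor on the normal variety `Z₁` is effective if its coefficients
are `≥ 0`, and then so is its pull back to `Z'`. -/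
def FlatModelsAt (r : ℕ) : Prop :=
  ∀ (Z : Var) (τ : TAct r Z) (κ : Div Z.X), τ.IsCanonical κ → τ.InvDiv κ →
    ∀ k : IntermediateField ℂ Z.K, (∀ f ∈ k, f ∈ τ.inv) →
    ∃ (Y Z' : Var) (τ' : TAct r Z') (μ : DomHom Z' Z) (φ : DomHom Z' Y) (W : Set Z'.X)
      (κ' κ₀ E : Div Z'.X),
      μ.Birational ∧ (∀ t, (τ'.act t).f ≫ μ.f = μ.f ≫ (τ.act t).f) ∧ τ'.InvHom φ ∧
      (∀ g : Z.K, g ∈ k ↔ ∃ h : Y.K, φ.pull h = μ.pull g) ∧
      (∀ x ∈ W, coheight x = 1 ∧ coheight (φ.f x) ≤ 1) ∧
      (∀ y : Y.X, coheight y = 1 → ∃ x ∈ W, φ.f x = y) ∧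
      -- star
      (∀ (s : Div Z.X) (s' : Div Z'.X) (R : Div Y.X) (R' : Div Z'.X), IsPullback μ s s' →
        IsPullback φ R R' → (∀ x ∈ W, coef R' x ≤ coef s' x) → R' ≤ s') ∧
      -- the relative canonical divisor is effective and exceptional
      τ'.IsCanonical κ' ∧ τ'.InvDiv κ' ∧ IsPullback μ κ κ₀ ∧ κ' = κ₀ + E ∧ 0 ≤ E ∧
      (∀ x : Z'.X, coheight (μ.f x) = 1 → coef E x = 0)

end Vale.Agent.P299.Q
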