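import Mathlib.AlgebraicGeometry.Morphisms.Etale
import Mathlib.AlgebraicGeometry.Morphisms.Finite
import Vale.Agent.P299.Q.BB

/-!
# The published theorems used for the reduction to rationally connected varieties and for the index
-/

open CategoryTheory TopologicalSpace Opposite TopCat AlgebraicGeometry Order

namespace Vale.Agent.P299.Q

/-- `κ` is a canonical divisor of `X`: the divisor of a nonzero rational differential form of
degree `dim X`. -/
def IsCanonicalDivisor {X : Var} (κ : Div X.X) : Prop :=
  ∃ ω : X.Ten X.dim, ω ≠ 0 ∧ IsAlt ω ∧ IsDivTensor ω κ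

/-- The action is effective: only `t = 1` acts as the identity. -/
def TAct.Effective {r : ℕ} {X : Var} (τ : TAct r X) : Prop :=
  ∀ t, (τ.act t).f = 𝟙 X.X → t = 1

/-- [Demailly–Peternell–Schneider 1996; Campana–Demailly–Peternell, Rationally connected manifolds
and semipositivity of the Ricci curvature, Theorem 1.4] The structure theorem. Let `-K_X` have a
smooth semipositive metric. After a finite étale cover `Xc → X` there is a locally trivial fibre
bundle `Xc → B` over a smooth projective variety `B` with trivial canonical bundle (`B` is the
quotient by the deck transformations of the product of `ℂ^q` with the Calabi–Yau and hyperkähler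
factors of the universal cover), whose fibre is the product `Z` of the rationally connected factors,
such that `-K_Z` has a smooth semipositive metric. The deck transformations act on `Z` by
isometries; so (after a further finite cover) the structure group is a torus `T` acting effectively
on `Z`. Hence the `T`-invariant rational functions `f` on `Z` are rational functions `ι f` on `Xc`,
constant along the leaves transverse to the fibres, and the `T`-invariant sections of `-mK_Z` are
sections of `-mK_Xc = -mK_{Xc/B}`; in terms of rational functions this identification is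
multiplication by `g^m`, if `g` is the quotient of the rational differential forms of top degree on
`Xc` which are used to represent the two sides. -/
def StructureTheorem : Prop :=
  ∀ (X : Var) (κ : Div X.X), IsCanonicalDivisor κ → SemiPos (-κ) →
    ∃ (Xc : Var) (π : DomHom Xc X) (Z : Var) (r : ℕ) (τ : TAct r Z) (κZ : Div Z.X)
      (κc : Div Xc.X) (ι : τ.inv →ₗ[ℂ] Xc.K) (g : Xc.K),
      IsFinite π.f ∧ Etale π.f ∧ IsPullback π κ κc ∧
      τ.Effective ∧ τ.IsCanonical κZ ∧ τ.InvDiv κZ ∧ SemiPos (-κZ) ∧
      (∀ i > 0, τ.h 0 i = 0) ∧
      (∀ f, ι f = 0 → f = 0) ∧ g ≠ 0 ∧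
      ∀ (m : ℕ) (f : τ.inv), f.1 ∈ H0 (coef (m • -κZ)) → g ^ m * ι f ∈ H0 (coef (m • -κc))

/-- [Teleman, The quantization conjecture revisited, Theorem 3.2 and Section 5; Mumford; Kempf;
Snapper] The index of the `T`-invariant part of the powers of the anticanonical bundle. Let a torus
`T` act effectively on `X`, with `-K_X` nef. Then for a generic `T`-linearised ample bundle `H` and
`ε > 0` small, the semistable locus of `-K_X + εH` is nonempty, equal to the stable locus, and
independent of `ε`, all the line bundles `-kK_X`, `k ≥ 0`, are adapted to its Kempf–Ness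
stratification and, for suitable `N > 0`, `-NK_X` descends to the projective geometric quotient `Q`.
So `H^i(X, -kNK_X)^T = H^i(Q, L_Q^k)` and the Euler characteristic is a polynomial in `k ≥ 0`. -/
def InvariantIndex : Prop :=
  ∀ (r : ℕ) (X : Var) (τ : TAct r X) (κ : Div X.X), τ.Effective → τ.IsCanonical κ → τ.InvDiv κ →
    IsNef (-κ) →
    ∃ (N : ℕ) (p : Polynomial ℚ), 0 < N ∧ ∀ k : ℕ,
      ∑ i ∈ Finset.range (X.dim + 1), (-1 : ℚ) ^ i * τ.h (k • (N • -κ)) i = p.eval (k : ℚ)

/-- The statement Q1: if `-K_X` has a smooth Hermitian metric of semipositive curvature, then some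
positive multiple of `-K_X` has a nonzero section. -/
def AnticanonicalNonvanishing : Prop :=
  ∀ (X : Var) (κ : Div X.X), IsCanonicalDivisor κ → SemiPos (-κ) →
    ∃ m : ℕ, 0 < m ∧ H0 (coef (m • -κ)) ≠ ⊥

end Vale.Agent.P299.Q
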