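import Mathlib.RingTheory.Etale.Kaehler
import Mathlib.RingTheory.Kaehler.Polynomial
import Mathlib.RingTheory.Unramified.LocalStructure
import Mathlib.RingTheory.Localization.FractionRing

/-!
# Étale coordinates and the dual derivations
-/

open TensorProduct KaehlerDifferential

namespace Vale.Agent.P299.Q

section Etale

variable (k : Type*) [Field k] (n : ℕ) (B : Type*) [CommRing B] [Algebra k B]
  [Algebra (MvPolynomial (Fin n) k) B] [IsScalarTower k (MvPolynomial (Fin n) k) B]
  [Algebra.FormallyEtale (MvPolynomial (Fin n) k) B]

/-- The basis `dx_1, …, dx_n` of the differentials of an algebra étale over a polynomial ring. -/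
noncomputable def etaleBasis : Module.Basis (Fin n) B Ω[B⁄k] :=
  ((mvPolynomialBasis k (Fin n)).baseChange B).map
    (tensorKaehlerEquivOfFormallyEtale k (MvPolynomial (Fin n) k) B)

theorem etaleBasis_apply (i : Fin n) : etaleBasis k n B i =
    D k B (algebraMap (MvPolynomial (Fin n) k) B (MvPolynomial.X i)) := by
  rw [etaleBasis, Module.Basis.map_apply, Module.Basis.baseChange_apply,
    ← LinearEquiv.eq_symm_apply, tensorKaehlerEquivOfFormallyEtale_symm_D_algebraMap]
  simp

/-- The derivations `∂/∂x_i`. -/
noncomputable def partialDer (i : Fin n) : Derivation k B B :=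
  ((etaleBasis k n B).coord i).compDer (D k B)

theorem partialDer_apply (i j : Fin n) : partialDer k n B i
    (algebraMap (MvPolynomial (Fin n) k) B (MvPolynomial.X j)) = if i = j then 1 else 0 := by
  change (etaleBasis k n B).coord i (D k B _) = _
  rw [← etaleBasis_apply, Module.Basis.coord_apply, Module.Basis.repr_self, Finsupp.single_apply]
  simp [eq_comm]

variable {k n B}

/-- A derivation is determined by its values on the coordinates. -/
theorem der_eq_of_coord {M : Type*} [AddCommGroup M] [Module B M] [Module k M]
    [IsScalarTower k B M] {d d' : Derivation k B M}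
    (h : ∀ j, d (algebraMap (MvPolynomial (Fin n) k) B (MvPolynomial.X j)) =
      d' (algebraMap (MvPolynomial (Fin n) k) B (MvPolynomial.X j))) : d = d' := by
  have h1 : d.liftKaehlerDifferential = d'.liftKaehlerDifferential := by
    refine (etaleBasis k n B).ext fun j => ?_
    rw [etaleBasis_apply, Derivation.liftKaehlerDifferential_comp_D,
      Derivation.liftKaehlerDifferential_comp_D, h]
  ext b
  rw [← Derivation.liftKaehlerDifferential_comp_D d b,
    ← Derivation.liftKaehlerDifferential_comp_D d' b, h1]

end Etale

/-- Local coordinates of a smooth algebra and the dual derivations of the field of fractions. -/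
theorem exists_frame_algebra (k A B K : Type*) [Field k] [CommRing A] [Algebra k A]
    [Algebra.Smooth k A] (p : Ideal A) [p.IsPrime] [CommRing B] [Algebra A B]
    [IsLocalization.AtPrime B p] [Algebra k B] [IsScalarTower k A B] [Field K] [Algebra B K]
    [IsFractionRing B K] [Algebra k K] [IsScalarTower k B K] :
    ∃ (n : ℕ) (t : Fin n → B) (w : Fin n → Derivation k K K),
      (∀ i j, w i (algebraMap B K (t j)) = if i = j then 1 else 0) ∧
      (∀ i b, ∃ b', w i (algebraMap B K b) = algebraMap B K b') ∧
      ∀ d d' : Derivation k K K, (∀ j, d (algebraMap B K (t j)) = d' (algebraMap B K (t j))) →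
        d = d' := by
  obtain ⟨f, hf, n, alg, tower, std⟩ :=
    Algebra.IsSmoothAt.exists_isStandardEtale_mvPolynomial (R := k) (p := p)
  have hle : Submonoid.powers f ≤ p.primeCompl := by
    rw [Submonoid.powers_le]
    exact hf
  let _ := IsLocalization.localizationAlgebraOfSubmonoidLe (Localization.Away f) B
    (.powers f) p.primeCompl hle
  have := IsLocalization.localization_isScalarTower_of_submonoid_le (Localization.Away f) B
    (.powers f) p.primeCompl hle
  have hloc := IsLocalization.isLocalization_of_submonoid_le (Localization.Away f) B
    (.powers f) p.primeCompl hle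
  let _ : Algebra (MvPolynomial (Fin n) k) B :=
    ((algebraMap (Localization.Away f) B).comp
      (algebraMap (MvPolynomial (Fin n) k) (Localization.Away f))).toAlgebra
  have t1 : IsScalarTower (MvPolynomial (Fin n) k) (Localization.Away f) B :=
    IsScalarTower.of_algebraMap_eq' rfl
  have t2 : IsScalarTower k (MvPolynomial (Fin n) k) B := by
    refine IsScalarTower.of_algebraMap_eq fun c => ?_
    rw [IsScalarTower.algebraMap_apply (MvPolynomial (Fin n) k) (Localization.Away f) B,
      ← IsScalarTower.algebraMap_apply k (MvPolynomial (Fin n) k) (Localization.Away f),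
      IsScalarTower.algebraMap_apply k A (Localization.Away f),
      ← IsScalarTower.algebraMap_apply A (Localization.Away f) B,
      ← IsScalarTower.algebraMap_apply k A B]
  have e1 : Algebra.FormallyEtale (Localization.Away f) B :=
    Algebra.FormallyEtale.of_isLocalization
      (p.primeCompl.map (algebraMap A (Localization.Away f)))
  have e2 : Algebra.FormallyEtale (MvPolynomial (Fin n) k) B :=
    Algebra.FormallyEtale.comp (MvPolynomial (Fin n) k) (Localization.Away f) B
  let _ : Algebra (MvPolynomial (Fin n) k) K :=
    ((algebraMap B K).comp (algebraMap (MvPolynomial (Fin n) k) B)).toAlgebra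
  have t3 : IsScalarTower (MvPolynomial (Fin n) k) B K :=
    IsScalarTower.of_algebraMap_eq' rfl
  have t4 : IsScalarTower k (MvPolynomial (Fin n) k) K := by
    refine IsScalarTower.of_algebraMap_eq fun c => ?_
    rw [IsScalarTower.algebraMap_apply (MvPolynomial (Fin n) k) B K,
      ← IsScalarTower.algebraMap_apply k (MvPolynomial (Fin n) k) B,
      ← IsScalarTower.algebraMap_apply k B K]
  have e3 : Algebra.FormallyEtale B K := Algebra.FormallyEtale.of_isLocalization (nonZeroDivisors B)
  have e4 : Algebra.FormallyEtale (MvPolynomial (Fin n) k) K :=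
    Algebra.FormallyEtale.comp (MvPolynomial (Fin n) k) B K
  have hX : ∀ j : Fin n, algebraMap B K
      (algebraMap (MvPolynomial (Fin n) k) B (MvPolynomial.X j)) =
      algebraMap (MvPolynomial (Fin n) k) K (MvPolynomial.X j) := fun j =>
    (IsScalarTower.algebraMap_apply _ _ _ _).symm
  refine ⟨n, fun j => algebraMap (MvPolynomial (Fin n) k) B (MvPolynomial.X j),
    partialDer k n K, fun i j => ?_, fun i b => ?_, fun d d' h => ?_⟩
  · rw [hX, partialDer_apply]
  · refine ⟨partialDer k n B i b, ?_⟩
    have h1 : (partialDer k n K i).compAlgebraMap B =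
        (Algebra.linearMap B K).compDer (partialDer k n B i) := by
      refine der_eq_of_coord (n := n) fun j => ?_
      change partialDer k n K i (algebraMap B K _) = algebraMap B K (partialDer k n B i _)
      rw [hX, partialDer_apply, partialDer_apply]
      split_ifs
      · rw [map_one]
      · rw [map_zero]
    exact congrArg (fun d => d b) h1
  · refine der_eq_of_coord (n := n) fun j => ?_
    rw [← hX]
    exact h j

end Vale.Agent.P299.Q
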