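import Mathlib.LinearAlgebra.Determinant
import Mathlib.LinearAlgebra.Alternating.Basic
import Vale.Agent.P299.Q.Tensor
import Vale.Agent.P299.Q.FrameAlg
import Vale.Agent.P299.Q.BB2

/-!
# Local frames of vector fields and local generators of the canonical bundle
-/

open CategoryTheory TopologicalSpace Opposite TopCat AlgebraicGeometry Order

namespace Vale.Agent.P299.Q

variable {X : Var}

theorem cst_smooth (U : X.X.Opens) (hU : IsAffineOpen U) :
    (cst U : ℂ →+* Γ(X.X, U)).Smooth := by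
  have h1 := (X.X ↘ SpecC).smooth_appLE (isAffineOpen_top SpecC) hU (le_top)
  have h2 : (cst U : ℂ →+* Γ(X.X, U)) = ((X.X ↘ SpecC).appLE ⊤ U le_top).hom.comp
      (Scheme.ΓSpecIso (CommRingCat.of ℂ)).inv.hom := by
    ext c
    rfl
  rw [h2]
  refine RingHom.Smooth.comp (RingHom.Smooth.of_bijective ?_) h1
  exact (Scheme.ΓSpecIso (CommRingCat.of ℂ)).symm.commRingCatIsoToRingEquiv.bijective

/-- At every point of a smooth variety there are local coordinates `t_1, …, t_n` and regular vector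
fields `∂/∂t_1, …, ∂/∂t_n`, which are a frame of the rational vector fields. -/
theorem exists_frame_at' (X : Var) (y : X.X) : ∃ (n : ℕ) (t : Fin n → X.K) (w : Fin n → X.Der),
    (∀ j, t j ∈ locRing X y) ∧ (∀ i, RegDer y (w i)) ∧
    (∀ i j, w i (t j) = if i = j then 1 else 0) ∧ ∀ v : X.Der, v = ∑ i, v (t i) • w i := by
  obtain ⟨_, ⟨V, hV, rfl⟩, hyV, -⟩ :=
    X.X.isBasis_affineOpens.exists_subset_of_mem_open (Set.mem_univ y) isOpen_univ
  have : Nonempty V := ⟨⟨y, hyV⟩⟩
  let _ : Algebra ℂ Γ(X.X, V) := (cst V : ℂ →+* Γ(X.X, V)).toAlgebra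
  have hs : Algebra.Smooth ℂ Γ(X.X, V) := cst_smooth V hV
  let _ := TopCat.Presheaf.algebra_section_stalk X.X.presheaf (U := V) ⟨y, hyV⟩
  have hloc := hV.isLocalization_stalk ⟨y, hyV⟩
  let _ : Algebra ℂ (X.X.presheaf.stalk y) :=
    ((algebraMap Γ(X.X, V) (X.X.presheaf.stalk y)).comp (algebraMap ℂ Γ(X.X, V))).toAlgebra
  have t1 : IsScalarTower ℂ Γ(X.X, V) (X.X.presheaf.stalk y) :=
    IsScalarTower.of_algebraMap_eq' rfl
  have t2 : IsScalarTower ℂ (X.X.presheaf.stalk y) X.K := by
    refine IsScalarTower.of_algebraMap_eq fun c => ?_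
    have h1 : algebraMap (X.X.presheaf.stalk y) X.K
        (algebraMap Γ(X.X, V) (X.X.presheaf.stalk y) (cst V c)) =
        X.X.germToFunctionField V (cst V c) :=
      Scheme.algebraMap_germ_eq_germToFunctionField X.X hyV _
    rw [germ_cst] at h1
    exact h1.symm
  obtain ⟨n, t, w, h1, h2, h3⟩ := exists_frame_algebra ℂ Γ(X.X, V) (X.X.presheaf.stalk y) X.K
    (hV.primeIdealOf ⟨y, hyV⟩).asIdeal
  refine ⟨n, fun j => algebraMap _ X.K (t j), w, fun j => ⟨t j, rfl⟩, h2, h1, fun v => ?_⟩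
  refine h3 _ _ fun j => ?_
  have h4 : (∑ i, v (algebraMap _ X.K (t i)) • w i) (algebraMap _ X.K (t j)) =
      ∑ i, v (algebraMap _ X.K (t i)) * w i (algebraMap _ X.K (t j)) := by
    have h5 : ∀ s : Finset (Fin n), (∑ i ∈ s, v (algebraMap _ X.K (t i)) • w i)
        (algebraMap _ X.K (t j)) = ∑ i ∈ s, v (algebraMap _ X.K (t i)) *
          w i (algebraMap _ X.K (t j)) := by
      classical
      intro s
      induction s using Finset.induction_on with
      | empty => simp
      | insert a s ha ih =>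
        rw [Finset.sum_insert ha, Finset.sum_insert ha, Derivation.add_apply, ih,
          Derivation.smul_apply, smul_eq_mul]
    exact h5 _
  rw [h4]
  simp [h1]

/-- The frame as a basis. -/
theorem exists_basis {n : ℕ} {t : Fin n → X.K} {w : Fin n → X.Der}
    (h1 : ∀ i j, w i (t j) = if i = j then 1 else 0) (h2 : ∀ v : X.Der, v = ∑ i, v (t i) • w i) :
    ∃ b : Module.Basis (Fin n) X.K X.Der, (∀ i, b i = w i) ∧ ∀ v i, b.repr v i = v (t i) := by
  have hli : LinearIndependent X.K w := by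
    rw [Fintype.linearIndependent_iff]
    intro g hg j
    have h3 : ∀ s : Finset (Fin n), (∑ i ∈ s, g i • w i) (t j) = ∑ i ∈ s, g i * w i (t j) := by
      classical
      intro s
      induction s using Finset.induction_on with
      | empty => simp
      | insert a s ha ih =>
        rw [Finset.sum_insert ha, Finset.sum_insert ha, Derivation.add_apply, ih,
          Derivation.smul_apply, smul_eq_mul]
    have h4 := h3 Finset.univ
    rw [hg] at h4
    simpa [h1] using h4.symm
  have hsp : ⊤ ≤ Submodule.span X.K (Set.range w) := by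
    intro v _
    rw [h2 v]
    exact Submodule.sum_mem _ fun i _ => Submodule.smul_mem _ _ (Submodule.subset_span ⟨i, rfl⟩)
  refine ⟨Module.Basis.mk hli hsp, fun i => Module.Basis.mk_apply _ _ i, fun v i => ?_⟩
  conv_lhs => rw [h2 v]
  rw [map_sum, Finset.sum_apply']
  simp only [map_smul, Finsupp.smul_apply, smul_eq_mul]
  rw [Finset.sum_eq_single i]
  · have h5 : (Module.Basis.mk hli hsp).repr (w i) i = 1 := by
      conv_lhs => rw [← Module.Basis.mk_apply hli hsp i]
      rw [Module.Basis.repr_self]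
      simp
    rw [h5, mul_one]
  · intro j _ hj
    have h5 : (Module.Basis.mk hli hsp).repr (w j) i = 0 := by
      conv_lhs => rw [← Module.Basis.mk_apply hli hsp j]
      rw [Module.Basis.repr_self]
      simp [hj]
    rw [h5, mul_zero]
  · simp

/-- Local coordinates and a frame of `n = dim X` vector fields. -/
theorem exists_frame_at (X : Var) (y : X.X) : ∃ (t : Fin X.dim → X.K) (w : Fin X.dim → X.Der),
    (∀ j, t j ∈ locRing X y) ∧ (∀ i, RegDer y (w i)) ∧
    (∀ i j, w i (t j) = if i = j then 1 else 0) ∧ ∀ v : X.Der, v = ∑ i, v (t i) • w i := by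
  obtain ⟨n, t, w, h1, h2, h3, h4⟩ := exists_frame_at' X y
  obtain ⟨b, -, -⟩ := exists_basis h3 h4
  have hn : X.dim = n := by
    have := Module.finrank_eq_card_basis b
    rwa [Fintype.card_fin] at this
  subst hn
  exact ⟨t, w, h1, h2, h3, h4⟩

/-! ### Generization -/

theorem locRing_le {y x : X.X} (h : y ⤳ x) : locRing X x ≤ locRing X y := by
  rintro _ ⟨a, rfl⟩
  exact ⟨G.toStalk h a, G.toK_toStalk h a⟩

/-- A vector field regular at `x` is regular at the generizations of `x`. -/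
theorem RegDer.of_specializes {y x : X.X} (h : y ⤳ x) {v : X.Der} (hv : RegDer x v) :
    RegDer y v := by
  rw [regDer_iff_locRing] at hv ⊢
  rintro _ ⟨t, rfl⟩
  obtain ⟨a, b, ⟨u, hu⟩, hab⟩ := G.exists_frac h t
  have h1 : algebraMap (X.X.presheaf.stalk y) X.K t * G.toK x b = G.toK x a := by
    rw [← G.toK_toStalk h, ← G.toK_toStalk h, ← hab, map_mul]
  have h2 := congrArg v h1
  rw [Derivation.leibniz, smul_eq_mul, smul_eq_mul] at h2
  have h3 : G.toK x b * algebraMap (X.X.presheaf.stalk y) X.K (↑u⁻¹ : X.X.presheaf.stalk y) = 1 := by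
    rw [← G.toK_toStalk h, ← hu, ← map_mul, Units.mul_inv, map_one]
  have h4 : v (algebraMap (X.X.presheaf.stalk y) X.K t) =
      algebraMap (X.X.presheaf.stalk y) X.K (↑u⁻¹ : X.X.presheaf.stalk y) *
        (v (G.toK x a) - algebraMap (X.X.presheaf.stalk y) X.K t * v (G.toK x b)) := by
    rw [← h2]
    linear_combination (-1 : X.K) * v (algebraMap (X.X.presheaf.stalk y) X.K t) * h3
  rw [h4]
  have ha : v (G.toK x a) ∈ locRing X y := locRing_le h (hv _ ⟨a, rfl⟩)
  have hb : v (G.toK x b) ∈ locRing X y := locRing_le h (hv _ ⟨b, rfl⟩)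
  exact mul_mem ⟨_, rfl⟩ (sub_mem ha (mul_mem ⟨t, rfl⟩ hb))

/-! ### Top forms -/

/-- The values of a top form in terms of its value on a frame. -/
theorem exists_det {ω : X.Ten X.dim} (hω : IsAlt ω) {t : Fin X.dim → X.K}
    {w : Fin X.dim → X.Der} (h1 : ∀ i j, w i (t j) = if i = j then 1 else 0)
    (h2 : ∀ v : X.Der, v = ∑ i, v (t i) • w i) (v : Fin X.dim → X.Der) :
    ω v = ω w * (Matrix.of fun i j => v j (t i)).det := by
  obtain ⟨b, hb, hr⟩ := exists_basis h1 h2
  let Ω : X.Der [⋀^Fin X.dim]→ₗ[X.K] X.K :=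
    { ω with
      map_eq_zero_of_eq' := fun v i j hij hne => hω v i j hij hne }
  have hΩ : ∀ v, Ω v = ω v := fun v => rfl
  have hbw : (b : Fin X.dim → X.Der) = w := funext hb
  have h3 := congrArg (fun g => g v) (AlternatingMap.eq_smul_basis_det b Ω)
  rw [← hΩ v]
  refine h3.trans ?_
  rw [AlternatingMap.smul_apply, hbw, hΩ, smul_eq_mul, Module.Basis.det_apply]
  congr 2
  ext i j
  rw [Module.Basis.toMatrix_apply, hr, Matrix.of_apply]

theorem det_mem_locRing {n : ℕ} {x : X.X} {M : Matrix (Fin n) (Fin n) X.K}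
    (h : ∀ i j, M i j ∈ locRing X x) : M.det ∈ locRing X x := by
  rw [Matrix.det_apply]
  refine sum_mem fun σ _ => ?_
  rw [Units.smul_def]
  exact zsmul_mem (prod_mem fun i _ => h _ _) _

theorem value_frame_ne_zero {ω : X.Ten X.dim} (hω0 : ω ≠ 0) (hω : IsAlt ω)
    {t : Fin X.dim → X.K} {w : Fin X.dim → X.Der}
    (h1 : ∀ i j, w i (t j) = if i = j then 1 else 0)
    (h2 : ∀ v : X.Der, v = ∑ i, v (t i) • w i) : ω w ≠ 0 := by
  intro h0
  apply hω0
  ext v
  rw [exists_det hω h1 h2, h0, zero_mul]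
  rfl

/-- The value of a top form on a regular frame is a local equation of its divisor. -/
theorem genAt_of_frame {ω : X.Ten X.dim} (hω0 : ω ≠ 0) (hω : IsAlt ω) {κ : Div X.X}
    (hκ : IsDivTensor ω κ) {y : X.X} {t : Fin X.dim → X.K} {w : Fin X.dim → X.Der}
    (ht : ∀ j, t j ∈ locRing X y) (hw : ∀ i, RegDer y (w i))
    (h1 : ∀ i j, w i (t j) = if i = j then 1 else 0)
    (h2 : ∀ v : X.Der, v = ∑ i, v (t i) • w i) : GenAt (-κ) (ω w) y := by
  have h0 := value_frame_ne_zero hω0 hω h1 h2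
  refine ⟨h0, fun q hq hqy => ?_⟩
  have hq' := hκ q hq
  have hle : coef κ q ≤ Scheme.ord (ω w) q :=
    hq'.2 ⟨w, fun i => (hw i).of_specializes hqy, h0, rfl⟩
  obtain ⟨v, hv, hv0, hv1⟩ := hq'.1
  have hge : Scheme.ord (ω w) q ≤ coef κ q := by
    rw [← hv1]
    rw [exists_det hω h1 h2 v] at hv0 ⊢
    have h3 := right_ne_zero_of_mul hv0
    rw [Scheme.ord_mul h0 h3]
    have h4 : (Matrix.of fun i j => v j (t i)).det ∈ locRing X q :=
      det_mem_locRing fun i j => (regDer_iff_locRing.1 (hv j)) _ (locRing_le hqy (ht i))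
    have h5 := ord_nonneg_of_locRing h4
    linarith
  rw [coef_neg]
  omega

end Vale.Agent.P299.Q
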