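import Vale.Agent.P299.R.Dim
import Vale.Agent.P299.Q.Frame
import Vale.Agent.P299.Q.CM
import Vale.Agent.P299.R.Stalks
import Mathlib.GroupTheory.CosetCover

/-!
# Sections without common zeros
-/

open CategoryTheory TopologicalSpace Opposite TopCat AlgebraicGeometry Order

namespace Vale.Agent.P299.Q

theorem exists_frame_at_dim (X : Var) (y : X.X) : ∃ (n : ℕ) (t : Fin n → X.K) (w : Fin n → X.Der),
    (∀ j, t j ∈ locRing X y) ∧ (∀ i, RegDer y (w i)) ∧
    (∀ i j, w i (t j) = if i = j then 1 else 0) ∧ (∀ v : X.Der, v = ∑ i, v (t i) • w i) ∧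
    ringKrullDim (X.X.presheaf.stalk y) ≤ n := by
  obtain ⟨_, ⟨V, hV, rfl⟩, hyV, -⟩ :=
    X.X.isBasis_affineOpens.exists_subset_of_mem_open (Set.mem_univ y) isOpen_univ
  have : Nonempty V := ⟨⟨y, hyV⟩⟩
  let _ : Algebra ℂ Γ(X.X, V) := (cst V : ℂ →+* Γ(X.X, V)).toAlgebra
  have hs : Algebra.Smooth ℂ Γ(X.X, V) := cst_smooth V hV
  let _ := TopCat.Presheaf.algebra_section_stalk X.X.presheaf (U := V) ⟨y, hyV⟩
  have hloc := hV.isLocalization_stalk ⟨y, hyV⟩
  let _ : Algebra ℂ (X.X.presheaf.stalk y) :=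
    ((algebraMap Γ(X.X, V) (X.X.presheaf.stalk y)).comp (algebraMap ℂ Γ(X.X, V))).toAlgebra
  have t1 : IsScalarTower ℂ Γ(X.X, V) (X.X.presheaf.stalk y) :=
    IsScalarTower.of_algebraMap_eq' rfl
  have t2 : IsScalarTower ℂ (X.X.presheaf.stalk y) X.K := by
    refine IsScalarTower.of_algebraMap_eq fun c => ?_
    have h1 : algebraMap (X.X.presheaf.stalk y) X.K
        (algebraMap Γ(X.X, V) (X.X.presheaf.stalk y) (cst V c)) =
        X.X.germToFunctionField V (cst V c) :=
      Scheme.algebraMap_germ_eq_germToFunctionField X.X hyV _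
    rw [germ_cst] at h1
    exact h1.symm
  obtain ⟨n, t, w, h1, h2, h3, h6⟩ := exists_frame_algebra_dim ℂ Γ(X.X, V) (X.X.presheaf.stalk y) X.K
    (hV.primeIdealOf ⟨y, hyV⟩).asIdeal
  refine ⟨n, fun j => algebraMap _ X.K (t j), w, fun j => ⟨t j, rfl⟩, h2, h1, fun v => ?_, h6⟩
  refine h3 _ _ fun j => ?_
  have h4 : (∑ i, v (algebraMap _ X.K (t i)) • w i) (algebraMap _ X.K (t j)) =
      ∑ i, v (algebraMap _ X.K (t i)) * w i (algebraMap _ X.K (t j)) := by
    have h5 : ∀ s : Finset (Fin n), (∑ i ∈ s, v (algebraMap _ X.K (t i)) • w i)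
        (algebraMap _ X.K (t j)) = ∑ i ∈ s, v (algebraMap _ X.K (t i)) *
          w i (algebraMap _ X.K (t j)) := by
      classical
      intro s
      induction s using Finset.induction_on with
      | empty => simp
      | insert a s ha ih =>
        rw [Finset.sum_insert ha, Finset.sum_insert ha, Derivation.add_apply, ih,
          Derivation.smul_apply, smul_eq_mul]
    exact h5 _
  rw [h4]
  simp [h1]


/-- The codimension of a point is at most the dimension. -/
theorem coheight_le_dim (X : Var) (y : X.X) : coheight y ≤ X.dim := by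
  obtain ⟨n, t, w, -, -, h3, h4, h5⟩ := exists_frame_at_dim X y
  obtain ⟨b, -, -⟩ := exists_basis h3 h4
  have hn : X.dim = n := by
    have := Module.finrank_eq_card_basis b
    rwa [Fintype.card_fin] at this
  rw [hn]
  rw [ringKrullDim_stalk_eq_coheight] at h5
  exact_mod_cast h5

open Vale.Agent.P299.G

/-- A section of `O_X(A)` is a multiple of a local generator. -/
lemma exists_mul_of_mem_H0 {X : Var} {A : Div X.X} {s g : X.K} (hs : s ∈ H0 (coef A)) {y : X.X}
    (hg : GenAt A g y) : ∃ a : X.X.presheaf.stalk y, s = toK y a * g := by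
  have := factorialStalks X y
  by_cases hs0 : s = 0
  · exact ⟨0, by rw [map_zero, zero_mul, hs0]⟩
  obtain ⟨a, ha⟩ := exists_of_forall_ord_nonneg X.dvr y (s / g) (fun z hz hzy => by
    rw [ord_div hs0 hg.1 z]
    have h2 := hg.2 z hz hzy
    have h3 := (mem_H0.1 hs) z hz hs0
    linarith)
  exact ⟨a, by rw [ha, div_mul_cancel₀ _ hg.1]⟩

/-- The section `a g` generates if and only if `a` is a unit. -/
lemma genAt_mul_iff_isUnit {X : Var} {A : Div X.X} {g : X.K} {y : X.X} (hg : GenAt A g y)
    (a : X.X.presheaf.stalk y) : GenAt A (toK y a * g) y ↔ IsUnit a := by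
  have := factorialStalks X y
  constructor
  · intro h
    have ha : a ≠ 0 := by
      rintro rfl
      exact h.1 (by rw [map_zero, zero_mul])
    obtain ⟨b, hb⟩ := exists_of_forall_ord_nonneg X.dvr y (toK y a)⁻¹ (fun z hz hzy => by
      have h1 := h.2 z hz hzy
      have h2 := hg.2 z hz hzy
      rw [Scheme.ord_mul (toK_ne_zero ha) hg.1] at h1
      rw [ord_inv (toK_ne_zero ha)]
      linarith)
    refine IsUnit.of_mul_eq_one b ?_
    apply toK_injective y
    rw [map_mul, hb, map_one, mul_inv_cancel₀ (toK_ne_zero ha)]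
  · intro h
    refine ⟨mul_ne_zero (toK_ne_zero h.ne_zero) hg.1, fun z hz hzy => ?_⟩
    rw [Scheme.ord_mul (toK_ne_zero h.ne_zero) hg.1, ← toK_toStalk hzy,
      ord_toK_of_isUnit (h.map (toStalk hzy)), zero_add]
    exact hg.2 z hz hzy

/-- The sections which do not generate at `y`. -/
noncomputable def nonGen {X : Var} (A : Div X.X) (y : X.X) : Submodule ℂ (H0 (coef A)) where
  carrier := {s | ¬ GenAt A s.1 y}
  zero_mem' := fun h => h.1 rfl
  add_mem' := by
    intro s t hs ht
    have := factorialStalks X y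
    obtain ⟨g, hg⟩ := exists_genAt A y
    obtain ⟨a, ha⟩ := exists_mul_of_mem_H0 s.2 hg
    obtain ⟨b, hb⟩ := exists_mul_of_mem_H0 t.2 hg
    change ¬ GenAt A s.1 y at hs
    change ¬ GenAt A t.1 y at ht
    change ¬ GenAt A (s.1 + t.1) y
    rw [ha, genAt_mul_iff_isUnit hg] at hs
    rw [hb, genAt_mul_iff_isUnit hg] at ht
    rw [ha, hb, ← add_mul, ← map_add, genAt_mul_iff_isUnit hg]
    exact IsLocalRing.nonunits_add hs ht
  smul_mem' := by
    intro c s hs h
    have hc : c ≠ 0 := by
      rintro rfl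
      exact h.1 (by rw [zero_smul]; rfl)
    have hs0 : s.1 ≠ 0 := by
      intro h0
      exact h.1 (show c • s.1 = 0 by rw [h0, smul_zero])
    apply hs
    refine ⟨hs0, fun z hz hzy => ?_⟩
    have h1 := h.2 z hz hzy
    change Scheme.ord (c • s.1) z + coef A z = 0 at h1
    rwa [ord_smul c hc] at h1

/-- A base point free divisor has a section which generates at finitely many given points. -/
theorem exists_section_genAt {X : Var} {A : Div X.X} (hA : IsGenerated A) (F : Finset X.X) :
    ∃ s ∈ H0 (coef A), ∀ y ∈ F, GenAt A s y := by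
  classical
  have h1 : (⊤ : Submodule ℂ (H0 (coef A))) ∉ F.image (nonGen A) := by
    intro h
    obtain ⟨y, -, hy⟩ := Finset.mem_image.1 h
    obtain ⟨s, hs, hsy⟩ := hA y
    have h2 : (⟨s, hs⟩ : H0 (coef A)) ∈ nonGen A y := by rw [hy]; trivial
    exact h2 hsy
  have h2 := Subspace.biUnion_ne_univ_of_top_notMem h1
  obtain ⟨s, hs⟩ := (Set.ne_univ_iff_exists_notMem _).1 h2
  refine ⟨s.1, s.2, fun y hy => ?_⟩
  by_contra hc
  apply hs
  exact Set.mem_iUnion₂.2 ⟨nonGen A y, Finset.mem_image_of_mem _ hy, hc⟩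

/-- The points of a closed set are specializations of finitely many points of the set. -/
lemma exists_finset_generic {X : Var} {Z : Set X.X} (hZ : IsClosed Z) :
    ∃ F : Finset X.X, (∀ η ∈ F, η ∈ Z) ∧ ∀ y ∈ Z, ∃ η ∈ F, η ⤳ y := by
  classical
  obtain ⟨S, hS, hcl, hirr, hU⟩ := NoetherianSpace.exists_finite_set_isClosed_irreducible hZ
  have hg : ∀ t : Set X.X, ∃ η : X.X, t ∈ S → IsGenericPoint η t := by
    intro t
    by_cases ht : t ∈ S
    · have h1 := hcl t ht
      have h2 := hirr t ht
      exact ⟨h2.genericPoint, fun _ => by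
        have := h2.isGenericPoint_genericPoint_closure
        rwa [h1.closure_eq] at this⟩
    · exact ⟨genericPoint X.X, fun h => absurd h ht⟩
  choose η hη using hg
  refine ⟨hS.toFinset.image η, ?_, ?_⟩
  · intro x hx
    obtain ⟨t, ht, rfl⟩ := Finset.mem_image.1 hx
    rw [Set.Finite.mem_toFinset] at ht
    rw [hU]
    exact ⟨t, ht, (hη t ht).mem⟩
  · intro y hy
    rw [hU] at hy
    obtain ⟨t, ht, hyt⟩ := hy
    exact ⟨η t, Finset.mem_image_of_mem _ ((Set.Finite.mem_toFinset _).2 ht),
      (hη t ht).specializes hyt⟩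

/-- General sections: after `k` sections the common zeros have codimension at least `k`. -/
theorem exists_sections_codim {X : Var} (A : ℕ → Div X.X) (hA : ∀ j, IsGenerated (A j)) (k : ℕ) :
    ∃ t : ℕ → X.K, (∀ j, t j ∈ H0 (coef (A j))) ∧
      ∀ y : X.X, (∀ i < k, ¬ GenAt (A i) (t i) y) → (k : ℕ∞) ≤ coheight y := by
  classical
  induction k with
  | zero => exact ⟨fun _ => 0, fun _ => Submodule.zero_mem _, fun y _ => by simp⟩
  | succ k ih =>
    obtain ⟨t, ht, hk⟩ := ih
    let Z : Set X.X := {y | ∀ i < k, ¬ GenAt (A i) (t i) y}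
    have hZ : IsClosed Z := by
      rw [← isOpen_compl_iff]
      have h1 : Zᶜ = ⋃ i ∈ Set.Iio k, {y | GenAt (A i) (t i) y} := by
        ext y
        simp [Z]
      rw [h1]
      refine isOpen_biUnion fun i _ => ?_
      rw [isOpen_iff_forall_mem_open]
      intro y hy
      obtain ⟨U, hyU, hU⟩ := exists_genAt_nhds (A i) y hy
      exact ⟨U, fun z hz => hU z hz, U.isOpen, hyU⟩
    obtain ⟨F, hF, hFZ⟩ := exists_finset_generic hZ
    obtain ⟨s, hs, hsF⟩ := exists_section_genAt (hA k) F
    refine ⟨Function.update t k s, fun j => ?_, fun y hy => ?_⟩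
    · by_cases hj : j = k
      · subst hj
        rwa [Function.update_self]
      · rw [Function.update_of_ne hj]
        exact ht j
    · have hyZ : y ∈ Z := fun i hi => by
        have := hy i (by omega)
        rwa [Function.update_of_ne (by omega)] at this
      obtain ⟨η, hη, hηy⟩ := hFZ y hyZ
      have h1 : (k : ℕ∞) ≤ coheight η := hk η (hF η hη)
      have h2 : η ≠ y := by
        rintro rfl
        have := hy k (Nat.lt_succ_self k)
        rw [Function.update_self] at this
        exact this (hsF η hη)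
      have h3 : y < η := by
        refine lt_of_le_not_ge (Scheme.le_iff_specializes.2 hηy) fun h4 => h2 ?_
        exact (hηy.antisymm (Scheme.le_iff_specializes.1 h4)).eq
      have h4 := coheight_add_one_le h3
      push_cast
      exact (add_le_add_left h1 1).trans h4

/-- `dim X + 1` general sections of base point free divisors have no common zeros. -/
theorem exists_sections {X : Var} (A : Fin (X.dim + 1) → Div X.X) (hA : ∀ j, IsGenerated (A j)) :
    ∃ t : Fin (X.dim + 1) → X.K, (∀ j, t j ∈ H0 (coef (A j))) ∧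
      ∀ y : X.X, ∃ j, GenAt (A j) (t j) y := by
  obtain ⟨t, ht, h⟩ := exists_sections_codim (fun j => A (Fin.ofNat _ j)) (fun j => hA _) (X.dim + 1)
  refine ⟨fun j => t j, fun j => ?_, fun y => ?_⟩
  · have := ht j
    rwa [Fin.ofNat_val_eq_self] at this
  · by_contra hcon
    push Not at hcon
    have h1 := h y fun i hi => by
      have := hcon ⟨i, hi⟩
      have h2 : Fin.ofNat (X.dim + 1) i = ⟨i, hi⟩ := by
        ext
        simp [Fin.ofNat, Nat.mod_eq_of_lt hi]
      rw [h2]
      exact this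
    have h2 := h1.trans (coheight_le_dim X y)
    have h3 : X.dim + 1 ≤ X.dim := by exact_mod_cast h2
    omega

end Vale.Agent.P299.Q
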