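import Vale.Agent.P299.Q.Defs

/-!
# The space `H^0` of a sheaf is the space of its global sections
-/

open CategoryTheory TopologicalSpace Opposite TopCat AlgebraicGeometry Order Limits

namespace Vale.Agent.P299.Q

section Gen

variable {T : TopCat.{0}} (F : Sheaf (Opens.grothendieckTopology T) (ModuleCat.{0} ℂ))

/-- The constant section `1` of the constant sheaf. -/
noncomputable def oneSec (T : TopCat.{0}) :
    ((constantSheaf (Opens.grothendieckTopology T) (ModuleCat.{0} ℂ)).obj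
      (ModuleCat.of ℂ ℂ)).obj.obj (op (⊤ : Opens T)) :=
  ((constantSheafAdj (Opens.grothendieckTopology T) (ModuleCat.{0} ℂ)
    (T := (⊤ : Opens T)) (Preorder.isTerminalTop _)).unit.app (ModuleCat.of ℂ ℂ)).hom (1 : ℂ)

/-- Evaluation of a morphism from the constant sheaf at the section `1`. -/
noncomputable def evalTop :
    ((constantSheaf (Opens.grothendieckTopology T) (ModuleCat.{0} ℂ)).obj (ModuleCat.of ℂ ℂ) ⟶ F)
      →ₗ[ℂ] F.obj.obj (op (⊤ : Opens T)) where
  toFun f := (f.hom.app (op ⊤)).hom (oneSec T)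
  map_add' _ _ := rfl
  map_smul' _ _ := rfl

theorem evalTop_bijective : Function.Bijective (evalTop F) := by
  let adj := constantSheafAdj (Opens.grothendieckTopology T) (ModuleCat.{0} ℂ)
    (T := (⊤ : Opens T)) (Preorder.isTerminalTop _)
  let M := F.obj.obj (op (⊤ : Opens T))
  have h1 : Function.Bijective (adj.homEquiv (ModuleCat.of ℂ ℂ) F) := (adj.homEquiv _ _).bijective
  have h2 : Function.Bijective (fun g : ModuleCat.of ℂ ℂ ⟶ M => g.hom (1 : ℂ)) := by
    constructor
    · intro g g' hg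
      apply ModuleCat.hom_ext
      exact LinearMap.ext_ring hg
    · intro m
      exact ⟨ModuleCat.ofHom (LinearMap.toSpanSingleton ℂ M m), by simp⟩
  have h3 : (evalTop F : _ → _) =
      (fun g : ModuleCat.of ℂ ℂ ⟶ M => g.hom (1 : ℂ)) ∘ (adj.homEquiv (ModuleCat.of ℂ ℂ) F) := by
    funext f
    rw [Function.comp_apply, adj.homEquiv_unit]
    rfl
  rw [h3]
  exact h2.comp h1

/-- `H⁰(T, F)` is the space of the global sections of `F`. -/
noncomputable def cohZeroEquiv : Coh F 0 ≃ₗ[ℂ] F.obj.obj (op (⊤ : Opens T)) :=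
  (Abelian.Ext.linearEquiv₀ (R := ℂ)).trans (LinearEquiv.ofBijective (evalTop F)
    (evalTop_bijective F))

end Gen

section Const

variable {T : TopCat.{0}} {K : Type} [AddCommGroup K] [Module ℂ K]

/-- The sections of the sheaf `constSheaf M` over a nonempty open set. -/
noncomputable def constSecEquiv (M : T → Submodule ℂ K) (U : Opens T) (x₀ : U) :
    constSec M U ≃ₗ[ℂ] (⨅ x ∈ U, M x : Submodule ℂ K) where
  toFun s := ⟨s.1 x₀, by
    simp only [Submodule.mem_iInf]
    intro x hx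
    rw [s.2.1 x₀ ⟨x, hx⟩]
    exact s.2.2 ⟨x, hx⟩⟩
  map_add' _ _ := rfl
  map_smul' _ _ := rfl
  invFun g := ⟨fun _ => g.1, fun _ _ => rfl, fun x =>
    (Submodule.mem_iInf _).1 ((Submodule.mem_iInf _).1 g.2 x.1) x.2⟩
  left_inv s := Subtype.ext (funext fun x => s.2.1 _ _)
  right_inv _ := rfl

end Const

section Sec

variable {X : Var} {S : TopCat.{0}} [PreirreducibleSpace S] (q : X.X → S)
  (E : Submodule ℂ X.K) (D : Div X.X)

theorem iInf_secSheaf :
    (⨅ s ∈ (⊤ : Opens S), (E ⊓ ⨅ x, ⨅ _ : q x = s, polar (coef D) x)) = E ⊓ H0 (coef D) := by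
  ext f
  simp only [Submodule.mem_iInf, Submodule.mem_inf, H0]
  constructor
  · intro h
    exact ⟨(h (q (genericPoint X.X)) trivial).1, fun x => (h (q x) trivial).2 x rfl⟩
  · rintro ⟨h1, h2⟩ s -
    exact ⟨h1, fun x _ => h2 x⟩

/-- `H⁰` of the sheaf `secSheaf q E D`: the space of those sections of `O_X(D)` which lie in
`E`. -/
noncomputable def cohZeroSecSheaf :
    Coh (secSheaf q E D) 0 ≃ₗ[ℂ] (E ⊓ H0 (coef D) : Submodule ℂ X.K) :=
  (cohZeroEquiv (secSheaf q E D)).trans
    ((constSecEquiv (T := S) (fun s => E ⊓ ⨅ x, ⨅ _ : q x = s, polar (coef D) x) (⊤ : Opens S)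
      ⟨q (genericPoint X.X), trivial⟩).trans (LinearEquiv.ofEq _ _ (iInf_secSheaf q E D)))

theorem hh_zero : hh q E D 0 = Module.finrank ℂ (E ⊓ H0 (coef D) : Submodule ℂ X.K) :=
  (cohZeroSecSheaf q E D).finrank_eq

end Sec

end Vale.Agent.P299.Q
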