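import Mathlib.AlgebraicGeometry.Morphisms.Proper
import Mathlib.FieldTheory.IsAlgClosed.Basic
import Mathlib.Analysis.Complex.Polynomial.Basic
import Vale.Agent.P299.Q.CohZero
import Vale.Agent.P299.Q.Pull

/-!
# Rational functions without poles on a smooth projective variety are constant
-/

open CategoryTheory TopologicalSpace Opposite TopCat AlgebraicGeometry Order

namespace Vale.Agent.P299.Q

/-- A rational function which is regular at every point is a global section. -/
theorem exists_section_of_regular {X : Scheme.{0}} [IsIntegral X] (u : X.functionField)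
    (h : ∀ x : X, ∃ a : X.presheaf.stalk x, algebraMap _ X.functionField a = u) :
    ∃ s : Γ(X, ⊤), X.germToFunctionField ⊤ s = u := by
  have h1 : ∀ x : X, ∃ (U : X.Opens) (_ : x ∈ U) (s : Γ(X, U)) (_ : Nonempty U),
      X.germToFunctionField U s = u := by
    intro x
    obtain ⟨a, ha⟩ := h x
    obtain ⟨U, hU, s, hs⟩ := X.presheaf.exists_germ_eq a
    have : Nonempty U := ⟨⟨x, hU⟩⟩
    refine ⟨U, hU, s, this, ?_⟩
    rw [← ha, ← hs]
    exact (Scheme.algebraMap_germ_eq_germToFunctionField X hU s).symm
  choose U hU s hne hs using h1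
  have hcomp : TopCat.Presheaf.IsCompatible X.sheaf.1 U s := by
    intro x y
    have hη : genericPoint X ∈ U x ⊓ U y :=
      ⟨((genericPoint_spec X).mem_open_set_iff (U x).isOpen).mpr (by simpa using hne x),
       ((genericPoint_spec X).mem_open_set_iff (U y).isOpen).mpr (by simpa using hne y)⟩
    have : Nonempty (U x ⊓ U y : X.Opens) := ⟨⟨_, hη⟩⟩
    apply X.germToFunctionField_injective (U x ⊓ U y)
    have e1 : X.germToFunctionField (U x ⊓ U y) (X.presheaf.map (Opens.infLELeft _ _).op (s x)) =
        X.germToFunctionField (U x) (s x) :=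
      X.presheaf.germ_res_apply (Opens.infLELeft _ _) (genericPoint X) hη (s x)
    have e2 : X.germToFunctionField (U x ⊓ U y) (X.presheaf.map (Opens.infLERight _ _).op (s y)) =
        X.germToFunctionField (U y) (s y) :=
      X.presheaf.germ_res_apply (Opens.infLERight _ _) (genericPoint X) hη (s y)
    exact e1.trans ((hs x).trans ((hs y).symm.trans e2.symm))
  obtain ⟨t, ht, -⟩ := X.sheaf.existsUnique_gluing' U ⊤ (fun x => homOfLE le_top)
    (fun x _ => Opens.mem_iSup.2 ⟨x, hU x⟩) s hcomp
  refine ⟨t, ?_⟩
  have x := genericPoint X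
  have hη : genericPoint X ∈ U x :=
    ((genericPoint_spec X).mem_open_set_iff (U x).isOpen).mpr (by simpa using hne x)
  rw [← hs x, ← ht x]
  exact (X.presheaf.germ_res_apply (homOfLE (le_top : U x ≤ ⊤)) (genericPoint X) hη t).symm

/-- The global regular functions on a proper integral scheme over `ℂ` are constant. -/
theorem exists_constant {X : Scheme.{0}} [IsIntegral X] [X.Over SpecC] [IsProper (X ↘ SpecC)]
    (s : Γ(X, ⊤)) : ∃ c : ℂ, constants X c = s := by
  have h1 : (X ↘ SpecC).appTop.hom.IsIntegral := isIntegral_appTop_of_universallyClosed _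
  have h2 : (constants X).IsIntegral := by
    apply RingHom.isIntegral_respectsIso.2
      (e := (Scheme.ΓSpecIso (CommRingCat.of ℂ)).symm.commRingCatIsoToRingEquiv)
    exact h1
  algebraize [constants X]
  have : Algebra.IsIntegral ℂ Γ(X, ⊤) := ⟨h2⟩
  exact (IsAlgClosed.algebraMap_bijective_of_isIntegral (k := ℂ) (K := Γ(X, ⊤))).2 s

/-- A rational function without poles on a smooth projective variety is constant. -/
theorem exists_constant_of_ord_nonneg (X : Var)
    (hU : ∀ x : X.X, UniqueFactorizationMonoid (X.X.presheaf.stalk x)) (f : X.K)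
    (hf : ∀ x : X.X, coheight x = 1 → 0 ≤ Scheme.ord f x) : ∃ c : ℂ, algebraMap ℂ X.K c = f := by
  obtain ⟨s, hs⟩ := exists_section_of_regular f fun x => by
    have := hU x
    exact G.exists_of_forall_ord_nonneg (fun y hy => RegOne.dvr y hy) x f
      fun y hy _ => hf y hy
  obtain ⟨c, rfl⟩ := exists_constant s
  exact ⟨c, hs⟩

/-- The space of the rational functions without poles is the line of the constants. -/
theorem H0_zero_eq (X : Var)
    (hU : ∀ x : X.X, UniqueFactorizationMonoid (X.X.presheaf.stalk x)) :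
    H0 (coef (0 : Div X.X)) = Submodule.span ℂ {(1 : X.K)} := by
  ext f
  rw [Submodule.mem_span_singleton, mem_H0]
  constructor
  · intro h
    obtain ⟨c, hc⟩ := exists_constant_of_ord_nonneg X hU f fun x hx => by
      by_cases hf : f = 0
      · subst hf
        simp
      · have := h x hx hf
        rwa [coef_zero, add_zero] at this
    exact ⟨c, by rw [← hc, Algebra.algebraMap_eq_smul_one]⟩
  · rintro ⟨c, rfl⟩ x hx hc
    have hc0 : c ≠ 0 := by
      rintro rfl
      exact hc (zero_smul _ _)
    rw [← Algebra.algebraMap_eq_smul_one, ord_constant c hc0, coef_zero, add_zero]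

/-- `h⁰(X, O_X) = 1`, also for the invariants. -/
theorem finrank_inf_H0_zero (X : Var)
    (hU : ∀ x : X.X, UniqueFactorizationMonoid (X.X.presheaf.stalk x)) (E : Submodule ℂ X.K)
    (hE : (1 : X.K) ∈ E) : Module.finrank ℂ (E ⊓ H0 (coef (0 : Div X.X)) : Submodule ℂ X.K) = 1 := by
  rw [H0_zero_eq X hU, inf_eq_right.2 ((Submodule.span_singleton_le_iff_mem _ _).2 hE)]
  exact finrank_span_singleton one_ne_zero

theorem hh_zero_zero (X : Var)
    (hU : ∀ x : X.X, UniqueFactorizationMonoid (X.X.presheaf.stalk x)) {S : TopCat.{0}}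
    [PreirreducibleSpace S] (q : X.X → S) (E : Submodule ℂ X.K) (hE : (1 : X.K) ∈ E) :
    hh q E (0 : Div X.X) 0 = 1 := by
  rw [hh_zero, finrank_inf_H0_zero X hU E hE]

end Vale.Agent.P299.Q
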