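import Mathlib.RingTheory.AlgebraicIndependent.TranscendenceBasis
import Mathlib.RingTheory.AlgebraicIndependent.Basic
import Mathlib.RingTheory.Derivation.Basic
import Mathlib.Algebra.CharP.Algebra
import Mathlib.RingTheory.MvPolynomial.Basic
import Mathlib.FieldTheory.Separable
import Mathlib.FieldTheory.Perfect
import Mathlib.FieldTheory.IntermediateField.Adjoin.Algebra
import Mathlib.LinearAlgebra.Dimension.Finrank

/-!
# Algebraically independent elements and derivations
-/

namespace Vale.Agent.P299.Q

open Polynomial

variable {k K : Type} [Field k] [CharZero k] [Field K] [Algebra k K]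

/-- A derivation which vanishes on a subset over which `K` is algebraic is zero. -/
theorem derivation_eq_zero {t : Set K} (ht : Algebra.IsAlgebraic (Algebra.adjoin k t) K)
    (D : Derivation k K K) (hD : ∀ x ∈ t, D x = 0) : D = 0 := by
  let k₀ : IntermediateField k K :=
    { carrier := {a | D a = 0}
      mul_mem' := fun {a b} (ha : D a = 0) (hb : D b = 0) => by
        change D (a * b) = 0
        rw [Derivation.leibniz, ha, hb, smul_zero, smul_zero, add_zero]
      add_mem' := fun {a b} (ha : D a = 0) (hb : D b = 0) => by
        change D (a + b) = 0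
        rw [map_add, ha, hb, add_zero]
      algebraMap_mem' := fun c => D.map_algebraMap c
      inv_mem' := fun a (ha : D a = 0) => by
        change D a⁻¹ = 0
        rw [Derivation.leibniz_inv, ha, smul_zero] }
  have hk₀ : ∀ a : k₀, D (a : K) = 0 := fun a => a.2
  let D' : Derivation k₀ K K := Derivation.mk'
    { toFun := D
      map_add' := fun a b => map_add D a b
      map_smul' := fun c a => by
        rw [Algebra.smul_def, Derivation.leibniz]
        change (c : K) • D a + a • D (c : K) = _
        rw [hk₀, smul_zero, add_zero]
        rfl }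
    (fun a b => D.leibniz a b)
  have hle : Algebra.adjoin k t ≤ k₀.toSubalgebra := Algebra.adjoin_le hD
  have halg : Algebra.IsAlgebraic k₀ K := by
    refine ⟨fun a => ?_⟩
    obtain ⟨p, hp0, hp⟩ := ht.isAlgebraic a
    let f : Algebra.adjoin k t →+* k₀ := (Subalgebra.inclusion hle).toRingHom
    have hf : Function.Injective f := Subalgebra.inclusion_injective hle
    refine ⟨p.map f, (Polynomial.map_ne_zero_iff hf).2 hp0, ?_⟩
    rw [Polynomial.aeval_def, Polynomial.eval₂_map]
    exact hp
  have hchar : CharZero k₀ := charZero_of_injective_algebraMap (algebraMap k k₀).injective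
  ext a
  have hsep : (minpoly k₀ a).Separable :=
    (minpoly.irreducible (halg.isAlgebraic a).isIntegral).separable
  have h1 := D'.map_aeval (minpoly k₀ a) a
  rw [minpoly.aeval, map_zero, smul_eq_mul] at h1
  have h2 := hsep.aeval_derivative_ne_zero (minpoly.aeval k₀ a)
  exact (mul_eq_zero.1 h1.symm).resolve_left h2

/-- Among finitely many generators of the field `K` over `k` there are `dim Der_k K` algebraically
independent ones. -/
theorem exists_algebraicIndependent {T : Type} [Finite T] (g : T → K)
    (hg : ∀ S : Subfield K, (∀ c : k, algebraMap k K c ∈ S) → (∀ j, g j ∈ S) → S = ⊤) :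
    ∃ y : Fin (Module.finrank K (Derivation k K K)) → T,
      AlgebraicIndependent k (fun i => g (y i)) := by
  classical
  have hE : IntermediateField.adjoin k (Set.range g) = ⊤ := by
    have h1 := hg (IntermediateField.adjoin k (Set.range g)).toSubfield
      (fun c => (IntermediateField.adjoin k (Set.range g)).algebraMap_mem c)
      (fun j => IntermediateField.subset_adjoin k _ ⟨j, rfl⟩)
    rw [eq_top_iff]
    intro x _
    have : x ∈ (IntermediateField.adjoin k (Set.range g)).toSubfield := by rw [h1]; trivial
    exact this
  have halg : Algebra.IsAlgebraic (Algebra.adjoin k (Set.range g)) K := by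
    refine ⟨fun a => ?_⟩
    have ha : a ∈ IntermediateField.adjoin k (Set.range g) := by rw [hE]; trivial
    obtain ⟨p, hp, q, hq, rfl⟩ := IntermediateField.mem_adjoin_iff_div.1 ha
    by_cases hq0 : q = 0
    · rw [hq0, div_zero]
      exact isAlgebraic_zero
    · let p' : Algebra.adjoin k (Set.range g) := ⟨p, hp⟩
      let q' : Algebra.adjoin k (Set.range g) := ⟨q, hq⟩
      refine ⟨C q' * X - C p', fun h0 => ?_, ?_⟩
      · have h1 := congrArg (fun r => r.coeff 1) h0
        simp only [coeff_sub, coeff_C_mul, coeff_X_one, mul_one, coeff_zero] at h1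
        rw [coeff_C_of_ne_zero one_ne_zero, sub_zero] at h1
        exact hq0 (congrArg Subtype.val h1)
      · rw [map_sub, map_mul, aeval_C, aeval_C, aeval_X]
        change q * (p / q) - p = 0
        rw [mul_div_cancel₀ _ hq0, sub_self]
  obtain ⟨t, htg, ht⟩ := exists_isTranscendenceBasis_subset (R := k) (Set.range g)
  have htfin : t.Finite := (Set.finite_range g).subset htg
  have := htfin.fintype
  have htalg : Algebra.IsAlgebraic (Algebra.adjoin k t) K := by
    have := ht.isAlgebraic
    rwa [Subtype.range_coe] at this
  let ev : Derivation k K K →ₗ[K] (t → K) :=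
    { toFun := fun D x => D x
      map_add' := fun _ _ => rfl
      map_smul' := fun _ _ => rfl }
  have hev : Function.Injective ev := by
    rw [injective_iff_map_eq_zero]
    intro D hD
    exact derivation_eq_zero htalg D fun x hx => congrFun hD ⟨x, hx⟩
  have hcard : Module.finrank K (Derivation k K K) ≤ Fintype.card t := by
    have := LinearMap.finrank_le_finrank_of_injective hev
    rwa [Module.finrank_fintype_fun_eq_card] at this
  obtain ⟨e⟩ : Nonempty (Fin (Module.finrank K (Derivation k K K)) ↪ t) := by
    refine Function.Embedding.nonempty_of_card_le ?_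
    rwa [Fintype.card_fin]
  choose y hy using fun x : t => htg x.2
  refine ⟨fun i => y (e i), ?_⟩
  have h1 := ht.1.comp e e.injective
  have h2 : (fun i => g (y (e i))) = (Subtype.val : t → K) ∘ e := by
    funext i
    exact hy (e i)
  rw [h2]
  exact h1

omit [CharZero k] in
/-- Monomials in algebraically independent elements are linearly independent. -/
theorem linearIndependent_monomials {n : ℕ} {y : Fin n → K} (hy : AlgebraicIndependent k y)
    (m : ℕ) : LinearIndependent k (fun e : Fin n → Fin (m + 1) => ∏ i, y i ^ (e i : ℕ)) := by
  have h1 : LinearIndependent k (fun e : Fin n → Fin (m + 1) =>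
      MvPolynomial.monomial (Finsupp.equivFunOnFinite.symm fun i => (e i : ℕ)) (1 : k)) := by
    have h2 := (MvPolynomial.basisMonomials (Fin n) k).linearIndependent
    have h3 : Function.Injective (fun e : Fin n → Fin (m + 1) =>
        Finsupp.equivFunOnFinite.symm fun i => (e i : ℕ)) := by
      intro e e' h
      have h4 := Finsupp.equivFunOnFinite.symm.injective h
      funext i
      exact Fin.ext (congrFun h4 i)
    have h5 := h2.comp _ h3
    rw [MvPolynomial.coe_basisMonomials] at h5
    exact h5
  have h2 := h1.map' (MvPolynomial.aeval y).toLinearMap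
    (LinearMap.ker_eq_bot.2 (algebraicIndependent_iff_injective_aeval.1 hy))
  have h3 : (fun e : Fin n → Fin (m + 1) => ∏ i, y i ^ (e i : ℕ)) =
      (MvPolynomial.aeval y).toLinearMap ∘ fun e : Fin n → Fin (m + 1) =>
        MvPolynomial.monomial (Finsupp.equivFunOnFinite.symm fun i => (e i : ℕ)) (1 : k) := by
    funext e
    change _ = MvPolynomial.aeval y (MvPolynomial.monomial _ (1 : k))
    rw [MvPolynomial.aeval_monomial, map_one, one_mul, Finsupp.prod_fintype _ _ (by simp)]
    rfl
  rw [h3]
  exact h2

end Vale.Agent.P299.Q
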