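import Mathlib.AlgebraicGeometry.ValuativeCriterion
import Vale.Agent.P299.Q.Tensor

/-!
# Every valuation ring of the function field of a projective variety has a centre
-/

open CategoryTheory TopologicalSpace Opposite TopCat AlgebraicGeometry Order

namespace Vale.Agent.P299.Q

/-- The valuative criterion of properness: a valuation ring of the function field which contains
the constants contains some local ring. -/
theorem exists_center (X : Var) (V : ValuationSubring X.K)
    (hV : ∀ c : ℂ, algebraMap ℂ X.K c ∈ V) :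
    ∃ x : X.X, ∀ a : X.X.presheaf.stalk x, algebraMap _ X.K a ∈ V := by
  have hex : ValuativeCriterion.Existence (X.X ↘ SpecC) := by
    have h1 : UniversallyClosed (X.X ↘ SpecC) := inferInstance
    rw [UniversallyClosed.eq_valuativeCriterion] at h1
    exact h1.1
  let cV : ℂ →+* V := (algebraMap ℂ X.K).codRestrict V.toSubring hV
  let j : CommRingCat.of V ⟶ CommRingCat.of X.K := CommRingCat.ofHom (algebraMap V X.K)
  let i₁ : Spec (CommRingCat.of X.K) ⟶ X.X := X.X.fromSpecStalk (genericPoint X.X)
  let i₂ : Spec (CommRingCat.of V) ⟶ SpecC := Spec.map (CommRingCat.ofHom cV)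
  have hj : CommRingCat.ofHom cV ≫ j = CommRingCat.ofHom (algebraMap ℂ X.K) := by
    ext c
    rfl
  have hsq : i₁ ≫ (X.X ↘ SpecC) = Spec.map j ≫ i₂ := by
    rw [← Spec.map_comp, hj]
    apply ext_of_isAffine
    rw [Scheme.Hom.comp_appTop]
    have h1 : i₁.appTop = X.X.presheaf.germ ⊤ (genericPoint X.X) trivial ≫
        (Scheme.ΓSpecIso (X.X.presheaf.stalk (genericPoint X.X))).inv := by
      have h2 := Scheme.fromSpecStalk_appTop (X := X.X) (x := genericPoint X.X)
      refine h2.trans ?_
      congr 1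
    have h5 : (Spec.map (CommRingCat.ofHom (algebraMap ℂ X.K))).appTop =
        (Scheme.ΓSpecIso (CommRingCat.of ℂ)).hom ≫ CommRingCat.ofHom (algebraMap ℂ X.K) ≫
          (Scheme.ΓSpecIso (CommRingCat.of X.K)).inv := by
      rw [← Scheme.ΓSpecIso_naturality_assoc, Iso.hom_inv_id, Category.comp_id]
    rw [h5, h1]
    have h6 : CommRingCat.ofHom (algebraMap ℂ X.K) = (Scheme.ΓSpecIso (CommRingCat.of ℂ)).inv ≫
        (X.X ↘ SpecC).appTop ≫ X.X.presheaf.germ ⊤ (genericPoint X.X) trivial := by
      ext c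
      rfl
    rw [h6]
    simp only [Category.assoc, Iso.hom_inv_id_assoc]
    rfl
  let S : ValuativeCommSq (X.X ↘ SpecC) :=
    { R := V
      K := X.K
      i₁ := i₁
      i₂ := i₂
      commSq := ⟨hsq⟩ }
  have hl : ∃ l : Spec (CommRingCat.of V) ⟶ X.X, Spec.map j ≫ l = i₁ := by
    obtain ⟨⟨⟨l, hl1, -⟩⟩⟩ := hex S
    exact ⟨l, hl1⟩
  obtain ⟨l, hl1⟩ := hl
  have h1 : Spec.map (Scheme.stalkClosedPointTo l) ≫
      X.X.fromSpecStalk (l (IsLocalRing.closedPoint V)) = l :=
    Scheme.Spec_stalkClosedPointTo_fromSpecStalk l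
  have h2 : Spec.map (X.X.presheaf.stalkSpecializes ((genericPoint_spec X.X).specializes
      (Set.mem_univ (l (IsLocalRing.closedPoint V))))) ≫
      X.X.fromSpecStalk (l (IsLocalRing.closedPoint V)) = i₁ :=
    Scheme.SpecMap_stalkSpecializes_fromSpecStalk _
  rw [← h2] at hl1
  have h3 : Spec.map (Scheme.stalkClosedPointTo l ≫ j) ≫
      X.X.fromSpecStalk (l (IsLocalRing.closedPoint V)) =
      Spec.map (X.X.presheaf.stalkSpecializes ((genericPoint_spec X.X).specializes
      (Set.mem_univ (l (IsLocalRing.closedPoint V))))) ≫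
      X.X.fromSpecStalk (l (IsLocalRing.closedPoint V)) := by
    rw [Spec.map_comp, Category.assoc, h1]
    exact hl1
  have h4 := Spec.map_injective ((cancel_mono _).1 h3)
  refine ⟨l (IsLocalRing.closedPoint V), fun a => ?_⟩
  have h5 := congrArg (fun f => f.hom a) h4
  change (algebraMap V X.K ((Scheme.stalkClosedPointTo l).hom a)) = _ at h5
  have h6 : algebraMap (X.X.presheaf.stalk (l (IsLocalRing.closedPoint V))) X.K a =
      (X.X.presheaf.stalkSpecializes ((genericPoint_spec X.X).specializes
      (Set.mem_univ (l (IsLocalRing.closedPoint V))))).hom a :=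
    rfl
  rw [h6, ← h5]
  exact ((Scheme.stalkClosedPointTo l).hom a).2

end Vale.Agent.P299.Q
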