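import Vale.Agent.P299.Q.GradedFin
import Vale.Agent.P299.Q.Center
import Vale.Agent.P299.Q.CM

/-!
# The spaces of sections have finite dimension
-/

open CategoryTheory TopologicalSpace Opposite TopCat AlgebraicGeometry Order

namespace Vale.Agent.P299.Q

variable {X : Var}

theorem one_mem_H0_zero : (1 : X.K) ∈ H0 (coef (0 : Div X.X)) := by
  rw [mem_H0]
  intro y _ _
  rw [ord_one, coef_zero, add_zero]

/-- Some multiple of an ample divisor has finitely many sections which generate it and whose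
quotients generate the function field. -/
theorem IsAmple.exists_sections (hAB : FactorialStalks) {H : Div X.X} (hH : IsAmple H) :
    ∃ (c : ℕ) (T : Type) (_ : Finite T) (s : T → X.K) (j₀ : T), 0 < c ∧
      (∀ j, s j ∈ H0 (coef (c • H))) ∧ (∀ x : X.X, ∃ j, GenAt (c • H) (s j) x) ∧ s j₀ ≠ 0 ∧
      ∀ S : Subfield X.K, (∀ c : ℂ, algebraMap ℂ X.K c ∈ S) → (∀ j, s j / s j₀ ∈ S) → S = ⊤ := by
  classical
  obtain ⟨m₀, hm₀⟩ := hH.forall_add (hAB X) 0
  obtain ⟨m, hm, s, hs, U, hUa, hxU, hU⟩ := hH (genericPoint X.X)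
  have hs0 : s ≠ 0 := ((hU _).1 hxU).1
  have hne : Nonempty U := ⟨⟨_, hxU⟩⟩
  obtain ⟨F, hF⟩ := exists_gens U hUa
  have hgerm : ∀ (g : Γ(X.X, U)) (z : X.X), z ∈ U → coheight z = 1 →
      X.X.germToFunctionField U g ≠ 0 → 0 ≤ Scheme.ord (X.X.germToFunctionField U g) z := by
    intro g z hz _ _
    obtain ⟨a, ha⟩ := germ_mem_locRing hz g
    rw [← ha]
    exact G.ord_toK_nonneg a
  have hk : ∀ g : Γ(X.X, U), ∃ k₁ : ℕ, ∀ k ≥ k₁,
      X.X.germToFunctionField U g * s ^ k ∈ H0 (coef (k • (m • H))) := by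
    intro g
    set u := X.X.germToFunctionField U g with hu
    by_cases hu0 : u = 0
    · refine ⟨0, fun k _ => ?_⟩
      rw [hu0, zero_mul]
      exact Submodule.zero_mem _
    have hfin : {z : X.X | Scheme.ord u z + coef (0 : Div X.X) z ≠ 0}.Finite := by
      refine (G.finite_ord_ne_zero u hu0).subset fun z hz => ?_
      simpa using hz
    obtain ⟨k₁, -, hkb⟩ := exists_bound hfin
    refine ⟨k₁, fun k hk => ?_⟩
    obtain ⟨h1, -⟩ := mul_pow_section (A := m • H) (D := (0 : Div X.X)) (s := s) (g := u)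
      (U := (U : Set X.X)) (V := {z | z ∈ U ∧ GenAt (0 : Div X.X) u z}) (k := k)
      (fun z hz => hz.1) hs hs0 hU hu0
      (fun z hz hz1 => by
        rw [coef_zero, add_zero]
        exact hgerm g z hz hz1 hu0)
      (fun z hz => ⟨fun h => h.2, fun h => ⟨hz, h⟩⟩)
      (fun z => (hkb z).trans_le (by exact_mod_cast hk))
    rwa [zero_add] at h1
  choose k₁ hk₁ using hk
  set k : ℕ := m₀ + (∑ g ∈ F, k₁ g) + 1 with hkdef
  have hkg : ∀ g ∈ F, k₁ g ≤ k := fun g hg => by
    have := Finset.single_le_sum (f := k₁) (fun _ _ => Nat.zero_le _) hg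
    omega
  have hc : m₀ ≤ k * m := by
    have : k ≤ k * m := Nat.le_mul_of_pos_right _ hm
    omega
  have hgen : IsGenerated ((k * m) • H) := by
    have := (hm₀ (k * m) hc).2
    rwa [add_zero] at this
  obtain ⟨N, t, ht, htg⟩ := exists_generators hgen
  let s' : Fin N ⊕ Option F → X.K := Sum.elim t fun g => match g with
    | none => s ^ k
    | some g => X.X.germToFunctionField U g.1 * s ^ k
  refine ⟨k * m, Fin N ⊕ Option F, inferInstance, s', Sum.inr none, by positivity, ?_, ?_,
    pow_ne_zero _ hs0, ?_⟩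
  · rintro (j | _ | g)
    · exact ht j
    · have := H0_pow hs k
      rwa [← mul_smul] at this
    · have := hk₁ g.1 k (hkg g.1 g.2)
      rwa [← mul_smul] at this
  · intro x
    obtain ⟨j, hj⟩ := htg x
    exact ⟨Sum.inl j, hj⟩
  · intro S hS1 hS2
    have hS3 : ∀ g ∈ F, X.X.germToFunctionField U g ∈ S := by
      intro g hg
      have h1 := hS2 (Sum.inr (some ⟨g, hg⟩))
      change X.X.germToFunctionField U g * s ^ k / s ^ k ∈ S at h1
      rwa [mul_div_cancel_right₀ _ (pow_ne_zero _ hs0)] at h1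
    have h2 : S.toSubring.comap (X.X.germToFunctionField U).hom = ⊤ := by
      refine hF _ (fun c => ?_) fun g hg => hS3 g hg
      change X.X.germToFunctionField U (cst U c) ∈ S
      rw [germ_cst]
      exact hS1 c
    have h3 : ∀ g : Γ(X.X, U), X.X.germToFunctionField U g ∈ S := by
      intro g
      have : g ∈ S.toSubring.comap (X.X.germToFunctionField U).hom := by rw [h2]; trivial
      exact this
    rw [eq_top_iff]
    intro a _
    have := functionField_isFractionRing_of_isAffineOpen X.X U hUa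
    obtain ⟨p, q, -, rfl⟩ := IsFractionRing.div_surjective (A := Γ(X.X, U)) a
    exact S.div_mem (h3 p) (h3 q)

open Polynomial in
/-- The spaces `H⁰(X, O(kcH))` have finite dimension. -/
theorem finite_H0_of_sections (hAB : FactorialStalks) {H : Div X.X} {T : Type} [Finite T]
    (s : T → X.K) (j₀ : T) (hgen : ∀ x : X.X, ∃ j, GenAt H (s j) x) (hj₀ : s j₀ ≠ 0)
    (hfield : ∀ S : Subfield X.K, (∀ c : ℂ, algebraMap ℂ X.K c ∈ S) → (∀ j, s j / s j₀ ∈ S) →
      S = ⊤) (k : ℕ) : Module.Finite ℂ (H0 (coef (k • H)) : Submodule ℂ X.K) := by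
  refine finiteDimensional_of_valuation (k := ℂ) (K := X.K) s ?_ k _ ?_
  · intro S hS1 hS2
    set ι := algebraMap X.K[X] (FractionRing X.K[X]) with hι
    have hιinj : Function.Injective ι := IsFractionRing.injective X.K[X] (FractionRing X.K[X])
    have h0 : S.comap (ι.comp C) = ⊤ := by
      refine hfield _ (fun c => hS1 c) fun j => ?_
      change ι (C (s j / s j₀)) ∈ S
      have h1 : ι (C (s j / s j₀)) = ι (C (s j) * Polynomial.X) / ι (C (s j₀) * Polynomial.X) := by
        rw [eq_div_iff ((map_ne_zero_iff ι hιinj).2 (mul_ne_zero (C_ne_zero.2 hj₀) X_ne_zero)),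
          ← map_mul]
        congr 1
        rw [← mul_assoc, ← C_mul, div_mul_cancel₀ _ hj₀]
      rw [h1]
      exact S.div_mem (hS2 j) (hS2 j₀)
    have h1 : ∀ a : X.K, ι (C a) ∈ S := by
      intro a
      have : a ∈ S.comap (ι.comp C) := by rw [h0]; trivial
      exact this
    have h2 : ι Polynomial.X ∈ S := by
      have h3 : ι Polynomial.X = ι (C (s j₀) * Polynomial.X) * ι (C (s j₀)⁻¹) := by
        rw [← map_mul]
        congr 1
        rw [mul_comm (C (s j₀)) Polynomial.X, mul_assoc, ← C_mul, mul_inv_cancel₀ hj₀, C_1, mul_one]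
      rw [h3]
      exact S.mul_mem (hS2 j₀) (h1 _)
    have h3 : ∀ p : X.K[X], ι p ∈ S := by
      intro p
      induction p using Polynomial.induction_on' with
      | add p q hp hq =>
        rw [map_add]
        exact S.add_mem hp hq
      | monomial n a =>
        rw [← C_mul_X_pow_eq_monomial, map_mul, map_pow]
        exact S.mul_mem (h1 a) (S.pow_mem h2 n)
    rw [eq_top_iff]
    intro a _
    obtain ⟨p, q, -, rfl⟩ := IsFractionRing.div_surjective (A := X.K[X]) a
    exact S.div_mem (h3 p) (h3 q)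
  · intro f hf W hW1 hW2
    set ι := algebraMap X.K[X] (FractionRing X.K[X]) with hι
    obtain ⟨x, hx⟩ := exists_center X (W.comap (ι.comp C)) fun c => hW1 c
    obtain ⟨j, hj⟩ := hgen x
    have := hAB X x
    obtain ⟨a, ha⟩ := G.exists_of_forall_ord_nonneg X.dvr x (f / s j ^ k) (fun z hz hzx => by
      by_cases hf0 : f = 0
      · rw [hf0, zero_div, Scheme.ord_zero]
        simp
      rw [ord_div hf0 (pow_ne_zero _ hj.1) z, ord_pow hj.1]
      have h3 := hj.2 z hz hzx
      have h4 := (mem_H0.1 hf) z hz hf0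
      rw [coef_nsmul] at h4
      have h5 : Scheme.ord (s j) z = - coef H z := by linarith
      rw [h5]
      linarith)
    have h1 : ι (C (f / s j ^ k)) ∈ W := by
      have h2 := hx a
      have h3 : algebraMap (X.X.presheaf.stalk x) X.K a = f / s j ^ k := ha
      rw [h3] at h2
      exact h2
    have h2 : ι (C f * Polynomial.X ^ k) = ι (C (f / s j ^ k)) * ι (C (s j) * Polynomial.X) ^ k := by
      rw [← map_pow, ← map_mul]
      congr 1
      rw [mul_pow, ← C_pow, ← mul_assoc, ← C_mul, div_mul_cancel₀ _ (pow_ne_zero _ hj.1)]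
    rw [h2]
    exact W.mul_mem _ _ h1 (W.toSubring.pow_mem (hW2 j) k)

/-- **The space of sections of a divisor on a smooth projective variety has finite dimension.** -/
theorem finite_H0 (hAB : FactorialStalks) (D : Div X.X) :
    Module.Finite ℂ (H0 (coef D) : Submodule ℂ X.K) := by
  obtain ⟨H, hH⟩ := X.ample
  obtain ⟨c, T, hT, s, j₀, hc, hs, hgen, hj₀, hfield⟩ := hH.exists_sections hAB
  obtain ⟨k₀, hk₀⟩ := (hH.nsmul hc).forall_add (hAB X) (-D)
  obtain ⟨u, hu, hu0⟩ := H0_ne_bot_iff.1 (hk₀ k₀ le_rfl).2.exists_section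
  have hfin := finite_H0_of_sections hAB s j₀ hgen hj₀ hfield k₀
  let μ : (H0 (coef D) : Submodule ℂ X.K) →ₗ[ℂ] (H0 (coef (k₀ • c • H)) : Submodule ℂ X.K) :=
    { toFun := fun f => ⟨f.1 * u, by
        have := H0_mul f.2 hu
        have e : D + (k₀ • c • H + -D) = k₀ • c • H := by abel
        rwa [e] at this⟩
      map_add' := fun f g => Subtype.ext (add_mul _ _ _)
      map_smul' := fun a f => Subtype.ext (smul_mul_assoc _ _ _) }
  refine Module.Finite.of_injective μ fun f g hfg => Subtype.ext ?_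
  exact mul_right_cancel₀ hu0 (congrArg Subtype.val hfg)

end Vale.Agent.P299.Q
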