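import Vale.Agent.P299.Q.AsymChi
import Vale.Agent.P299.Q.CohZero
import Vale.Agent.P299.Q.SemiPos
import Vale.Agent.P299.Q.PullPos
import Vale.Agent.P299.Q.FinDim

/-!
# Euler characteristics and sections: vanishing theorems
-/

open CategoryTheory TopologicalSpace Opposite TopCat AlgebraicGeometry Order Filter Topology
open scoped Nat

namespace Vale.Agent.P299.Q

/-- The dimension of the space of sections. -/
noncomputable def h0 {X : Var} (D : Div X.X) : ℕ := Module.finrank ℂ (H0 (coef D))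

/-- The spaces of sections are finite-dimensional. -/
def FiniteSections : Prop := ∀ (X : Var) (D : Div X.X), Module.Finite ℂ (H0 (coef D))

theorem finiteSections (hAB : FactorialStalks) : FiniteSections := fun _ D => finite_H0 hAB D

section

variable {X : Var}

theorem isPsef_of_section' {D : Div X.X} (h : H0 (coef D) ≠ ⊥) : IsPsef D := by
  intro A hA m
  obtain ⟨k, hk, hs⟩ := hA.exists_section
  refine ⟨k, hk, ?_⟩
  rw [smul_add]
  exact H0_add_ne_bot (H0_nsmul_ne_bot (H0_nsmul_ne_bot h m) k) hs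

theorem isPsef_zero : IsPsef (0 : Div X.X) := isPsef_of_section' (H0_ne_bot_of_nonneg le_rfl)

theorem IsPsef.add_isNef {P N : Div X.X} (hP : IsPsef P) (hN : IsNef N) : IsPsef (P + N) := by
  intro A hA m
  have h := hP (m • N + A) (hN A hA m) m
  have e : m • (P + N) + A = m • P + (m • N + A) := by
    rw [smul_add, add_assoc]
  rw [e]
  exact h

/-- If `D` has a section then `h⁰(E - D) ≤ h⁰(E)`. -/
theorem h0_sub_le (hFin : FiniteSections) {D : Div X.X} (hD : H0 (coef D) ≠ ⊥) (E : Div X.X) :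
    h0 (E - D) ≤ h0 E := by
  obtain ⟨s, hs, hs0⟩ := H0_ne_bot_iff.1 hD
  have := hFin X E
  have hmem : ∀ f ∈ H0 (coef (E - D)), s * f ∈ H0 (coef E) := by
    intro f hf
    have h1 := H0_mul hs hf
    rwa [add_sub_cancel] at h1
  refine LinearMap.finrank_le_finrank_of_injective
    (f := ((LinearMap.mulLeft ℂ s).comp (H0 (coef (E - D))).subtype).codRestrict
      (H0 (coef E)) fun f => hmem _ f.2) ?_
  intro f g hfg
  have h1 : s * (f : X.K) = s * (g : X.K) := congrArg Subtype.val hfg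
  exact Subtype.ext (mul_left_cancel₀ hs0 h1)

theorem h0_pos_iff (hFin : FiniteSections) {D : Div X.X} : 0 < h0 D ↔ H0 (coef D) ≠ ⊥ := by
  have := hFin X D
  unfold h0
  rw [Module.finrank_pos_iff_of_free, Submodule.nontrivial_iff_ne_bot]

/-- The Euler characteristic is the number of sections if the higher cohomology vanishes. -/
theorem chi_eq_h0_of_vanishing {D : Div X.X}
    (h : ∀ i > 0, Subsingleton (Coh (secSheaf (S := (X.X : TopCat.{0})) id ⊤ D) i)) :
    Q.chi D = h0 D := by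
  unfold Q.chi
  rw [Finset.sum_range_succ', Finset.sum_eq_zero, zero_add, pow_zero, one_mul, hh_zero, top_inf_eq]
  · rfl
  · intro i _
    have h1 := h (i + 1) (Nat.succ_pos i)
    have h2 : hh (S := (X.X : TopCat.{0})) id ⊤ D (i + 1) = 0 :=
      Module.finrank_zero_of_subsingleton
    rw [h2]
    simp

variable (hAB : FactorialStalks) (hKN : KollarNadelVanishing)

include hAB hKN

/-- The vanishing theorem for `κ + M` with `M` nef and big. -/
theorem vanishing {κ M A : Div X.X} (hκ : IsCanonicalDivisor κ) (hM : IsNef M) (hA : IsAmple A)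
    (hc : ∃ c : ℕ, 0 < c ∧ IsPsef (c • M - A)) {i : ℕ} (hi : 0 < i) :
    Subsingleton (Coh (secSheaf (S := (X.X : TopCat.{0})) id ⊤ (κ + M)) i) := by
  obtain ⟨c, hc0, hc⟩ := hc
  have h := hKN X X (DomHom.id X) κ 0 M A M A hκ (semiPos_zero hAB) hM hA
    (isPullback_id hAB M) (isPullback_id hAB A) ⟨c, hc0, by rwa [zero_add]⟩ i hi
  rw [add_zero] at h
  exact h

theorem chi_eq_h0 {κ M A : Div X.X} (hκ : IsCanonicalDivisor κ) (hM : IsNef M) (hA : IsAmple A)
    (hc : ∃ c : ℕ, 0 < c ∧ IsPsef (c • M - A)) : Q.chi (κ + M) = h0 (κ + M) :=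
  chi_eq_h0_of_vanishing fun _ hi => vanishing hAB hKN hκ hM hA hc hi

theorem chi_eq_h0_of_ample {κ A : Div X.X} (hκ : IsCanonicalDivisor κ) (hA : IsAmple A) :
    Q.chi (κ + A) = h0 (κ + A) :=
  chi_eq_h0 hAB hKN hκ hA.isNef hA ⟨1, one_pos, by rw [one_smul, sub_self]; exact isPsef_zero⟩

/-- The case of the sum of a big and nef and a nef divisor. -/
theorem chi_eq_h0_of_big {κ N B : Div X.X} (hκ : IsCanonicalDivisor κ) (hN : IsNef N)
    (hbig : IsBig N) (hB : IsNef B) {k : ℕ} (hk : 0 < k) :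
    Q.chi (κ + (k • N + B)) = h0 (κ + (k • N + B)) := by
  obtain ⟨A, hA⟩ := X.ample
  obtain ⟨c, hc0, hc⟩ := hbig A
  refine chi_eq_h0 hAB hKN hκ ((hN.nsmul k).add hB) hA ⟨c, hc0, ?_⟩
  have e : c • (k • N + B) - A = (c • N - A) + ((c * (k - 1)) • N + c • B) := by
    obtain ⟨l, rfl⟩ := Nat.exists_eq_succ_of_ne_zero hk.ne'
    simp only [Nat.succ_eq_add_one, Nat.add_sub_cancel]
    rw [smul_add, add_smul, one_smul, smul_add, mul_smul]
    abel
  rw [e]
  exact (isPsef_of_section' hc).add_isNef ((hN.nsmul _).add (hB.nsmul _))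

variable (hSn : ChiPoly) (hFin : FiniteSections) {m : ℕ} (h : X.dim = m + 1)

include hFin in
/-- `D · A^(n-1) ≥ 0` if `D` has a section and `A` is ample. -/
theorem sform_nonneg_of_ample {κ : Div X.X} (hκ : IsCanonicalDivisor κ) {A D : Div X.X}
    (hA : IsAmple A) (hD : H0 (coef D) ≠ ⊥) :
    0 ≤ sform hSn h (Fin.cons D fun _ => A) := by
  have h1 := tendsto_chi_sub' hSn h κ A D
  obtain ⟨k₀, hk₀⟩ := hA.forall_add (hAB X) (-D)
  have h2 : (0 : ℝ) ≤ (sform hSn h (Fin.cons D fun _ => A) : ℝ) / (m ! : ℝ) := by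
    refine ge_of_tendsto h1 ?_
    filter_upwards [eventually_ge_atTop (k₀ + 1)] with k hk
    have h3 := chi_eq_h0_of_ample hAB hKN hκ (hA.nsmul (show 0 < k by omega))
    have h4 := chi_eq_h0_of_ample hAB hKN hκ (hk₀ k (by omega)).1
    rw [← add_assoc, ← sub_eq_add_neg] at h4
    rw [h3, h4]
    have h5 := h0_sub_le hFin hD (κ + k • A)
    have h6 : (0 : ℤ) ≤ (h0 (κ + k • A) : ℤ) - (h0 (κ + k • A - D) : ℤ) := by omega
    have h7 : (0 : ℝ) ≤ (((h0 (κ + k • A) : ℤ) - (h0 (κ + k • A - D) : ℤ) : ℤ) : ℝ) := by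
      exact_mod_cast h6
    positivity
  have h3 : (0 : ℝ) < (m ! : ℝ) := by positivity
  have h4 := mul_nonneg h2 h3.le
  rw [div_mul_cancel₀ _ h3.ne'] at h4
  exact_mod_cast h4

end

end Vale.Agent.P299.Q
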