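import Vale.Agent.P299.Q.AsymTop
import Vale.Agent.P299.Q.AsymVan

/-!
# The self-intersection number of an ample divisor is positive
-/

open CategoryTheory TopologicalSpace Opposite TopCat AlgebraicGeometry Order Filter Topology
open scoped Nat

namespace Vale.Agent.P299.Q

section

variable {X : Var} (hAB : FactorialStalks) (hKN : KollarNadelVanishing)
  (hSn : ChiPoly) (hFin : FiniteSections) {m : ℕ} (h : X.dim = m + 1)

/-- Homogeneity. -/
theorem sform_const_nsmul (c : ℕ) (N : Div X.X) :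
    sform hSn h (fun _ => c • N) = (c : ℤ) ^ (m + 1) * sform hSn h (fun _ => N) := by
  have h1 : (fun _ : Fin (m + 1) => c • N) = fun _ : Fin (m + 1) => (c : ℤ) • N := by
    funext _
    rw [natCast_zsmul]
  have h2 := (sform hSn h).map_smul_univ (fun _ : Fin (m + 1) => (c : ℤ)) (fun _ => N)
  rw [h1, h2]
  simp

include hAB hKN hFin in
/-- `H^n > 0` if `H` is ample. -/
theorem sform_ample_pos {κ : Div X.X} (hκ : IsCanonicalDivisor κ) {H : Div X.X}
    (hH : IsAmple H) : 0 < sform hSn h (fun _ => H) := by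
  obtain ⟨c, hc, hgrow⟩ := hH.growth hAB
  obtain ⟨b, hb⟩ := hH.forall_add (hAB X) κ
  have hsec : H0 (coef (κ + (b + 1) • H)) ≠ ⊥ := by
    rw [add_comm]
    exact (hb (b + 1) (Nat.le_succ b)).2.exists_section
  have h1 := tendsto_chi' hSn h (κ + (b + 1) • H) (c • H)
  have h2 : (1 : ℝ) ≤ (sform hSn h (fun _ => c • H) : ℝ) / ((m + 1) ! : ℝ) := by
    refine ge_of_tendsto h1 ?_
    filter_upwards [eventually_gt_atTop 0] with k hk
    have hk0 : (0 : ℝ) < (k : ℝ) ^ (m + 1) := by
      have : (0 : ℝ) < k := by exact_mod_cast hk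
      positivity
    rw [le_div_iff₀ hk0, one_mul]
    have hample : IsAmple ((b + 1) • H + k • (c • H)) :=
      (hH.nsmul (Nat.succ_pos b)).add ((hH.nsmul hc).nsmul hk)
    have h3 := chi_eq_h0_of_ample hAB hKN hκ hample
    have h4 := h0_sub_le hFin hsec (κ + (b + 1) • H + k • (c • H))
    rw [add_sub_cancel_left] at h4
    rw [add_assoc, h3]
    have h5 := hgrow k
    rw [h] at h5
    have h6 : k ^ (m + 1) ≤ h0 (κ + ((b + 1) • H + k • (c • H))) := by
      rw [← add_assoc]
      exact ((Nat.pow_le_pow_left (Nat.le_succ k) _).trans h5).trans h4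
    exact_mod_cast h6
  have h3 : (0 : ℝ) < ((m + 1) ! : ℝ) := by positivity
  have h4 : (0 : ℝ) < (sform hSn h (fun _ => c • H) : ℝ) := by
    by_contra hc
    push Not at hc
    have := div_nonpos_of_nonpos_of_nonneg hc h3.le
    linarith
  have h5 : 0 < sform hSn h (fun _ => c • H) := by exact_mod_cast h4
  rw [sform_const_nsmul] at h5
  by_contra hc
  push Not at hc
  have h6 : (0 : ℤ) ≤ (c : ℤ) ^ (m + 1) := by positivity
  nlinarith [mul_nonneg h6 (neg_nonneg.2 hc)]

end

end Vale.Agent.P299.Q
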