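import Vale.Agent.P299.G.StepD
import Vale.Agent.P299.Q.Ample
import Vale.Agent.P299.Q.BB

/-!
# Intersection numbers: consequences of the basic properties
-/

open CategoryTheory TopologicalSpace Opposite TopCat AlgebraicGeometry Order

namespace Vale.Agent.P299.Q

/-! ### Birational morphisms and dimension -/

section Dim

variable {X Y : Var}

/-- Transport of derivations through an isomorphism of function fields. -/
theorem DomHom.Birational.dim_eq {μ : DomHom X Y} (hμ : μ.Birational) : X.dim = Y.dim := by
  let e : Y.K ≃+* X.K := RingEquiv.ofBijective μ.pull hμ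
  have he : ∀ a : Y.K, e a = μ.pull a := fun a => rfl
  have hes : ∀ (c : ℂ) (a : Y.K), e (c • a) = c • e a := fun c a => by
    rw [Algebra.smul_def, map_mul, he, μ.pull_scalar, Algebra.smul_def]
  have hes' : ∀ (c : ℂ) (a : X.K), e.symm (c • a) = c • e.symm a := fun c a => by
    apply e.injective
    rw [hes, e.apply_symm_apply, e.apply_symm_apply]
  let j : Y.Der ≃+ X.Der :=
    { toFun := fun v => Derivation.mk'
        { toFun := fun a => e (v (e.symm a))
          map_add' := fun a b => by rw [map_add, map_add, map_add]
          map_smul' := fun c a => by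
            rw [hes', Derivation.map_smul, hes]
            rfl }
        (fun a b => by
          change e (v (e.symm (a * b))) = a • e (v (e.symm b)) + b • e (v (e.symm a))
          rw [map_mul, Derivation.leibniz, map_add, smul_eq_mul, smul_eq_mul, map_mul, map_mul,
            e.apply_symm_apply, e.apply_symm_apply]
          rfl)
      invFun := fun v => Derivation.mk'
        { toFun := fun a => e.symm (v (e a))
          map_add' := fun a b => by rw [map_add, map_add, map_add]
          map_smul' := fun c a => by
            rw [hes, Derivation.map_smul, hes']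
            rfl }
        (fun a b => by
          change e.symm (v (e (a * b))) = a • e.symm (v (e b)) + b • e.symm (v (e a))
          rw [map_mul, Derivation.leibniz, map_add, smul_eq_mul, smul_eq_mul, map_mul, map_mul,
            e.symm_apply_apply, e.symm_apply_apply]
          rfl)
      left_inv := fun v => by
        ext a
        change e.symm (e (v (e.symm (e a)))) = v a
        rw [e.symm_apply_apply, e.symm_apply_apply]
      right_inv := fun v => by
        ext a
        change e (e.symm (v (e (e.symm a)))) = v a
        rw [e.apply_symm_apply, e.apply_symm_apply]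
      map_add' := fun v w => by
        ext a
        change e ((v + w) (e.symm a)) = e (v (e.symm a)) + e (w (e.symm a))
        rw [Derivation.add_apply, map_add] }
  have h := rank_eq_of_equiv_equiv e j e.bijective fun r v => by
    ext a
    change e ((r • v) (e.symm a)) = e r • e (v (e.symm a))
    rw [Derivation.smul_apply, smul_eq_mul, map_mul, smul_eq_mul]
  unfold Var.dim Module.finrank
  rw [← h]

end Dim

/-! ### Divisors of functions -/

section Principal

variable {X : Var}

theorem exists_isDivOf {s : X.K} (hs : s ≠ 0) : ∃ P : Div X.X, IsDivOf s P := by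
  have hfin : {x : X.X | coheight x = 1 ∧ Scheme.ord s x ≠ 0}.Finite :=
    (G.finite_ord_ne_zero s hs).subset fun x hx => hx.2
  refine ⟨mkDiv (fun x => Scheme.ord s x) hfin, hs, fun y hy => ?_⟩
  rw [coef_mkDiv _ _ hy]

theorem exists_effective {D : Div X.X} (h : H0 (coef D) ≠ ⊥) :
    ∃ (s : X.K) (P : Div X.X), IsDivOf s P ∧ 0 ≤ D + P := by
  obtain ⟨s, hs, hs0⟩ := H0_ne_bot_iff.1 h
  obtain ⟨P, hP⟩ := exists_isDivOf hs0
  refine ⟨s, P, hP, fun x => ?_⟩
  have h1 := mem_H0.1 hs x.1 x.2 hs0
  have h2 := hP.2 x.1 x.2
  rw [coef_val] at h1 h2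
  change (0 : ℤ) ≤ D x + P x
  omega

end Principal

/-! ### The intersection form -/

section Form

variable {X : Var}

theorem inter_perm (σ : Equiv.Perm (Fin X.dim)) (D : Fin X.dim → Div X.X) :
    inter (fun i => D (σ i)) = inter D := by
  classical
  unfold inter
  refine Fintype.sum_equiv (Equiv.finsetCongr σ) _ _ fun S => ?_
  rw [Equiv.finsetCongr_apply, Finset.card_map]
  congr 2
  rw [Finset.sum_map]
  rfl

variable (hIT : IntersectionTheory) {m : ℕ} (h : X.dim = m + 1)

include hIT in
theorem exists_form : ∃ I : MultilinearMap ℤ (fun _ : Fin (m + 1) => Div X.X) ℤ,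
    (∀ v, I v = inter (fun i => v (Fin.cast h i))) := by
  obtain ⟨I, hI⟩ := hIT.1 X
  refine ⟨I.domDomCongr (finCongr h), fun v => ?_⟩
  rw [MultilinearMap.domDomCongr_apply, hI]
  rfl

/-- The intersection form of a variety of dimension `m + 1`. -/
noncomputable def form : MultilinearMap ℤ (fun _ : Fin (m + 1) => Div X.X) ℤ :=
  (exists_form hIT h).choose

theorem form_apply (v : Fin (m + 1) → Div X.X) :
    form hIT h v = inter (fun i => v (Fin.cast h i)) :=
  (exists_form hIT h).choose_spec v

theorem form_symm : G.Symm (form hIT h) := by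
  intro σ v
  rw [form_apply, form_apply]
  have := inter_perm ((finCongr h).trans (σ.trans (finCongr h).symm))
    (fun i => v (Fin.cast h i))
  rw [← this]
  rfl

theorem form_nef (v : Fin (m + 1) → Div X.X) (hv : ∀ i, IsNef (v i)) : 0 ≤ form hIT h v := by
  rw [form_apply]
  exact hIT.2.2.2.1 X _ fun j => hv _

theorem form_effective (v : Fin (m + 1) → Div X.X) (i : Fin (m + 1)) (hi : 0 ≤ v i)
    (hv : ∀ j, j ≠ i → IsNef (v j)) : 0 ≤ form hIT h v := by
  rw [form_apply]
  refine hIT.2.2.1 X _ (Fin.cast h.symm i) ?_ fun j hj => hv _ fun h' => hj ?_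
  · exact hi
  · rw [← h']; rfl

theorem form_principal (v : Fin (m + 1) → Div X.X) (i : Fin (m + 1)) {g : X.K}
    (hi : IsDivOf g (v i)) : form hIT h v = 0 := by
  rw [form_apply]
  exact hIT.2.1 X _ (Fin.cast h.symm i) g hi

theorem form_section (v : Fin (m + 1) → Div X.X) (i : Fin (m + 1)) (hi : H0 (coef (v i)) ≠ ⊥)
    (hv : ∀ j, j ≠ i → IsNef (v j)) : 0 ≤ form hIT h v := by
  obtain ⟨s, P, hP, hnn⟩ := exists_effective hi
  have h1 := form_effective hIT h (Function.update v i (v i + P)) i
    (by rw [Function.update_self]; exact hnn)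
    (fun j hj => by rw [Function.update_of_ne hj]; exact hv j hj)
  have h2 : form hIT h (Function.update v i P) = 0 :=
    form_principal hIT h _ i (g := s) (by rw [Function.update_self]; exact hP)
  rw [MultilinearMap.map_update_add, h2, add_zero, Function.update_eq_self] at h1
  exact h1

theorem form_ample {H : Div X.X} (hH : IsAmple H) : 0 < form hIT h (fun _ => H) := by
  rw [form_apply]
  exact hIT.2.2.2.2.1 X H hH

variable (hFS : FactorialStalks)

include hFS in
/-- Every divisor is dominated by a multiple of an ample divisor. -/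
theorem exists_dom {H : Div X.X} (hH : IsAmple H) (D : Div X.X) :
    ∃ C : ℕ, IsNef ((C : ℤ) • H - D) ∧ IsNef ((C : ℤ) • H + D) := by
  obtain ⟨m₁, h1⟩ := hH.forall_add (hFS X) D
  obtain ⟨m₂, h2⟩ := hH.forall_add (hFS X) (-D)
  refine ⟨m₁ + m₂, ?_, ?_⟩
  · rw [natCast_zsmul, sub_eq_add_neg]
    exact (h2 _ (by omega)).1.isNef
  · rw [natCast_zsmul]
    exact (h1 _ (by omega)).1.isNef

end Form

end Vale.Agent.P299.Q
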