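import Vale.Agent.P299.Q.Frame
import Vale.Agent.P299.Q.Strict
import Vale.Agent.P299.Q.Numeric

/-!
# The relative canonical divisor of a birational morphism
-/

open CategoryTheory TopologicalSpace Opposite TopCat AlgebraicGeometry Order

namespace Vale.Agent.P299.Q

variable {X Y : Var}

/-! ### Transport of derivations and forms -/

section Transport

variable {μ : DomHom X Y} (hμ : μ.Birational)

/-- The isomorphism of the function fields. -/
noncomputable def DomHom.Birational.equiv : Y.K ≃+* X.K := RingEquiv.ofBijective μ.pull hμ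

theorem DomHom.Birational.equiv_apply (a : Y.K) : hμ.equiv a = μ.pull a := rfl

theorem DomHom.Birational.equiv_smul (c : ℂ) (a : Y.K) : hμ.equiv (c • a) = c • hμ.equiv a := by
  rw [Algebra.smul_def, map_mul, equiv_apply, μ.pull_scalar, Algebra.smul_def]

theorem DomHom.Birational.symm_smul (c : ℂ) (a : X.K) :
    hμ.equiv.symm (c • a) = c • hμ.equiv.symm a := by
  apply hμ.equiv.injective
  rw [hμ.equiv_smul, RingEquiv.apply_symm_apply, RingEquiv.apply_symm_apply]

/-- A rational vector field on `X` as one on `Y`. -/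
noncomputable def DomHom.Birational.down (v : X.Der) : Y.Der :=
  Derivation.mk'
    { toFun := fun a => hμ.equiv.symm (v (hμ.equiv a))
      map_add' := fun a b => by rw [map_add, map_add, map_add]
      map_smul' := fun c a => by
        rw [hμ.equiv_smul, Derivation.map_smul, hμ.symm_smul]
        rfl }
    (fun a b => by
      change hμ.equiv.symm (v (hμ.equiv (a * b))) = a • hμ.equiv.symm (v (hμ.equiv b)) +
        b • hμ.equiv.symm (v (hμ.equiv a))
      rw [map_mul, Derivation.leibniz, map_add, smul_eq_mul, smul_eq_mul, map_mul, map_mul,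
        RingEquiv.symm_apply_apply, RingEquiv.symm_apply_apply]
      rfl)

theorem DomHom.Birational.down_apply (v : X.Der) (a : Y.K) :
    hμ.down v a = hμ.equiv.symm (v (hμ.equiv a)) := rfl

/-- A rational vector field on `Y` as one on `X`. -/
noncomputable def DomHom.Birational.up (v : Y.Der) : X.Der :=
  Derivation.mk'
    { toFun := fun a => hμ.equiv (v (hμ.equiv.symm a))
      map_add' := fun a b => by rw [map_add, map_add, map_add]
      map_smul' := fun c a => by
        rw [hμ.symm_smul, Derivation.map_smul, hμ.equiv_smul]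
        rfl }
    (fun a b => by
      change hμ.equiv (v (hμ.equiv.symm (a * b))) = a • hμ.equiv (v (hμ.equiv.symm b)) +
        b • hμ.equiv (v (hμ.equiv.symm a))
      rw [map_mul, Derivation.leibniz, map_add, smul_eq_mul, smul_eq_mul, map_mul, map_mul,
        RingEquiv.apply_symm_apply, RingEquiv.apply_symm_apply]
      rfl)

theorem DomHom.Birational.up_apply (v : Y.Der) (a : X.K) :
    hμ.up v a = hμ.equiv (v (hμ.equiv.symm a)) := rfl

theorem DomHom.Birational.down_up (v : Y.Der) : hμ.down (hμ.up v) = v := by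
  ext a
  rw [hμ.down_apply, hμ.up_apply, RingEquiv.symm_apply_apply, RingEquiv.symm_apply_apply]

theorem DomHom.Birational.down_add (v v' : X.Der) :
    hμ.down (v + v') = hμ.down v + hμ.down v' := by
  ext a
  rw [Derivation.add_apply, hμ.down_apply, hμ.down_apply, hμ.down_apply, Derivation.add_apply,
    map_add]

theorem DomHom.Birational.down_smul (c : X.K) (v : X.Der) :
    hμ.down (c • v) = hμ.equiv.symm c • hμ.down v := by
  ext a
  rw [Derivation.smul_apply, hμ.down_apply, hμ.down_apply, Derivation.smul_apply, smul_eq_mul,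
    smul_eq_mul, map_mul]

theorem update_cast {α β : Type*} {m n : ℕ} (h : n = m) (j : α → β) (f : Fin m → α) (i : Fin m)
    (z : α) : (fun k : Fin n => j (Function.update f i z (Fin.cast h k))) =
      Function.update (fun k : Fin n => j (f (Fin.cast h k))) (Fin.cast h.symm i) (j z) := by
  subst h
  funext k
  by_cases hk : k = i
  · subst hk
    simp
  · have : Fin.cast rfl k ≠ i := hk
    simp [hk]

/-- The transport of a top form. -/
noncomputable def DomHom.Birational.upTop (ω : Y.Ten Y.dim) : X.Ten X.dim where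
  toFun v := hμ.equiv (ω fun k => hμ.down (v (Fin.cast hμ.dim_eq.symm k)))
  map_update_add' := by
    intro hd f i z z'
    have hd' : hd = fun a b => instDecidableEqFin _ a b := Subsingleton.elim _ _
    subst hd'
    rw [update_cast hμ.dim_eq.symm hμ.down, update_cast hμ.dim_eq.symm hμ.down,
      update_cast hμ.dim_eq.symm hμ.down, hμ.down_add, ω.map_update_add, map_add]
  map_update_smul' := by
    intro hd f i c z
    have hd' : hd = fun a b => instDecidableEqFin _ a b := Subsingleton.elim _ _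
    subst hd'
    rw [update_cast hμ.dim_eq.symm hμ.down, update_cast hμ.dim_eq.symm hμ.down, hμ.down_smul,
      ω.map_update_smul, smul_eq_mul, map_mul, RingEquiv.apply_symm_apply]
    rfl

theorem DomHom.Birational.upTop_apply (ω : Y.Ten Y.dim) (v : Fin X.dim → X.Der) :
    hμ.upTop ω v = hμ.equiv (ω fun k => hμ.down (v (Fin.cast hμ.dim_eq.symm k))) := rfl

theorem DomHom.Birational.upTop_up (ω : Y.Ten Y.dim) (v : Fin Y.dim → Y.Der) :
    hμ.upTop ω (fun k => hμ.up (v (Fin.cast hμ.dim_eq k))) = μ.pull (ω v) := by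
  rw [hμ.upTop_apply, hμ.equiv_apply]
  congr 2
  funext k
  rw [hμ.down_up]
  rfl

theorem DomHom.Birational.upTop_isAlt {ω : Y.Ten Y.dim} (hω : IsAlt ω) : IsAlt (hμ.upTop ω) := by
  intro v i j hij hne
  rw [hμ.upTop_apply]
  rw [hω _ (Fin.cast hμ.dim_eq i) (Fin.cast hμ.dim_eq j), map_zero]
  · simp only [Fin.cast_cast, Fin.cast_eq_self]
    rw [hij]
  · intro h
    exact hne (by simpa using h)

theorem DomHom.Birational.upTop_ne_zero {ω : Y.Ten Y.dim} (hω : ω ≠ 0) : hμ.upTop ω ≠ 0 := by
  intro h0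
  apply hω
  ext v
  have h1 := hμ.upTop_up ω v
  rw [h0] at h1
  have h2 : μ.pull (ω v) = 0 := h1.symm
  exact (map_eq_zero μ.pull).1 h2

end Transport

theorem pull_mem_locRing (μ : DomHom X Y) {x : X.X} {f : Y.K} (hf : f ∈ locRing Y (μ.f x)) :
    μ.pull f ∈ locRing X x := by
  obtain ⟨a, rfl⟩ := hf
  exact ⟨_, (μ.pull_stalk x a).symm⟩

/-- **The relative canonical divisor** of a birational morphism is effective and exceptional. -/
theorem exists_relative_canonical_form (hFS : FactorialStalks) {μ : DomHom X Y}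
    (hμ : μ.Birational) {κ : Div Y.X} {ω : Y.Ten Y.dim} (hω0 : ω ≠ 0) (hω : IsAlt ω)
    (hdiv : IsDivTensor ω κ) :
    ∃ κ' κ₀ E : Div X.X, IsDivTensor (hμ.upTop ω) κ' ∧ IsPullback μ κ κ₀ ∧ κ' = κ₀ + E ∧
      0 ≤ E ∧ ∀ x : X.X, coheight (μ.f x) = 1 → coef E x = 0 := by
  obtain ⟨κ', hκ'⟩ := exists_isDivTensor (hμ.upTop_ne_zero hω0)
  obtain ⟨κ₀, hκ₀⟩ := exists_isPullback hFS μ κ
  -- the values of the transported form
  have hval : ∀ x : X.X, coheight x = 1 → ∀ (t : Fin Y.dim → Y.K) (w : Fin Y.dim → Y.Der),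
      (∀ j, t j ∈ locRing Y (μ.f x)) → (∀ i, RegDer (μ.f x) (w i)) →
      (∀ i j, w i (t j) = if i = j then 1 else 0) → (∀ v : Y.Der, v = ∑ i, v (t i) • w i) →
      coef κ₀ x = Scheme.ord (μ.pull (ω w)) x := by
    intro x hx t w ht hw h1 h2
    have h3 := genAt_of_frame hω0 hω hdiv ht hw h1 h2
    have h4 := hκ₀.neg.ord_pull hFS hx h3
    rw [coef_neg] at h4
    linarith
  refine ⟨κ', κ₀, κ' - κ₀, hκ', hκ₀, by abel, ?_, ?_⟩
  · intro x
    obtain ⟨t, w, ht, hw, h1, h2⟩ := exists_frame_at Y (μ.f x.1)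
    have h3 := hval x.1 x.2 t w ht hw h1 h2
    obtain ⟨v, hv, hv0, hv1⟩ := (hκ' x.1 x.2).1
    have h4 : hμ.upTop ω v = μ.pull (ω w) * (Matrix.of fun i j =>
        v (Fin.cast hμ.dim_eq.symm j) (μ.pull (t i))).det := by
      rw [hμ.upTop_apply, exists_det hω h1 h2, map_mul, hμ.equiv_apply, hμ.equiv_apply,
        RingHom.map_det]
      congr 2
      ext i j
      rw [RingHom.mapMatrix_apply, Matrix.map_apply, Matrix.of_apply, Matrix.of_apply,
        hμ.down_apply]
      exact hμ.equiv.apply_symm_apply _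
    have h5 : (Matrix.of fun i j => v (Fin.cast hμ.dim_eq.symm j) (μ.pull (t i))).det ∈
        locRing X x.1 := det_mem_locRing fun i j =>
      (regDer_iff_locRing.1 (hv _)) _ (pull_mem_locRing μ (ht i))
    rw [h4] at hv0 hv1
    rw [Scheme.ord_mul (left_ne_zero_of_mul hv0) (right_ne_zero_of_mul hv0)] at hv1
    have h6 := ord_nonneg_of_locRing h5
    rw [coef_val] at h3 hv1
    change (0 : ℤ) ≤ κ' x - κ₀ x
    omega
  · intro x hx'
    obtain ⟨hx, hord⟩ := ord_pull_of_birational μ hμ x hx'
    obtain ⟨t, w, ht, hw, h1, h2⟩ := exists_frame_at Y (μ.f x)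
    have h3 := hval x hx t w ht hw h1 h2
    have h0 := value_frame_ne_zero hω0 hω h1 h2
    have hbij := stalkMap_bijective_of_birational μ hμ x hx'
    have hup : ∀ i, RegDer x (hμ.up (w i)) := by
      intro i
      rw [regDer_iff_locRing]
      rintro _ ⟨b, rfl⟩
      obtain ⟨a, ha⟩ := hbij.2 b
      have h4 := μ.pull_stalk x a
      have h5 : hμ.equiv.symm (algebraMap (X.X.presheaf.stalk x) X.K b) =
          algebraMap (Y.X.presheaf.stalk (μ.f x)) Y.K a := by
        rw [RingEquiv.symm_apply_eq, hμ.equiv_apply, h4]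
        exact congrArg _ ha.symm
      rw [hμ.up_apply, h5]
      exact pull_mem_locRing μ (regDer_iff_locRing.1 (hw i) _ ⟨a, rfl⟩)
    have hle : coef κ' x ≤ Scheme.ord (μ.pull (ω w)) x := by
      refine (hκ' x hx).2 ⟨fun k => hμ.up (w (Fin.cast hμ.dim_eq k)), fun i => hup _, ?_, ?_⟩
      · rw [hμ.upTop_up]
        exact μ.pull_ne_zero h0
      · rw [hμ.upTop_up]
    -- the other inequality
    obtain ⟨v, hv, hv0, hv1⟩ := (hκ' x hx).1
    have h4 : hμ.upTop ω v = μ.pull (ω w) * (Matrix.of fun i j =>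
        v (Fin.cast hμ.dim_eq.symm j) (μ.pull (t i))).det := by
      rw [hμ.upTop_apply, exists_det hω h1 h2, map_mul, hμ.equiv_apply, hμ.equiv_apply,
        RingHom.map_det]
      congr 2
      ext i j
      rw [RingHom.mapMatrix_apply, Matrix.map_apply, Matrix.of_apply, Matrix.of_apply,
        hμ.down_apply]
      exact hμ.equiv.apply_symm_apply _
    have h5 : (Matrix.of fun i j => v (Fin.cast hμ.dim_eq.symm j) (μ.pull (t i))).det ∈
        locRing X x := det_mem_locRing fun i j =>
      (regDer_iff_locRing.1 (hv _)) _ (pull_mem_locRing μ (ht i))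
    rw [h4] at hv0 hv1
    rw [Scheme.ord_mul (left_ne_zero_of_mul hv0) (right_ne_zero_of_mul hv0)] at hv1
    have h6 := ord_nonneg_of_locRing h5
    rw [coef_sub]
    omega

/-- **The relative canonical divisor** of a birational morphism is effective and exceptional. -/
theorem exists_relative_canonical (hFS : FactorialStalks) {μ : DomHom X Y} (hμ : μ.Birational)
    {κ : Div Y.X} (hκ : IsCanonicalDivisor κ) :
    ∃ κ' κ₀ E : Div X.X, IsCanonicalDivisor κ' ∧ IsPullback μ κ κ₀ ∧ κ' = κ₀ + E ∧ 0 ≤ E ∧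
      ∀ x : X.X, coheight (μ.f x) = 1 → coef E x = 0 := by
  obtain ⟨ω, hω0, hω, hdiv⟩ := hκ
  obtain ⟨κ', κ₀, E, hκ', h⟩ := exists_relative_canonical_form hFS hμ hω0 hω hdiv
  exact ⟨κ', κ₀, E, ⟨hμ.upTop ω, hμ.upTop_ne_zero hω0, hμ.upTop_isAlt hω, hκ'⟩, h⟩

end Vale.Agent.P299.Q
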