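import Vale.Agent.P299.Q.AsymVan
import Vale.Agent.P299.Q.Canon

/-!
# Intersection numbers of pull backs under birational morphisms
-/

open CategoryTheory TopologicalSpace Opposite TopCat AlgebraicGeometry Order Filter Topology
open scoped Nat

namespace Vale.Agent.P299.Q

section

/-- `κ'` is the canonical divisor `μ^*κ + E` with `E` effective and exceptional. -/
structure RelCanonical {Z' Z : Var} (μ : DomHom Z' Z) (κ : Div Z.X) (κ' : Div Z'.X) : Prop where
  birational : μ.Birational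
  canonical : IsCanonicalDivisor κ
  canonical' : IsCanonicalDivisor κ'
  exists_E : ∃ κ₀ E : Div Z'.X, IsPullback μ κ κ₀ ∧ κ' = κ₀ + E ∧ 0 ≤ E ∧
    ∀ x : Z'.X, coheight (μ.f x) = 1 → coef E x = 0

variable {Z' Z : Var} {μ : DomHom Z' Z} {κ : Div Z.X} {κ' : Div Z'.X}

theorem RelCanonical.id (hAB : FactorialStalks) {Z : Var} {κ : Div Z.X}
    (hκ : IsCanonicalDivisor κ) : RelCanonical (DomHom.id Z) κ κ where
  birational := by
    refine ⟨(DomHom.id Z).pull_injective, fun g => ⟨g, DomHom.pull_id g⟩⟩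
  canonical := hκ
  canonical' := hκ
  exists_E := ⟨κ, 0, isPullback_id hAB κ, (add_zero κ).symm, le_rfl, fun x _ => coef_zero x⟩

theorem exists_relCanonical (hAB : FactorialStalks) (hμ : μ.Birational)
    (hκ : IsCanonicalDivisor κ) : ∃ κ' : Div Z'.X, RelCanonical μ κ κ' := by
  obtain ⟨κ', κ₀, E, hκ', hκ₀, hκE, hE, hEx⟩ := exists_relative_canonical hAB hμ hκ
  exact ⟨κ', hμ, hκ, hκ', κ₀, E, hκ₀, hκE, hE, hEx⟩

/-- Sections of `κ' + μ^*D` are sections of `κ + D`. -/
theorem RelCanonical.pull_mem_iff (hAB : FactorialStalks) (h : RelCanonical μ κ κ')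
    {D : Div Z.X} {D' : Div Z'.X} (hD : IsPullback μ D D') (f : Z.K) :
    μ.pull f ∈ H0 (coef (κ' + D')) ↔ f ∈ H0 (coef (κ + D)) := by
  obtain ⟨κ₀, E, hκ, rfl, hE, hEx⟩ := h.exists_E
  constructor
  · intro hf
    rw [mem_H0] at hf ⊢
    intro y hy hf0
    obtain ⟨x, rfl⟩ := μ.surjective y
    obtain ⟨hx, ho⟩ := ord_pull_of_birational μ h.birational x hy
    have h1 := hf x hx (μ.pull_ne_zero hf0)
    rw [ho, coef_add, coef_add, hκ.coef_strict hx hy ho, hD.coef_strict hx hy ho, hEx x hy] at h1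
    rw [coef_add]
    linarith
  · intro hf
    have h1 := (hκ.add hD).pull_mem_H0 hAB hf
    rw [mem_H0] at h1 ⊢
    intro x hx hf0
    have h2 := h1 x hx hf0
    have h3 : 0 ≤ coef E x := by
      rw [coef_mk hx]
      exact hE _
    rw [coef_add] at h2
    rw [coef_add, coef_add]
    linarith

theorem RelCanonical.h0_eq (hAB : FactorialStalks) (h : RelCanonical μ κ κ')
    {D : Div Z.X} {D' : Div Z'.X} (hD : IsPullback μ D D') :
    h0 (κ' + D') = h0 (κ + D) := by
  let L : H0 (coef (κ + D)) →ₗ[ℂ] H0 (coef (κ' + D')) :=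
    { toFun := fun f => ⟨μ.pull f, (h.pull_mem_iff hAB hD _).2 f.2⟩
      map_add' := fun f g => Subtype.ext (map_add μ.pull _ _)
      map_smul' := fun c f => Subtype.ext (by
        change μ.pull (c • (f : Z.K)) = c • μ.pull f
        rw [Algebra.smul_def, map_mul, μ.pull_constant, Algebra.smul_def]) }
  have hL : Function.Bijective L := by
    constructor
    · intro f g hfg
      exact Subtype.ext (μ.pull_injective (congrArg Subtype.val hfg))
    · rintro ⟨g, hg⟩
      obtain ⟨f, rfl⟩ := h.birational.2 g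
      exact ⟨⟨f, (h.pull_mem_iff hAB hD _).1 hg⟩, rfl⟩
  exact (LinearEquiv.ofBijective L hL).finrank_eq.symm

variable (hAB : FactorialStalks) (hKN : KollarNadelVanishing)

include hAB hKN

/-- `χ(κ' + μ^*D) = χ(κ + D)` for `D` ample. -/
theorem RelCanonical.chi_eq (h : RelCanonical μ κ κ') {D : Div Z.X} {D' : Div Z'.X}
    (hD : IsPullback μ D D') (hDa : IsAmple D) : Q.chi (κ' + D') = Q.chi (κ + D) := by
  rw [chi_eq_h0_of_ample hAB hKN h.canonical hDa]
  have hnef := nefPullback hAB Z' Z μ D D' hD hDa.isNef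
  have hbig := kodairaLemma hAB Z' Z μ h.birational D D' hD hDa
  have h1 := chi_eq_h0_of_big hAB hKN h.canonical' hnef hbig isNef_zero one_pos
  rw [one_smul, add_zero] at h1
  rw [h1, h.h0_eq hAB hD]

variable (hSn : ChiPoly) {m : ℕ} (hZ : Z.dim = m + 1) (hZ' : Z'.dim = m + 1)

omit hKN hAB in
/-- The intersection form as an alternating sum of Euler characteristics. -/
theorem sform_eq_cube (y : Div Z.X) (v : Fin (m + 1) → Div Z.X) :
    ∑ S : Finset (Fin (m + 1)), (-1 : ℤ) ^ S.card * Q.chi (y - ∑ j ∈ S, v j) =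
      sform hSn hZ v := by
  rw [sform_apply, ← cube_eq_inter hSn y]
  have h1 : ∀ {n : ℕ} (h : n = m + 1), ∑ S : Finset (Fin n), (-1 : ℤ) ^ S.card *
      Q.chi (y - ∑ j ∈ S, v (Fin.cast h j)) =
      ∑ S : Finset (Fin (m + 1)), (-1 : ℤ) ^ S.card * Q.chi (y - ∑ j ∈ S, v j) := by
    intro n h
    subst h
    rfl
  rw [h1 hZ]

/-- The projection formula for pull backs of ample divisors. -/
theorem RelCanonical.sform_ample (h : RelCanonical μ κ κ') {v : Fin (m + 1) → Div Z.X}
    (hv : ∀ i, IsAmple (v i)) :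
    sform hSn hZ' (fun i => μ.pb hAB (v i)) = sform hSn hZ v := by
  classical
  rw [← sform_eq_cube hSn hZ (κ + 2 • ∑ i, v i),
    ← sform_eq_cube hSn hZ' (κ' + 2 • ∑ i, μ.pb hAB (v i))]
  refine Finset.sum_congr rfl fun S _ => ?_
  congr 1
  have h1 : κ + 2 • ∑ i, v i - ∑ j ∈ S, v j = κ + (∑ i, v i + ∑ i ∈ Sᶜ, v i) := by
    rw [← Finset.sum_add_sum_compl S v, two_smul]
    abel
  have h2 : κ' + 2 • ∑ i, μ.pb hAB (v i) - ∑ j ∈ S, μ.pb hAB (v j) =
      κ' + μ.pb hAB (∑ i, v i + ∑ i ∈ Sᶜ, v i) := by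
    rw [map_add, map_sum, map_sum, ← Finset.sum_add_sum_compl S (fun i => μ.pb hAB (v i)),
      two_smul]
    abel
  rw [h1, h2]
  refine h.chi_eq hAB hKN (μ.isPullback_pb hAB _) ?_
  have hsum : ∀ s : Finset (Fin (m + 1)), IsNef (∑ i ∈ s, v i) := by
    intro s
    induction s using Finset.induction_on with
    | empty => rw [Finset.sum_empty]; exact isNef_zero
    | insert i s hi ih => rw [Finset.sum_insert hi]; exact (hv i).isNef.add ih
  have h3 : IsAmple (∑ i, v i) := by
    rw [Fin.sum_univ_succ, add_comm]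
    refine (hv 0).add_nef ?_
    have := hsum (Finset.univ.map (Fin.succEmb m))
    rwa [Finset.sum_map] at this
  rw [add_comm]
  exact h3.add_nef (hsum _)

/-- The projection formula, with one arbitrary divisor. -/
theorem RelCanonical.sform_cons (h : RelCanonical μ κ κ') (D : Div Z.X) {C : Div Z.X}
    (hC : IsAmple C) :
    sform hSn hZ' (Fin.cons (μ.pb hAB D) fun _ => μ.pb hAB C) =
      sform hSn hZ (Fin.cons D fun _ => C) := by
  have key : ∀ B : Div Z.X, IsAmple B →
      sform hSn hZ' (Fin.cons (μ.pb hAB B) fun _ => μ.pb hAB C) =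
      sform hSn hZ (Fin.cons B fun _ => C) := by
    intro B hB
    rw [← h.sform_ample hAB hKN hSn hZ hZ' (v := Fin.cons B fun _ => C)
      (fun i => by refine Fin.cases ?_ (fun i => ?_) i <;> simp [hB, hC])]
    congr 1
    funext i
    refine Fin.cases ?_ (fun i => ?_) i <;> simp
  obtain ⟨a, ha⟩ := hC.forall_add (hAB Z) D
  have h1 := key _ (ha (a + 1) (Nat.le_succ a)).1
  have h2 := key C hC
  have hlin : ∀ {X : Var} (hX : X.dim = m + 1) (P Q : Div X.X) (v : Fin m → Div X.X),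
      sform hSn hX (Fin.cons ((a + 1) • P + Q) v) =
        ((a + 1 : ℕ) : ℤ) * sform hSn hX (Fin.cons P v) +
          sform hSn hX (Fin.cons Q v) := by
    intro X hX P Q v
    rw [(sform hSn hX).cons_add v, ← natCast_zsmul, (sform hSn hX).cons_smul v,
      smul_eq_mul]
  rw [map_add, map_nsmul, hlin, hlin, h2] at h1
  linarith

/-- `(μ^*C)^n = C^n`. -/
theorem RelCanonical.sform_const (h : RelCanonical μ κ κ') {C : Div Z.X} (hC : IsAmple C) :
    sform hSn hZ' (fun _ => μ.pb hAB C) = sform hSn hZ (fun _ => C) :=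
  h.sform_ample hAB hKN hSn hZ hZ' fun _ => hC

end

end Vale.Agent.P299.Q
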