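import Mathlib.GroupTheory.CosetCover
import Vale.Agent.P299.Q.AsymPull

/-!
# A criterion for bigness
-/

open CategoryTheory TopologicalSpace Opposite TopCat AlgebraicGeometry Order Filter Topology
open scoped Nat

namespace Vale.Agent.P299.Q

section

/-- Dimensions of preimages. -/
theorem finrank_comap_ge {V V' : Type*} [AddCommGroup V] [Module ℂ V] [AddCommGroup V']
    [Module ℂ V'] [Module.Finite ℂ V] [Module.Finite ℂ V'] (f : V →ₗ[ℂ] V') (W : Submodule ℂ V') :
    Module.finrank ℂ V + Module.finrank ℂ W ≤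
      Module.finrank ℂ V' + Module.finrank ℂ (W.comap f) := by
  have h1 := (W.comap f).finrank_quotient_add_finrank
  have h2 := W.finrank_quotient_add_finrank
  have h3 : Module.finrank ℂ (V ⧸ W.comap f) ≤ Module.finrank ℂ (V' ⧸ W) := by
    refine LinearMap.finrank_le_finrank_of_injective
      (f := (W.comap f).mapQ W f le_rfl) ?_
    rw [← LinearMap.ker_eq_bot, Submodule.ker_mapQ]
    exact Submodule.mkQ_map_self _
  omega

variable {X : Var}

theorem IsGenerated.isNef (hAB : FactorialStalks) {B : Div X.X} (hB : IsGenerated B) :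
    IsNef B := fun _ hA m => hA.add_generated (hAB X) (hB.nsmul m)

/-- A base point free divisor has two sections without common zeros of codimension one. -/
theorem IsGenerated.exists_coprime {B : Div X.X} (hB : IsGenerated B) :
    ∃ s₁ ∈ H0 (coef B), ∃ s₂ ∈ H0 (coef B), s₁ ≠ 0 ∧ s₂ ≠ 0 ∧ ∀ x : X.X, coheight x = 1 →
      Scheme.ord s₁ x + coef B x = 0 ∨ Scheme.ord s₂ x + coef B x = 0 := by
  classical
  obtain ⟨s₁, hs₁, hs₁0⟩ := H0_ne_bot_iff.1 hB.exists_section
  let F : Set X.X := {x | coheight x = 1 ∧ Scheme.ord s₁ x + coef B x ≠ 0}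
  have hF : F.Finite := by
    refine ((G.finite_ord_ne_zero s₁ hs₁0).union (finite_coef B)).subset ?_
    rintro y ⟨-, hy⟩
    by_contra hcon
    simp only [Set.mem_union, Set.mem_ofPred_eq, not_or, not_not] at hcon
    exact hy (by rw [hcon.1, hcon.2, add_zero])
  by_cases hne : F.Nonempty
  · obtain ⟨x₀, hx₀⟩ := hne
    have : Finite F := hF
    let p : F → Submodule ℂ (H0 (coef B)) := fun x =>
      (polar (fun y => coef B y - 1) x.1).comap (H0 (coef B)).subtype
    have hp : ⋃ i, (p i : Set (H0 (coef B))) ≠ Set.univ := by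
      intro hcov
      obtain ⟨x, hx⟩ := Subspace.exists_eq_top_of_iUnion_eq_univ hcov
      obtain ⟨s, hs, hsx⟩ := hB x.1
      have h1 : (⟨s, hs⟩ : H0 (coef B)) ∈ p x := by rw [hx]; trivial
      have h2 : coheight x.1 = 1 → s ≠ 0 → 0 ≤ Scheme.ord s x.1 + (coef B x.1 - 1) := h1
      have h3 := h2 x.2.1 hsx.1
      have h4 := hsx.ord x.2.1
      omega
    rw [Set.ne_univ_iff_exists_notMem] at hp
    obtain ⟨s₂, hs₂⟩ := hp
    rw [Set.mem_iUnion, not_exists] at hs₂
    have key : ∀ x ∈ F, (s₂ : X.K) ≠ 0 ∧ Scheme.ord (s₂ : X.K) x + coef B x = 0 := by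
      intro x hx
      have h1 := hs₂ ⟨x, hx⟩
      have h2 : ¬ (coheight x = 1 → (s₂ : X.K) ≠ 0 →
        0 ≤ Scheme.ord (s₂ : X.K) x + (coef B x - 1)) := h1
      push Not at h2
      obtain ⟨h3, h4, h5⟩ := h2
      have h6 := (mem_H0.1 s₂.2) x h3 h4
      exact ⟨h4, by omega⟩
    refine ⟨s₁, hs₁, s₂, s₂.2, hs₁0, (key x₀ hx₀).1, fun x hx => ?_⟩
    by_cases hxF : x ∈ F
    · exact Or.inr (key x hxF).2
    · left
      by_contra hc
      exact hxF ⟨hx, hc⟩
  · refine ⟨s₁, hs₁, s₁, hs₁, hs₁0, hs₁0, fun x hx => Or.inl ?_⟩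
    by_contra hc
    exact hne ⟨x, hx, hc⟩

/-- `h⁰(P - jB) - h⁰(P - (j+1)B) ≤ h⁰(P) - h⁰(P - B)`. -/
theorem h0_step (hFin : FiniteSections) {B : Div X.X} (hB : IsGenerated B) (P : Div X.X) (j : ℕ) :
    h0 (P - j • B) + h0 (P - B) ≤ h0 P + h0 (P - (j + 1) • B) := by
  obtain ⟨s₁, hs₁, s₂, hs₂, hs₁0, hs₂0, hcop⟩ := hB.exists_coprime
  have := hFin X P
  have := hFin X (P - j • B)
  -- multiplication by `s₁ ^ j`
  have hf : ∀ u ∈ H0 (coef (P - j • B)), s₁ ^ j * u ∈ H0 (coef P) := by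
    intro u hu
    have h1 := H0_mul (H0_pow hs₁ j) hu
    rwa [add_sub_cancel] at h1
  let f : H0 (coef (P - j • B)) →ₗ[ℂ] H0 (coef P) :=
    ((LinearMap.mulLeft ℂ (s₁ ^ j)).comp (H0 (coef (P - j • B))).subtype).codRestrict
      (H0 (coef P)) fun u => hf _ u.2
  -- the sections divisible by `s₂`
  have hg : ∀ (Q : Div X.X), ∀ u ∈ H0 (coef (Q - B)), s₂ * u ∈ H0 (coef Q) := by
    intro Q u hu
    have h1 := H0_mul hs₂ hu
    rwa [add_sub_cancel] at h1
  let g : ∀ Q : Div X.X, H0 (coef (Q - B)) →ₗ[ℂ] H0 (coef Q) := fun Q =>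
    ((LinearMap.mulLeft ℂ s₂).comp (H0 (coef (Q - B))).subtype).codRestrict
      (H0 (coef Q)) fun u => hg Q _ u.2
  have hginj : ∀ Q, Function.Injective (g Q) := by
    intro Q u v huv
    have h1 : s₂ * (u : X.K) = s₂ * (v : X.K) := congrArg Subtype.val huv
    exact Subtype.ext (mul_left_cancel₀ hs₂0 h1)
  have hcomap : (LinearMap.range (g P)).comap f ≤ LinearMap.range (g (P - j • B)) := by
    rintro u ⟨w, hw⟩
    have hw' : s₂ * (w : X.K) = s₁ ^ j * (u : X.K) := congrArg Subtype.val hw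
    have hmem : s₂⁻¹ * (u : X.K) ∈ H0 (coef (P - j • B - B)) := by
      rw [mem_H0]
      intro x hx hne
      have hu0 : (u : X.K) ≠ 0 := right_ne_zero_of_mul hne
      have hw0 : (w : X.K) ≠ 0 := by
        intro h0
        rw [h0, mul_zero] at hw'
        exact mul_ne_zero (pow_ne_zero j hs₁0) hu0 hw'.symm
      rw [Scheme.ord_mul (inv_ne_zero hs₂0) hu0, ord_inv hs₂0]
      have h1 := (mem_H0.1 u.2) x hx hu0
      have h2 := (mem_H0.1 w.2) x hx hw0
      have h3 : Scheme.ord s₂ x + Scheme.ord (w : X.K) x =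
          j * Scheme.ord s₁ x + Scheme.ord (u : X.K) x := by
        rw [← Scheme.ord_mul hs₂0 hw0, hw', Scheme.ord_mul (pow_ne_zero j hs₁0) hu0,
          ord_pow hs₁0]
      have e1 : coef (P - j • B) x = coef P x - j * coef B x := by
        rw [sub_eq_add_neg, coef_add, coef_neg, coef_nsmul, sub_eq_add_neg]
      have e2 : coef (P - B) x = coef P x - coef B x := by
        rw [sub_eq_add_neg, coef_add, coef_neg, sub_eq_add_neg]
      have e3 : coef (P - j • B - B) x = coef P x - j * coef B x - coef B x := by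
        rw [sub_eq_add_neg (P - j • B), coef_add, coef_neg, e1, ← sub_eq_add_neg]
      rw [e1] at h1
      rw [e2] at h2
      rw [e3]
      rcases hcop x hx with h | h
      · have h4 : (j : ℤ) * Scheme.ord s₁ x = -(j * coef B x) := by
          have : Scheme.ord s₁ x = -coef B x := by omega
          rw [this]; ring
        linarith
      · linarith
    refine ⟨⟨s₂⁻¹ * (u : X.K), hmem⟩, Subtype.ext ?_⟩
    change s₂ * (s₂⁻¹ * (u : X.K)) = u
    rw [← mul_assoc, mul_inv_cancel₀ hs₂0, one_mul]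
  have h1 := finrank_comap_ge f (LinearMap.range (g P))
  have h2 := Submodule.finrank_mono hcomap
  rw [LinearMap.finrank_range_of_inj (hginj _)] at h1 h2
  have e : P - (j + 1) • B = P - j • B - B := by
    rw [add_smul, one_smul]
    abel
  unfold h0
  rw [e]
  omega

/-- `h⁰(P) ≤ h⁰(P - qB) + q (h⁰(P) - h⁰(P - B))`. -/
theorem h0_sub_nsmul (hFin : FiniteSections) {B : Div X.X} (hB : IsGenerated B) (P : Div X.X)
    (q : ℕ) :
    (h0 P : ℤ) ≤ h0 (P - q • B) + q * ((h0 P : ℤ) - h0 (P - B)) := by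
  induction q with
  | zero => simp
  | succ q ih =>
    have h1 := h0_step hFin hB P q
    have h2 : (h0 (P - q • B) : ℤ) + h0 (P - B) ≤ h0 P + h0 (P - (q + 1) • B) := by
      exact_mod_cast h1
    push_cast
    linarith

variable (hAB : FactorialStalks) (hKN : KollarNadelVanishing)
  (hSn : ChiPoly) (hFin : FiniteSections) {m : ℕ} (h : X.dim = m + 1)

include hAB hKN hFin

/-- The criterion for bigness: if `N^n > n a B·N^(n-1)`, with `N` nef and big and `B` base point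
free, then `κ + B + k (N - aB)` has sections for large `k`. -/
theorem exists_section_sub {κ N B : Div X.X} (hκ : IsCanonicalDivisor κ) (hN : IsNef N)
    (hbig : IsBig N) (hB : IsGenerated B) {a : ℕ}
    (ha : ((m + 1 : ℕ) : ℤ) * (a * sform hSn h (Fin.cons B fun _ => N)) <
      sform hSn h (fun _ => N)) :
    ∃ k₀ : ℕ, ∀ k : ℕ, k₀ ≤ k → H0 (coef (κ + B + k • N - (a * k) • B)) ≠ ⊥ := by
  have hBnef := hB.isNef hAB
  have hF : ∀ k : ℕ, 0 < k → Q.chi (κ + B + k • N) = h0 (κ + B + k • N) := by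
    intro k hk
    have h1 := chi_eq_h0_of_big hAB hKN hκ hN hbig hBnef hk
    have e : κ + (k • N + B) = κ + B + k • N := by abel
    rwa [e] at h1
  have hG : ∀ k : ℕ, 0 < k → Q.chi (κ + B + k • N - B) = h0 (κ + B + k • N - B) := by
    intro k hk
    have h1 := chi_eq_h0_of_big hAB hKN hκ hN hbig isNef_zero hk
    have e : κ + (k • N + 0) = κ + B + k • N - B := by abel
    rwa [e] at h1
  have t1 := tendsto_chi' hSn h (κ + B) N
  have t2 := tendsto_chi_sub' hSn h (κ + B) N B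
  have t3 := t1.sub (t2.const_mul (a : ℝ))
  set I1 : ℤ := sform hSn h (fun _ => N) with hI1
  set I2 : ℤ := sform hSn h (Fin.cons B fun _ => N) with hI2
  have hlim : (0 : ℝ) < (I1 : ℝ) / ((m + 1) ! : ℝ) - a * ((I2 : ℝ) / (m ! : ℝ)) := by
    have h1 : (((m + 1 : ℕ) : ℤ) * (a * I2) : ℝ) < (I1 : ℝ) := by exact_mod_cast ha
    have h2 : ((m + 1) ! : ℝ) = ((m + 1 : ℕ) : ℝ) * (m ! : ℝ) := by
      rw [Nat.factorial_succ]; push_cast; ring
    have h3 : (0 : ℝ) < (m ! : ℝ) := by positivity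
    have h4 : (0 : ℝ) < ((m + 1 : ℕ) : ℝ) := by positivity
    rw [h2]
    have e : (I1 : ℝ) / (((m + 1 : ℕ) : ℝ) * (m ! : ℝ)) - a * ((I2 : ℝ) / (m ! : ℝ)) =
        ((I1 : ℝ) - ((m + 1 : ℕ) : ℝ) * (a * I2)) / (((m + 1 : ℕ) : ℝ) * (m ! : ℝ)) := by
      field_simp
    rw [e]
    apply div_pos _ (by positivity)
    have h5 : (((m + 1 : ℕ) : ℤ) * (a * I2) : ℝ) = ((m + 1 : ℕ) : ℝ) * (a * I2) := by
      push_cast; ring
    linarith
  have hev := (t3.eventually (lt_mem_nhds hlim)).and (eventually_gt_atTop 0)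
  obtain ⟨k₀, hk₀⟩ := eventually_atTop.1 hev
  refine ⟨k₀, fun k hk => ?_⟩
  obtain ⟨h1, h2⟩ := hk₀ k hk
  rw [← h0_pos_iff hFin]
  have h3 := h0_sub_nsmul hFin hB (κ + B + k • N) (a * k)
  rw [hF k h2, hG k h2] at h1
  have hk0 : (0 : ℝ) < k := by exact_mod_cast h2
  have h4 : (0 : ℝ) < (h0 (κ + B + k • N) : ℝ) -
      (a * k) * ((h0 (κ + B + k • N) : ℝ) - h0 (κ + B + k • N - B)) := by
    have e : ((((h0 (κ + B + k • N) : ℤ)) : ℝ) / (k : ℝ) ^ (m + 1) -
        a * (((h0 (κ + B + k • N) : ℤ) - (h0 (κ + B + k • N - B) : ℤ) : ℤ) / (k : ℝ) ^ m)) *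
          (k : ℝ) ^ (m + 1) =
        (h0 (κ + B + k • N) : ℝ) -
      (a * k) * ((h0 (κ + B + k • N) : ℝ) - h0 (κ + B + k • N - B)) := by
      push_cast
      field_simp
      ring
    rw [← e]
    exact mul_pos h1 (by positivity)
  have h5 : (0 : ℤ) < (h0 (κ + B + k • N) : ℤ) -
      (a * k) * ((h0 (κ + B + k • N) : ℤ) - h0 (κ + B + k • N - B)) := by exact_mod_cast h4
  have h6 : (0 : ℤ) < h0 (κ + B + k • N - (a * k) • B) := by
    push_cast at h3
    linarith
  exact_mod_cast h6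

end

end Vale.Agent.P299.Q
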