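import Vale.Agent.P299.Q.Numeric

/-!
# Step (D): `q L' - φ^*A` is pseudo-effective

`μ : Z' → Z` is birational, `φ : Z' → Y`, and the functions of `Y` have their zeros and poles on
`Z` only along prime divisors `x` with `x · L^ν · H^(n-1-ν) = 0`.
-/

open CategoryTheory TopologicalSpace Opposite TopCat AlgebraicGeometry Order

namespace Vale.Agent.P299.Q

/-- The prime divisor `x`. -/
noncomputable def pd {X : Scheme.{0}} (x : X) (hx : coheight x = 1) : Div X :=
  Finsupp.single ⟨x, hx⟩ 1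

theorem coef_pd_self {X : Scheme.{0}} {x : X} (hx : coheight x = 1) : coef (pd x hx) x = 1 := by
  unfold coef pd
  rw [dif_pos hx, Finsupp.single_eq_same]

theorem coef_pd_of_ne {X : Scheme.{0}} {x y : X} (hx : coheight x = 1) (h : y ≠ x) :
    coef (pd x hx) y = 0 := by
  unfold coef pd
  split_ifs with hy
  · refine Finsupp.single_eq_of_ne ?_
    intro h'
    exact h (congrArg Subtype.val h')
  · rfl

theorem pd_nonneg {X : Scheme.{0}} {x : X} (hx : coheight x = 1) : 0 ≤ pd x hx := by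
  unfold pd
  exact Finsupp.single_nonneg.2 zero_le_one

theorem sum_pd {X : Scheme.{0}} (E : Div X) :
    ∑ x ∈ E.support, E x • pd x.1 x.2 = E := by
  have h := Finsupp.sum_single E
  unfold Finsupp.sum at h
  conv_rhs => rw [← h]
  refine Finset.sum_congr rfl fun x _ => ?_
  unfold pd
  rw [Finsupp.smul_single, smul_eq_mul, mul_one]

section

variable (hFS : FactorialStalks) (hNP : NefPullback) (hIT : IntersectionTheory)

/-- The intersection number as a sum over the components of one of the divisors. -/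
theorem form_cons_sum {X : Var} {m : ℕ} (h : X.dim = m + 1) (E : Div X.X)
    (v : Fin m → Div X.X) :
    form hIT h (Fin.cons E v) =
      ∑ x ∈ E.support, E x * form hIT h (Fin.cons (pd x.1 x.2) v) := by
  have h1 := G.cons_sum (form hIT h) v E.support (fun x => E x) (fun x => pd x.1 x.2) 0
  rw [zero_add, sum_pd E] at h1
  rw [h1]
  have h2 : form hIT h (Fin.cons (0 : Div X.X) v) = 0 := by
    refine MultilinearMap.map_coord_zero _ 0 ?_
    rw [Fin.cons_zero]
  rw [h2, zero_add]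

variable {Z Z' : Var} {m : ℕ} (hZ : Z.dim = m + 1) (hZ' : Z'.dim = m + 1)
  {μ : DomHom Z' Z} (hμ : μ.Birational)

include hμ

theorem form_pullback {v : Fin (m + 1) → Div Z.X} {v' : Fin (m + 1) → Div Z'.X}
    (h : ∀ i, IsPullback μ (v i) (v' i)) : form hIT hZ' v' = form hIT hZ v := by
  rw [form_apply, form_apply]
  exact hIT.2.2.2.2.2.1 Z' Z μ hμ (hZ'.trans hZ.symm) (fun i => v (Fin.cast hZ i))
    (fun i => v' (Fin.cast hZ' i)) fun i => h _

theorem form_exceptional {v' : Fin (m + 1) → Div Z'.X} (i : Fin (m + 1))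
    (hi : ∀ x : Z'.X, coef (v' i) x ≠ 0 → coheight (μ.f x) ≠ 1)
    (h : ∀ j, j ≠ i → ∃ B : Div Z.X, IsPullback μ B (v' j)) : form hIT hZ' v' = 0 := by
  rw [form_apply]
  refine hIT.2.2.2.2.2.2 Z' Z μ hμ _ (Fin.cast hZ'.symm i) hi fun j hj => h _ fun h' => hj ?_
  rw [← h']; rfl

variable {L H : Div Z.X} {L' H₁ : Div Z'.X} (hL : IsNef L) (hH : IsAmple H)
  (hLL' : IsPullback μ L L') (hHH₁ : IsPullback μ H H₁)

include hLL' hHH₁ in
omit hμ in
theorem isPullback_mix {n : ℕ} (j : ℕ) (i : Fin n) :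
    IsPullback μ (G.mix L H j i) (G.mix L' H₁ j i) := by
  unfold G.mix
  split_ifs
  · exact hLL'
  · exact hHH₁

include hLL' hHH₁

theorem form_mix (j : ℕ) : form hIT hZ' (G.mix L' H₁ j) = form hIT hZ (G.mix L H j) :=
  form_pullback hIT hZ hZ' hμ fun i => isPullback_mix hLL' hHH₁ j i

include hL hH hNP

omit hμ in
theorem nef_mix {n : ℕ} (j : ℕ) (i : Fin n) : IsNef (G.mix L' H₁ j i : Div Z'.X) := by
  unfold G.mix
  split_ifs
  · exact hNP _ _ _ _ _ hLL' hL
  · exact hNP _ _ _ _ _ hHH₁ hH.isNef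

include hFS

/-- The intersection number of a prime divisor `w` of `Z'` with `L'^ν · H₁^(m-ν)` vanishes, if
the image of `w`, when it is a prime divisor of `Z`, has the same property. -/
theorem form_prime_eq_zero {ν : ℕ} (w : Z'.X) (hw : coheight w = 1)
    (hδ : ∀ hx : coheight (μ.f w) = 1,
      form hIT hZ (Fin.cons (pd (μ.f w) hx) (G.mix L H ν)) = 0) :
    form hIT hZ' (Fin.cons (pd w hw) (G.mix L' H₁ ν)) = 0 := by
  by_cases hx : coheight (μ.f w) = 1
  · have hδ := hδ hx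
    obtain ⟨D, hD⟩ := exists_isPullback hFS μ (pd (μ.f w) hx)
    have hDnn : ∀ y : Z'.X, coheight y = 1 → 0 ≤ coef D y :=
      hD.nonneg hFS fun y hy => by
        rw [coef_mk hy]
        exact pd_nonneg hx _
    have h1 : form hIT hZ' (Fin.cons D (G.mix L' H₁ ν)) = 0 := by
      rw [← hδ]
      refine form_pullback hIT hZ hZ' hμ fun i => ?_
      refine Fin.cases ?_ (fun i => ?_) i
      · exact hD
      · exact isPullback_mix hLL' hHH₁ ν i
    rw [form_cons_sum hIT hZ'] at h1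
    have hnn : ∀ x : {x : Z'.X // coheight x = 1},
        0 ≤ form hIT hZ' (Fin.cons (pd x.1 x.2) (G.mix L' H₁ ν)) := fun x =>
      form_effective hIT hZ' _ 0 (by rw [Fin.cons_zero]; exact pd_nonneg x.2) fun j hj => by
        refine Fin.cases (fun h => absurd rfl h) (fun i _ => ?_) j hj
        exact nef_mix hNP hL hH hLL' hHH₁ ν i
    have h2 := (Finset.sum_eq_zero_iff_of_nonneg fun x _ =>
      mul_nonneg (by have := hDnn x.1 x.2; rwa [coef_val] at this) (hnn x)).1 h1
    obtain ⟨r, hr, hmr⟩ := μ.exists_mult w hw hx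
    have hc : coef D w = r * coef (pd (μ.f w) hx) (μ.f w) := hD.coef_eq_mult hFS hw hx hmr
    rw [coef_pd_self, mul_one, coef_mk hw] at hc
    have h3 := h2 ⟨w, hw⟩ (by
      rw [Finsupp.mem_support_iff, hc]
      omega)
    rcases mul_eq_zero.1 h3 with h | h
    · rw [hc] at h; omega
    · exact h
  · refine form_exceptional hIT hZ' hμ 0 (fun x hx' => ?_) fun j hj => ?_
    · rw [Fin.cons_zero] at hx'
      by_cases h : x = w
      · rw [h]; exact hx
      · rw [coef_pd_of_ne hw h] at hx'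
        exact absurd rfl hx'
    · refine Fin.cases (fun h => absurd rfl h) (fun i _ => ?_) j hj
      exact ⟨_, isPullback_mix hLL' hHH₁ ν i⟩

/-- **Step (D)**. -/
theorem stepD (hSiu : SiuCriterion) {ν : ℕ} (hν : ν ≤ m)
    (hνpos : 0 < form hIT hZ (G.mix L H ν))
    (hz : ∀ j, ν < j → j ≤ m + 1 → form hIT hZ (G.mix L H j) = 0)
    {k : Set Z.K} {V : Set Z.X}
    (hkV : ∀ g ∈ k, g ≠ 0 → ∀ x, x ∉ V → coheight x = 1 → Scheme.ord g x = 0)
    (hV : ∀ x ∈ V, ∀ hx : coheight x = 1, form hIT hZ (Fin.cons (pd x hx) (G.mix L H ν)) = 0)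
    {Y : Var} (φ : DomHom Z' Y) (hk : ∀ h : Y.K, ∃ g ∈ k, φ.pull h = μ.pull g)
    {A : Div Y.X} {A' : Div Z'.X} (hA : IsAmple A) (hAA' : IsPullback φ A A') :
    ∃ q : ℕ, 0 < q ∧ IsPsef (q • L' - A') := by
  have hZ' : Z'.dim = m + 1 := hμ.dim_eq.trans hZ
  have hL'nef : IsNef L' := hNP _ _ _ _ _ hLL' hL
  have hH₁nef : IsNef H₁ := hNP _ _ _ _ _ hHH₁ hH.isNef
  have hA'nef : IsNef A' := hNP _ _ _ _ _ hAA' hA.isNef
  obtain ⟨H'', hH''⟩ := Z'.ample
  -- `φ^*A · L'^ν · H₁^(m-ν) = 0`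
  have hB0 : form hIT hZ' (Fin.cons A' (G.mix L' H₁ ν)) = 0 := by
    obtain ⟨M, hM, hMsec⟩ := hA.exists_section
    obtain ⟨s, P, hP, hE⟩ := exists_effective hMsec
    obtain ⟨P', hP'⟩ := exists_isPullback hFS φ P
    have hEpb : IsPullback φ (M • A + P) (M • A' + P') := (hAA'.nsmul M).add hP'
    have hPd : IsDivOf (φ.pull s) P' := hP'.isDivOf hFS hP
    have h1 : form hIT hZ' (Fin.cons (M • A' + P') (G.mix L' H₁ ν)) = 0 := by
      rw [form_cons_sum hIT hZ']
      refine Finset.sum_eq_zero fun w hw => ?_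
      rw [Finsupp.mem_support_iff] at hw
      rw [form_prime_eq_zero hFS hNP hIT hZ hZ' hμ hL hH hLL' hHH₁ w.1 w.2 fun hx => ?_,
        mul_zero]
      obtain ⟨g, hg, hgw⟩ := hEpb w.1 w.2
      rw [coef_val] at hgw
      obtain ⟨g', hg'k, hg'⟩ := hk g
      have hg'0 : g' ≠ 0 := by
        rintro rfl
        rw [map_zero] at hg'
        exact φ.pull_ne_zero hg.1 hg'
      obtain ⟨r, hr, hmr⟩ := μ.exists_mult w.1 w.2 hx
      have h2 : Scheme.ord g' (μ.f w.1) ≠ 0 := by
        intro h0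
        have h3 := hmr g' hg'0
        rw [h0, mul_zero, ← hg', ← hgw] at h3
        exact hw h3
      have h4 : μ.f w.1 ∈ V := by
        by_contra hc
        exact h2 (hkV g' hg'k hg'0 _ hc hx)
      exact hV _ h4 hx
    have h2 : form hIT hZ' (Fin.cons (M • A' + P') (G.mix L' H₁ ν)) =
        M * form hIT hZ' (Fin.cons A' (G.mix L' H₁ ν)) +
          form hIT hZ' (Fin.cons P' (G.mix L' H₁ ν)) := by
      have h3 := G.cons_sum (form hIT hZ') (G.mix L' H₁ ν) ({0} : Finset (Fin 1))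
        (fun _ => (M : ℤ)) (fun _ => A') P'
      rw [Finset.sum_singleton, Finset.sum_singleton, natCast_zsmul] at h3
      rw [add_comm (M • A') P', h3, add_comm]
    have h4 : form hIT hZ' (Fin.cons P' (G.mix L' H₁ ν)) = 0 :=
      form_principal hIT hZ' _ 0 (g := φ.pull s) (by rw [Fin.cons_zero]; exact hPd)
    rw [h2, h4, add_zero] at h1
    rcases mul_eq_zero.1 h1 with h | h
    · exfalso; exact hM.ne' (by exact_mod_cast h)
    · exact h
  -- Siu's criterion in the form needed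
  have hSiu' : ∀ x y : Div Z'.X, IsNef x → IsNef y →
      ((m + 1 : ℕ) : ℤ) * form hIT hZ' (Fin.cons y (fun _ => x)) < form hIT hZ' (fun _ => x) →
      IsBig (x - y) := by
    intro x y hx hy hxy
    refine hSiu Z' x y (Fin.cast hZ'.symm 0) hx hy ?_
    rw [form_apply, form_apply] at hxy
    have e : (fun i : Fin Z'.dim => (Fin.cons y (fun _ => x) : Fin (m + 1) → Div Z'.X)
        (Fin.cast hZ' i)) = Function.update (fun _ => x) (Fin.cast hZ'.symm 0) y := by
      funext i
      by_cases hi : i = Fin.cast hZ'.symm 0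
      · subst hi
        rw [Function.update_self]
        rfl
      · rw [Function.update_of_ne hi]
        have hne : Fin.cast hZ' i ≠ 0 := fun h => hi (by
          rw [← h]; rfl)
        obtain ⟨i', hi'⟩ := Fin.exists_succ_eq.2 hne
        rw [← hi', Fin.cons_succ]
    rw [e] at hxy
    have hd : (Z'.dim : ℤ) = ((m + 1 : ℕ) : ℤ) := by exact_mod_cast hZ'
    rw [hd]
    exact hxy
  have hSec : ∀ {D : Div Z'.X}, IsBig D → ∃ k : ℕ, 0 < k ∧ H0 (coef ((k : ℤ) • D)) ≠ ⊥ := by
    intro D hD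
    obtain ⟨k, hk0, h⟩ := hD 0
    rw [sub_zero] at h
    exact ⟨k, hk0, by rwa [natCast_zsmul]⟩
  -- Kodaira's lemma
  have hKod : IsBig H₁ := by
    have h1 := hSiu' H₁ 0 hH₁nef isNef_zero (by
      have h2 : form hIT hZ' (Fin.cons (0 : Div Z'.X) (fun _ => H₁)) = 0 :=
        MultilinearMap.map_coord_zero _ 0 (by rw [Fin.cons_zero])
      rw [h2, mul_zero, form_pullback hIT hZ hZ' hμ (v := fun _ => H) fun _ => hHH₁]
      exact form_ample hIT hZ hH)
    rwa [sub_zero] at h1
  obtain ⟨C, hC0, hC⟩ := hKod H''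
  obtain ⟨C', hC'⟩ := hH''.forall_add (hFS Z') (-H₁)
  have key := G.stepD (I := form hIT hZ') (Nef := IsNef) (Eff := fun D => H0 (coef D) ≠ ⊥)
    (fun v i hi hv => form_section hIT hZ' v i hi hv) (form_nef hIT hZ')
    (L := L') (H' := H'') (a := H₁) (B := A') hL'nef hH''.isNef hH₁nef
    (C := C) (by rw [natCast_zsmul]; exact hC) (form_symm hIT hZ')
    (exists_dom hFS hH'')
    (C' := C') (by
      rw [natCast_zsmul, sub_eq_add_neg]
      exact (hC' C' le_rfl).2.exists_section)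
    hν (by rw [form_mix hIT hZ hZ' hμ hLL' hHH₁]; exact hνpos)
    (fun j hj hjm => by rw [form_mix hIT hZ hZ' hμ hLL' hHH₁]; exact hz j hj hjm)
    hA'nef hB0 (Sec := fun D => H0 (coef D) ≠ ⊥) (Ample := IsAmple)
    (fun x y => H0_add_ne_bot)
    (fun k x hx => by rw [natCast_zsmul]; exact hx.nsmul k)
    (fun x y hx hy => hx.add hy)
    (fun x hx => by
      obtain ⟨k, hk0, h⟩ := hx.exists_section
      exact ⟨k, hk0, by rwa [natCast_zsmul]⟩)
    (fun x hx => by
      obtain ⟨N, hN⟩ := hx.forall_add (hFS Z') (-H'')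
      refine ⟨N + 1, Nat.succ_pos _, ?_⟩
      rw [natCast_zsmul, sub_eq_add_neg]
      exact (hN (N + 1) (Nat.le_succ N)).2.exists_section)
    (fun x y hx hy hxy => hSec (hSiu' x y hx hy hxy))
  obtain ⟨q, hq, hpsef⟩ := key
  refine ⟨q, hq, fun x hx k => ?_⟩
  obtain ⟨j, hj, h⟩ := hpsef x hx k
  refine ⟨j, hj, ?_⟩
  simpa only [natCast_zsmul] using h

end

end Vale.Agent.P299.Q
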