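import Vale.Agent.P299.G.Asym
import Vale.Agent.P299.Q.StepD
import Vale.Agent.P299.Q.AsymAmple
import Vale.Agent.P299.Q.AsymSiu

/-!
# Step (D): `q L' - φ^*A` is pseudo-effective (asymptotic version)
-/

open CategoryTheory TopologicalSpace Opposite TopCat AlgebraicGeometry Order Filter Topology

namespace Vale.Agent.P299.Q

open G (mix Symm)

section Basic

variable {X : Var} (hAB : FactorialStalks) (hKN : KollarNadelVanishing)
  (hSn : ChiPoly) (hFin : FiniteSections) {m : ℕ} (h : X.dim = m + 1)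

/-- Linearity in the first entry. -/
theorem sform_cons_add (D D' : Div X.X) (v : Fin m → Div X.X) :
    sform hSn h (Fin.cons (D + D') v) =
      sform hSn h (Fin.cons D v) + sform hSn h (Fin.cons D' v) :=
  (sform hSn h).cons_add v D D'

theorem sform_cons_zsmul (c : ℤ) (D : Div X.X) (v : Fin m → Div X.X) :
    sform hSn h (Fin.cons (c • D) v) = c * sform hSn h (Fin.cons D v) :=
  (sform hSn h).cons_smul v c D

theorem sform_cons_nsmul (c : ℕ) (D : Div X.X) (v : Fin m → Div X.X) :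
    sform hSn h (Fin.cons (c • D) v) = c * sform hSn h (Fin.cons D v) := by
  rw [← natCast_zsmul, sform_cons_zsmul]

theorem sform_cons_zero (v : Fin m → Div X.X) :
    sform hSn h (Fin.cons (0 : Div X.X) v) = 0 := by
  have := sform_cons_zsmul hSn h 0 0 v
  rwa [zero_smul, zero_mul] at this

theorem sform_cons_sub (D D' : Div X.X) (v : Fin m → Div X.X) :
    sform hSn h (Fin.cons (D - D') v) =
      sform hSn h (Fin.cons D v) - sform hSn h (Fin.cons D' v) := by
  have h1 := sform_cons_add hSn h (D - D') D' v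
  rw [sub_add_cancel] at h1
  linarith

/-- Homogeneity in the other entries. -/
theorem sform_cons_const_nsmul (c : ℕ) (D N : Div X.X) :
    sform hSn h (Fin.cons D fun _ => c • N) =
      (c : ℤ) ^ m * sform hSn h (Fin.cons D fun _ => N) := by
  have h1 : (fun _ : Fin m => c • N) = fun _ : Fin m => (c : ℤ) • N := by
    funext _
    rw [natCast_zsmul]
  have h2 := ((sform hSn h).curryLeft D).map_smul_univ (fun _ : Fin m => (c : ℤ))
    (fun _ => N)
  rw [MultilinearMap.curryLeft_apply, MultilinearMap.curryLeft_apply] at h2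
  rw [h1, h2]
  simp

/-- The intersection number as a sum over the components. -/
theorem sform_cons_sum (E : Div X.X) (v : Fin m → Div X.X) :
    sform hSn h (Fin.cons E v) =
      ∑ x ∈ E.support, E x * sform hSn h (Fin.cons (pd x.1 x.2) v) := by
  have h1 := G.cons_sum (sform hSn h) v E.support (fun x => E x) (fun x => pd x.1 x.2) 0
  rw [zero_add, sum_pd E] at h1
  rw [h1, sform_cons_zero, zero_add]

include hAB hKN hFin in
/-- `D · N^(n-1) ≥ 0` if `D` has a section and `N` is nef. -/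
theorem sform_nonneg_of_nef {κ : Div X.X} (hκ : IsCanonicalDivisor κ) {N D : Div X.X}
    (hN : IsNef N) (hD : H0 (coef D) ≠ ⊥) :
    0 ≤ sform hSn h (Fin.cons D fun _ => N) := by
  obtain ⟨A, hA⟩ := X.ample
  have h1 := G.leading_nonneg (J := (sform hSn h).curryLeft D)
    (G.symm_curryLeft (sform_symm hSn h) D) N A (ν := m) le_rfl
    (fun t => by
      rw [MultilinearMap.curryLeft_apply]
      refine sform_nonneg_of_ample hAB hKN hSn hFin h hκ ?_ hD
      rw [natCast_zsmul]
      exact hN A hA t)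
    (fun j hj hjm => absurd hj (by omega))
  rw [MultilinearMap.curryLeft_apply] at h1
  have h2 : (mix N A m : Fin m → Div X.X) = fun _ => N := by
    funext i
    unfold G.mix
    rw [if_pos i.2]
  rwa [h2] at h1

include hAB in
omit h in
/-- Domination by an ample divisor, in terms of sections. -/
theorem exists_dom_section {H : Div X.X} (hH : IsAmple H) (D : Div X.X) :
    ∃ C : ℕ, H0 (coef ((C : ℤ) • H - D)) ≠ ⊥ ∧ H0 (coef ((C : ℤ) • H + D)) ≠ ⊥ := by
  obtain ⟨m₁, h1⟩ := hH.forall_add (hAB X) D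
  obtain ⟨m₂, h2⟩ := hH.forall_add (hAB X) (-D)
  refine ⟨m₁ + m₂, ?_, ?_⟩
  · rw [natCast_zsmul, sub_eq_add_neg]
    exact (h2 _ (by omega)).2.exists_section
  · rw [natCast_zsmul]
    exact (h1 _ (by omega)).2.exists_section

end Basic

/-! ### The direct image of a base point free divisor -/

section Push

variable {Z Z' : Var} {μ : DomHom Z' Z} (hμ : μ.Birational)

/-- A point of `Z'` over a point of `Z`. -/
noncomputable def overPoint (μ : DomHom Z' Z) (y : Z.X) : Z'.X := (μ.surjective y).choose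

theorem overPoint_spec (μ : DomHom Z' Z) (y : Z.X) : μ.f (overPoint μ y) = y :=
  (μ.surjective y).choose_spec

include hμ in
theorem overPoint_prop {y : Z.X} (hy : coheight y = 1) :
    coheight (overPoint μ y) = 1 ∧
      ∀ g : Z.K, Scheme.ord (μ.pull g) (overPoint μ y) = Scheme.ord g y := by
  have h1 := ord_pull_of_birational μ hμ (overPoint μ y) (by rw [overPoint_spec]; exact hy)
  rwa [overPoint_spec] at h1

/-- The direct image of a divisor. -/
noncomputable def pushDiv (μ : DomHom Z' Z) (B : Div Z'.X) : Div Z.X :=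
  mkDiv (fun y => coef B (overPoint μ y)) (by
    refine ((finite_coef B).image μ.f).subset ?_
    rintro y ⟨-, hy⟩
    exact ⟨overPoint μ y, hy, overPoint_spec μ y⟩)

theorem coef_pushDiv (B : Div Z'.X) {y : Z.X} (hy : coheight y = 1) :
    coef (pushDiv μ B) y = coef B (overPoint μ y) := coef_mkDiv _ _ hy

include hμ in
/-- `μ^* μ_* B - B` is effective if `B` is base point free. -/
theorem pull_push_sub (hAB : FactorialStalks) {B : Div Z'.X} (hB : IsGenerated B) :
    H0 (coef (μ.pb hAB (pushDiv μ B) - B)) ≠ ⊥ := by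
  refine H0_ne_bot_of_nonneg fun x => ?_
  obtain ⟨s, hs, hsx⟩ := hB x.1
  obtain ⟨f, rfl⟩ := hμ.2 s
  have hf0 : f ≠ 0 := by
    rintro rfl
    exact hsx.1 (map_zero _)
  have h1 : f ∈ H0 (coef (pushDiv μ B)) := by
    rw [mem_H0]
    intro y hy _
    obtain ⟨h2, h3⟩ := overPoint_prop hμ hy
    have h4 := (mem_H0.1 hs) _ h2 hsx.1
    rwa [h3, ← coef_pushDiv B hy] at h4
  have h2 := (μ.isPullback_pb hAB (pushDiv μ B)).pull_mem_H0 hAB h1
  have h3 := (mem_H0.1 h2) x.1 x.2 hsx.1
  have h4 := hsx.ord x.2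
  rw [coef_val] at h3 h4
  change (0 : ℤ) ≤ μ.pb hAB (pushDiv μ B) x - B x
  omega

end Push

section StepD

variable (hAB : FactorialStalks) (hKN : KollarNadelVanishing)
  (hSn : ChiPoly) (hFin : FiniteSections) {Z Z' : Var} {m : ℕ} (hZ : Z.dim = m + 1)
  {μ : DomHom Z' Z} {κ : Div Z.X} {κ' : Div Z'.X} (hrel : RelCanonical μ κ κ')

include hAB hrel hKN hFin

/-- The basic form of Step (D): `B` is base point free on `Z'` and
`μ_* B · L^j · H^(n-1-j) = 0` for `j ≥ ν`. -/
theorem psef_of_push {L H : Div Z.X} {L' : Div Z'.X} (hL : IsNef L) (hH : IsAmple H)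
    (hLL' : IsPullback μ L L') {ν : ℕ} (hν : ν ≤ m + 1)
    (hνpos : 0 < sform hSn hZ (mix L H ν))
    (hz : ∀ j, ν < j → j ≤ m + 1 → sform hSn hZ (mix L H j) = 0)
    {B : Div Z'.X} (hB : IsGenerated B)
    (hBz : ∀ j, ν ≤ j → j ≤ m → sform hSn hZ (Fin.cons (pushDiv μ B) (mix L H j)) = 0) :
    ∃ q : ℕ, 0 < q ∧ IsPsef (q • L' - B) := by
  have hμ := hrel.birational
  have hZ' : Z'.dim = m + 1 := hμ.dim_eq.trans hZ
  obtain rfl := hLL'.eq_pb hAB
  obtain ⟨e, he, t₀, ht₀⟩ := G.exists_siu_asym (sform_symm hSn hZ) (L := L) (H := H) hz hν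
    hνpos (B := pushDiv μ B) hBz
  set H₁ := μ.pb hAB H with hH₁
  -- the sections for every `t`
  have key : ∀ t : ℕ, t₀ ≤ t → ∃ k₀ : ℕ, ∀ k : ℕ, k₀ ≤ k →
      H0 (coef (κ' + B + k • (e • (t • μ.pb hAB L + H₁)) - (t * k) • B)) ≠ ⊥ := by
    intro t ht
    have hC : IsAmple (t • L + H) := hL H hH t
    have hN : t • μ.pb hAB L + H₁ = μ.pb hAB (t • L + H) := by
      rw [map_add, map_nsmul]
    have hnef : IsNef (μ.pb hAB (t • L + H)) :=
      nefPullback hAB Z' Z μ _ _ (μ.isPullback_pb hAB _) hC.isNef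
    have hbig : IsBig (e • μ.pb hAB (t • L + H)) := by
      have h1 := kodairaLemma hAB Z' Z μ hμ (e • (t • L + H)) _
        ((μ.isPullback_pb hAB _).nsmul e) (hC.nsmul he)
      exact h1
    rw [hN]
    refine exists_section_sub hAB hKN hSn hFin hZ' hrel.canonical' (hnef.nsmul e) hbig hB ?_
    rw [sform_const_nsmul, sform_cons_const_nsmul, hrel.sform_const hAB hKN hSn hZ hZ' hC]
    have h1 := sform_nonneg_of_nef hAB hKN hSn hFin hZ' hrel.canonical' hnef
      (pull_push_sub hμ hAB hB)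
    rw [sform_cons_sub, hrel.sform_cons hAB hKN hSn hZ hZ' _ hC] at h1
    have h2 := ht₀ t ht
    rw [natCast_zsmul] at h2
    have he' : (0 : ℤ) < (e : ℤ) ^ m := by
      have : (0 : ℤ) < e := by exact_mod_cast he
      positivity
    have h3 : ((m + 1 : ℕ) : ℤ) *
        (t * sform hSn hZ' (Fin.cons B fun _ => μ.pb hAB (t • L + H))) <
        e * sform hSn hZ (fun _ => t • L + H) := by
      refine lt_of_le_of_lt ?_ h2
      refine mul_le_mul_of_nonneg_left (mul_le_mul_of_nonneg_left ?_ (by positivity))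
        (by positivity)
      linarith
    calc ((m + 1 : ℕ) : ℤ) * (t * ((e : ℤ) ^ m *
          sform hSn hZ' (Fin.cons B fun _ => μ.pb hAB (t • L + H))))
        = (e : ℤ) ^ m * (((m + 1 : ℕ) : ℤ) *
          (t * sform hSn hZ' (Fin.cons B fun _ => μ.pb hAB (t • L + H)))) := by ring
      _ < (e : ℤ) ^ m * (e * sform hSn hZ (fun _ => t • L + H)) :=
          mul_lt_mul_of_pos_left h3 he'
      _ = (e : ℤ) ^ (m + 1) * sform hSn hZ (fun _ => t • L + H) := by ring
  refine ⟨e, he, fun x hx j => ?_⟩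
  rcases Nat.eq_zero_or_pos j with hj | hj
  · subst hj
    obtain ⟨i, hi, hs⟩ := hx.exists_section
    refine ⟨i, hi, ?_⟩
    rwa [zero_smul, zero_add]
  · obtain ⟨T₀, hT₀⟩ := hx.forall_add (hAB Z') (-(e • H₁))
    set T : ℕ := T₀ + t₀ + 1 with hT
    have hample := (hT₀ T (by omega)).1
    obtain ⟨k₀, hk₀⟩ := key (j * T) (by
      calc t₀ ≤ T := by omega
        _ = 1 * T := (one_mul T).symm
        _ ≤ j * T := Nat.mul_le_mul_right T hj)
    obtain ⟨k₁, hk₁⟩ := hample.forall_add (hAB Z') (-(κ' + B))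
    set k : ℕ := k₀ + k₁ + 1 with hk
    refine ⟨k * T, by positivity, ?_⟩
    have h1 := hk₀ k (by omega)
    have h2 := (hk₁ k (by omega)).2.exists_section
    have e1 : (k * T) • (j • (e • μ.pb hAB L - B) + x) =
        (κ' + B + k • (e • ((j * T) • μ.pb hAB L + H₁)) - (j * T * k) • B) +
          (k • (T • x + -(e • H₁)) + -(κ' + B)) := by
      module
    rw [e1]
    exact H0_add_ne_bot h1 h2

/-- **Step (D)**. -/
theorem stepD_asym {L H : Div Z.X} {L' : Div Z'.X} (hL : IsNef L) (hH : IsAmple H)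
    (hLL' : IsPullback μ L L') {ν : ℕ} (hν : ν ≤ m)
    (hνpos : 0 < sform hSn hZ (mix L H ν))
    (hz : ∀ j, ν < j → j ≤ m + 1 → sform hSn hZ (mix L H j) = 0)
    {k : Set Z.K} {V : Set Z.X}
    (hkV : ∀ g ∈ k, g ≠ 0 → ∀ x, x ∉ V → coheight x = 1 → Scheme.ord g x = 0)
    (hV : ∀ x ∈ V, ∀ hx : coheight x = 1,
      sform hSn hZ (Fin.cons (pd x hx) (mix L H ν)) = 0)
    {Y : Var} (φ : DomHom Z' Y) (hk : ∀ h : Y.K, ∃ g ∈ k, φ.pull h = μ.pull g)
    {A : Div Y.X} {A' : Div Z'.X} (hA : IsAmple A) (hAA' : IsPullback φ A A') :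
    ∃ q : ℕ, 0 < q ∧ IsPsef (q • L' - A') := by
  have hμ := hrel.birational
  -- a base point free multiple
  obtain ⟨c₀, hc₀⟩ := hA.forall_add (hAB Y) 0
  set c : ℕ := c₀ + 1 with hc
  have hgenY : IsGenerated (c • A) := by
    have := (hc₀ c (by omega)).2
    rwa [add_zero] at this
  have hcpb : IsPullback φ (c • A) (c • A') := hAA'.nsmul c
  have hgen : IsGenerated (c • A') := hcpb.isGenerated hAB hgenY
  -- an effective divisor in the class of `c A`
  obtain ⟨s, P, hP, hE⟩ := exists_effective hgenY.exists_section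
  obtain ⟨P', hP'⟩ := exists_isPullback hAB φ P
  have hEpb : IsPullback φ (c • A + P) (c • A' + P') := hcpb.add hP'
  have hPd : IsDivOf (φ.pull s) P' := hP'.isDivOf hAB hP
  obtain ⟨g₀, hg₀⟩ := hμ.2 (φ.pull s)
  have hg₀0 : g₀ ≠ 0 := by
    rintro rfl
    rw [map_zero] at hg₀
    exact hPd.1 hg₀.symm
  obtain ⟨P₁, hP₁⟩ := exists_isDivOf hg₀0
  -- the components of the direct image belong to `V`
  have hcomp : ∀ (y : Z.X) (hy : coheight y = 1),
      (pushDiv μ (c • A') + P₁) ⟨y, hy⟩ ≠ 0 → y ∈ V := by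
    intro y hy hne
    obtain ⟨hx, ho⟩ := overPoint_prop hμ hy
    have h1 : (pushDiv μ (c • A') + P₁) ⟨y, hy⟩ = coef (c • A' + P') (overPoint μ y) := by
      rw [← coef_mk hy, coef_add, coef_add, coef_pushDiv _ hy]
      congr 1
      rw [← hP₁.2 y hy, ← hPd.2 _ hx, ← hg₀, ho]
    rw [h1] at hne
    obtain ⟨g, hg, hgw⟩ := hEpb _ hx
    obtain ⟨g', hg'k, hg'⟩ := hk g
    have hg'0 : g' ≠ 0 := by
      rintro rfl
      rw [map_zero] at hg'
      exact φ.pull_ne_zero hg.1 hg'
    by_contra hc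
    rw [hgw, hg', ho, hkV g' hg'k hg'0 y hc hy] at hne
    exact hne rfl
  have heff : ∀ D : Div Z.X, H0 (coef D) ≠ ⊥ → ∀ t : ℕ,
      0 ≤ sform hSn hZ (Fin.cons D (fun _ => (t : ℤ) • L + H)) := by
    intro D hD t
    refine sform_nonneg_of_ample hAB hKN hSn hFin hZ hrel.canonical ?_ hD
    rw [natCast_zsmul]
    exact hL H hH t
  obtain ⟨q, hq, hps⟩ := psef_of_push hAB hKN hSn hFin hZ hrel hL hH hLL' (by omega) hνpos hz hgen
    (fun j hj hjm => by
      rcases hj.lt_or_eq with hj | hj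
      · exact G.cons_eq_zero_asym (sform_symm hSn hZ) heff (exists_dom_section hAB hH) hz _ hj
          hjm
      · subst hj
        rw [← sform_cons_add_principal hSn hZ hP₁, sform_cons_sum]
        refine Finset.sum_eq_zero fun y hy => ?_
        rw [Finsupp.mem_support_iff] at hy
        rw [hV y.1 (hcomp y.1 y.2 hy) y.2, mul_zero])
  refine ⟨q, hq, ?_⟩
  have hA'nef : IsNef A' := nefPullback hAB Z' Y φ A A' hAA' hA.isNef
  have h1 := hps.add_isNef (hA'nef.nsmul c₀)
  have e1 : q • L' - c • A' + c₀ • A' = q • L' - A' := by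
    rw [hc, add_smul, one_smul]
    abel
  rwa [e1] at h1

omit hrel in
include hSn hZ in
/-- The case of a nef divisor with positive self-intersection number. -/
theorem psef_of_big (hκ : IsCanonicalDivisor κ) {S A : Div Z.X} (hS : IsNef S)
    (hpos : 0 < inter (fun _ : Fin Z.dim => S)) (hA : IsAmple A) :
    ∃ q : ℕ, 0 < q ∧ IsPsef (q • S - A) := by
  have hrel := RelCanonical.id hAB hκ
  obtain ⟨c₀, hc₀⟩ := hA.forall_add (hAB Z) 0
  set c : ℕ := c₀ + 1 with hc
  have hgen : IsGenerated (c • A) := by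
    have := (hc₀ c (by omega)).2
    rwa [add_zero] at this
  have hmix : (mix S A (m + 1) : Fin (m + 1) → Div Z.X) = fun _ => S := by
    funext i
    unfold G.mix
    rw [if_pos i.2]
  obtain ⟨q, hq, hps⟩ := psef_of_push hAB hKN hSn hFin hZ hrel hS hA (isPullback_id hAB S)
    (ν := m + 1) le_rfl (by rw [hmix, sform_const]; exact hpos)
    (fun j hj hjm => absurd hj (by omega)) hgen (fun j hj hjm => absurd hj (by omega))
  refine ⟨q, hq, ?_⟩
  have h1 := hps.add_isNef (hA.isNef.nsmul c₀)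
  have e1 : q • S - c • A + c₀ • A = q • S - A := by
    rw [hc, add_smul, one_smul]
    abel
  rwa [e1] at h1

end StepD

end Vale.Agent.P299.Q
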