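import Vale.Agent.P299.Q.Snapper

/-!
# The Euler characteristic is a polynomial function on the group of divisors
-/

open CategoryTheory TopologicalSpace Opposite TopCat AlgebraicGeometry Order

namespace Vale.Agent.P299.G

variable {A : Type*} [AddCommGroup A]

/-- The alternating sum over a cube, one edge split off. -/
theorem cube_succ {N : ℕ} (f : A → ℚ) (v : Fin (N + 1) → A) (x : A) :
    ∑ S : Finset (Fin (N + 1)), (-1 : ℚ) ^ S.card * f (x - ∑ i ∈ S, v i) =
      ∑ S : Finset (Fin N), (-1 : ℚ) ^ S.card *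
        (f (x - ∑ i ∈ S, v i.succ) - f (x - ∑ i ∈ S, v i.succ - v 0)) := by
  classical
  rw [sum_finset_succ, ← Finset.sum_add_distrib]
  refine Finset.sum_congr rfl fun S _ => ?_
  have h0 : (0 : Fin (N + 1)) ∉ S.map (Fin.succEmb N) := by
    rw [Finset.mem_map]
    rintro ⟨j, _, hj⟩
    exact Fin.succ_ne_zero _ hj
  rw [Finset.card_insert_of_notMem h0, Finset.sum_insert h0, Finset.card_map, Finset.sum_map]
  have e : x - (v 0 + ∑ i ∈ S, v ((Fin.succEmb N) i)) = x - ∑ i ∈ S, v i.succ - v 0 := by
    simp only [Fin.coe_succEmb]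
    abel
  rw [e, pow_succ]
  simp only [Fin.coe_succEmb]
  ring

/-- A function all of whose `N`-fold differences vanish is polynomial of degree less than `N`. -/
theorem polyLt_of_cube {N : ℕ} {f : A → ℚ}
    (h : ∀ (v : Fin N → A) (x : A),
      ∑ S : Finset (Fin N), (-1 : ℚ) ^ S.card * f (x - ∑ i ∈ S, v i) = 0) : PolyLt N f := by
  induction N generalizing f with
  | zero =>
    change f = 0
    funext x
    have h1 := h (fun i => i.elim0) x
    rw [Fintype.sum_unique, Subsingleton.elim (default : Finset (Fin 0)) ∅, Finset.card_empty,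
      pow_zero, one_mul, Finset.sum_empty, sub_zero] at h1
    exact h1
  | succ N ih =>
    intro w
    refine ih fun v x => ?_
    have h1 := h (Fin.cons w v) x
    rw [cube_succ] at h1
    simp only [Fin.cons_succ, Fin.cons_zero] at h1
    rw [← h1]

/-- The top differences of a polynomial function do not depend on the base point. -/
theorem PolyLt.cube_eq {N : ℕ} {f : A → ℚ} (hf : PolyLt (N + 1) f) (v : Fin N → A) (x y : A) :
    ∑ S : Finset (Fin N), (-1 : ℚ) ^ S.card * f (x - ∑ i ∈ S, v i) =
      ∑ S : Finset (Fin N), (-1 : ℚ) ^ S.card * f (y - ∑ i ∈ S, v i) := by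
  have h := hf.cube_eq_zero (Fin.cons (x - y) v) x
  rw [cube_succ] at h
  simp only [Fin.cons_succ, Fin.cons_zero, mul_sub, Finset.sum_sub_distrib] at h
  rw [sub_eq_zero.1 h]
  refine Finset.sum_congr rfl fun S _ => ?_
  congr 2
  abel

end Vale.Agent.P299.G

namespace Vale.Agent.P299.Q

variable {X : Var}

/-- The Euler characteristic is a polynomial function of degree at most `dim X` on the group of
divisors. -/
theorem chi_polyLt (hSn : Snapper) (hAB : FactorialStalks) (X : Var) :
    G.PolyLt (X.dim + 1) (fun D : Div X.X => (chi D : ℚ)) := by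
  refine G.polyLt_of_cube fun v x => ?_
  obtain ⟨p, hp, h⟩ := hSn.chi hAB x v
  have h1 := (G.polyLt_of_mvPolynomial p hp).cube_eq_zero
    (fun i : Fin (X.dim + 1) => (Pi.single i 1 : Fin (X.dim + 1) → ℤ)) 0
  rw [← h1]
  refine Finset.sum_congr rfl fun S _ => ?_
  congr 1
  rw [← h]
  congr 2
  rw [sub_eq_add_neg]
  congr 1
  classical
  have h3 : ∀ j, ((0 : Fin (X.dim + 1) → ℤ) -
      ∑ i ∈ S, (Pi.single i 1 : Fin (X.dim + 1) → ℤ)) j = if j ∈ S then -1 else 0 := by
    intro j
    rw [Pi.sub_apply, Finset.sum_apply, Pi.zero_apply, zero_sub]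
    split_ifs with hj
    · rw [Finset.sum_eq_single j (fun i _ hij => by rw [Pi.single_apply, if_neg hij.symm])
        (fun h => absurd hj h), Pi.single_eq_same]
    · rw [Finset.sum_eq_zero, neg_zero]
      intro i hi
      rw [Pi.single_apply, if_neg]
      rintro rfl
      exact hj hi
  rw [← Finset.sum_neg_distrib, ← Finset.sum_subset (Finset.subset_univ S)]
  · refine Finset.sum_congr rfl fun j hj => ?_
    rw [h3, if_pos hj, neg_smul, one_smul]
  · intro j _ hj
    rw [h3, if_neg hj, zero_smul]

/-- The intersection number as an alternating sum with an arbitrary base point. -/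
theorem inter_eq_cube (hSn : Snapper) (hAB : FactorialStalks) (D : Fin X.dim → Div X.X)
    (x : Div X.X) :
    (inter D : ℚ) = ∑ S : Finset (Fin X.dim), (-1 : ℚ) ^ S.card * (chi (x - ∑ i ∈ S, D i) : ℚ) := by
  have h := (chi_polyLt hSn hAB X).cube_eq D x 0
  rw [h]
  unfold inter
  push_cast
  refine Finset.sum_congr rfl fun S _ => ?_
  rw [zero_sub]

/-- Two numerically polynomial functions: if the Euler characteristics of `x - Σ_S D_i` and
`x' - Σ_S D'_i` agree for all `S`, the intersection numbers agree. -/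
theorem inter_eq_of_chi (hSn : Snapper) (hAB : FactorialStalks) {Y : Var} (h : X.dim = Y.dim)
    (D : Fin Y.dim → Div Y.X) (D' : Fin X.dim → Div X.X) (x : Div Y.X) (x' : Div X.X)
    (hchi : ∀ S : Finset (Fin X.dim), chi (x' - ∑ i ∈ S, D' i) =
      chi (x - ∑ i ∈ S, D (Fin.cast h i))) : inter D' = inter D := by
  have h1 : (inter D' : ℚ) = inter D := by
    rw [inter_eq_cube hSn hAB D' x', inter_eq_cube hSn hAB D x]
    refine Finset.sum_equiv (Equiv.finsetCongr (finCongr h)) (by simp) fun S _ => ?_
    rw [hchi S, Equiv.finsetCongr_apply, Finset.card_map, Finset.sum_map]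
    rfl
  exact_mod_cast h1

end Vale.Agent.P299.Q
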