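import Vale.Agent.P299.G.Growth
import Vale.Agent.P299.Q.ChiPoly
import Vale.Agent.P299.Q.Numeric

/-!
# The growth of the Euler characteristic
-/

open CategoryTheory TopologicalSpace Opposite TopCat AlgebraicGeometry Order Filter Topology
open scoped Nat

namespace Vale.Agent.P299.Q

section

/-- Splitting an alternating sum over subsets at the first index. -/
theorem sum_cons_split {n : ℕ} {A : Type*} [AddCommGroup A] (g : A → ℤ) (D : Fin n → A)
    (M y : A) :
    ∑ S : Finset (Fin (n + 1)), (-1 : ℤ) ^ S.card *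
        g (y - ∑ j ∈ S, (Fin.cons M D : Fin (n + 1) → A) j) =
      ∑ S : Finset (Fin n), (-1 : ℤ) ^ S.card * g (y - ∑ j ∈ S, D j) -
        ∑ S : Finset (Fin n), (-1 : ℤ) ^ S.card * g (y - M - ∑ j ∈ S, D j) := by
  classical
  rw [G.sum_finset_succ, ← Finset.sum_add_distrib, ← Finset.sum_sub_distrib]
  refine Finset.sum_congr rfl fun S _ => ?_
  have hn0 : (0 : Fin (n + 1)) ∉ S.map (Fin.succEmb n) := by
    rw [Finset.mem_map]
    rintro ⟨j, _, hj⟩
    exact Fin.succ_ne_zero _ hj
  rw [Finset.card_insert_of_notMem hn0, Finset.sum_insert hn0, Finset.card_map, Finset.sum_map,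
    pow_succ, Fin.cons_zero]
  have e : y - (M + ∑ j ∈ S, (Fin.cons M D : Fin (n + 1) → A) ((Fin.succEmb n) j)) =
      y - M - ∑ j ∈ S, D j := by
    rw [sub_sub]
    rfl
  have e' : ∑ j ∈ S, (Fin.cons M D : Fin (n + 1) → A) ((Fin.succEmb n) j) = ∑ j ∈ S, D j := rfl
  rw [e, e']
  ring

/-- The Euler characteristic is a polynomial function of degree at most `dim X` on the group of
divisors. -/
def ChiPoly : Prop := ∀ X : Var, G.PolyLt (X.dim + 1) (fun D : Div X.X => (Q.chi D : ℚ))

theorem chiPoly_of_snapper (hSn : Snapper) (hAB : FactorialStalks) : ChiPoly :=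
  fun X => chi_polyLt hSn hAB X

variable {X : Var} (hSn : ChiPoly)

include hSn

/-- The `(dim X + 1)`-fold differences of the Euler characteristic vanish. -/
theorem cube_eq_zero (y : Div X.X) (M : Fin (X.dim + 1) → Div X.X) :
    ∑ S : Finset (Fin (X.dim + 1)), (-1 : ℤ) ^ S.card * Q.chi (y - ∑ j ∈ S, M j) = 0 := by
  have h := (hSn X).cube_eq_zero M y
  exact_mod_cast h

/-- The `dim X`-fold differences of the Euler characteristic are the intersection numbers. -/
theorem cube_eq_inter (y : Div X.X) (D : Fin X.dim → Div X.X) :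
    ∑ S : Finset (Fin X.dim), (-1 : ℤ) ^ S.card * Q.chi (y - ∑ j ∈ S, D j) = inter D := by
  have h := cube_eq_zero hSn y (Fin.cons y D)
  rw [sum_cons_split] at h
  rw [sub_eq_zero.1 h]
  unfold inter
  refine Finset.sum_congr rfl fun S _ => ?_
  rw [sub_self, zero_sub]

/-- `χ(y + kN) ~ N^n k^n / n!`. -/
theorem tendsto_chi (y N : Div X.X) :
    Tendsto (fun k : ℕ => (Q.chi (y + k • N) : ℝ) / (k : ℝ) ^ X.dim) atTop
      (𝓝 ((inter (fun _ : Fin X.dim => N) : ℝ) / (X.dim ! : ℝ))) := by
  refine G.tendsto_of_cube (g := Q.chi) (fun y => ?_) y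
  rw [← cube_eq_inter hSn y]
  refine Finset.sum_congr rfl fun S _ => ?_
  rw [Finset.sum_const]

/-- `χ(y + kN) - χ(y + kN - D) ~ D·N^(n-1) k^(n-1) / (n-1)!`. -/
theorem tendsto_chi_sub {m : ℕ} (hm : X.dim = m + 1) (y N D : Div X.X) :
    Tendsto (fun k : ℕ => ((Q.chi (y + k • N) - Q.chi (y + k • N - D) : ℤ) : ℝ) / (k : ℝ) ^ m)
      atTop (𝓝 ((inter (fun i => (Fin.cons D (fun _ => N) : Fin (m + 1) → Div X.X)
        (Fin.cast hm i)) : ℝ) / (m ! : ℝ))) := by
  refine G.tendsto_of_cube (g := fun y => Q.chi y - Q.chi (y - D)) (fun y => ?_) y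
  rw [← cube_eq_inter hSn y]
  have h1 : ∀ {n : ℕ} (h : n = m + 1), ∑ S : Finset (Fin n), (-1 : ℤ) ^ S.card *
      Q.chi (y - ∑ j ∈ S, (Fin.cons D (fun _ => N) : Fin (m + 1) → Div X.X) (Fin.cast h j)) =
      ∑ S : Finset (Fin (m + 1)), (-1 : ℤ) ^ S.card *
      Q.chi (y - ∑ j ∈ S, (Fin.cons D (fun _ => N) : Fin (m + 1) → Div X.X) j) := by
    intro n h
    subst h
    rfl
  rw [h1 hm, sum_cons_split, ← Finset.sum_sub_distrib]
  refine Finset.sum_congr rfl fun S _ => ?_
  rw [Finset.sum_const, ← mul_sub]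
  congr 3
  abel

end

/-! ### The intersection form -/

section Form

variable {X : Var} (hSn : ChiPoly) {m : ℕ} (h : X.dim = m + 1)

include hSn in
theorem exists_sform : ∃ I : MultilinearMap ℤ (fun _ : Fin (m + 1) => Div X.X) ℤ,
    (∀ v, I v = inter (fun i => v (Fin.cast h i))) := by
  obtain ⟨I, hI⟩ := exists_multilinear_of_cube X fun M => by
    have h1 := cube_eq_zero hSn 0 M
    simpa only [zero_sub] using h1
  refine ⟨I.domDomCongr (finCongr h), fun v => ?_⟩
  rw [MultilinearMap.domDomCongr_apply, hI]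
  rfl

/-- The intersection form of a variety of dimension `m + 1`. -/
noncomputable def sform : MultilinearMap ℤ (fun _ : Fin (m + 1) => Div X.X) ℤ :=
  (exists_sform hSn h).choose

theorem sform_apply (v : Fin (m + 1) → Div X.X) :
    sform hSn h v = inter (fun i => v (Fin.cast h i)) :=
  (exists_sform hSn h).choose_spec v

theorem sform_const (N : Div X.X) :
    sform hSn h (fun _ => N) = inter (fun _ : Fin X.dim => N) := sform_apply hSn h _

theorem sform_symm : G.Symm (sform hSn h) := by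
  intro σ v
  rw [sform_apply, sform_apply]
  have := inter_perm ((finCongr h).trans (σ.trans (finCongr h).symm))
    (fun i => v (Fin.cast h i))
  rw [← this]
  rfl

theorem sform_principal (v : Fin (m + 1) → Div X.X) (i : Fin (m + 1)) {g : X.K}
    (hi : IsDivOf g (v i)) : sform hSn h v = 0 := by
  rw [sform_apply]
  exact inter_principal _ (Fin.cast h.symm i) hi

/-- Adding a principal divisor to the first entry. -/
theorem sform_cons_add_principal {D P : Div X.X} {g : X.K} (hP : IsDivOf g P)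
    (v : Fin m → Div X.X) :
    sform hSn h (Fin.cons (D + P) v) = sform hSn h (Fin.cons D v) := by
  have h1 : ∀ B : Div X.X, sform hSn h (Fin.cons B v) = ((sform hSn h).curryLeft B) v :=
    fun B => by rw [MultilinearMap.curryLeft_apply]
  rw [h1, map_add, _root_.add_apply, ← h1, ← h1,
    sform_principal hSn h (Fin.cons P v) 0 (g := g) (by rw [Fin.cons_zero]; exact hP), add_zero]

theorem tendsto_chi' (y N : Div X.X) :
    Tendsto (fun k : ℕ => (Q.chi (y + k • N) : ℝ) / (k : ℝ) ^ (m + 1)) atTop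
      (𝓝 ((sform hSn h (fun _ => N) : ℝ) / ((m + 1) ! : ℝ))) := by
  have h1 := tendsto_chi hSn y N
  rw [sform_const, ← h]
  exact h1

theorem tendsto_chi_sub' (y N D : Div X.X) :
    Tendsto (fun k : ℕ => ((Q.chi (y + k • N) - Q.chi (y + k • N - D) : ℤ) : ℝ) / (k : ℝ) ^ m)
      atTop (𝓝 ((sform hSn h (Fin.cons D (fun _ => N)) : ℝ) / (m ! : ℝ))) := by
  rw [sform_apply]
  exact tendsto_chi_sub hSn h y N D

end Form

end Vale.Agent.P299.Q
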