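import Vale.Agent.P299.Q.Stage1
import Vale.Agent.P299.Q.AsymB

/-!
# The core theorem without intersection theory
-/

open CategoryTheory TopologicalSpace Opposite TopCat AlgebraicGeometry Order

namespace Vale.Agent.P299.Q

open G (mix)

/-- Kawamata–Viehweg vanishing for the multiples of a big and nef anticanonical divisor. -/
theorem vanishing_of_big_asym (hSn : ChiPoly) (hKN : KollarNadelVanishing) {X : Var} {κ : Div X.X}
    (hκ : IsCanonicalDivisor κ) {m : ℕ} (hm : X.dim = m + 1) (hnef : IsNef (-κ))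
    (hbig : 0 < inter (fun _ : Fin X.dim => -κ)) {k : ℕ} (hk : 0 < k) {i : ℕ} (hi : 0 < i) :
    hh (S := (X.X : TopCat.{0})) id ⊤ (κ + k • (-κ)) i = 0 := by
  have hAB := factorialStalks
  obtain ⟨A, hA⟩ := X.ample
  obtain ⟨q, hq, hps⟩ := psef_of_big hAB hKN hSn (finiteSections hAB) hm hκ hnef hbig hA
  have h1 := vanishing hAB hKN hκ (hnef.nsmul k) hA ⟨q, hq, ?_⟩ hi
  · exact Module.finrank_zero_of_subsingleton
  · obtain ⟨j, rfl⟩ : ∃ j, k = j + 1 := ⟨k - 1, by omega⟩
    have h2 : q • ((j + 1) • (-κ)) - A = (q • (-κ) - A) + (j * q) • (-κ) := by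
      rw [smul_smul, mul_comm q, add_mul, one_mul, add_smul]
      abel
    rw [h2]
    exact hps.add_isNef (hnef.nsmul _)

/-- [Yau; Kobayashi, Differential geometry of complex vector bundles, III.1] Bochner vanishing:
suppose that `-K_X` has a smooth semipositive metric, and let `H` be ample. By Yau's theorem there
is a Kähler metric in the class of `H` with nonnegative Ricci curvature; hence the bundle
`(Ω^1_X)^{⊗N} ⊗ O(-D)` has no nonzero section if `D·H^{n-1} > 0`. -/
def BochnerVanishing : Prop :=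
  ∀ (X : Var) (κ : Div X.X), IsCanonicalDivisor κ → SemiPos (-κ) →
    ∀ (N : ℕ) (e : X.Ten N) (D H : Div X.X), e ≠ 0 → IsTwTensor e (-D) → IsAmple H →
    ∀ i : Fin X.dim, inter (Function.update (fun _ => H) i D) ≤ 0

/-- **The core theorem** for varieties without group action. -/
theorem coreStatement_bochner (hχ : ChiPoly) (hSn : SnapperSemiAt 0) (hLef : HardLefschetz)
    (hSPN : SemiPosNef) (hGN : BochnerVanishing) (hKN : KollarNadelVanishing)
    (hNC : NefCriterion) (hFM : FlatModels) : CoreStatement := by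
  intro Z κ hκ hSP hcoh
  have hFS := factorialStalks
  have hFin := finiteSections hFS
  rcases Nat.eq_zero_or_pos Z.dim with h0 | hdim
  · exact ⟨1, one_pos, exists_section_of_dim_zero h0 hκ⟩
  obtain ⟨m, hm⟩ : ∃ m, Z.dim = m + 1 := ⟨Z.dim - 1, by omega⟩
  have hnef : IsNef (-κ) := hSPN Z _ hSP
  set τ := TAct.trivial Z with hτ
  have hκτ : τ.IsCanonical κ := τ.isCanonical_zero.2 hκ
  have hκi : τ.InvDiv κ := τ.invDiv_zero κ
  have hcoh' : ∀ M₀ : ℕ, ∃ k ≥ M₀, ∃ i, τ.h (k • (-κ)) i ≠ 0 := by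
    intro M₀
    obtain ⟨k, hk, i, hi⟩ := hcoh M₀
    exact ⟨k, hk, i, by rwa [τ.h_zero]⟩
  have key : ∃ m : ℕ, 0 < m ∧ ∃ f ∈ τ.inv, f ≠ 0 ∧ f ∈ H0 (coef (m • -κ)) := by
    by_cases hbig : 0 < inter (fun _ : Fin Z.dim => -κ)
    · -- the case of a big anticanonical divisor
      refine section_of_big' τ (fun k hk i hi => ?_) hcoh'
      rw [τ.h_zero]
      exact vanishing_of_big_asym hχ hKN hκ hm hnef hbig hk hi
    rcases stepA_forms τ (hardLefschetzAt_zero hLef) hκτ hκi
      (fun m => semiPos_nsmul hFS hSP (m + 1)) hcoh' with h | ⟨q, i, hqi, hi, hforms⟩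
    · exact h
    -- the determinant trick
    obtain ⟨N', ω, P, hω0, hωinv, hωdiv, hωtw, hgood⟩ := stepDet τ (-κ) q fun M₀ => by
      obtain ⟨M, hM, e, he0, -, heinv, hetw⟩ := hforms M₀
      exact ⟨M, hM, e, he0, heinv, hetw⟩
    -- the numerical part
    have hP : ∀ H, IsAmple H → ∀ i : Fin Z.dim, inter (Function.update (fun _ => H) i P) ≤ 0 :=
      fun H hH i => hGN Z κ hκ hSP N' ω P H hω0 hωtw hH i
    obtain ⟨ν, H, k, s₀, M, hH, hν, hνpos, hνz, hkinv, hs₀, hs₀0, hM, hkV, hrank, hhor⟩ :=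
      stepB_asym hχ hFS hKN τ hκ hm hnef hbig hP hgood
    refine stepE hFS (kollarNadelVanishingAt_zero hKN) hNC (nefPullback hFS)
      hSn (flatModelsAt_zero hFM) hSPN τ hκτ hκi hSP k hkinv
      (snullPrimes hχ hm (mix (-κ) H ν)) hkV hs₀ hs₀0 hM hrank
      (fun Z' μ _ L' hL' x hx hk => hhor Z' μ L' hL' x hx hk) ?_
    intro Y Z' μ φ hμ hkφ A A' L' hA hA' hL'
    obtain ⟨κ', hrel⟩ := exists_relCanonical hFS hμ hκ
    refine stepD_asym hFS hKN hχ hFin hm hrel hnef hH hL' hν hνpos hνz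
      (k := (k : Set Z.K)) (V := snullPrimes hχ hm (mix (-κ) H ν))
      (fun g hg hg0 x hx hx1 => hkV g hg hg0 x hx hx1) (fun x hx hx1 => by
        obtain ⟨_, h⟩ := hx
        exact h) φ (fun h => ?_) hA hA'
    obtain ⟨g, hg⟩ := hμ.2 (φ.pull h)
    exact ⟨g, (hkφ g).2 ⟨h, hg.symm⟩, hg.symm⟩
  obtain ⟨m, hm, f, -, hf0, hf⟩ := key
  exact ⟨m, hm, H0_ne_bot_iff.2 ⟨f, hf, hf0⟩⟩

/-- **The core theorem** for varieties without group action. -/
theorem coreStatement_nef (hχ : ChiPoly) (hSn : SnapperSemiAt 0) (hLef : HardLefschetz)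
    (hSPN : SemiPosNef) (hGN : GenericNefness0) (hKN : KollarNadelVanishing)
    (hNC : NefCriterion) (hFM : FlatModels) : CoreStatement :=
  coreStatement_bochner hχ hSn hLef hSPN (fun X κ hκ hSP => hGN X κ hκ (hSPN X _ hSP)) hKN hNC hFM

/-- **The core theorem** for varieties without group action. -/
theorem coreStatement_asym (hχ : ChiPoly) (hSn : SnapperSemiAt 0) (hLef : HardLefschetz)
    (hSPN : SemiPosNef) (hGN : GenericNefness0) (hKN : KollarNadelVanishing)
    (hNak : NakayamaCriterion) (hFM : FlatModels) : CoreStatement :=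
  coreStatement_nef hχ hSn hLef hSPN hGN hKN (nefCriterion_of_nakayama factorialStalks hNak) hFM

end Vale.Agent.P299.Q
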