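import Vale.Agent.P299.Q.AsymTop
import Vale.Agent.P299.Q.Canon

/-!
# The projection formula for pull backs under birational morphisms
-/

open CategoryTheory TopologicalSpace Opposite TopCat AlgebraicGeometry Order

namespace Vale.Agent.P299.Q

variable {X Y : Var}

/-- A divisor with a section is pseudo-effective. -/
theorem isPsef_of_H0 {D : Div X.X} (h : H0 (coef D) ≠ ⊥) : IsPsef D := by
  intro A hA m
  obtain ⟨k, hk, hkA⟩ := hA.exists_section
  refine ⟨k, hk, ?_⟩
  rw [smul_add, ← mul_smul]
  exact H0_add_ne_bot (H0_nsmul_ne_bot h _) hkA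

/-- The pull back of rational functions as a linear map. -/
noncomputable def DomHom.pullLin (φ : DomHom X Y) : Y.K →ₗ[ℂ] X.K where
  toFun := φ.pull
  map_add' := map_add _
  map_smul' c f := by
    rw [RingHom.id_apply, Algebra.smul_def, Algebra.smul_def, map_mul, φ.pull_scalar]

/-- For a birational morphism `μ : X → Y` the sections of `K_X + μ^*N + (exceptional)` are those of
`K_Y + N`. -/
theorem finrank_H0_birational (hAB : FactorialStalks) {μ : DomHom X Y} (hμ : μ.Birational)
    {D : Div Y.X} {D₀ D' E : Div X.X} (hD : IsPullback μ D D₀) (hD' : D' = D₀ + E) (hE : 0 ≤ E)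
    (hEx : ∀ x : X.X, coheight (μ.f x) = 1 → coef E x = 0) :
    Module.finrank ℂ (H0 (coef D') : Submodule ℂ X.K) =
      Module.finrank ℂ (H0 (coef D) : Submodule ℂ Y.K) := by
  have key : ∀ g : Y.K, μ.pull g ∈ H0 (coef D') ↔ g ∈ H0 (coef D) := by
    intro g
    constructor
    · intro hg
      rw [mem_H0]
      intro y hy hg0
      obtain ⟨x, hx, rfl, hord⟩ := exists_strict μ hμ y hy
      have h1 := (mem_H0.1 hg) x hx (μ.pull_ne_zero hg0)
      rw [hord, hD', coef_add, hEx x hy, add_zero, hD.coef_strict hx hy hord] at h1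
      exact h1
    · intro hg
      rw [mem_H0]
      intro x hx hg0
      have h1 := (mem_H0.1 (hD.pull_mem_H0 hAB hg)) x hx hg0
      have h2 : 0 ≤ coef E x := by
        rw [coef_mk hx]
        exact hE ⟨x, hx⟩
      rw [hD', coef_add]
      linarith
  let e : (H0 (coef D) : Submodule ℂ Y.K) →ₗ[ℂ] (H0 (coef D') : Submodule ℂ X.K) :=
    μ.pullLin.restrict fun g hg => (key g).2 hg
  have he : Function.Bijective e := by
    constructor
    · intro a b hab
      exact Subtype.ext (μ.pull_injective (congrArg Subtype.val hab))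
    · rintro ⟨b, hb⟩
      obtain ⟨a, rfl⟩ := hμ.2 b
      exact ⟨⟨a, (key a).1 hb⟩, rfl⟩
  exact (LinearEquiv.ofBijective e he).finrank_eq.symm

/-- The Euler characteristics of `K_X + μ^*N` and `K_Y + N` agree, for `N` ample. -/
theorem chi_birational (hKN : KollarNadelVanishing) (hAB : FactorialStalks) {μ : DomHom X Y}
    (hμ : μ.Birational) {κ : Div Y.X} (hκ : IsCanonicalDivisor κ) {κ' κ₀ E : Div X.X}
    (hκ' : IsCanonicalDivisor κ') (hκ₀ : IsPullback μ κ κ₀) (hκE : κ' = κ₀ + E) (hE : 0 ≤ E)
    (hEx : ∀ x : X.X, coheight (μ.f x) = 1 → coef E x = 0) {N : Div Y.X} {N' : Div X.X}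
    (hN : IsAmple N) (hN' : IsPullback μ N N') : chi (κ' + N') = chi (κ + N) := by
  obtain ⟨A, hA⟩ := X.ample
  have hbig : IsBig N' := kodairaLemma hAB X Y μ hμ N N' hN' hN
  obtain ⟨c, hc, hcA⟩ := hbig A
  rw [chi_canonical hKN hAB hκ hN, chi_canonical_of_big hKN hAB hκ'
    (nefPullback hAB X Y μ N N' hN' hN.isNef) hA hc (isPsef_of_H0 hcA)]
  congr 1
  exact finrank_H0_birational hAB hμ (hκ₀.add hN') (by rw [hκE]; abel) hE hEx

theorem IsAmple.sum {ι : Type*} (s : Finset ι) {A : Div X.X} (hA : IsAmple A) (D : ι → Div X.X)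
    (hD : ∀ i ∈ s, IsAmple (D i)) : IsAmple (A + ∑ i ∈ s, D i) := by
  classical
  induction s using Finset.induction_on with
  | empty => rwa [Finset.sum_empty, add_zero]
  | insert a s ha ih =>
    rw [Finset.sum_insert ha, add_comm (D a), ← add_assoc]
    exact (ih fun i hi => hD i (Finset.mem_insert_of_mem hi)).add
      (hD a (Finset.mem_insert_self a s))

theorem IsPullback.sum {μ : DomHom X Y} {ι : Type*} (s : Finset ι) (D : ι → Div Y.X)
    (D' : ι → Div X.X) (h : ∀ i ∈ s, IsPullback μ (D i) (D' i)) :
    IsPullback μ (∑ i ∈ s, D i) (∑ i ∈ s, D' i) := by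
  classical
  induction s using Finset.induction_on with
  | empty =>
    rw [Finset.sum_empty, Finset.sum_empty]
    exact isPullback_zero μ
  | insert a s ha ih =>
    rw [Finset.sum_insert ha, Finset.sum_insert ha]
    exact (h a (Finset.mem_insert_self a s)).add
      (ih fun i hi => h i (Finset.mem_insert_of_mem hi))

/-- The projection formula for pull backs of ample divisors. -/
theorem inter_pullback_ample (hSn : Snapper) (hKN : KollarNadelVanishing) (hAB : FactorialStalks)
    {μ : DomHom X Y} (hμ : μ.Birational) (h : X.dim = Y.dim) (D : Fin Y.dim → Div Y.X)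
    (D' : Fin X.dim → Div X.X) (hD' : ∀ i, IsPullback μ (D (Fin.cast h i)) (D' i))
    (hD : ∀ i, IsAmple (D i)) : inter D' = inter D := by
  classical
  obtain ⟨κ, hκ⟩ := exists_isCanonicalDivisor Y
  obtain ⟨κ', κ₀, E, hκ', hκ₀, hκE, hE, hEx⟩ := exists_relative_canonical hAB hμ hκ
  obtain ⟨A, hA⟩ := Y.ample
  obtain ⟨A', hA'⟩ := exists_isPullback hAB μ A
  refine inter_eq_of_chi hSn hAB h D D' (κ + (A + ∑ i, D (Fin.cast h i))) (κ' + (A' + ∑ i, D' i))
    fun S => ?_
  have e1 : κ + (A + ∑ i, D (Fin.cast h i)) - ∑ i ∈ S, D (Fin.cast h i) =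
      κ + (A + ∑ i ∈ Sᶜ, D (Fin.cast h i)) := by
    rw [← Finset.sum_compl_add_sum S]
    abel
  have e2 : κ' + (A' + ∑ i, D' i) - ∑ i ∈ S, D' i = κ' + (A' + ∑ i ∈ Sᶜ, D' i) := by
    rw [← Finset.sum_compl_add_sum S]
    abel
  rw [e1, e2]
  exact chi_birational hKN hAB hμ hκ hκ' hκ₀ hκE hE hEx
    (hA.sum _ _ fun i _ => hD _) (hA'.add (IsPullback.sum _ _ _ fun i _ => hD' i))

/-- **The projection formula**: intersection numbers of pull backs under a birational morphism. -/
theorem inter_pullback (hSn : Snapper) (hKN : KollarNadelVanishing) (hAB : FactorialStalks)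
    {μ : DomHom X Y} (hμ : μ.Birational) (h : X.dim = Y.dim) (D : Fin Y.dim → Div Y.X)
    (D' : Fin X.dim → Div X.X) (hD' : ∀ i, IsPullback μ (D (Fin.cast h i)) (D' i)) :
    inter D' = inter D := by
  classical
  have key : ∀ (s : Finset (Fin Y.dim)) (D : Fin Y.dim → Div Y.X), (∀ i ∉ s, IsAmple (D i)) →
      inter (fun i : Fin X.dim => μ.pb hAB (D (Fin.cast h i))) = inter D := by
    intro s
    induction s using Finset.induction_on with
    | empty =>
      intro D hD
      exact inter_pullback_ample hSn hKN hAB hμ h D _ (fun i => μ.isPullback_pb hAB _)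
        fun i => hD i (Finset.notMem_empty i)
    | insert i s his ih =>
      intro D hD
      obtain ⟨A, hA⟩ := Y.ample
      obtain ⟨C, hC, hCA, -⟩ := hA.exists_add (hAB Y) (D i)
      obtain ⟨IX, hIX⟩ := hSn.exists_multilinear hAB X
      obtain ⟨IY, hIY⟩ := hSn.exists_multilinear hAB Y
      have h1 := ih (Function.update D i (D i + C • A)) fun j hj => by
        by_cases hji : j = i
        · subst hji
          rw [Function.update_self]
          exact hCA
        · rw [Function.update_of_ne hji]
          exact hD j fun hh => (Finset.mem_insert.1 hh).elim hji hj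
      have h2 := ih (Function.update D i (C • A)) fun j hj => by
        by_cases hji : j = i
        · subst hji
          rw [Function.update_self]
          exact hA.nsmul hC
        · rw [Function.update_of_ne hji]
          exact hD j fun hh => (Finset.mem_insert.1 hh).elim hji hj
      set i' : Fin X.dim := Fin.cast h.symm i with hi'
      have hcast : ∀ F : Div Y.X, (fun j : Fin X.dim =>
          μ.pb hAB (Function.update D i F (Fin.cast h j))) =
          Function.update (fun j : Fin X.dim => μ.pb hAB (D (Fin.cast h j))) i' (μ.pb hAB F) := by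
        intro F
        funext j
        by_cases hj : j = i'
        · subst hj
          rw [Function.update_self]
          have : Fin.cast h i' = i := rfl
          rw [this, Function.update_self]
        · rw [Function.update_of_ne hj, Function.update_of_ne]
          intro hji
          apply hj
          rw [hi', ← hji]
          rfl
      rw [hcast, ← hIX, ← hIY] at h1 h2
      rw [map_add, IX.map_update_add, IY.map_update_add] at h1
      rw [h2] at h1
      have h3 := add_right_cancel h1
      have e1 : Function.update D i (D i) = D := Function.update_eq_self i D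
      have e2 : Function.update (fun j : Fin X.dim => μ.pb hAB (D (Fin.cast h j))) i'
          (μ.pb hAB (D i)) = fun j : Fin X.dim => μ.pb hAB (D (Fin.cast h j)) := by
        have : μ.pb hAB (D i) = (fun j : Fin X.dim => μ.pb hAB (D (Fin.cast h j))) i' := rfl
        rw [this, Function.update_eq_self]
      rw [e1, e2, hIX, hIY] at h3
      exact h3
  have h1 : D' = fun i : Fin X.dim => μ.pb hAB (D (Fin.cast h i)) := by
    funext i
    exact (hD' i).eq_pb hAB
  rw [h1]
  exact key Finset.univ D fun i hi => absurd (Finset.mem_univ i) hi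

end Vale.Agent.P299.Q
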