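import Vale.Agent.P299.Q.AlgInd
import Vale.Agent.P299.Q.FinDim
import Vale.Agent.P299.Q.ChiPoly
import Vale.Agent.P299.Q.AsymKV

/-!
# Growth of the spaces of sections, and the positivity of `H^n` for ample `H`
-/

open CategoryTheory TopologicalSpace Opposite TopCat AlgebraicGeometry Order

namespace Vale.Agent.P299.G

/-- If the `(m+1)`-fold differences of `a : ℤ → ℚ` are `≤ 0` then `a(k) ≤ C (k+1)^m`. -/
theorem growth_le (m : ℕ) (a : ℤ → ℚ)
    (h : ∀ x : ℤ, ∑ S : Finset (Fin (m + 1)), (-1 : ℚ) ^ S.card * a (x - ∑ _i ∈ S, (1 : ℤ)) ≤ 0) :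
    ∃ C : ℚ, 0 ≤ C ∧ ∀ k : ℕ, a k ≤ C * (k + 1) ^ m := by
  induction m generalizing a with
  | zero =>
    refine ⟨|a 0|, abs_nonneg _, fun k => ?_⟩
    have h1 : ∀ x : ℤ, a x ≤ a (x - 1) := by
      intro x
      have h2 := h x
      rw [cube_succ a (fun _ => (1 : ℤ)) x, Fintype.sum_unique,
        Subsingleton.elim (default : Finset (Fin 0)) ∅, Finset.card_empty,
        pow_zero, one_mul, Finset.sum_empty, sub_zero] at h2
      linarith
    rw [pow_zero, mul_one]
    induction k with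
    | zero => exact le_abs_self _
    | succ k ih =>
      have := h1 ((k + 1 : ℕ) : ℤ)
      rw [Nat.cast_succ, add_sub_cancel_right] at this
      rw [Nat.cast_succ]
      exact this.trans ih
  | succ m ih =>
    obtain ⟨C, hC, hb⟩ := ih (fun x => a x - a (x - 1)) fun x => by
      have h1 := h x
      rw [cube_succ a (fun _ => (1 : ℤ)) x] at h1
      exact h1
    have key : ∀ k : ℕ, a k ≤ |a 0| + C * k * (k + 1) ^ m := by
      intro k
      induction k with
      | zero =>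
        have := le_abs_self (a 0)
        simpa using this
      | succ k ihk =>
        have h1 := hb (k + 1)
        rw [Nat.cast_succ, add_sub_cancel_right] at h1
        push_cast at h1 ⊢
        have h2 : ((k : ℚ) + 1) ^ m ≤ (k + 1 + 1) ^ m := pow_le_pow_left₀ (by positivity) (by linarith) m
        have h3 : C * k * (k + 1) ^ m ≤ C * k * (k + 1 + 1) ^ m :=
          mul_le_mul_of_nonneg_left h2 (by positivity)
        linarith
    refine ⟨|a 0| + C, by positivity, fun k => (key k).trans ?_⟩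
    have h0 := abs_nonneg (a 0)
    have h1 : (1 : ℚ) ≤ (k + 1) ^ (m + 1) := one_le_pow₀ (by
      have : (0 : ℚ) ≤ k := Nat.cast_nonneg k
      linarith)
    have h2 : (k : ℚ) * (k + 1) ^ m ≤ (k + 1) ^ (m + 1) := by
      rw [pow_succ']
      exact mul_le_mul_of_nonneg_right (by linarith) (by positivity)
    have h3 : |a 0| ≤ |a 0| * (k + 1) ^ (m + 1) := le_mul_of_one_le_right h0 h1
    have h4 : C * ((k : ℚ) * (k + 1) ^ m) ≤ C * (k + 1) ^ (m + 1) :=
      mul_le_mul_of_nonneg_left h2 hC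
    linarith

end Vale.Agent.P299.G

namespace Vale.Agent.P299.Q

variable {X : Var}

theorem H0_prod {ι : Type*} (s : Finset ι) (D : ι → Div X.X) (f : ι → X.K)
    (hf : ∀ i ∈ s, f i ∈ H0 (coef (D i))) : ∏ i ∈ s, f i ∈ H0 (coef (∑ i ∈ s, D i)) := by
  classical
  induction s using Finset.induction_on with
  | empty =>
    rw [Finset.prod_empty, Finset.sum_empty]
    exact one_mem_H0_zero
  | insert a s ha ih =>
    rw [Finset.prod_insert ha, Finset.sum_insert ha]
    exact H0_mul (hf a (Finset.mem_insert_self a s))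
      (ih fun i hi => hf i (Finset.mem_insert_of_mem hi))

/-- The spaces of sections of the multiples of an ample divisor grow at least like `k^n`. -/
theorem IsAmple.growth (hAB : FactorialStalks) {H : Div X.X} (hH : IsAmple H) :
    ∃ c : ℕ, 0 < c ∧ ∀ k : ℕ,
      (k + 1) ^ X.dim ≤ Module.finrank ℂ (H0 (coef (k • c • H)) : Submodule ℂ X.K) := by
  obtain ⟨c, T, hT, s, j₀, hc, hs, hgen, hj₀, hfield⟩ := hH.exists_sections hAB
  obtain ⟨y, hy⟩ : ∃ y : Fin X.dim → T, AlgebraicIndependent ℂ (fun i => s (y i) / s j₀) :=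
    exists_algebraicIndependent (k := ℂ) (K := X.K) (fun j => s j / s j₀) hfield
  refine ⟨(X.dim + 1) * c, by positivity, fun k => ?_⟩
  have hfin := finite_H0 hAB (k • ((X.dim + 1) * c) • H)
  have hli := linearIndependent_monomials hy k
  -- the sections
  have hmem : ∀ e : Fin X.dim → Fin (k + 1),
      (∏ i, (s (y i) / s j₀) ^ (e i : ℕ)) * s j₀ ^ (k * (X.dim + 1)) ∈
        H0 (coef (k • ((X.dim + 1) * c) • H)) := by
    intro e
    have h1 : (∏ i, (s (y i) / s j₀) ^ (e i : ℕ)) * s j₀ ^ (k * (X.dim + 1)) =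
        (∏ i, (s (y i) ^ (e i : ℕ) * s j₀ ^ (k - (e i : ℕ)))) * s j₀ ^ k := by
      have h2 : s j₀ ^ (k * (X.dim + 1)) = (∏ _i : Fin X.dim, s j₀ ^ k) * s j₀ ^ k := by
        rw [Finset.prod_const, Finset.card_univ, Fintype.card_fin, ← pow_mul, ← pow_add]
        congr 1
      rw [h2, ← mul_assoc, ← Finset.prod_mul_distrib]
      congr 1
      refine Finset.prod_congr rfl fun i _ => ?_
      have h3 : (e i : ℕ) ≤ k := Nat.lt_succ_iff.1 (e i).2
      rw [div_pow]
      have h4 : s j₀ ^ k = s j₀ ^ (e i : ℕ) * s j₀ ^ (k - (e i : ℕ)) := by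
        rw [← pow_add, Nat.add_sub_cancel' h3]
      rw [h4, ← mul_assoc, div_mul_cancel₀ _ (pow_ne_zero _ hj₀)]
    rw [h1]
    have h2 : k • ((X.dim + 1) * c) • H = (∑ _i : Fin X.dim, k • c • H) + k • c • H := by
      rw [Finset.sum_const, Finset.card_univ, Fintype.card_fin, ← succ_nsmul, mul_smul,
        smul_comm k (X.dim + 1)]
    rw [h2]
    refine H0_mul (H0_prod _ _ _ fun i _ => ?_) (H0_pow (hs j₀) k)
    have h3 : (e i : ℕ) ≤ k := Nat.lt_succ_iff.1 (e i).2
    have h4 := H0_mul (H0_pow (hs (y i)) (e i : ℕ)) (H0_pow (hs j₀) (k - (e i : ℕ)))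
    rwa [← add_smul, Nat.add_sub_cancel' h3] at h4
  let v : (Fin X.dim → Fin (k + 1)) → (H0 (coef (k • ((X.dim + 1) * c) • H)) : Submodule ℂ X.K) :=
    fun e => ⟨_, hmem e⟩
  have hv : LinearIndependent ℂ v := by
    have h1 : LinearIndependent ℂ (fun e : Fin X.dim → Fin (k + 1) =>
        (∏ i, (s (y i) / s j₀) ^ (e i : ℕ)) * s j₀ ^ (k * (X.dim + 1))) := by
      have h2 := hli.map' (LinearMap.mulRight ℂ (s j₀ ^ (k * (X.dim + 1))))
        (LinearMap.ker_eq_bot.2 fun a b h => mul_right_cancel₀ (pow_ne_zero _ hj₀) h)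
      exact h2
    exact LinearIndependent.of_comp (H0 (coef (k • ((X.dim + 1) * c) • H))).subtype h1
  have hcard := hv.fintype_card_le_finrank
  rw [Fintype.card_fun, Fintype.card_fin, Fintype.card_fin] at hcard
  exact hcard

theorem sum_cube_cast {n m : ℕ} (h : m = n + 1) (a : ℤ → ℚ) (b : Finset (Fin m) → ℤ) (x : ℤ)
    (hab : ∀ S : Finset (Fin m), a (x - S.card • (1 : ℤ)) = b S) :
    ∑ S : Finset (Fin (n + 1)), (-1 : ℚ) ^ S.card * a (x - ∑ _i ∈ S, (1 : ℤ)) =
      ∑ S : Finset (Fin m), (-1 : ℚ) ^ S.card * (b S : ℚ) := by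
  subst h
  refine Finset.sum_congr rfl fun S _ => ?_
  rw [← hab S, Finset.sum_const]

/-- **`H^n > 0` for an ample divisor `H`.** -/
theorem inter_ample_pos (hSn : Snapper) (hKN : KollarNadelVanishing) (hAB : FactorialStalks)
    {H : Div X.X} (hH : IsAmple H) : 0 < inter (fun _ : Fin X.dim => H) := by
  classical
  rcases Nat.eq_zero_or_pos X.dim with h0 | hpos
  · rw [inter_of_dim_zero hAB h0]
    exact zero_lt_one
  obtain ⟨n, hn⟩ : ∃ n, X.dim = n + 1 := ⟨X.dim - 1, by omega⟩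
  obtain ⟨c, hc, hgrow⟩ := hH.growth hAB
  obtain ⟨I, hI⟩ := hSn.exists_multilinear hAB X
  have hmul : inter (fun _ : Fin X.dim => c • H) = (c : ℤ) ^ X.dim * inter (fun _ => H) := by
    rw [← hI, ← hI]
    have h1 := I.map_smul_univ (fun _ : Fin X.dim => (c : ℤ)) (fun _ => H)
    rw [Finset.prod_const, Finset.card_univ, Fintype.card_fin, smul_eq_mul] at h1
    rw [← h1]
    simp only [natCast_zsmul]
  have hc' : (0 : ℤ) < (c : ℤ) ^ X.dim := by positivity
  suffices h : 0 < inter (fun _ : Fin X.dim => c • H) by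
    rw [hmul] at h
    exact pos_of_mul_pos_right h hc'.le
  by_contra hcon
  push Not at hcon
  -- the Euler characteristic of `k c H`
  let a : ℤ → ℚ := fun k => (chi (k • (c • H)) : ℚ)
  have hdiff : ∀ x : ℤ, ∑ S : Finset (Fin (n + 1)), (-1 : ℚ) ^ S.card *
      a (x - ∑ _i ∈ S, (1 : ℤ)) ≤ 0 := by
    intro x
    have h1 := inter_eq_cube hSn hAB (fun _ : Fin X.dim => c • H) (x • (c • H))
    have h2 : (inter (fun _ : Fin X.dim => c • H) : ℚ) ≤ 0 := by exact_mod_cast hcon
    rw [h1] at h2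
    refine le_of_eq_of_le (sum_cube_cast hn a (fun S => chi (x • (c • H) - ∑ _i ∈ S, c • H)) x
      fun S => ?_) h2
    have e : (x - S.card • (1 : ℤ)) • (c • H) = x • (c • H) - ∑ _i ∈ S, c • H := by
      rw [Finset.sum_const, sub_smul, smul_assoc, one_smul]
    exact congrArg (fun D : Div X.X => (chi D : ℚ)) e
  obtain ⟨C, hC, hCa⟩ := G.growth_le n a hdiff
  obtain ⟨k₀, hk₀⟩ := exists_chi_eq_finrank hKN hAB (hH.nsmul hc) 0
  obtain ⟨k, hk⟩ := exists_nat_gt (C + k₀)
  have hkk : k₀ ≤ k := by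
    have : (k₀ : ℚ) < k := by linarith
    exact_mod_cast this.le
  have h1 := hk₀ k hkk 0 isNef_zero
  rw [zero_add, add_zero] at h1
  have h2 := hCa k
  have h3 : a k = (Module.finrank ℂ (H0 (coef (k • c • H)) : Submodule ℂ X.K) : ℚ) := by
    change (chi ((k : ℤ) • (c • H)) : ℚ) = _
    rw [natCast_zsmul, h1]
    norm_cast
  have h4 : (((k + 1) ^ X.dim : ℕ) : ℚ) ≤ a k := by
    rw [h3]
    exact_mod_cast hgrow k
  rw [hn] at h4
  push_cast at h4
  have h5 := h4.trans h2
  rw [pow_succ'] at h5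
  have h6 : (0 : ℚ) < (k + 1) ^ n := by positivity
  have h7 := le_of_mul_le_mul_right h5 h6
  have h8 : (0 : ℚ) ≤ k₀ := Nat.cast_nonneg _
  linarith

end Vale.Agent.P299.Q
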