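import Vale.Agent.P299.Q.BB2

/-!
# The published theorems used in the proof, without torus actions
-/

open CategoryTheory TopologicalSpace Opposite TopCat AlgebraicGeometry Order

namespace Vale.Agent.P299.Q

/-- `dim H^i(X, O_X(D))`. -/
noncomputable def hX {X : Var} (D : Div X.X) (i : ℕ) : ℕ := hh (S := (X.X : TopCat.{0})) id ⊤ D i

/-- `dim H^i(Y, φ_* O_X(D))`. -/
noncomputable def hY {X Y : Var} (φ : DomHom X Y) (D : Div X.X) (i : ℕ) : ℕ :=
  hh (S := (Y.X : TopCat.{0})) φ.f ⊤ D i

/-- [Snapper; Kleiman, Ch. I.1] The Euler characteristic of a coherent sheaf on `Y` twisted by the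
powers of a line bundle is a polynomial; here for the sheaf `φ_* O_X(D)` and the divisor `M`. (By
the projection formula `φ_* O_X(D) ⊗ O_Y(kM) = φ_* O_X(D + kφ^*M)`.) -/
def SnapperTheorem : Prop :=
  ∀ (X Y : Var) (φ : DomHom X Y) (D : Div X.X) (M : Div Y.X) (M' : Div X.X),
    IsPullback φ M M' → ∃ p : Polynomial ℚ, ∀ k : ℕ,
      ∑ i ∈ Finset.range (Y.dim + 1), (-1 : ℚ) ^ i * hY φ (D + k • M') i = p.eval (k : ℚ)

/-- [Snapper; Kleiman, Ch. I.1] The Euler characteristic of the twists of a coherent sheaf on `Y` by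
line bundles `n₁M₁ + ... + n_kM_k` is a polynomial of degree at most `dim Y` in the integers `n_j`;
here for the sheaf `φ_* O_X(D)`. (By the projection formula
`φ_* O_X(D) ⊗ O_Y(M) = φ_* O_X(D + φ^*M)`.) -/
def Snapper : Prop :=
  ∀ (X Y : Var) (φ : DomHom X Y) (D : Div X.X) (k : ℕ) (M : Fin k → Div Y.X)
    (M' : Fin k → Div X.X), (∀ j, IsPullback φ (M j) (M' j)) →
    ∃ p : MvPolynomial (Fin k) ℚ, p.totalDegree ≤ Y.dim ∧ ∀ n : Fin k → ℤ,
      ∑ i ∈ Finset.range (Y.dim + 1), (-1 : ℚ) ^ i *
        hh (S := (Y.X : TopCat.{0})) φ.f ⊤ (D + ∑ j, n j • M' j) i =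
      MvPolynomial.eval (fun j => (n j : ℚ)) p

/-- [Kollár; Ohsawa; Fujino–Matsumura, Injectivity theorem for pseudo-effective line bundles and its
applications, Theorem D] Kollár–Nadel vanishing: let `S` be a divisor on `X` with a smooth
semipositive metric, `M` nef and `A` ample on `Y`, and suppose that `c(S + φ^*M) - φ^*A` is
pseudo-effective for some `c > 0`. Then `H^i(Y, φ_*(K_X + S + φ^*M)) = 0` for all `i > 0`.
(A singular metric on `S + φ^*M` whose curvature is bounded below by the pull back of a Kähler form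
of `Y`, and whose multiplier ideal is trivial, is obtained from the smooth metrics of `S` and
of `M` and a small multiple of a singular semipositive metric of `c(S + φ^*M) - φ^*A`.) -/
def KollarNadelVanishing : Prop :=
  ∀ (X Y : Var) (φ : DomHom X Y) (κ S : Div X.X) (M A : Div Y.X) (M' A' : Div X.X),
    IsCanonicalDivisor κ → SemiPos S → IsNef M → IsAmple A → IsPullback φ M M' →
    IsPullback φ A A' → (∃ c : ℕ, 0 < c ∧ IsPsef (c • (S + M') - A')) →
    ∀ i > 0, Subsingleton (Coh (secSheaf (S := (Y.X : TopCat.{0})) φ.f ⊤ (κ + S + M')) i)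

/-- [Enoki; Takegoshi; Mourougane; Demailly–Peternell–Schneider, Pseudo-effective line bundles on
compact Kähler manifolds, Theorem 2.1.1] Hard Lefschetz: if `S` has a smooth semipositive metric
then the map `H^0(X, Ω^{n-i} ⊗ S) → H^i(X, K_X + S)` given by the `i`-th power of a Kähler form is
surjective; in particular the first space is nonzero if the second is. -/
def HardLefschetz : Prop :=
  ∀ (X : Var) (κ S : Div X.X), IsCanonicalDivisor κ → SemiPos S → ∀ i : ℕ, hX (κ + S) i ≠ 0 →
    ∃ p : ℕ, p + i = X.dim ∧ ∃ e : X.Ten p, e ≠ 0 ∧ IsAlt e ∧ IsTwTensor e S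

/-- [Kawamata; Viehweg] If `S` is nef and `S^n > 0` then `H^i(X, K_X + S) = 0` for `i > 0`. -/
def KawamataViehweg : Prop :=
  ∀ (X : Var) (κ S : Div X.X), IsCanonicalDivisor κ → IsNef S →
    0 < inter (fun _ : Fin X.dim => S) → ∀ i > 0, hX (κ + S) i = 0

/-- [Cao; Ou, Generic nefness of tangent sheaves; with Mehta–Ramanathan] If `-K_X` is nef, the
tensor powers of the tangent bundle are generically nef: a section of `(Ω^1_X)^{⊗N} ⊗ O(-D)` can
exist only if `D·H^{n-1} ≤ 0` for all ample `H`. -/
def GenericNefness0 : Prop :=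
  ∀ (X : Var) (κ : Div X.X), IsCanonicalDivisor κ → IsNef (-κ) →
    ∀ (N : ℕ) (e : X.Ten N) (D H : Div X.X), e ≠ 0 → IsTwTensor e (-D) → IsAmple H →
    ∀ i : Fin X.dim, inter (Function.update (fun _ => H) i D) ≤ 0

/-- [Hironaka; Raynaud–Gruson] The flattening theorem with resolution of singularities. Let `k` be
a subfield of the function field of `Z`. There are a smooth projective variety `Y` with function
field `k`, a normal projective variety `Z₁` with a birational morphism `Z₁ → Z` and an
equidimensional morphism `Z₁ → Y`, and a resolution of singularities `Z' → Z₁`. The set `W` consists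
of the points of codimension one of `Z'` which are not contracted by `Z' → Z₁`. The property `star`
holds since a Cartier divisor on the normal variety `Z₁` is effective if its coefficients
are `≥ 0`, and then so is its pull back to `Z'`. -/
def FlatModels : Prop :=
  ∀ (Z : Var) (κ : Div Z.X), IsCanonicalDivisor κ → ∀ k : IntermediateField ℂ Z.K,
    ∃ (Y Z' : Var) (μ : DomHom Z' Z) (φ : DomHom Z' Y) (W : Set Z'.X) (κ' κ₀ E : Div Z'.X),
      μ.Birational ∧ (∀ g : Z.K, g ∈ k ↔ ∃ h : Y.K, φ.pull h = μ.pull g) ∧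
      (∀ x ∈ W, coheight x = 1 ∧ coheight (φ.f x) ≤ 1) ∧
      (∀ y : Y.X, coheight y = 1 → ∃ x ∈ W, φ.f x = y) ∧
      -- star
      (∀ (s : Div Z.X) (s' : Div Z'.X) (R : Div Y.X) (R' : Div Z'.X), IsPullback μ s s' →
        IsPullback φ R R' → (∀ x ∈ W, coef R' x ≤ coef s' x) → R' ≤ s') ∧
      -- the relative canonical divisor is effective and exceptional
      IsCanonicalDivisor κ' ∧ IsPullback μ κ κ₀ ∧ κ' = κ₀ + E ∧ 0 ≤ E ∧
      (∀ x : Z'.X, coheight (μ.f x) = 1 → coef E x = 0)

end Vale.Agent.P299.Q
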