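import Vale.Agent.P299.Q.CohZero

/-!
Superseded by `Q/Defs.lean`, `Q/Torus.lean`, `Q/CohZero.lean`.
-/
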