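import Vale.Agent.P299.Q.BB0

/-!
# Torus actions: the facts used to compare invariant cohomology on different models
-/

open CategoryTheory TopologicalSpace Opposite TopCat AlgebraicGeometry Order

namespace Vale.Agent.P299.Q

/-- [Mumford, Geometric invariant theory, 1.3; Sumihiro] There is an ample `T`-invariant divisor. -/
def Linearization : Prop :=
  ∀ (r : ℕ) (X : Var) (τ : TAct r X), ∃ A : Div X.X, τ.InvDiv A ∧ IsAmple A

/-- Taking the `T`-invariants is exact: if `H^i(X, O_X(D)) = 0` then `H^i(X, O_X(D))^T = 0`. -/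
def InvariantPart : Prop :=
  ∀ (r : ℕ) (X : Var) (τ : TAct r X) (D : Div X.X) (i : ℕ), τ.InvDiv D →
    Subsingleton (Coh (secSheaf (S := (X.X : TopCat.{0})) id ⊤ D) i) →
    Subsingleton (Coh (secSheaf (S := τ.space) id τ.inv D) i)

end Vale.Agent.P299.Q
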