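import Vale.Agent.P299.Q.Tensor
import Vale.Agent.P299.Q.BB

/-!
# The determinant trick for twisted tensors

From nonzero `T`-invariant sections `e_k` of `(Ω^1)^{⊗p} ⊗ O(kL)` for infinitely many `k` one gets
one nonzero `T`-invariant rational tensor `ω`, with divisor `P`, such that `O(P + M L)` has a nonzero
`T`-invariant section for infinitely many `M`.
-/

open CategoryTheory TopologicalSpace Opposite TopCat AlgebraicGeometry Order

namespace Vale.Agent.P299.Q

variable {X Y : Var} {r : ℕ}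

/-- Every nonzero rational tensor has a divisor. -/
theorem tensorDivisor : TensorDivisor := fun _ _ _ he => exists_isDivTensor he

/-! ### Divisors of tensors -/

theorem IsDivTensor.isTwTensor {N : ℕ} {e : X.Ten N} {D : Div X.X} (h : IsDivTensor e D) :
    IsTwTensor e (-D) := by
  intro x hx v hv h0
  have := (h x hx).2 ⟨v, hv, h0, rfl⟩
  rw [coef_neg]
  linarith

theorem IsDivTensor.mem_H0 {N : ℕ} {e : X.Ten N} {P E : Div X.X} (h : IsDivTensor e P) {f : X.K}
    (hf : IsTwTensor (f • e) E) : f ∈ H0 (coef (P + E)) := by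
  rw [Q.mem_H0]
  intro x hx hf0
  obtain ⟨v, hv, h0, h1⟩ := (h x hx).1
  have h2 : (f • e) v ≠ 0 := mul_ne_zero hf0 h0
  have h3 := hf x hx v hv h2
  have h4 : (f • e) v = f * e v := rfl
  rw [h4, Scheme.ord_mul hf0 h0, h1] at h3
  rw [coef_add]
  linarith

theorem IsDivTensor.isTwTensor_smul {N : ℕ} {e : X.Ten N} {P E : Div X.X} (h : IsDivTensor e P)
    {f : X.K} (hf : f ∈ H0 (coef (P + E))) : IsTwTensor (f • e) E := by
  intro x hx v hv h2
  have h4 : (f • e) v = f * e v := rfl
  rw [h4] at h2 ⊢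
  have hf0 := left_ne_zero_of_mul h2
  have h0 := right_ne_zero_of_mul h2
  have h3 := Q.mem_H0.1 hf x hx hf0
  have h5 := (h x hx).2 ⟨v, hv, h0, rfl⟩
  rw [coef_add] at h3
  rw [Scheme.ord_mul hf0 h0]
  linarith

theorem IsDivTensor.unique {N : ℕ} {e : X.Ten N} {D D' : Div X.X} (h : IsDivTensor e D)
    (h' : IsDivTensor e D') : D = D' :=
  div_ext fun x hx => (h x hx).unique (h' x hx)

theorem isTwTensor_zero {N : ℕ} (D : Div X.X) : IsTwTensor (0 : X.Ten N) D :=
  fun _ _ _ _ h => absurd rfl h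

/-! ### Products of sections -/

theorem polar_mul {D D' : X.X → ℤ} {x : X.X} {f g : X.K} (hf : f ∈ polar D x)
    (hg : g ∈ polar D' x) : f * g ∈ polar (fun y => D y + D' y) x := by
  rw [mem_polar] at hf hg ⊢
  intro hx h0
  have h1 := left_ne_zero_of_mul h0
  have h2 := right_ne_zero_of_mul h0
  rw [Scheme.ord_mul h1 h2]
  have := hf hx h1
  have := hg hx h2
  linarith

theorem polar_prod {ι : Type*} (s : Finset ι) (D : ι → X.X → ℤ) {x : X.X} (f : ι → X.K)
    (hf : ∀ i ∈ s, f i ∈ polar (D i) x) : ∏ i ∈ s, f i ∈ polar (fun y => ∑ i ∈ s, D i y) x := by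
  classical
  induction s using Finset.induction_on with
  | empty =>
    rw [mem_polar]
    intro _ _
    simp [ord_one]
  | insert a s ha ih =>
    rw [Finset.prod_insert ha]
    have h1 := polar_mul (hf a (Finset.mem_insert_self a s))
      (ih fun i hi => hf i (Finset.mem_insert_of_mem hi))
    have h2 : (fun y => ∑ i ∈ insert a s, D i y) = fun y => D a y + ∑ i ∈ s, D i y := by
      funext y
      rw [Finset.sum_insert ha]
    rw [h2]
    exact h1

theorem coef_sum {ι : Type*} (s : Finset ι) (D : ι → Div X.X) (x : X.X) :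
    coef (∑ i ∈ s, D i) x = ∑ i ∈ s, coef (D i) x := by
  classical
  induction s using Finset.induction_on with
  | empty => simp
  | insert a s ha ih => rw [Finset.sum_insert ha, coef_add, ih, Finset.sum_insert ha]

theorem isTwTensor_iff {N : ℕ} {e : X.Ten N} {D : Div X.X} :
    IsTwTensor e D ↔ ∀ x : X.X, coheight x = 1 → ∀ v : Fin N → X.Der, (∀ i, RegDer x (v i)) →
      e v ∈ polar (coef D) x :=
  ⟨fun h x hx v hv _ h0 => h x hx v hv h0, fun h x hx v hv h0 => h x hx v hv hx h0⟩

/-- The determinant of twisted tensors is a tensor twisted by the sum of the divisors. -/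
theorem isTwTensor_detTen {q p : ℕ} (u : Fin q → X.Ten p) (D : Fin q → Div X.X)
    (h : ∀ a, IsTwTensor (u a) (D a)) :
    IsTwTensor (X := X) (N := q * p) (G.detTen u) (∑ a, D a) := by
  rw [isTwTensor_iff]
  intro x hx v hv
  rw [G.detTen_apply, Matrix.det_apply]
  refine Submodule.sum_mem _ fun σ _ => ?_
  have h1 : ∏ b : Fin q, (Matrix.of fun a b => u a fun j => v (finProdFinEquiv (b, j))) (σ b) b ∈
      polar (coef (∑ a, D a)) x := by
    have h2 := polar_prod (X := X) Finset.univ (fun b => coef (D (σ b))) (x := x)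
      (fun b => u (σ b) fun j => v (finProdFinEquiv (b, j)))
      (fun b _ => isTwTensor_iff.1 (h (σ b)) x hx _ fun j => hv _)
    have h3 : (fun y => ∑ b, coef (D (σ b)) y) = coef (∑ a, D a) := by
      funext y
      rw [coef_sum]
      exact Equiv.sum_comp σ fun a => coef (D a) y
    rw [h3] at h2
    exact h2
  rcases Int.units_eq_one_or (Equiv.Perm.sign σ) with hs | hs
  · rw [hs, one_smul]; exact h1
  · rw [hs, Units.neg_smul, one_smul]; exact Submodule.neg_mem _ h1

/-! ### The torus action on functions and vector fields -/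

theorem DomHom.pull_congr {φ ψ : DomHom X Y} (h : φ.f = ψ.f) : φ.pull = ψ.pull := by
  cases φ; cases ψ; cases h; rfl

theorem TAct.pull_mul (τ : TAct r X) (s t : Fin r → ℂˣ) (f : X.K) :
    (τ.act (s * t)).pull f = (τ.act s).pull ((τ.act t).pull f) := by
  rw [← DomHom.pull_comp]
  rw [DomHom.pull_congr (φ := τ.act (s * t)) (ψ := (τ.act s).comp (τ.act t)) (τ.act_mul s t)]

theorem TAct.pull_one (τ : TAct r X) (f : X.K) : (τ.act 1).pull f = f := by
  rw [DomHom.pull_congr (φ := τ.act 1) (ψ := DomHom.id X) τ.act_one, DomHom.pull_id]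

theorem TAct.pull_inv_pull (τ : TAct r X) (t : Fin r → ℂˣ) (f : X.K) :
    (τ.act t⁻¹).pull ((τ.act t).pull f) = f := by
  rw [← τ.pull_mul, inv_mul_cancel, τ.pull_one]

theorem TAct.pull_pull_inv (τ : TAct r X) (t : Fin r → ℂˣ) (f : X.K) :
    (τ.act t).pull ((τ.act t⁻¹).pull f) = f := by
  rw [← τ.pull_mul, mul_inv_cancel, τ.pull_one]

/-- The rational vector field `t v t⁻¹`. -/
noncomputable def TAct.conj (τ : TAct r X) (t : Fin r → ℂˣ) (v : X.Der) : X.Der :=
  Derivation.mk'
    { toFun := fun f => (τ.act t).pull (v ((τ.act t⁻¹).pull f))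
      map_add' := fun f g => by rw [map_add, map_add, map_add]
      map_smul' := fun c f => by
        rw [Algebra.smul_def, map_mul, (τ.act t⁻¹).pull_scalar, ← Algebra.smul_def,
          Derivation.map_smul, Algebra.smul_def, map_mul, (τ.act t).pull_scalar, RingHom.id_apply,
          ← Algebra.smul_def] }
    (fun f g => by
      change (τ.act t).pull (v ((τ.act t⁻¹).pull (f * g))) =
        f • (τ.act t).pull (v ((τ.act t⁻¹).pull g)) + g • (τ.act t).pull (v ((τ.act t⁻¹).pull f))
      rw [map_mul, Derivation.leibniz, smul_eq_mul, smul_eq_mul, map_add, map_mul, map_mul,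
        τ.pull_pull_inv, τ.pull_pull_inv, smul_eq_mul, smul_eq_mul])

theorem TAct.conj_apply (τ : TAct r X) (t : Fin r → ℂˣ) (v : X.Der) (f : X.K) :
    τ.conj t v f = (τ.act t).pull (v ((τ.act t⁻¹).pull f)) := rfl

theorem TAct.conj_pull (τ : TAct r X) (t : Fin r → ℂˣ) (v : X.Der) (f : X.K) :
    τ.conj t v ((τ.act t).pull f) = (τ.act t).pull (v f) := by
  rw [τ.conj_apply, τ.pull_inv_pull]

theorem TAct.InvTensor.apply_conj {τ : TAct r X} {N : ℕ} {e : X.Ten N} (h : τ.InvTensor e)
    (t : Fin r → ℂˣ) (v : Fin N → X.Der) :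
    e (fun i => τ.conj t (v i)) = (τ.act t).pull (e v) :=
  h t v _ fun i f => τ.conj_pull t (v i) f

theorem TAct.invTensor_zero (τ : TAct r X) (N : ℕ) : τ.InvTensor (0 : X.Ten N) :=
  fun t _ _ _ => (map_zero (τ.act t).pull).symm

/-- The determinant of `T`-invariant tensors is `T`-invariant. -/
theorem TAct.invTensor_detTen (τ : TAct r X) {q p : ℕ} (u : Fin q → X.Ten p)
    (h : ∀ a, τ.InvTensor (u a)) : τ.InvTensor (X := X) (N := q * p) (G.detTen u) := by
  intro t v v' hv
  rw [G.detTen_apply, G.detTen_apply, RingHom.map_det]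
  congr 1
  ext a b
  rw [RingHom.mapMatrix_apply, Matrix.map_apply, Matrix.of_apply, Matrix.of_apply]
  exact h a t _ _ fun j f => hv _ f

/-- The coefficients of a `T`-invariant tensor with respect to linearly independent `T`-invariant
tensors are `T`-invariant. -/
theorem TAct.coeff_mem_inv (τ : TAct r X) {q p : ℕ} {u : Fin q → X.Ten p}
    (hli : LinearIndependent X.K u) (hu : ∀ a, τ.InvTensor (u a)) {e : X.Ten p}
    (he : τ.InvTensor e) {c : Fin q → X.K} (hc : e = ∑ a, c a • u a) (a : Fin q) :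
    c a ∈ τ.inv := by
  -- it is enough to treat inverses
  have key : ∀ t : Fin r → ℂˣ, (τ.act t⁻¹).pull (c a) = c a := by
    intro t
    rw [Fintype.linearIndependent_iff] at hli
    have h1 := hli (fun a => (τ.act t⁻¹).pull (c a) - c a) (by
      ext v
      have h2 := he.apply_conj t v
      rw [hc] at h2
      simp only [_root_.sum_apply, _root_.smul_apply, smul_eq_mul, map_sum, map_mul] at h2 ⊢
      have h3 : ∑ b, c b * (τ.act t).pull (u b v) =
          ∑ b, (τ.act t).pull (c b) * (τ.act t).pull (u b v) := by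
        rw [← h2]
        exact Finset.sum_congr rfl fun b _ => by rw [(hu b).apply_conj t v]
      have h4 := congrArg (τ.act t⁻¹).pull h3
      simp only [map_sum, map_mul, τ.pull_inv_pull] at h4
      simp only [_root_.zero_apply, sub_mul, Finset.sum_sub_distrib]
      rw [h4, sub_self]) a
    exact sub_eq_zero.1 h1
  intro t
  have := key t⁻¹
  rwa [inv_inv] at this

/-- **Step (3).** -/
theorem stepDet (τ : TAct r X) (L : Div X.X) (p : ℕ)
    (h : ∀ N : ℕ, ∃ k, N ≤ k ∧ ∃ e : X.Ten p, e ≠ 0 ∧ τ.InvTensor e ∧ IsTwTensor e (k • L)) :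
    ∃ (N : ℕ) (ω : X.Ten N) (P : Div X.X), ω ≠ 0 ∧ τ.InvTensor ω ∧ IsDivTensor ω P ∧
      IsTwTensor ω (-P) ∧
      ∀ M₀ : ℕ, ∃ M, M₀ ≤ M ∧ ∃ f ∈ τ.inv, f ≠ 0 ∧ f ∈ H0 (coef (P + M • L)) := by
  classical
  -- one tensor for every `k`
  have hex : ∀ k : ℕ, ∃ e : X.Ten p, τ.InvTensor e ∧ IsTwTensor e (k • L) ∧
      ((∃ e : X.Ten p, e ≠ 0 ∧ τ.InvTensor e ∧ IsTwTensor e (k • L)) → e ≠ 0) := by
    intro k
    by_cases hk : ∃ e : X.Ten p, e ≠ 0 ∧ τ.InvTensor e ∧ IsTwTensor e (k • L)
    · obtain ⟨e, h1, h2, h3⟩ := hk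
      exact ⟨e, h2, h3, fun _ => h1⟩
    · exact ⟨0, τ.invTensor_zero p, isTwTensor_zero _, fun h => absurd h hk⟩
  choose e he1 he2 he3 using hex
  have hinf : ∀ N : ℕ, ∃ k, N ≤ k ∧ e k ≠ 0 := by
    intro N
    obtain ⟨k, hk, hk'⟩ := h N
    exact ⟨k, hk, he3 k hk'⟩
  obtain ⟨q, κ, i, hli, hne, hfreq⟩ := G.det_trick e hinf
  obtain ⟨P, hP⟩ := exists_isDivTensor (X := X) (N := q * p) hne
  refine ⟨q * p, G.detTen fun a => e (κ a), P, hne,
    τ.invTensor_detTen _ fun a => he1 _, hP, hP.isTwTensor, fun M₀ => ?_⟩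
  obtain ⟨k, hk, c, hci, hc, hdet⟩ := hfreq M₀
  refine ⟨∑ a, Function.update κ i k a, ?_, c i,
    τ.coeff_mem_inv hli (fun a => he1 _) (he1 k) hc i, hci, ?_⟩
  · have h1 : Function.update κ i k i ≤ ∑ a, Function.update κ i k a :=
      Finset.single_le_sum (f := Function.update κ i k) (fun _ _ => Nat.zero_le _)
        (Finset.mem_univ i)
    rw [Function.update_self] at h1
    exact hk.trans h1
  · apply hP.mem_H0
    rw [← hdet]
    have h2 : (∑ a, Function.update κ i k a) • L = ∑ a, (Function.update κ i k a) • L :=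
      Finset.sum_smul
    rw [h2]
    refine isTwTensor_detTen _ _ fun a => ?_
    by_cases ha : a = i
    · subst ha
      rw [Function.update_self, Function.update_self]
      exact he2 k
    · rw [Function.update_of_ne ha, Function.update_of_ne ha]
      exact he2 _

end Vale.Agent.P299.Q
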