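import Mathlib.AlgebraicGeometry.OrderOfVanishing
import Mathlib.AlgebraicGeometry.Morphisms.UnderlyingMap

/-!
# Dominant morphisms of integral schemes and orders of vanishing
-/

open AlgebraicGeometry Order TopologicalSpace CategoryTheory WithZero

universe u

namespace Vale.Agent.P299.Q

section FieldMap

variable {X Y Z : Scheme.{u}} [IsIntegral X] [IsIntegral Y] [IsIntegral Z]

theorem map_genericPoint (f : X ⟶ Y) [IsDominant f] : f (genericPoint X) = genericPoint Y := by
  apply ((genericPoint_spec Y).eq _).symm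
  have h := (genericPoint_spec X).image f.continuous
  rw [isGenericPoint_def] at h ⊢
  rw [h, Set.image_univ]
  exact f.denseRange.closure_range

/-- The embedding of the function fields `K(Y) → K(X)` for a dominant morphism `X ⟶ Y`. -/
noncomputable def fieldMap (f : X ⟶ Y) [IsDominant f] : Y.functionField →+* X.functionField :=
  (Y.presheaf.stalkSpecializes (specializes_of_eq (map_genericPoint f)) ≫
    f.stalkMap (genericPoint X)).hom

theorem fieldMap_injective (f : X ⟶ Y) [IsDominant f] : Function.Injective (fieldMap f) :=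
  (fieldMap f).injective

theorem fieldMap_ne_zero (f : X ⟶ Y) [IsDominant f] {g : Y.functionField} (hg : g ≠ 0) :
    fieldMap f g ≠ 0 := by
  rwa [Ne, map_eq_zero]

/-- Compatibility with the local rings. -/
theorem fieldMap_algebraMap (f : X ⟶ Y) [IsDominant f] (x : X) (a : Y.presheaf.stalk (f x)) :
    fieldMap f (algebraMap (Y.presheaf.stalk (f x)) Y.functionField a) =
      algebraMap (X.presheaf.stalk x) X.functionField (f.stalkMap x a) := by
  have h1 : Y.presheaf.stalkSpecializes ((genericPoint_spec Y).specializes trivial) ≫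
      Y.presheaf.stalkSpecializes (specializes_of_eq (map_genericPoint f)) ≫
        f.stalkMap (genericPoint X) =
      f.stalkMap x ≫ X.presheaf.stalkSpecializes ((genericPoint_spec X).specializes trivial) := by
    rw [← Scheme.Hom.stalkSpecializes_stalkMap f (genericPoint X) x
      ((genericPoint_spec X).specializes trivial), ← Category.assoc,
      TopCat.Presheaf.stalkSpecializes_comp]
  exact congrArg (fun φ => φ.hom a) h1

theorem stalkMap_injective (f : X ⟶ Y) [IsDominant f] (x : X) :
    Function.Injective (f.stalkMap x) := by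
  intro a b h
  have h1 := fieldMap_algebraMap f x a
  have h2 := fieldMap_algebraMap f x b
  rw [h, ← h2] at h1
  exact FaithfulSMul.algebraMap_injective _ _ (fieldMap_injective f h1)

end FieldMap

section Stalk

variable {X : Scheme.{u}} [IsIntegral X] [IsLocallyNoetherian X]

theorem ord_nonneg_of_stalk (x : X) (a : X.presheaf.stalk x) :
    0 ≤ Scheme.ord (algebraMap (X.presheaf.stalk x) X.functionField a) x := by
  by_cases ha : a = 0
  · simp [ha]
  by_cases hx : coheight x = 1
  · have ha' : algebraMap (X.presheaf.stalk x) X.functionField a ≠ 0 := by simpa using ha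
    rw [Scheme.le_ord_iff hx ha']
    have : Ring.KrullDimLE 1 (X.presheaf.stalk x) := krullDimLE_of_coheight_le hx.le
    exact Ring.ordFrac_ge_one_of_ne_zero ha
  · simp [hx]

theorem ord_of_isUnit_stalk (x : X) {a : X.presheaf.stalk x} (ha : IsUnit a) :
    Scheme.ord (algebraMap (X.presheaf.stalk x) X.functionField a) x = 0 := by
  by_cases hx : coheight x = 1
  · have ha' : algebraMap (X.presheaf.stalk x) X.functionField a ≠ 0 := by
      simpa using ha.ne_zero
    rw [Scheme.ord_eq_iff hx ha']
    have : Ring.KrullDimLE 1 (X.presheaf.stalk x) := krullDimLE_of_coheight_le hx.le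
    exact Ring.ordFrac_of_isUnit ha
  · simp [hx]

theorem isUnit_of_ord_eq_zero (x : X) (hx : coheight x = 1)
    [IsDiscreteValuationRing (X.presheaf.stalk x)] {a : X.presheaf.stalk x} (ha : a ≠ 0)
    (h : Scheme.ord (algebraMap (X.presheaf.stalk x) X.functionField a) x = 0) : IsUnit a := by
  have ha' : algebraMap (X.presheaf.stalk x) X.functionField a ≠ 0 := by simpa using ha
  rw [Scheme.ord_eq_iff hx ha'] at h
  rw [Ring.isUnit_iff_ordFrac_one_of_isDiscreteValuationRing (K := X.functionField)]
  exact h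

theorem exists_stalk_of_ord_nonneg (x : X) (hx : coheight x = 1)
    [IsDiscreteValuationRing (X.presheaf.stalk x)] {g : X.functionField} (hg : g ≠ 0)
    (h : 0 ≤ Scheme.ord g x) :
    ∃ a : X.presheaf.stalk x, algebraMap (X.presheaf.stalk x) X.functionField a = g := by
  rw [Scheme.le_ord_iff hx hg] at h
  have h2 : 1 ≤ Ring.ordFrac (X.presheaf.stalk x) g := h
  rw [Ring.ordFrac_eq_valuation_inv, one_le_inv₀] at h2
  · exact IsDiscreteValuationRing.exists_lift_of_le_one h2
  · rw [zero_lt_iff]
    simpa using hg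

/-- Every nonzero rational function is a unit of the discrete valuation ring times a power of the
uniformizer. -/
theorem exists_eq_unit_mul_zpow (x : X) (hx : coheight x = 1)
    [IsDiscreteValuationRing (X.presheaf.stalk x)] {ϖ : X.presheaf.stalk x} (hϖ : Irreducible ϖ)
    {g : X.functionField} (hg : g ≠ 0) :
    ∃ u : (X.presheaf.stalk x)ˣ, g = algebraMap (X.presheaf.stalk x) X.functionField u *
      (algebraMap (X.presheaf.stalk x) X.functionField ϖ) ^ (Scheme.ord g x) := by
  have h1 : Ring.ordFrac (X.presheaf.stalk x) g = Multiplicative.ofAdd (Scheme.ord g x) :=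
    (Scheme.ord_eq_iff hx hg).1 rfl
  have h2 : Ring.ordFrac (X.presheaf.stalk x)
      ((algebraMap (X.presheaf.stalk x) X.functionField ϖ) ^ (Scheme.ord g x)) =
        Multiplicative.ofAdd (Scheme.ord g x) := by
    rw [map_zpow₀, Ring.ordFrac_irreducible hϖ, ← WithZero.exp_zsmul]
    simp
    rfl
  obtain ⟨u, hu⟩ := Ring.associated_of_ordFrac_eq (R := X.presheaf.stalk x) _ _ (h2.trans h1.symm)
  refine ⟨u, ?_⟩
  rw [Units.smul_def, Algebra.smul_def] at hu
  exact hu.symm

theorem ord_one (x : X) : Scheme.ord (1 : X.functionField) x = 0 := by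
  have := ord_of_isUnit_stalk x (a := 1) isUnit_one
  rwa [map_one] at this

theorem ord_inv {g : X.functionField} (hg : g ≠ 0) (x : X) :
    Scheme.ord g⁻¹ x = - Scheme.ord g x := by
  have h := Scheme.ord_mul (x := x) hg (inv_ne_zero hg)
  rw [mul_inv_cancel₀ hg, ord_one] at h
  omega

theorem ord_div {g h : X.functionField} (hg : g ≠ 0) (hh : h ≠ 0) (x : X) :
    Scheme.ord (g / h) x = Scheme.ord g x - Scheme.ord h x := by
  rw [div_eq_mul_inv, Scheme.ord_mul hg (inv_ne_zero hh), ord_inv hh]; ring

theorem ord_pow {g : X.functionField} (hg : g ≠ 0) (n : ℕ) (x : X) :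
    Scheme.ord (g ^ n) x = n * Scheme.ord g x := by
  induction n with
  | zero => simp [ord_one]
  | succ n ih =>
    rw [pow_succ, Scheme.ord_mul (pow_ne_zero n hg) hg, ih]
    push_cast; ring

theorem ord_zpow {g : X.functionField} (hg : g ≠ 0) (n : ℤ) (x : X) :
    Scheme.ord (g ^ n) x = n * Scheme.ord g x := by
  cases n with
  | ofNat n => simp [ord_pow hg]
  | negSucc n =>
    rw [zpow_negSucc, ord_inv (pow_ne_zero _ hg), ord_pow hg, Int.negSucc_eq]
    push_cast; ring

end Stalk

section Dominant

variable {X Y : Scheme.{u}} [IsIntegral X] [IsIntegral Y] [IsLocallyNoetherian X]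
  (f : X ⟶ Y) [IsDominant f]

/-- The functions that are regular at `f x` are regular at `x`. -/
theorem ord_fieldMap_nonneg (x : X) (a : Y.presheaf.stalk (f x)) :
    0 ≤ Scheme.ord (fieldMap f (algebraMap (Y.presheaf.stalk (f x)) Y.functionField a)) x := by
  rw [fieldMap_algebraMap]
  exact ord_nonneg_of_stalk x _

theorem ord_fieldMap_of_isUnit (x : X) {a : Y.presheaf.stalk (f x)} (ha : IsUnit a) :
    Scheme.ord (fieldMap f (algebraMap (Y.presheaf.stalk (f x)) Y.functionField a)) x = 0 := by
  rw [fieldMap_algebraMap]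
  exact ord_of_isUnit_stalk x (ha.map (f.stalkMap x).hom)

/-- A prime divisor that dominates `Y` has trivial order on `K(Y)`. -/
theorem ord_fieldMap_of_generic (x : X) (hx : f x = genericPoint Y) {g : Y.functionField}
    (hg : g ≠ 0) : Scheme.ord (fieldMap f g) x = 0 := by
  have h1 : genericPoint Y ⤳ f x := (genericPoint_spec Y).specializes trivial
  have h2 : f x ⤳ genericPoint Y := specializes_of_eq hx
  set a : Y.presheaf.stalk (f x) := (Y.presheaf.stalkSpecializes h2).hom g with ha
  have hag : algebraMap (Y.presheaf.stalk (f x)) Y.functionField a = g := by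
    have h3 : Y.presheaf.stalkSpecializes h2 ≫ Y.presheaf.stalkSpecializes h1 = 𝟙 _ := by
      rw [TopCat.Presheaf.stalkSpecializes_comp]
      exact TopCat.Presheaf.stalkSpecializes_refl _ _
    exact congrArg (fun φ => φ.hom g) h3
  have hu : IsUnit a := (isUnit_iff_ne_zero.2 hg).map (Y.presheaf.stalkSpecializes h2).hom
  rw [← hag]
  exact ord_fieldMap_of_isUnit f x hu

/-- A prime divisor `x` of `X` over a prime divisor `f x` of `Y` has a multiplicity `m ≥ 1`. -/
theorem exists_mult [IsLocallyNoetherian Y] (x : X) (hx : coheight x = 1)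
    (hy : coheight (f x) = 1) [IsDiscreteValuationRing (X.presheaf.stalk x)]
    [IsDiscreteValuationRing (Y.presheaf.stalk (f x))] :
    ∃ m : ℤ, 1 ≤ m ∧ ∀ g : Y.functionField, g ≠ 0 →
      Scheme.ord (fieldMap f g) x = m * Scheme.ord g (f x) := by
  obtain ⟨ϖ, hϖ⟩ := IsDiscreteValuationRing.exists_irreducible (Y.presheaf.stalk (f x))
  have hϖ0 : algebraMap (Y.presheaf.stalk (f x)) Y.functionField ϖ ≠ 0 := by
    simpa using hϖ.ne_zero
  refine ⟨Scheme.ord (fieldMap f (algebraMap (Y.presheaf.stalk (f x)) Y.functionField ϖ)) x,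
    ?_, fun g hg => ?_⟩
  · have h0 := ord_fieldMap_nonneg f x ϖ
    have h1 : Scheme.ord (fieldMap f (algebraMap (Y.presheaf.stalk (f x)) Y.functionField ϖ)) x
        ≠ 0 := by
      intro h
      rw [fieldMap_algebraMap] at h
      have hne : f.stalkMap x ϖ ≠ 0 := by
        intro h0
        apply hϖ.ne_zero
        apply stalkMap_injective f x
        rw [h0]
        exact (map_zero (f.stalkMap x).hom).symm
      have hu := isUnit_of_ord_eq_zero x hx hne h
      have hu' : IsUnit ϖ := isUnit_of_map_unit (f.stalkMap x).hom ϖ hu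
      exact hϖ.not_isUnit hu'
    omega
  · obtain ⟨u, hu⟩ := exists_eq_unit_mul_zpow (f x) hy hϖ hg
    have hu0 : algebraMap (Y.presheaf.stalk (f x)) Y.functionField
        (u : Y.presheaf.stalk (f x)) ≠ 0 := by
      simp
    conv_lhs => rw [hu]
    rw [map_mul, map_zpow₀, Scheme.ord_mul (fieldMap_ne_zero f hu0)
      (zpow_ne_zero _ (fieldMap_ne_zero f hϖ0)), ord_fieldMap_of_isUnit f x u.isUnit, zero_add,
      ord_zpow (fieldMap_ne_zero f hϖ0)]
    ring

end Dominant

section Comp

variable {X Y Z : Scheme.{u}} [IsIntegral X] [IsIntegral Y] [IsIntegral Z]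

theorem genericPoint_mem_preimage (f : X ⟶ Y) [IsDominant f] {U : Y.Opens}
    (hU : genericPoint Y ∈ U) : genericPoint X ∈ f ⁻¹ᵁ U := by
  change f (genericPoint X) ∈ U
  rwa [map_genericPoint f]

theorem fieldMap_germ (f : X ⟶ Y) [IsDominant f] (U : Y.Opens) (hU : genericPoint Y ∈ U)
    (hU' : genericPoint X ∈ f ⁻¹ᵁ U) (s : Γ(Y, U)) :
    fieldMap f (Y.presheaf.germ U (genericPoint Y) hU s) =
      X.presheaf.germ (f ⁻¹ᵁ U) (genericPoint X) hU' (f.app U s) := by
  have hU'' : f (genericPoint X) ∈ U := hU'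
  have h1 : Y.presheaf.germ U (genericPoint Y) hU ≫
      Y.presheaf.stalkSpecializes (specializes_of_eq (map_genericPoint f)) ≫
        f.stalkMap (genericPoint X) =
      f.app U ≫ X.presheaf.germ (f ⁻¹ᵁ U) (genericPoint X) hU' := by
    rw [← Category.assoc, TopCat.Presheaf.germ_stalkSpecializes, Scheme.Hom.germ_stalkMap]
  exact congrArg (fun φ => φ.hom s) h1

theorem fieldMap_comp (f : X ⟶ Y) (g : Y ⟶ Z) [IsDominant f] [IsDominant g]
    [IsDominant (f ≫ g)] (a : Z.functionField) :
    fieldMap (f ≫ g) a = fieldMap f (fieldMap g a) := by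
  obtain ⟨U, hU, s, rfl⟩ := Z.presheaf.exists_germ_eq a
  have h1 := genericPoint_mem_preimage g hU
  have h2 := genericPoint_mem_preimage f h1
  have e1 := fieldMap_germ (f ≫ g) U hU h2 s
  have e2 := fieldMap_germ g U hU h1 s
  have e3 := fieldMap_germ f (g ⁻¹ᵁ U) h1 h2 (g.app U s)
  have e4 : (f ≫ g).app U s = f.app (g ⁻¹ᵁ U) (g.app U s) := by
    rw [Scheme.Hom.comp_app]; rfl
  refine e1.trans ?_
  rw [e2]
  refine Eq.trans ?_ e3.symm
  exact congrArg _ e4

theorem fieldMap_id (a : X.functionField) [IsDominant (𝟙 X)] : fieldMap (𝟙 X) a = a := by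
  obtain ⟨U, hU, s, rfl⟩ := X.presheaf.exists_germ_eq a
  refine (fieldMap_germ (𝟙 X) U hU hU s).trans ?_
  have e4 : (𝟙 X : X ⟶ X).app U s = s := by
    rw [Scheme.Hom.id_app]; rfl
  exact congrArg _ e4

end Comp

end Vale.Agent.P299.Q
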