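import Vale.Agent.P299.Q.Defs
import Vale.Agent.P299.Q.Dom
import Vale.Agent.P299.G.LocEq

/-!
# The pull back of rational functions under a dominant morphism of varieties
-/

open CategoryTheory TopologicalSpace Opposite TopCat AlgebraicGeometry Order

namespace Vale.Agent.P299.Q

section DomHom

variable {X Y Z : Var}

theorem Var.dvr (X : Var) (x : X.X) (hx : coheight x = 1) :
    IsDiscreteValuationRing (X.X.presheaf.stalk x) :=
  (inferInstance : RegOne X.X).dvr x hx

theorem DomHom.isDominant (φ : DomHom X Y) : IsDominant φ.f := by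
  constructor
  have h : Dense (Set.range φ.f) := by
    rw [dense_iff_closure_eq]
    apply Set.eq_univ_of_univ_subset
    have h1 : closure {genericPoint Y.X} = Set.univ := (genericPoint_spec Y.X).def
    rw [← h1]
    apply closure_mono
    rw [Set.singleton_subset_iff]
    exact ⟨_, φ.dominant⟩
  exact h

theorem DomHom.pull_eq (φ : DomHom X Y) [IsDominant φ.f] : φ.pull = fieldMap φ.f := rfl

theorem DomHom.pull_injective (φ : DomHom X Y) : Function.Injective φ.pull := φ.pull.injective

theorem DomHom.pull_ne_zero (φ : DomHom X Y) {g : Y.K} (hg : g ≠ 0) : φ.pull g ≠ 0 := by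
  rwa [Ne, map_eq_zero]

theorem DomHom.pull_stalk (φ : DomHom X Y) (x : X.X) (a : Y.X.presheaf.stalk (φ.f x)) :
    φ.pull (algebraMap (Y.X.presheaf.stalk (φ.f x)) Y.K a) =
      algebraMap (X.X.presheaf.stalk x) X.K (φ.f.stalkMap x a) := by
  have := φ.isDominant
  exact fieldMap_algebraMap φ.f x a

theorem DomHom.stalkMap_injective (φ : DomHom X Y) (x : X.X) :
    Function.Injective (φ.f.stalkMap x) := by
  have := φ.isDominant
  exact Q.stalkMap_injective φ.f x

theorem DomHom.pull_germ_of_mem (φ : DomHom X Y) (U : Y.X.Opens) (hU : genericPoint Y.X ∈ U)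
    (hU' : genericPoint X.X ∈ φ.f ⁻¹ᵁ U) (s : Γ(Y.X, U)) :
    φ.pull (Y.X.presheaf.germ U (genericPoint Y.X) hU s) =
      X.X.presheaf.germ (φ.f ⁻¹ᵁ U) (genericPoint X.X) hU' (φ.f.app U s) := by
  have := φ.isDominant
  exact fieldMap_germ φ.f U hU hU' s

theorem DomHom.ord_pull_nonneg (φ : DomHom X Y) (x : X.X) (a : Y.X.presheaf.stalk (φ.f x)) :
    0 ≤ Scheme.ord (φ.pull (algebraMap (Y.X.presheaf.stalk (φ.f x)) Y.K a)) x := by
  have := φ.isDominant
  exact ord_fieldMap_nonneg φ.f x a

theorem DomHom.ord_pull_of_isUnit (φ : DomHom X Y) (x : X.X)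
    {a : Y.X.presheaf.stalk (φ.f x)} (ha : IsUnit a) :
    Scheme.ord (φ.pull (algebraMap (Y.X.presheaf.stalk (φ.f x)) Y.K a)) x = 0 := by
  have := φ.isDominant
  exact ord_fieldMap_of_isUnit φ.f x ha

/-- A prime divisor that dominates `Y` has trivial order on `K(Y)`. -/
theorem DomHom.ord_pull_of_generic (φ : DomHom X Y) (x : X.X) (hx : φ.f x = genericPoint Y.X)
    {g : Y.K} (hg : g ≠ 0) : Scheme.ord (φ.pull g) x = 0 := by
  have := φ.isDominant
  exact ord_fieldMap_of_generic φ.f x hx hg

/-- The multiplicity of a prime divisor `x` of `X` over the prime divisor `φ x` of `Y`. -/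
theorem DomHom.exists_mult (φ : DomHom X Y) (x : X.X) (hx : coheight x = 1)
    (hy : coheight (φ.f x) = 1) :
    ∃ m : ℤ, 1 ≤ m ∧ ∀ g : Y.K, g ≠ 0 →
      Scheme.ord (φ.pull g) x = m * Scheme.ord g (φ.f x) := by
  have := φ.isDominant
  have := X.dvr x hx
  have := Y.dvr (φ.f x) hy
  exact Q.exists_mult φ.f x hx hy

/-- If the order at `x` is trivial on `K(Y)`, then `x` dominates `Y`. -/
theorem DomHom.generic_of_ord_eq_zero (φ : DomHom X Y) (x : X.X) (hx : coheight x = 1)
    (h : ∀ g : Y.K, g ≠ 0 → Scheme.ord (φ.pull g) x = 0) : φ.f x = genericPoint Y.X := by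
  have := X.dvr x hx
  have hgen : genericPoint Y.X ⤳ φ.f x := (genericPoint_spec Y.X).specializes trivial
  refine (G.eq_of_primeAt_eq hgen (specializes_refl (φ.f x)) ?_).symm
  ext a
  rw [G.mem_primeAt, G.mem_primeAt]
  by_cases ha : a = 0
  · subst ha
    simp
  · have h1 : IsUnit (G.toStalk hgen a) := by
      rw [isUnit_iff_ne_zero]
      intro h0
      apply ha
      apply G.toStalk_injective hgen
      rw [h0, map_zero]
    have h2 : IsUnit (G.toStalk (specializes_refl (φ.f x)) a) := by
      have h3 : Scheme.ord (φ.pull (algebraMap (Y.X.presheaf.stalk (φ.f x)) Y.K a)) x = 0 := by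
        apply h
        simpa using ha
      rw [φ.pull_stalk] at h3
      have hne : φ.f.stalkMap x a ≠ 0 := by
        intro h0
        apply ha
        apply φ.stalkMap_injective x
        rw [h0]
        exact (map_zero (φ.f.stalkMap x).hom).symm
      have hu := isUnit_of_ord_eq_zero x hx hne h3
      have hu' : IsUnit a := isUnit_of_map_unit (φ.f.stalkMap x).hom a hu
      exact hu'.map _
    exact ⟨fun h => absurd h1 h, fun h => absurd h2 h⟩

/-- The composition of dominant morphisms. -/
noncomputable def DomHom.comp (φ : DomHom X Y) (ψ : DomHom Y Z) : DomHom X Z where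
  f := φ.f ≫ ψ.f
  over := by rw [Category.assoc, ψ.over, φ.over]
  dominant := by
    change ψ.f (φ.f (genericPoint X.X)) = genericPoint Z.X
    rw [φ.dominant, ψ.dominant]

theorem DomHom.pull_comp (φ : DomHom X Y) (ψ : DomHom Y Z) (g : Z.K) :
    (φ.comp ψ).pull g = φ.pull (ψ.pull g) := by
  have := φ.isDominant
  have := ψ.isDominant
  have h : IsDominant (φ.f ≫ ψ.f) := (φ.comp ψ).isDominant
  exact fieldMap_comp φ.f ψ.f g

/-- The identity. -/
noncomputable def DomHom.id (X : Var) : DomHom X X where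
  f := 𝟙 X.X
  over := Category.id_comp _
  dominant := rfl

theorem DomHom.pull_id (g : X.K) : (DomHom.id X).pull g = g := by
  have h : IsDominant (𝟙 X.X) := (DomHom.id X).isDominant
  exact fieldMap_id g

theorem DomHom.pull_constant (φ : DomHom X Y) (c : ℂ) :
    φ.pull (algebraMap ℂ Y.K c) = algebraMap ℂ X.K c := by
  rw [algebraMap_eq, algebraMap_eq]
  have h1 : genericPoint Y.X ∈ (⊤ : Y.X.Opens) := trivial
  have h2 : genericPoint X.X ∈ φ.f ⁻¹ᵁ (⊤ : Y.X.Opens) := trivial
  refine (φ.pull_germ_of_mem ⊤ h1 h2 (constants Y.X c)).trans ?_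
  have h3 : φ.f.appTop (constants Y.X c) = constants X.X c := by
    have h4 : (Y.X ↘ SpecC).appTop ≫ φ.f.appTop = (X.X ↘ SpecC).appTop := by
      rw [← Scheme.Hom.comp_appTop, φ.over]
    unfold constants
    rw [← h4]
    rfl
  exact congrArg _ h3

end DomHom

end Vale.Agent.P299.Q
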