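import Mathlib.RingTheory.Smooth.IntegralClosure
import Mathlib.RingTheory.Unramified.Finite
import Mathlib.RingTheory.Etale.Basic
import Mathlib.RingTheory.DiscreteValuationRing.TFAE
import Mathlib.RingTheory.Polynomial.RationalRoot
import Mathlib.RingTheory.Flat.TorsionFree
import Mathlib.RingTheory.KrullDimension.LocalRing

/-!
# Domains étale over integrally closed domains are integrally closed
-/

open TensorProduct
open scoped nonZeroDivisors

namespace Vale.Agent.P299.Q

theorem isIntegrallyClosed_of_etale (P A : Type*) [CommRing P] [IsDomain P] [IsIntegrallyClosed P]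
    [CommRing A] [IsDomain A] [Algebra P A] [Algebra.Etale P A] : IsIntegrallyClosed A := by
  let K := FractionRing P
  have hflat : Module.Flat P A := inferInstance
  have hinj : Function.Injective (algebraMap P A) := by
    rw [injective_iff_map_eq_zero]
    intro x hx
    by_contra hx0
    have h := Module.Flat.isSMulRegular_of_nonZeroDivisors (M := A)
      (mem_nonZeroDivisors_of_ne_zero hx0)
    have : x • (1 : A) = x • 0 := by rw [Algebra.smul_def, hx]; simp
    exact one_ne_zero (h this)
  have hle : Algebra.algebraMapSubmonoid A P⁰ ≤ A⁰ := by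
    rintro _ ⟨x, hx, rfl⟩
    exact mem_nonZeroDivisors_of_ne_zero fun h =>
      nonZeroDivisors.ne_zero hx ((injective_iff_map_eq_zero _).1 hinj _ h)
  have hdom : IsDomain (A ⊗[P] K) :=
    IsLocalization.isDomain_of_le_nonZeroDivisors _ hle
  have inj : Function.Injective (algebraMap A (A ⊗[P] K)) := IsLocalization.injective _ hle
  have hdom' : IsDomain (K ⊗[P] A) :=
    (Algebra.TensorProduct.comm P K A).toMulEquiv.isDomain
  have hfin : Module.Finite K (K ⊗[P] A) := Algebra.FormallyUnramified.finite_of_free K _
  have hf1 : IsField (K ⊗[P] A) := isField_of_isIntegral_of_isField' (Field.toIsField K)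
  have hf2 : IsField (A ⊗[P] K) :=
    MulEquiv.isField hf1 (Algebra.TensorProduct.comm P A K).toMulEquiv
  let _ : Field (A ⊗[P] K) := hf2.toField
  have : FaithfulSMul A (A ⊗[P] K) := (faithfulSMul_iff_algebraMap_injective _ _).2 inj
  have : IsIntegrallyClosedIn A (A ⊗[P] K) := by
    rw [isIntegrallyClosedIn_iff]
    refine ⟨inj, fun {x} hx => ?_⟩
    obtain ⟨t, ht⟩ := (TensorProduct.toIntegralClosure_bijective_of_smooth
      (R := P) (S := A) (B := K)).2 ⟨x, hx⟩
    have hx' : x = (TensorProduct.toIntegralClosure P A K t : A ⊗[P] K) := by rw [ht]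
    rw [hx']
    clear ht hx' hx x
    induction t with
    | zero => exact ⟨0, by simp⟩
    | add a b ha hb =>
      obtain ⟨a', ha'⟩ := ha
      obtain ⟨b', hb'⟩ := hb
      exact ⟨a' + b', by rw [map_add, map_add, ha', hb']; rfl⟩
    | tmul a y =>
      obtain ⟨z, hz⟩ := (isIntegrallyClosed_iff K).1 ‹_› y.2
      refine ⟨z • a, ?_⟩
      have : (TensorProduct.toIntegralClosure P A K (a ⊗ₜ[P] y) : A ⊗[P] K) = a ⊗ₜ[P] (y : K) := rfl
      rw [this, ← hz, Algebra.algebraMap_eq_smul_one (R := P) (A := K) z, ← TensorProduct.smul_tmul]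
      rfl
  exact IsIntegrallyClosed.of_isIntegrallyClosedIn A (A ⊗[P] K)

theorem isIntegrallyClosed_of_smooth_of_atPrime (R A B : Type*) [CommRing R] [IsDomain R]
    [UniqueFactorizationMonoid R] [CommRing A] [IsDomain A] [Algebra R A] [Algebra.Smooth R A]
    [CommRing B] [Algebra A B] (p : Ideal A) [p.IsPrime] [IsLocalization.AtPrime B p] :
    IsIntegrallyClosed B := by
  obtain ⟨f, hf, n, alg, tower, std⟩ :=
    Algebra.IsSmoothAt.exists_isStandardEtale_mvPolynomial (R := R) (p := p)
  have hle : Submonoid.powers f ≤ p.primeCompl := by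
    rw [Submonoid.powers_le]
    exact hf
  have hle' : Submonoid.powers f ≤ A⁰ := hle.trans p.primeCompl_le_nonZeroDivisors
  have : IsDomain (Localization.Away f) := IsLocalization.isDomain_of_le_nonZeroDivisors _ hle'
  have : IsIntegrallyClosed (Localization.Away f) :=
    isIntegrallyClosed_of_etale (MvPolynomial (Fin n) R) _
  let _ := IsLocalization.localizationAlgebraOfSubmonoidLe (Localization.Away f) B
    (.powers f) p.primeCompl hle
  have := IsLocalization.localization_isScalarTower_of_submonoid_le (Localization.Away f) B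
    (.powers f) p.primeCompl hle
  have := IsLocalization.isLocalization_of_submonoid_le (Localization.Away f) B
    (.powers f) p.primeCompl hle
  refine isIntegrallyClosed_of_isLocalization B
    (p.primeCompl.map (algebraMap A (Localization.Away f))) ?_
  rintro _ ⟨x, hx, rfl⟩
  refine mem_nonZeroDivisors_of_ne_zero fun h => hx ?_
  have h0 : x = 0 := IsLocalization.injective (Localization.Away f) hle' (by rw [h, map_zero])
  rw [h0]
  exact p.zero_mem

/-- A Noetherian integrally closed local domain of dimension one is a discrete valuation ring. -/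
theorem isDiscreteValuationRing_of_dim_one (R : Type*) [CommRing R] [IsDomain R] [IsLocalRing R]
    [IsNoetherianRing R] [IsIntegrallyClosed R] (h : ringKrullDim R = 1) :
    IsDiscreteValuationRing R := by
  have hnf : ¬ IsField R := by
    intro hf
    exact zero_ne_one ((ringKrullDim_eq_zero_of_isField hf) ▸ h)
  have hle : Ring.KrullDimLE 1 R := by
    rw [Ring.krullDimLE_iff, h]
    rfl
  refine ((IsDiscreteValuationRing.TFAE R hnf).out 0 3).2 ?_
  refine ⟨inferInstance, IsLocalRing.maximalIdeal R, ⟨fun h0 => hnf ?_, inferInstance⟩, ?_⟩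
  · exact IsLocalRing.isField_iff_maximalIdeal_eq.2 h0
  · rintro P ⟨hP0, hP⟩
    exact IsLocalRing.eq_maximalIdeal (hP.isMaximal_of_ne_bot hP0)

end Vale.Agent.P299.Q
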