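import Mathlib.Topology.Sheaves.SheafCondition.UniqueGluing
import Mathlib.Algebra.Category.ModuleCat.Limits
import Mathlib.Algebra.Category.ModuleCat.FilteredColimits
import Mathlib.Topology.Irreducible
import Mathlib.Data.Complex.Basic

/-!
# Subsheaves of a constant sheaf on an irreducible space
-/

open CategoryTheory TopologicalSpace Opposite TopCat

namespace Vale.Agent.P299.Q

variable {T : TopCat.{0}} {K : Type} [AddCommGroup K] [Module ℂ K]

/-- The functions `s : U → K` which are constant and whose value lies in `M x` for every `x ∈ U`. -/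
def constSec (M : T → Submodule ℂ K) (U : Opens T) : Submodule ℂ (U → K) where
  carrier := {s | (∀ x y, s x = s y) ∧ ∀ x : U, s x ∈ M x}
  zero_mem' := ⟨fun _ _ => rfl, fun x => (M x).zero_mem⟩
  add_mem' := fun {s t} hs ht => ⟨fun x y => by
    simp only [Pi.add_apply, hs.1 x y, ht.1 x y], fun x => (M x).add_mem (hs.2 x) (ht.2 x)⟩
  smul_mem' := fun c s hs => ⟨fun x y => by
    simp only [Pi.smul_apply, hs.1 x y], fun x => (M x).smul_mem c (hs.2 x)⟩

theorem mem_constSec {M : T → Submodule ℂ K} {U : Opens T} {s : U → K} :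
    s ∈ constSec M U ↔ (∀ x y, s x = s y) ∧ ∀ x : U, s x ∈ M x := Iff.rfl

/-- Restriction of constant sections. -/
def constRes (M : T → Submodule ℂ K) {U V : Opens T} (h : V ≤ U) :
    constSec M U →ₗ[ℂ] constSec M V where
  toFun s := ⟨fun x => s.1 ⟨x.1, h x.2⟩, fun _ _ => s.2.1 _ _, fun x => s.2.2 ⟨x.1, h x.2⟩⟩
  map_add' _ _ := rfl
  map_smul' _ _ := rfl

/-- The presheaf `U ↦ {f ∈ K : f ∈ M x for all x ∈ U}` (with value `0` on the empty set). -/
def constPresheaf (M : T → Submodule ℂ K) : Presheaf (ModuleCat.{0} ℂ) T where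
  obj U := ModuleCat.of ℂ (constSec M U.unop)
  map i := ModuleCat.ofHom (constRes M i.unop.le)
  map_id _ := rfl
  map_comp _ _ := rfl

theorem constPresheaf_isSheaf [PreirreducibleSpace T] (M : T → Submodule ℂ K) :
    (constPresheaf M).IsSheaf := by
  rw [TopCat.Presheaf.isSheaf_iff_isSheafUniqueGluing]
  intro ι U sf hsf
  have key : ∀ (i j : ι) (x : U i) (y : U j), (sf i).1 x = (sf j).1 y := by
    intro i j x y
    obtain ⟨z, hz⟩ : ((U i : Set T) ∩ U j).Nonempty :=
      nonempty_preirreducible_inter (U i).2 (U j).2 ⟨x.1, x.2⟩ ⟨y.1, y.2⟩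
    have h1 := congrArg (fun s : constSec M (U i ⊓ U j) => s.1 ⟨z, hz⟩) (hsf i j)
    calc (sf i).1 x = (sf i).1 ⟨z, hz.1⟩ := (sf i).2.1 _ _
      _ = (sf j).1 ⟨z, hz.2⟩ := h1
      _ = (sf j).1 y := (sf j).2.1 _ _
  have hex : ∀ x : (iSup U : Opens T), ∃ i, x.1 ∈ U i := fun x => Opens.mem_iSup.1 x.2
  choose c hc using hex
  refine ⟨⟨fun x => (sf (c x)).1 ⟨x.1, hc x⟩, fun x y => key _ _ _ _, fun x =>
    (sf (c x)).2.2 ⟨x.1, hc x⟩⟩, ?_, ?_⟩
  · intro i
    apply Subtype.ext
    funext x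
    exact key _ _ _ _
  · intro s hs
    apply Subtype.ext
    funext x
    exact congrArg (fun t : constSec M (U (c x)) => t.1 ⟨x.1, hc x⟩) (hs (c x))

/-- The sheaf `U ↦ {f ∈ K : f ∈ M x for all x ∈ U}` (with value `0` on the empty set) on the
irreducible space `T`. -/
def constSheaf [PreirreducibleSpace T] (M : T → Submodule ℂ K) :
    Sheaf (Opens.grothendieckTopology T) (ModuleCat.{0} ℂ) :=
  ⟨constPresheaf M, constPresheaf_isSheaf M⟩

end Vale.Agent.P299.Q
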