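import Mathlib.Algebra.Category.ModuleCat.AB
import Mathlib.Algebra.Category.ModuleCat.Adjunctions
import Mathlib.AlgebraicGeometry.OrderOfVanishing
import Mathlib.AlgebraicGeometry.Over
import Mathlib.Algebra.Homology.DerivedCategory.Ext.Linear
import Mathlib.CategoryTheory.Linear.FunctorCategory
import Mathlib.CategoryTheory.Abelian.GrothendieckAxioms.Sheaf
import Mathlib.CategoryTheory.Abelian.GrothendieckCategory.HasExt
import Vale.Agent.P299.Q.ConstSheaf

/-!
# The sheaves `O_X(D)`, their direct images and their cohomology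
-/

open CategoryTheory TopologicalSpace Opposite TopCat AlgebraicGeometry Order

namespace Vale.Agent.P299.Q

/-! Shortcut instances (they speed up the kernel). -/

instance instHasSheafify (T : TopCat.{0}) :
    HasSheafify (Opens.grothendieckTopology T) (ModuleCat.{0} ℂ) := inferInstance

noncomputable instance instAbelianSheaf (T : TopCat.{0}) :
    Abelian (Sheaf (Opens.grothendieckTopology T) (ModuleCat.{0} ℂ)) := inferInstance

instance instHasExtSheaf (T : TopCat.{0}) :
    HasExt.{0} (Sheaf (Opens.grothendieckTopology T) (ModuleCat.{0} ℂ)) := inferInstance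

noncomputable instance instLinearSheaf (T : TopCat.{0}) :
    @Linear ℂ _ (Sheaf (Opens.grothendieckTopology T) (ModuleCat.{0} ℂ)) _
      Abelian.toPreadditive := inferInstance

/-- The cohomology space `H^i(T, F)` of a sheaf of complex vector spaces `F` on the topological
space `T`: the space `Ext^i(ℂ_T, F)`, where `ℂ_T` is the constant sheaf. -/
noncomputable abbrev Coh {T : TopCat.{0}}
    (F : Sheaf (Opens.grothendieckTopology T) (ModuleCat.{0} ℂ)) (i : ℕ) : Type :=
  Abelian.Ext.{0} ((constantSheaf (Opens.grothendieckTopology T) (ModuleCat.{0} ℂ)).obj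
    (ModuleCat.of ℂ ℂ)) F i

/-- The base scheme `Spec ℂ`. -/
noncomputable abbrev SpecC : Scheme.{0} := Spec (CommRingCat.of ℂ)

/-- The constant functions on a `ℂ`-scheme. -/
noncomputable def constants (X : Scheme.{0}) [X.Over SpecC] : ℂ →+* Γ(X, ⊤) :=
  ((Scheme.ΓSpecIso (CommRingCat.of ℂ)).inv ≫ (X ↘ SpecC).appTop).hom

instance instNonemptyTop (X : Scheme.{0}) [IsIntegral X] : Nonempty (⊤ : X.Opens) :=
  ⟨⟨genericPoint X, trivial⟩⟩

noncomputable instance instAlgebra (X : Scheme.{0}) [IsIntegral X] [X.Over SpecC] :
    Algebra ℂ X.functionField :=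
  ((X.germToFunctionField ⊤).hom.comp (constants X)).toAlgebra

theorem algebraMap_eq (X : Scheme.{0}) [IsIntegral X] [X.Over SpecC] (c : ℂ) :
    algebraMap ℂ X.functionField c = X.germToFunctionField ⊤ (constants X c) := rfl

/-- `X` is regular in codimension one: the local rings of its points of codimension one are
discrete valuation rings. (All normal, in particular all smooth, varieties have this property.) -/
class RegOne (X : Scheme.{0}) [IsIntegral X] : Prop where
  dvr : ∀ x : X, coheight x = 1 → IsDiscreteValuationRing (X.presheaf.stalk x)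

section Divisor

variable {X : Scheme.{0}} [IsIntegral X] [IsLocallyNoetherian X] [X.Over SpecC]

theorem ord_constant (c : ℂ) (hc : c ≠ 0) (x : X) :
    Scheme.ord (algebraMap ℂ X.functionField c) x = 0 := by
  rw [algebraMap_eq]
  exact Scheme.ord_of_isUnit ((IsUnit.mk0 c hc).map (constants X)) trivial

theorem ord_smul (c : ℂ) (hc : c ≠ 0) (f : X.functionField) (x : X) :
    Scheme.ord (c • f) x = Scheme.ord f x := by
  by_cases hf : f = 0
  · simp [hf]
  have h : algebraMap ℂ X.functionField c ≠ 0 := by
    simpa using hc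
  rw [Algebra.smul_def, Scheme.ord_mul h hf, ord_constant c hc, zero_add]

variable [RegOne X]

/-- The rational functions `f` with `ord_x f + D_x ≥ 0` (no condition if `x` is not of
codimension one). -/
noncomputable def polar (D : X → ℤ) (x : X) : Submodule ℂ X.functionField where
  carrier := {f | coheight x = 1 → f ≠ 0 → 0 ≤ Scheme.ord f x + D x}
  zero_mem' := fun _ h => absurd rfl h
  add_mem' := fun {f g} hf hg hx hfg => by
    by_cases hf0 : f = 0
    · subst hf0
      rw [zero_add] at hfg ⊢
      exact hg hx hfg
    by_cases hg0 : g = 0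
    · subst hg0
      rw [add_zero] at hfg ⊢
      exact hf hx hfg
    have := RegOne.dvr (X := X) x hx
    have h1 := Scheme.ord_add (x := x) hfg
    have h2 := hf hx hf0
    have h3 := hg hx hg0
    rcases min_le_iff.1 h1 with h | h <;> omega
  smul_mem' := fun c f hf hx hcf => by
    have hc : c ≠ 0 := fun h => hcf (by rw [h, zero_smul])
    have hf0 : f ≠ 0 := fun h => hcf (by rw [h, smul_zero])
    rw [ord_smul c hc]
    exact hf hx hf0

theorem mem_polar {D : X → ℤ} {x : X} {f : X.functionField} :
    f ∈ polar D x ↔ (coheight x = 1 → f ≠ 0 → 0 ≤ Scheme.ord f x + D x) := Iff.rfl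

/-- The space `H^0(X, O_X(D))` of the rational functions `f` with `div f + D ≥ 0`. -/
noncomputable def H0 (D : X → ℤ) : Submodule ℂ X.functionField := ⨅ x, polar D x

theorem mem_H0 {D : X → ℤ} {f : X.functionField} :
    f ∈ H0 D ↔ ∀ x : X, coheight x = 1 → f ≠ 0 → 0 ≤ Scheme.ord f x + D x := by
  simp only [H0, Submodule.mem_iInf, mem_polar]

/-- The sheaf `O_X(D)` on `X`: its sections over a nonempty open set `U` are the rational functions
`f` with `ord_x f + D_x ≥ 0` for all points `x` of codimension one in `U`. -/
noncomputable def OX (D : X → ℤ) :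
    Sheaf (Opens.grothendieckTopology (X : TopCat.{0})) (ModuleCat.{0} ℂ) :=
  constSheaf (T := (X : TopCat.{0})) (polar D)

/-- The direct image `f_* O_X(D)` under a morphism `f : X ⟶ Y`: its sections over an open set `V`
of `Y` are those of `O_X(D)` over `f⁻¹(V)`. -/
noncomputable def pushOX {Y : Scheme.{0}} (f : X ⟶ Y) (D : X → ℤ) :
    Sheaf (Opens.grothendieckTopology (Y : TopCat.{0})) (ModuleCat.{0} ℂ) :=
  (TopCat.Sheaf.pushforward (ModuleCat.{0} ℂ) f.base).obj (OX D)

end Divisor

end Vale.Agent.P299.Q
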