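import Mathlib.AlgebraicGeometry.Morphisms.Smooth
import Mathlib.AlgebraicGeometry.Noetherian
import Vale.Agent.P299.Q.Sheaf
import Vale.Agent.P299.Q.EtaleNormal

/-!
# Smooth varieties are normal, and regular in codimension one
-/

open CategoryTheory TopologicalSpace Opposite TopCat AlgebraicGeometry Order

namespace Vale.Agent.P299.Q

/-- The stalks of an integral scheme smooth over `ℂ` are integrally closed. -/
theorem isIntegrallyClosed_stalk_of_smooth (X : Scheme.{0}) [IsIntegral X] [X.Over SpecC]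
    [Smooth (X ↘ SpecC)] (x : X) : IsIntegrallyClosed (X.presheaf.stalk x) := by
  obtain ⟨_, ⟨V, hV, rfl⟩, hxV, -⟩ :=
    X.isBasis_affineOpens.exists_subset_of_mem_open (Set.mem_univ x) isOpen_univ
  have hU : IsAffineOpen (⊤ : SpecC.Opens) := isAffineOpen_top _
  have e : V ≤ (X ↘ SpecC) ⁻¹ᵁ (⊤ : SpecC.Opens) := le_top
  have hs := (X ↘ SpecC).smooth_appLE hU hV e
  have : Nonempty V := ⟨⟨x, hxV⟩⟩
  algebraize [((X ↘ SpecC).appLE ⊤ V e).hom]
  let eR : ℂ ≃+* Γ(SpecC, ⊤) := (Scheme.ΓSpecIso (CommRingCat.of ℂ)).symm.commRingCatIsoToRingEquiv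
  have : IsDomain Γ(SpecC, ⊤) := eR.symm.toMulEquiv.isDomain
  have : UniqueFactorizationMonoid Γ(SpecC, ⊤) :=
    MulEquiv.uniqueFactorizationMonoid eR.toMulEquiv inferInstance
  let _ := TopCat.Presheaf.algebra_section_stalk X.presheaf (U := V) ⟨x, hxV⟩
  have := hV.isLocalization_stalk ⟨x, hxV⟩
  exact isIntegrallyClosed_of_smooth_of_atPrime Γ(SpecC, ⊤) Γ(X, V) (X.presheaf.stalk x)
    (hV.primeIdealOf ⟨x, hxV⟩).asIdeal

/-- Smooth varieties are regular in codimension one. -/
instance regOne_of_smooth (X : Scheme.{0}) [IsIntegral X] [X.Over SpecC]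
    [IsLocallyNoetherian X] [Smooth (X ↘ SpecC)] : RegOne X where
  dvr x hx := by
    have := isIntegrallyClosed_stalk_of_smooth X x
    refine isDiscreteValuationRing_of_dim_one _ ?_
    rw [ringKrullDim_stalk_eq_coheight, hx]
    rfl

/-- Schemes smooth over `ℂ` are locally Noetherian. -/
instance isLocallyNoetherian_of_smooth (X : Scheme.{0}) [X.Over SpecC] [Smooth (X ↘ SpecC)] :
    IsLocallyNoetherian X :=
  LocallyOfFiniteType.isLocallyNoetherian (X ↘ SpecC)

end Vale.Agent.P299.Q
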