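import Mathlib.Analysis.Calculus.ContDiff.Defs
import Mathlib.Analysis.Calculus.IteratedDeriv.Defs
import Mathlib.Analysis.SpecialFunctions.Log.Basic
import Mathlib.Analysis.Complex.Basic
import Mathlib.RingTheory.Derivation.Basic
import Mathlib.LinearAlgebra.Alternating.Basic
import Mathlib.Algebra.Polynomial.Eval.Defs
import Mathlib.FieldTheory.IntermediateField.Basic
import Mathlib.AlgebraicGeometry.Morphisms.Proper
import Mathlib.CategoryTheory.Linear.FunctorCategory
import Vale.Agent.P299.Q.Smooth

/-!
# Smooth projective varieties: divisors, metrics, differential forms, intersection numbers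
-/

open CategoryTheory TopologicalSpace Opposite TopCat AlgebraicGeometry Order

namespace Vale.Agent.P299.Q

/-! ### Divisors -/

/-- A (Weil) divisor on `X`: an integer for every point of codimension one, almost all zero. -/
abbrev Div (X : Scheme.{0}) : Type := {x : X // coheight x = 1} →₀ ℤ

/-- The coefficient of the divisor `D` at the point `x` (zero unless `x` has codimension one). -/
noncomputable def coef {X : Scheme.{0}} (D : Div X) (x : X) : ℤ :=
  open Classical in if h : coheight x = 1 then D ⟨x, h⟩ else 0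

section Divisors

variable {X : Scheme.{0}} [IsIntegral X] [IsLocallyNoetherian X]

/-- The rational function `s` generates `O_X(D)` near the point `x`: `div s + D = 0` near `x`. -/
def GenAt (D : Div X) (s : X.functionField) (x : X) : Prop :=
  s ≠ 0 ∧ ∀ y : X, coheight y = 1 → y ⤳ x → Scheme.ord s y + coef D y = 0

/-- The divisor `D` is the divisor of the rational function `g`. -/
def IsDivOf (g : X.functionField) (D : Div X) : Prop :=
  g ≠ 0 ∧ ∀ y : X, coheight y = 1 → Scheme.ord g y = coef D y

variable [X.Over SpecC] [RegOne X]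

/-- `A` is ample: every point of `X` lies in an affine open set of the form `X_s`, with
`s ∈ H^0(X, mA)` and `m > 0`, where `X_s` is the set where `s` generates `O_X(mA)`. -/
def IsAmple (A : Div X) : Prop :=
  ∀ x : X, ∃ m : ℕ, 0 < m ∧ ∃ s ∈ H0 (coef (m • A)), ∃ U : X.Opens,
    IsAffineOpen U ∧ x ∈ U ∧ ∀ y : X, y ∈ U ↔ GenAt (m • A) s y

/-- `O_X(A)` is generated by its global sections. -/
def IsGenerated (A : Div X) : Prop :=
  ∀ x : X, ∃ s ∈ H0 (coef A), GenAt A s x

/-- `D` is nef: `mD + A` is ample for every ample `A` and every `m ≥ 0`. -/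
def IsNef (D : Div X) : Prop :=
  ∀ A : Div X, IsAmple A → ∀ m : ℕ, IsAmple (m • D + A)

/-- `D` is pseudo-effective: for every ample `A` and every `m ≥ 0` some positive multiple of
`mD + A` has a nonzero section. -/
def IsPsef (D : Div X) : Prop :=
  ∀ A : Div X, IsAmple A → ∀ m : ℕ, ∃ k : ℕ, 0 < k ∧ H0 (coef (k • (m • D + A))) ≠ ⊥

/-- `D` is big: for every divisor `A` some positive multiple of `D`, minus `A`, has a nonzero
section. -/
def IsBig (D : Div X) : Prop :=
  ∀ A : Div X, ∃ k : ℕ, 0 < k ∧ H0 (coef (k • D - A)) ≠ ⊥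

end Divisors

/-! ### Varieties and dominant morphisms -/

/-- A smooth projective variety over `ℂ`: an integral scheme, smooth and proper over `ℂ`, with an
ample divisor. -/
structure Var where
  /-- the scheme -/
  X : Scheme.{0}
  [over : X.Over SpecC]
  [int : IsIntegral X]
  [smooth : Smooth (X ↘ SpecC)]
  [proper : IsProper (X ↘ SpecC)]
  ample : ∃ A : Div X, IsAmple A

attribute [instance] Var.over Var.int Var.smooth Var.proper

/-- The function field of a variety. -/
abbrev Var.K (X : Var) : Type := X.X.functionField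

/-- A dominant morphism of varieties over `ℂ`. -/
structure DomHom (X Y : Var) where
  /-- the morphism -/
  f : X.X ⟶ Y.X
  over : f ≫ (Y.X ↘ SpecC) = X.X ↘ SpecC
  dominant : f (genericPoint X.X) = genericPoint Y.X

/-- The pull back of rational functions under a dominant morphism. -/
noncomputable def DomHom.pull {X Y : Var} (φ : DomHom X Y) : Y.K →+* X.K :=
  (φ.f.stalkMap (genericPoint X.X)).hom.comp
    (Y.X.presheaf.stalkSpecializes (specializes_of_eq φ.dominant)).hom

/-- `D` is the pull back `φ^*B` of the divisor `B`: at every point `x` of codimension one of `X`,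
`D_x = ord_x (φ^* g)` for some local equation `g` of `B` at `φ(x)`. -/
def IsPullback {X Y : Var} (φ : DomHom X Y) (B : Div Y.X) (D : Div X.X) : Prop :=
  ∀ x : X.X, coheight x = 1 → ∃ g : Y.K, GenAt (-B) g (φ.f x) ∧
    coef D x = Scheme.ord (φ.pull g) x

/-! ### Differential forms -/

/-- The rational vector fields on `X`. -/
abbrev Var.Der (X : Var) : Type := Derivation ℂ X.K X.K

/-- The rational vector field `v` is regular at the point `x`: it preserves the local ring. -/
def RegDer {X : Var} (x : X.X) (v : X.Der) : Prop :=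
  ∀ a : X.X.presheaf.stalk x, ∃ b : X.X.presheaf.stalk x,
    v (algebraMap _ X.K a) = algebraMap _ X.K b

/-- The dimension of a variety. -/
noncomputable def Var.dim (X : Var) : ℕ := Module.finrank X.K X.Der

/-- The rational sections of the tensor power `(Ω^1_X)^{⊗N}`, as multilinear functions of `N`
rational vector fields. -/
abbrev Var.Ten (X : Var) (N : ℕ) : Type := MultilinearMap X.K (fun _ : Fin N => X.Der) X.K

/-- `e` is a global section of `(Ω^1_X)^{⊗N} ⊗ O_X(D)`: at every point `x` of codimension one its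
values on regular vector fields lie in `O_X(D)`. -/
def IsTwTensor {X : Var} {N : ℕ} (e : X.Ten N) (D : Div X.X) : Prop :=
  ∀ x : X.X, coheight x = 1 → ∀ v : Fin N → X.Der, (∀ i, RegDer x (v i)) → e v ≠ 0 →
    0 ≤ Scheme.ord (e v) x + coef D x

/-- The divisor of the nonzero rational section `e` of `(Ω^1_X)^{⊗N}`: its coefficient at `x` is the
least order of the values of `e` on vector fields regular at `x`. -/
def IsDivTensor {X : Var} {N : ℕ} (e : X.Ten N) (D : Div X.X) : Prop :=
  ∀ x : X.X, coheight x = 1 →
    IsLeast {n : ℤ | ∃ v : Fin N → X.Der, (∀ i, RegDer x (v i)) ∧ e v ≠ 0 ∧ Scheme.ord (e v) x = n}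
      (coef D x)

/-- `e` is a rational differential form (of degree `N`): it is alternating. -/
def IsAlt {X : Var} {N : ℕ} (e : X.Ten N) : Prop :=
  ∀ v : Fin N → X.Der, ∀ i j, v i = v j → i ≠ j → e v = 0

/-! ### Metrics -/

/-- The rational function `f` is regular at the point `x` with value `c ∈ ℂ` there. -/
def HasValue {X : Var} (f : X.K) (x : X.X) (c : ℂ) : Prop :=
  ∃ a : X.X.presheaf.stalk x, a ∈ IsLocalRing.maximalIdeal (X.X.presheaf.stalk x) ∧
    algebraMap _ X.K a = f - algebraMap ℂ X.K c

/-- The complex Hessian (Levi form) of the smooth function `Φ` on `ℂ^N` at `z`, evaluated at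
`(v, v)`, up to the factor `1/4`. -/
noncomputable def levi {N : ℕ} (Φ : (Fin N → ℂ) → ℝ) (z v : Fin N → ℂ) : ℝ :=
  iteratedFDeriv ℝ 2 Φ z ![v, v] + iteratedFDeriv ℝ 2 Φ z ![Complex.I • v, Complex.I • v]

/-- `v ∈ ℂ^N` is tangent at `g(x)` to the image of `X` under `g = (g_1, …, g_N)`: it is the image
`(δ g_1, …, δ g_N)` of a tangent vector (point derivation of the local ring) `δ` at `x`. -/
def IsTangent {X : Var} {N : ℕ} (g : Fin N → X.K) (x : X.X) (v : Fin N → ℂ) : Prop :=
  ∃ δ : X.K → ℂ, (∀ c, δ (algebraMap ℂ X.K c) = 0) ∧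
    (∀ a b : X.K, ∀ α β : ℂ, HasValue a x α → HasValue b x β →
      δ (a + b) = δ a + δ b ∧ δ (a * b) = α * δ b + β * δ a) ∧
    ∀ i, v i = δ (g i)

/-- The line bundle `O_X(D)` has a smooth Hermitian metric of semipositive curvature. The metric is
given by its weights `w f x = -log |f(x)|²`, for `f` a generator of `O_X(D)` near the closed
point `x`; in affine coordinates `g_1, …, g_N` on a neighbourhood of a closed point the weight is
given by a smooth function `Φ` on an open subset of `ℂ^N` whose Levi form is nonnegative on the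
tangent spaces of `X`. -/
def SemiPos {X : Var} (D : Div X.X) : Prop :=
  ∃ w : X.K → X.X → ℝ,
    (∀ (f f' : X.K) (x : X.X) (c : ℂ), IsClosed {x} → GenAt D f x → GenAt D f' x →
      HasValue (f' / f) x c → w f' x = w f x - Real.log (‖c‖ ^ 2)) ∧
    ∀ x : X.X, IsClosed {x} → ∃ (U : X.X.Opens) (f : X.K) (N : ℕ)
      (g : Fin N → Γ(X.X, U)) (_ : Nonempty U) (Φ : (Fin N → ℂ) → ℝ) (W : Set (Fin N → ℂ)),
      IsAffineOpen U ∧ x ∈ U ∧ (∀ y ∈ U, GenAt D f y) ∧
      Subring.closure (Set.range g ∪ Set.range
        ((X.X.presheaf.map (homOfLE (le_top : U ≤ ⊤)).op).hom.comp (constants X.X))) = ⊤ ∧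
      IsOpen W ∧ ContDiffOn ℝ ((⊤ : ℕ∞) : WithTop ℕ∞) Φ W ∧
      (∃ z ∈ W, ∀ i, HasValue (X.X.germToFunctionField U (g i)) x (z i)) ∧
      ∀ y ∈ U, IsClosed {y} → ∀ z ∈ W,
        (∀ i, HasValue (X.X.germToFunctionField U (g i)) y (z i)) →
        w f y = Φ z ∧
        ∀ v, IsTangent (fun i => X.X.germToFunctionField U (g i)) y v → 0 ≤ levi Φ z v

/-! ### Cohomology of invariant direct images, intersection numbers -/

/-- For a map `q : X → S` to an irreducible space `S`, a complex subspace `E` of the function field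
of `X` and a divisor `D`, the sheaf on `S` whose sections over `V ≠ ∅` are the `f ∈ E` with
`ord_x f + D_x ≥ 0` for all points `x` of codimension one with `q(x) ∈ V`. It is the subsheaf of
the direct image `q_* O_X(D)` of the sections which belong to `E`. -/
noncomputable def secSheaf {X : Var} {S : TopCat.{0}} [PreirreducibleSpace S] (q : X.X → S)
    (E : Submodule ℂ X.K) (D : Div X.X) :
    Sheaf (Opens.grothendieckTopology S) (ModuleCat.{0} ℂ) :=
  constSheaf (T := S) fun s => E ⊓ ⨅ x, ⨅ _ : q x = s, polar (coef D) x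

/-- `h^i = dim H^i` of the sheaf `secSheaf q E D`. -/
noncomputable def hh {X : Var} {S : TopCat.{0}} [PreirreducibleSpace S] (q : X.X → S)
    (E : Submodule ℂ X.K) (D : Div X.X) (i : ℕ) : ℕ :=
  Module.finrank ℂ (Coh (secSheaf q E D) i)

/-- The Euler characteristic of `O_X(D)`. -/
noncomputable def chi {X : Var} (D : Div X.X) : ℤ :=
  ∑ i ∈ Finset.range (X.dim + 1),
    (-1) ^ i * (hh (S := (X.X : TopCat.{0})) id ⊤ D i : ℤ)

/-- The intersection number `D_1 ⋯ D_n` of `n = dim X` divisors (Snapper's definition). -/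
noncomputable def inter {X : Var} (D : Fin X.dim → Div X.X) : ℤ :=
  ∑ S : Finset (Fin X.dim), (-1) ^ S.card * chi (-∑ i ∈ S, D i)

end Vale.Agent.P299.Q
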