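import Mathlib.Algebra.MonoidAlgebra.Basic
import Mathlib.AlgebraicGeometry.Pullbacks
import Vale.Agent.P299.Q.Defs

/-!
# Torus actions and invariants
-/

open CategoryTheory TopologicalSpace Opposite TopCat AlgebraicGeometry Order

namespace Vale.Agent.P299.Q

/-- The coordinate ring `ℂ[ℤ^r]` of the torus `(ℂ^*)^r`. -/
abbrev LaurentRing (r : ℕ) : Type := AddMonoidAlgebra ℂ (Fin r → ℤ)

/-- The evaluation of Laurent polynomials at the point `t` of `(ℂ^*)^r`. -/
noncomputable def evalAt {r : ℕ} (t : Fin r → ℂˣ) : LaurentRing r →ₐ[ℂ] ℂ :=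
  AddMonoidAlgebra.lift ℂ ℂ (Fin r → ℤ)
    { toFun := fun m => ((∏ i, t i ^ (Multiplicative.toAdd m) i : ℂˣ) : ℂ)
      map_one' := by simp
      map_mul' := fun m n => by
        rw [← Units.val_mul, ← Finset.prod_mul_distrib]
        congr 1
        exact Finset.prod_congr rfl fun i _ => zpow_add _ _ _ }

/-- An algebraic action of the torus `(ℂ^*)^r` on the variety `X` (for `r = 0`: the trivial group):
automorphisms `act t` of `X` over `ℂ`, `t ∈ (ℂ^*)^r`, which are the members of a family given by a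
morphism `Spec ℂ[ℤ^r] × X → X`. -/
structure TAct (r : ℕ) (X : Var) where
  /-- the action of `t ∈ (ℂ^*)^r` -/
  act : (Fin r → ℂˣ) → DomHom X X
  act_one : (act 1).f = 𝟙 X.X
  act_mul : ∀ s t, (act (s * t)).f = (act s).f ≫ (act t).f
  algebraic : ∃ a : Limits.pullback (Spec.map (CommRingCat.ofHom (algebraMap ℂ (LaurentRing r))))
      (X.X ↘ SpecC) ⟶ X.X,
    ∀ t, ∀ j : X.X ⟶ Limits.pullback (Spec.map (CommRingCat.ofHom
        (algebraMap ℂ (LaurentRing r)))) (X.X ↘ SpecC),
      j ≫ Limits.pullback.fst _ _ =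
        (X.X ↘ SpecC) ≫ Spec.map (CommRingCat.ofHom (evalAt t).toRingHom) →
      j ≫ Limits.pullback.snd _ _ = 𝟙 X.X → j ≫ a = (act t).f

theorem DomHom.pull_germ_top {X Y : Var} (φ : DomHom X Y) (s : Γ(Y.X, ⊤)) :
    φ.pull (Y.X.germToFunctionField ⊤ s) = X.X.germToFunctionField ⊤ (φ.f.appTop s) := by
  have hY : genericPoint Y.X ∈ (⊤ : Y.X.Opens) := Opens.mem_top _
  have hX : φ.f (genericPoint X.X) ∈ (⊤ : Y.X.Opens) := Opens.mem_top _
  have h2 : (Y.X.presheaf.germ ⊤ _ hY ≫ Y.X.presheaf.stalkSpecializes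
      (specializes_of_eq φ.dominant)) ≫ φ.f.stalkMap (genericPoint X.X) =
      φ.f.appTop ≫ X.X.presheaf.germ ⊤ (genericPoint X.X) (Opens.mem_top _) := by
    rw [TopCat.Presheaf.germ_stalkSpecializes]
    exact Scheme.Hom.germ_stalkMap φ.f ⊤ _ hX
  exact congrArg (fun f => f.hom s) h2

theorem DomHom.pull_scalar {X Y : Var} (φ : DomHom X Y) (c : ℂ) :
    φ.pull (algebraMap ℂ Y.K c) = algebraMap ℂ X.K c := by
  rw [algebraMap_eq, algebraMap_eq, φ.pull_germ_top]
  congr 1
  have h : (Scheme.ΓSpecIso (CommRingCat.of ℂ)).inv ≫ (Y.X ↘ SpecC).appTop ≫ φ.f.appTop =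
      (Scheme.ΓSpecIso (CommRingCat.of ℂ)).inv ≫ (X.X ↘ SpecC).appTop := by
    rw [← Scheme.Hom.comp_appTop, φ.over]
  exact congrArg (fun f => f.hom c) h

/-- The space of the `T`-invariant rational functions on `X`. -/
noncomputable def TAct.inv {r : ℕ} {X : Var} (τ : TAct r X) : Submodule ℂ X.K where
  carrier := {f | ∀ t, (τ.act t).pull f = f}
  zero_mem' := fun t => map_zero _
  add_mem' := fun {f g} hf hg t => by rw [map_add, hf t, hg t]
  smul_mem' := fun c f hf t => by
    rw [Algebra.smul_def, map_mul, (τ.act t).pull_scalar, hf t]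

/-- The divisor `D` is `T`-invariant. -/
def TAct.InvDiv {r : ℕ} {X : Var} (τ : TAct r X) (D : Div X.X) : Prop :=
  ∀ t x, coef D ((τ.act t).f x) = coef D x

/-- The rational tensor `e` is `T`-invariant: `e(t v_1 t⁻¹, …, t v_N t⁻¹) = t (e(v_1, …, v_N))` for
all `t ∈ T` and all rational vector fields `v_i`. -/
def TAct.InvTensor {r : ℕ} {X : Var} (τ : TAct r X) {N : ℕ} (e : X.Ten N) : Prop :=
  ∀ t, ∀ v v' : Fin N → X.Der, (∀ i f, v' i ((τ.act t).pull f) = (τ.act t).pull (v i f)) →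
    e v' = (τ.act t).pull (e v)

/-- The morphism `φ : X → Y` is `T`-invariant. -/
def TAct.InvHom {r : ℕ} {X Y : Var} (τ : TAct r X) (φ : DomHom X Y) : Prop :=
  ∀ t, (τ.act t).f ≫ φ.f = φ.f

/-- `κ` is a `T`-invariant canonical divisor: it is the divisor of a nonzero `T`-invariant rational
differential form of degree `dim X`. The `T`-linearised line bundle `O_X(κ)` is then the canonical
bundle with its natural linearisation. -/
def TAct.IsCanonical {r : ℕ} {X : Var} (τ : TAct r X) (κ : Div X.X) : Prop :=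
  ∃ ω : X.Ten X.dim, ω ≠ 0 ∧ IsAlt ω ∧ τ.InvTensor ω ∧ IsDivTensor ω κ

/-- The `T`-invariant topology of `X`: its open sets are the `T`-invariant open subsets of `X`. -/
@[instance_reducible]
def TAct.top {r : ℕ} {X : Var} (τ : TAct r X) : TopologicalSpace X.X where
  IsOpen U := IsOpen U ∧ ∀ t, (τ.act t).f ⁻¹' U = U
  isOpen_univ := ⟨isOpen_univ, fun _ => rfl⟩
  isOpen_inter U V hU hV := ⟨hU.1.inter hV.1, fun t => by
    rw [Set.preimage_inter, hU.2 t, hV.2 t]⟩
  isOpen_sUnion S hS := ⟨isOpen_sUnion fun U hU => (hS U hU).1, fun t => by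
    rw [Set.preimage_sUnion, Set.sUnion_eq_biUnion]
    exact Set.iUnion₂_congr fun U hU => (hS U hU).2 t⟩

/-- The set `X` with the topology of the `T`-invariant open sets; up to points with the same
neighbourhoods this is the space of orbits. -/
def TAct.space {r : ℕ} {X : Var} (τ : TAct r X) : TopCat.{0} := @TopCat.of X.X τ.top

instance {r : ℕ} {X : Var} (τ : TAct r X) : PreirreducibleSpace τ.space where
  isPreirreducible_univ := by
    rintro U V ⟨hU, -⟩ ⟨hV, -⟩ ⟨x, -, hx⟩ ⟨y, -, hy⟩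
    obtain ⟨z, hz⟩ := nonempty_preirreducible_inter (X := X.X) hU hV ⟨x, hx⟩ ⟨y, hy⟩
    exact ⟨z, trivial, hz⟩

/-- `dim H^i(X, O_X(D))^T` for a `T`-invariant divisor `D`. Since every point of `X` has a
`T`-invariant affine neighbourhood (Sumihiro) and taking `T`-invariants is exact, this is the
cohomology of the sheaf of `T`-invariant sections of `O_X(D)` for the topology of the `T`-invariant
open subsets. For `r = 0` it is `dim H^i(X, O_X(D))`. -/
noncomputable def TAct.h {r : ℕ} {X : Var} (τ : TAct r X) (D : Div X.X) (i : ℕ) : ℕ :=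
  hh (S := τ.space) id τ.inv D i

/-- `dim H^i(Y, (φ_* O_X(D))^T)` for a `T`-invariant morphism `φ : X → Y` and a `T`-invariant
divisor `D` on `X`. -/
noncomputable def TAct.hY {r : ℕ} {X Y : Var} (τ : TAct r X) (φ : DomHom X Y) (D : Div X.X)
    (i : ℕ) : ℕ :=
  hh (S := (Y.X : TopCat.{0})) φ.f τ.inv D i

end Vale.Agent.P299.Q
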