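import Mathlib.Algebra.MvPolynomial.Eval
import Mathlib.RingTheory.Localization.Away.Basic
import Mathlib.AlgebraicGeometry.Morphisms.Separated
import Vale.Agent.P299.Q.Torus
import Vale.Agent.P299.Q.DomHom

/-!
# Rationality of the action of a torus on the function field
-/

open CategoryTheory TopologicalSpace Opposite TopCat AlgebraicGeometry Order

namespace Vale.Agent.P299.Q

variable {X Y : Var}

/-! ### Morphisms and the generic point -/

/-- The generic point as a morphism from the spectrum of the function field. -/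
noncomputable abbrev genPt (X : Var) : Spec (CommRingCat.of X.K) ⟶ X.X :=
  X.X.fromSpecStalk (genericPoint X.X)

theorem genPt_over (X : Var) :
    genPt X ≫ (X.X ↘ SpecC) = Spec.map (CommRingCat.ofHom (algebraMap ℂ X.K)) := by
  apply ext_of_isAffine
  rw [Scheme.Hom.comp_appTop]
  have h1 : (genPt X).appTop = X.X.presheaf.germ ⊤ (genericPoint X.X) trivial ≫
      (Scheme.ΓSpecIso (X.X.presheaf.stalk (genericPoint X.X))).inv := by
    have h2 := Scheme.fromSpecStalk_appTop (X := X.X) (x := genericPoint X.X)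
    refine h2.trans ?_
    congr 1
  have h5 : (Spec.map (CommRingCat.ofHom (algebraMap ℂ X.K))).appTop =
      (Scheme.ΓSpecIso (CommRingCat.of ℂ)).hom ≫ CommRingCat.ofHom (algebraMap ℂ X.K) ≫
        (Scheme.ΓSpecIso (CommRingCat.of X.K)).inv := by
    rw [← Scheme.ΓSpecIso_naturality_assoc, Iso.hom_inv_id, Category.comp_id]
  rw [h5, h1]
  have h6 : CommRingCat.ofHom (algebraMap ℂ X.K) = (Scheme.ΓSpecIso (CommRingCat.of ℂ)).inv ≫
      (X.X ↘ SpecC).appTop ≫ X.X.presheaf.germ ⊤ (genericPoint X.X) trivial := by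
    ext c
    rfl
  rw [h6]
  simp only [Category.assoc, Iso.hom_inv_id_assoc]
  rfl

theorem genPt_comp (φ : DomHom X Y) :
    genPt X ≫ φ.f = Spec.map (CommRingCat.ofHom φ.pull) ≫ genPt Y := by
  have hgy : φ.f (genericPoint X.X) ⤳ genericPoint Y.X := specializes_of_eq φ.dominant
  have hj : CommRingCat.ofHom φ.pull = Y.X.presheaf.stalkSpecializes (specializes_of_eq φ.dominant) ≫
      φ.f.stalkMap (genericPoint X.X) := by
    ext a
    rfl
  rw [hj, Spec.map_comp, Category.assoc, Scheme.SpecMap_stalkSpecializes_fromSpecStalk,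
    Scheme.SpecMap_stalkMap_fromSpecStalk]

theorem range_genPt (X : Var) (x : Spec (CommRingCat.of X.K)) :
    genPt X x = genericPoint X.X := by
  have h : genPt X x ∈ Set.range (genPt X) := ⟨x, rfl⟩
  rw [Scheme.range_fromSpecStalk] at h
  exact (Specializes.antisymm ((genericPoint_spec X.X).specializes trivial) h).symm.eq

instance (X : Var) : IsDominant (genPt X) := by
  constructor
  have h : Dense (Set.range (genPt X)) := by
    rw [dense_iff_closure_eq]
    apply Set.eq_univ_of_univ_subset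
    have h1 : closure {genericPoint X.X} = Set.univ := (genericPoint_spec X.X).def
    rw [← h1]
    apply closure_mono
    rw [Set.singleton_subset_iff, Scheme.range_fromSpecStalk]
    exact specializes_rfl
  exact h

/-- A dominant morphism is determined by the pull back of rational functions. -/
theorem DomHom.f_eq_of_pull_eq {φ ψ : DomHom X Y} (h : φ.pull = ψ.pull) : φ.f = ψ.f := by
  have : IsSeparated (Y.X ↘ SpecC) := inferInstance
  refine ext_of_isDominant_of_isSeparated (Y.X ↘ SpecC) (by rw [φ.over, ψ.over]) (genPt X) ?_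
  rw [genPt_comp, genPt_comp, h]

/-- An element of the torus which acts trivially on the function field acts trivially. -/
theorem TAct.f_eq_id {r : ℕ} (τ : TAct r X) (s : Fin r → ℂˣ)
    (h : ∀ f, (τ.act s).pull f = f) : (τ.act s).f = 𝟙 X.X :=
  DomHom.f_eq_of_pull_eq (φ := τ.act s) (ψ := DomHom.id X) (by
    ext f
    rw [h f, DomHom.pull_id])

/-! ### The coordinate ring of the torus over a field -/

section Ring

/-- The homomorphism of `ℂ[ℤ^r]` given by `r` units. -/
noncomputable def evalU {r : ℕ} {S : Type} [CommRing S] [Algebra ℂ S] (u : Fin r → Sˣ) :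
    LaurentRing r →ₐ[ℂ] S :=
  AddMonoidAlgebra.lift ℂ S (Fin r → ℤ)
    { toFun := fun m => ((∏ i, u i ^ (Multiplicative.toAdd m) i : Sˣ) : S)
      map_one' := by simp
      map_mul' := fun m n => by
        rw [← Units.val_mul, ← Finset.prod_mul_distrib]
        congr 1
        exact Finset.prod_congr rfl fun i _ => zpow_add _ _ _ }

theorem evalU_single {r : ℕ} {S : Type} [CommRing S] [Algebra ℂ S] (u : Fin r → Sˣ)
    (m : Fin r → ℤ) (c : ℂ) : evalU u (AddMonoidAlgebra.single m c) =
      c • ((∏ i, u i ^ m i : Sˣ) : S) := by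
  rw [evalU, AddMonoidAlgebra.lift_single]
  rfl

theorem evalU_eq_evalAt {r : ℕ} (s : Fin r → ℂˣ) : evalU s = evalAt s := rfl

theorem comp_evalU {r : ℕ} {S S' : Type} [CommRing S] [Algebra ℂ S] [CommRing S'] [Algebra ℂ S']
    (h : S →+* S') (hh : ∀ c : ℂ, h (algebraMap ℂ S c) = algebraMap ℂ S' c) (u : Fin r → Sˣ) :
    h.comp (evalU u).toRingHom = (evalU fun i => Units.map h.toMonoidHom (u i)).toRingHom := by
  refine AddMonoidAlgebra.ringHom_ext (fun c => ?_) fun m => ?_
  · change h (evalU u (AddMonoidAlgebra.single 0 c)) = evalU _ (AddMonoidAlgebra.single 0 c)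
    rw [evalU_single, evalU_single, Algebra.smul_def, Algebra.smul_def, map_mul, hh]
    simp
  · change h (evalU u (AddMonoidAlgebra.single m 1)) = evalU _ (AddMonoidAlgebra.single m 1)
    rw [evalU_single, evalU_single, one_smul, one_smul]
    have h1 : h ((∏ i, u i ^ m i : Sˣ) : S) = ((Units.map h.toMonoidHom (∏ i, u i ^ m i) : S'ˣ) : S') :=
      rfl
    rw [h1, map_prod]
    congr 1
    exact Finset.prod_congr rfl fun i _ => map_zpow _ _ _

variable (r : ℕ) (K : Type) [Field K]

/-- The product of the variables. -/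
noncomputable def mon : MvPolynomial (Fin r) K := ∏ i, MvPolynomial.X i

theorem mon_ne_zero : mon r K ≠ 0 :=
  Finset.prod_ne_zero_iff.2 fun i _ => MvPolynomial.X_ne_zero i

/-- The coordinate ring of the torus over the field `K`. -/
abbrev LRing : Type := Localization.Away (mon r K)

theorem powers_mon_le : Submonoid.powers (mon r K) ≤ nonZeroDivisors (MvPolynomial (Fin r) K) :=
  powers_le_nonZeroDivisors_of_noZeroDivisors (mon_ne_zero r K)

instance : IsDomain (LRing r K) :=
  IsLocalization.isDomain_of_le_nonZeroDivisors _ (powers_mon_le r K)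

variable {r K}

theorem isUnit_X (i : Fin r) : IsUnit (algebraMap (MvPolynomial (Fin r) K) (LRing r K)
    (MvPolynomial.X i)) := by
  have h1 : IsUnit (algebraMap (MvPolynomial (Fin r) K) (LRing r K) (mon r K)) :=
    IsLocalization.Away.algebraMap_isUnit _
  refine isUnit_of_dvd_unit ?_ h1
  exact map_dvd _ (Finset.dvd_prod_of_mem _ (Finset.mem_univ i))

theorem isUnit_eval_mon (s : Fin r → Kˣ) :
    IsUnit (MvPolynomial.eval (fun i => (s i : K)) (mon r K)) := by
  rw [mon, map_prod]
  simp only [MvPolynomial.eval_X]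
  rw [isUnit_iff_ne_zero]
  exact Finset.prod_ne_zero_iff.2 fun i _ => (s i).ne_zero

/-- The evaluation at a point of the torus. -/
noncomputable def evL (s : Fin r → Kˣ) : LRing r K →+* K :=
  IsLocalization.Away.lift (mon r K) (g := MvPolynomial.eval (fun i => (s i : K)))
    (isUnit_eval_mon s)

theorem evL_algebraMap (s : Fin r → Kˣ) (p : MvPolynomial (Fin r) K) :
    evL s (algebraMap _ (LRing r K) p) = MvPolynomial.eval (fun i => (s i : K)) p :=
  IsLocalization.Away.lift_eq _ _ p

theorem evL_algebraMap' (s : Fin r → Kˣ) (c : K) :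
    evL s (algebraMap K (LRing r K) c) = c := by
  rw [IsScalarTower.algebraMap_apply K (MvPolynomial (Fin r) K) (LRing r K), evL_algebraMap,
    MvPolynomial.algebraMap_eq, MvPolynomial.eval_C]

/-- The coordinates as units. -/
noncomputable def uX (r : ℕ) (K : Type) [Field K] : Fin r → (LRing r K)ˣ := fun i => (isUnit_X i).unit

theorem uX_val (i : Fin r) :
    (uX r K i : LRing r K) = algebraMap (MvPolynomial (Fin r) K) (LRing r K) (MvPolynomial.X i) :=
  IsUnit.unit_spec _

theorem map_uX (s : Fin r → Kˣ) (i : Fin r) :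
    Units.map (evL s).toMonoidHom (uX r K i) = s i := by
  apply Units.ext
  rw [Units.coe_map]
  have h : evL s (uX r K i : LRing r K) = s i := by
    rw [uX_val, evL_algebraMap, MvPolynomial.eval_X]
  exact h

/-- A regular function on the torus is a quotient of polynomials. -/
theorem exists_num (p : LRing r K) : ∃ (P : MvPolynomial (Fin r) K) (k : ℕ),
    p * (algebraMap _ (LRing r K) (mon r K)) ^ k = algebraMap _ _ P := by
  obtain ⟨k, P, h⟩ := IsLocalization.Away.surj (mon r K) p
  exact ⟨P, k, h⟩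

end Ring

/-! ### The action -/

variable {r : ℕ}

/-- The point `s` of the torus, over the field `K(X)`. -/
noncomputable def ptK (X : Var) (s : Fin r → ℂˣ) : Fin r → X.Kˣ :=
  fun i => Units.map (algebraMap ℂ X.K).toMonoidHom (s i)

theorem ptK_val (X : Var) (s : Fin r → ℂˣ) (i : Fin r) :
    ((ptK X s i : X.Kˣ) : X.K) = algebraMap ℂ X.K (s i) := rfl

/-- The morphism `T × Spec K(X) → T × X`. -/
noncomputable def torGen (r : ℕ) (X : Var) : Spec (CommRingCat.of (LRing r X.K)) ⟶
    Limits.pullback (Spec.map (CommRingCat.ofHom (algebraMap ℂ (LaurentRing r))))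
      (X.X ↘ SpecC) :=
  Limits.pullback.lift (Spec.map (CommRingCat.ofHom (evalU (uX r X.K)).toRingHom))
    (Spec.map (CommRingCat.ofHom (algebraMap X.K (LRing r X.K))) ≫ genPt X) (by
      rw [Category.assoc, genPt_over, ← Spec.map_comp, ← Spec.map_comp, ← CommRingCat.ofHom_comp,
        ← CommRingCat.ofHom_comp]
      congr 2
      ext c
      change evalU (uX r X.K) (algebraMap ℂ _ c) = algebraMap X.K (LRing r X.K) (algebraMap ℂ X.K c)
      rw [AlgHom.commutes, ← IsScalarTower.algebraMap_apply ℂ X.K (LRing r X.K)])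

theorem torGen_comp (τ : TAct r X) {a : Limits.pullback (Spec.map (CommRingCat.ofHom
      (algebraMap ℂ (LaurentRing r)))) (X.X ↘ SpecC) ⟶ X.X}
    (ha : ∀ t, ∀ j : X.X ⟶ Limits.pullback (Spec.map (CommRingCat.ofHom
        (algebraMap ℂ (LaurentRing r)))) (X.X ↘ SpecC),
      j ≫ Limits.pullback.fst _ _ =
        (X.X ↘ SpecC) ≫ Spec.map (CommRingCat.ofHom (evalAt t).toRingHom) →
      j ≫ Limits.pullback.snd _ _ = 𝟙 X.X → j ≫ a = (τ.act t).f) (s : Fin r → ℂˣ) :
    Spec.map (CommRingCat.ofHom (evL (ptK X s))) ≫ torGen r X ≫ a = genPt X ≫ (τ.act s).f := by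
  let j : X.X ⟶ Limits.pullback (Spec.map (CommRingCat.ofHom
        (algebraMap ℂ (LaurentRing r)))) (X.X ↘ SpecC) :=
    Limits.pullback.lift ((X.X ↘ SpecC) ≫ Spec.map (CommRingCat.ofHom (evalAt s).toRingHom))
      (𝟙 X.X) (by
        rw [Category.assoc, Category.id_comp, ← Spec.map_comp, ← CommRingCat.ofHom_comp]
        have h1 : (evalAt s).toRingHom.comp (algebraMap ℂ (LaurentRing r)) = RingHom.id ℂ := by
          ext c
          exact (evalAt s).commutes c
        rw [h1]
        exact (congrArg _ (Spec.map_id _)).trans (Category.comp_id _))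
  have hj := ha s j (Limits.pullback.lift_fst _ _ _) (Limits.pullback.lift_snd _ _ _)
  rw [← hj, ← Category.assoc, ← Category.assoc]
  congr 1
  apply Limits.pullback.hom_ext
  · rw [Category.assoc, Category.assoc, torGen, Limits.pullback.lift_fst,
      Limits.pullback.lift_fst, ← Category.assoc, genPt_over, ← Spec.map_comp, ← Spec.map_comp,
      ← CommRingCat.ofHom_comp, ← CommRingCat.ofHom_comp]
    congr 2
    have h1 := comp_evalU (evL (ptK X s)) (fun c => by
      rw [IsScalarTower.algebraMap_apply ℂ X.K (LRing r X.K), evL_algebraMap']) (uX r X.K)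
    have h2 := comp_evalU (algebraMap ℂ X.K) (fun c => rfl) s
    rw [h1]
    rw [← evalU_eq_evalAt, h2]
    congr 2
    ext i
    rw [map_uX]
    rfl
  · rw [Category.assoc, Category.assoc, torGen, Limits.pullback.lift_snd,
      Limits.pullback.lift_snd, Category.comp_id, ← Category.assoc, ← Spec.map_comp,
      ← CommRingCat.ofHom_comp]
    have h1 : (evL (ptK X s)).comp (algebraMap X.K (LRing r X.K)) = RingHom.id X.K := by
      ext c
      exact evL_algebraMap' _ c
    rw [h1]
    exact (congrArg (· ≫ genPt X) (Spec.map_id _)).trans (Category.id_comp _)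

/-! ### Values of sections on points with values in a ring -/

/-- The value of a section over `U` at a point with values in `S`. -/
noncomputable def valAt {X : Scheme.{0}} {S : CommRingCat.{0}} (U : X.Opens) (c : Spec S ⟶ X)
    (hc : ⊤ ≤ c ⁻¹ᵁ U) : Γ(X, U) ⟶ S :=
  c.appLE U ⊤ hc ≫ (Scheme.ΓSpecIso S).hom

theorem valAt_congr {X : Scheme.{0}} {S : CommRingCat.{0}} (U : X.Opens) {c c' : Spec S ⟶ X}
    (h : c = c') (hc : ⊤ ≤ c ⁻¹ᵁ U) (hc' : ⊤ ≤ c' ⁻¹ᵁ U) : valAt U c hc = valAt U c' hc' := by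
  subst h
  rfl

theorem valAt_comp {X : Scheme.{0}} {S S' : CommRingCat.{0}} (U : X.Opens) (c : Spec S ⟶ X)
    (hc : ⊤ ≤ c ⁻¹ᵁ U) (ψ : S ⟶ S') (hc' : ⊤ ≤ (Spec.map ψ ≫ c) ⁻¹ᵁ U) :
    valAt U (Spec.map ψ ≫ c) hc' = valAt U c hc ≫ ψ := by
  unfold valAt
  rw [Category.assoc, ← Scheme.ΓSpecIso_naturality, ← Category.assoc,
    ← Scheme.Hom.appLE_comp_appLE (Spec.map ψ) c U ⊤ ⊤ hc le_top]
  congr 2

theorem valAt_fromSpecStalk {X : Scheme.{0}} (x : X) (U : X.Opens) (hU : x ∈ U)
    (hc : ⊤ ≤ (X.fromSpecStalk x) ⁻¹ᵁ U) :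
    valAt U (X.fromSpecStalk x) hc = X.presheaf.germ U x hU := by
  unfold valAt
  rw [Scheme.Hom.appLE, Scheme.fromSpecStalk_app hU, Category.assoc, Category.assoc,
    Category.assoc]
  have h1 : (Spec (X.presheaf.stalk x)).presheaf.map
      (homOfLE (le_top : (X.fromSpecStalk x) ⁻¹ᵁ U ≤ ⊤)).op ≫
      (Spec (X.presheaf.stalk x)).presheaf.map (homOfLE hc).op = 𝟙 _ := by
    rw [← Functor.map_comp]
    exact (congrArg _ (Subsingleton.elim _ _)).trans (CategoryTheory.Functor.map_id _ _)
  rw [reassoc_of% h1, Iso.inv_hom_id, Category.comp_id]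

theorem valAt_genPt (U : X.X.Opens) (hU : genericPoint X.X ∈ U)
    (hc : ⊤ ≤ (genPt X) ⁻¹ᵁ U) (g : Γ(X.X, U)) :
    (valAt U (genPt X) hc).hom g = X.X.presheaf.germ U (genericPoint X.X) hU g :=
  congrArg (fun f => f.hom g) (valAt_fromSpecStalk (genericPoint X.X) U hU hc)

theorem exists_basic {L : Type} [CommRing L] (W : (Spec (CommRingCat.of L)).Opens)
    (x : Spec (CommRingCat.of L)) (hx : x ∈ W) :
    ∃ q : L, q ∉ x.asIdeal ∧ ∀ y : Spec (CommRingCat.of L), q ∉ y.asIdeal → y ∈ W := by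
  obtain ⟨_, ⟨q, rfl⟩, hxq, hq⟩ :=
    PrimeSpectrum.isTopologicalBasis_basic_opens.exists_subset_of_mem_open hx W.isOpen
  exact ⟨q, hxq, fun y hy => hq hy⟩

/-- **The action of the torus on the function field is rational.** -/
theorem TAct.rational (τ : TAct r X) (f : X.K) :
    ∃ P Q : MvPolynomial (Fin r) X.K, Q ≠ 0 ∧ ∀ s : Fin r → ℂˣ,
      MvPolynomial.eval (fun i => algebraMap ℂ X.K (s i)) Q ≠ 0 →
      (τ.act s).pull f * MvPolynomial.eval (fun i => algebraMap ℂ X.K (s i)) Q =
        MvPolynomial.eval (fun i => algebraMap ℂ X.K (s i)) P := by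
  obtain ⟨a, ha⟩ := τ.algebraic
  obtain ⟨U, hU, g, hg⟩ := X.X.presheaf.exists_germ_eq f
  have hgU : ∀ s : Fin r → ℂˣ, ⊤ ≤ (genPt X ≫ (τ.act s).f) ⁻¹ᵁ U := by
    intro s x _
    change (τ.act s).f (genPt X x) ∈ U
    rw [range_genPt, (τ.act s).dominant]
    exact hU
  let b := torGen r X ≫ a
  have hb : ∀ s : Fin r → ℂˣ, Spec.map (CommRingCat.ofHom (evL (ptK X s))) ≫ b =
      genPt X ≫ (τ.act s).f := torGen_comp τ ha
  -- a basic open set
  obtain ⟨q, hq1, hq⟩ := exists_basic (b ⁻¹ᵁ U)
    (Spec.map (CommRingCat.ofHom (evL (ptK X (1 : Fin r → ℂˣ)))) (IsLocalRing.closedPoint X.K)) (by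
      have h1 : (Spec.map (CommRingCat.ofHom (evL (ptK X (1 : Fin r → ℂˣ)))) ≫ b)
          (IsLocalRing.closedPoint X.K) ∈ U := by
        rw [hb]
        exact hgU 1 (x := IsLocalRing.closedPoint X.K) trivial
      exact h1)
  have hq0 : q ≠ 0 := by
    rintro rfl
    exact hq1 (zero_mem _)
  let c : Spec (CommRingCat.of (Localization.Away q)) ⟶ X.X :=
    Spec.map (CommRingCat.ofHom (algebraMap (LRing r X.K) (Localization.Away q))) ≫ b
  have hc : ⊤ ≤ c ⁻¹ᵁ U := by
    intro y _
    refine hq _ ?_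
    change algebraMap (LRing r X.K) (Localization.Away q) q ∉ y.asIdeal
    intro h
    exact y.2.ne_top (Ideal.eq_top_of_isUnit_mem _ h (IsLocalization.Away.algebraMap_isUnit q))
  -- the function
  obtain ⟨N, p, hp⟩ := IsLocalization.Away.surj q ((valAt U c hc).hom g)
  have key : ∀ s : Fin r → ℂˣ, evL (ptK X s) q ≠ 0 →
      (τ.act s).pull f * (evL (ptK X s) q) ^ N = evL (ptK X s) p := by
    intro s hs
    let ε : Localization.Away q →+* X.K :=
      IsLocalization.Away.lift q (g := evL (ptK X s)) (isUnit_iff_ne_zero.2 hs)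
    have hε : ∀ l, ε (algebraMap _ (Localization.Away q) l) = evL (ptK X s) l := fun l =>
      IsLocalization.Away.lift_eq _ _ l
    have h1 : Spec.map (CommRingCat.ofHom ε) ≫ c =
        Spec.map (CommRingCat.ofHom (τ.act s).pull) ≫ genPt X := by
      rw [← genPt_comp, ← hb, ← Category.assoc, ← Spec.map_comp, ← CommRingCat.ofHom_comp]
      congr 3
      ext l
      exact hε l
    have h2 : ⊤ ≤ (Spec.map (CommRingCat.ofHom (τ.act s).pull) ≫ genPt X) ⁻¹ᵁ U := by
      rw [← genPt_comp]
      exact hgU s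
    have h3 : ⊤ ≤ (Spec.map (CommRingCat.ofHom ε) ≫ c) ⁻¹ᵁ U := by
      rw [h1]
      exact h2
    have h4 : ⊤ ≤ (genPt X) ⁻¹ᵁ U := by
      intro x _
      change genPt X x ∈ U
      rw [range_genPt]
      exact hU
    have h5 := valAt_congr U h1 h3 h2
    rw [valAt_comp U c hc, valAt_comp U (genPt X) h4] at h5
    have h6 := congrArg (fun f => f.hom g) h5
    have h7 : ε ((valAt U c hc).hom g) = (τ.act s).pull ((valAt U (genPt X) h4).hom g) := h6
    rw [valAt_genPt U hU h4] at h7
    have h8 : (τ.act s).pull f = ε ((valAt U c hc).hom g) := by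
      rw [h7]
      exact congrArg _ hg.symm
    rw [h8, ← hε q, ← hε p, ← map_pow, ← map_mul, ← hp]
  obtain ⟨Q₀, k, hQ⟩ := exists_num q
  obtain ⟨P₀, l, hP⟩ := exists_num p
  have hm : ∀ s : Fin r → ℂˣ, ∀ q₀ : MvPolynomial (Fin r) X.K,
      MvPolynomial.eval (fun i => algebraMap ℂ X.K (s i)) q₀ =
        evL (ptK X s) (algebraMap _ (LRing r X.K) q₀) := by
    intro s q₀
    rw [evL_algebraMap]
    rfl
  have hQ0 : Q₀ ≠ 0 := by
    rintro rfl
    rw [map_zero] at hQ
    have h1 : algebraMap _ (LRing r X.K) (mon r X.K) ≠ 0 :=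
      (IsLocalization.Away.algebraMap_isUnit _).ne_zero
    exact (mul_ne_zero hq0 (pow_ne_zero k h1)) hQ
  refine ⟨P₀ * mon r X.K ^ (k * N) * Q₀, Q₀ ^ (N + 1) * mon r X.K ^ l,
    mul_ne_zero (pow_ne_zero _ hQ0) (pow_ne_zero _ (mon_ne_zero r X.K)), ?_⟩
  intro s hs
  rw [map_mul, map_pow, map_pow] at hs
  have hs1 : MvPolynomial.eval (fun i => algebraMap ℂ X.K (s i)) Q₀ ≠ 0 := by
    intro h0
    rw [h0, zero_pow (by omega), zero_mul] at hs
    exact hs rfl
  have h1 := congrArg (evL (ptK X s)) hQ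
  have h2 := congrArg (evL (ptK X s)) hP
  rw [map_mul, map_pow, ← hm, ← hm] at h1 h2
  have hs2 : evL (ptK X s) q ≠ 0 := by
    intro h0
    rw [h0, zero_mul] at h1
    exact hs1 h1.symm
  have h3 := key s hs2
  rw [map_mul, map_mul, map_mul, map_pow, map_pow, map_pow, ← h1, ← h2, ← h3]
  ring

end Vale.Agent.P299.Q
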