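import Vale.Agent.P299.Q.TorSemi
import Vale.Agent.P299.Q.TorRat
import Vale.Agent.P299.Q.StepDet
import Vale.Agent.P299.Q.BB2

/-!
# Semi-invariant rational functions
-/

open CategoryTheory TopologicalSpace Opposite TopCat AlgebraicGeometry Order

namespace Vale.Agent.P299.Q

variable {r : ℕ} {X : Var}

/-- The action on the function field. -/
noncomputable def TAct.ratAct (τ : TAct r X) : TS.RatAct r X.K where
  ρ s := (τ.act s).pull
  one := τ.pull_one
  mul := τ.pull_mul
  scalar s c := (τ.act s).pull_scalar c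
  rat := τ.rational

/-- There are semi-invariants `t_1, …, t_n` with linearly independent weights which generate the
function field together with the invariants. -/
theorem TAct.exists_semi (τ : TAct r X) :
    ∃ (n : ℕ) (t : Fin n → X.K) (w : Fin n → Fin r → ℤ), (∀ i, t i ≠ 0) ∧
      LinearIndependent ℤ w ∧
      (∀ (σ : Fin r → ℂˣ) (i : Fin n), (τ.act σ).pull (t i) =
        algebraMap ℂ X.K (∏ j, ((σ j : ℂ)) ^ (w i j)) * t i) ∧
      ∀ F : Subfield X.K, (∀ f ∈ τ.inv, f ∈ F) → (∀ i, t i ∈ F) → F = ⊤ := by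
  obtain ⟨n, t, w, h1, h2, h3, h4⟩ := τ.ratAct.exists_coords_li
  refine ⟨n, t, w, h1, h2, fun σ i => ?_, fun F hF => h4 F fun f hf => hF f hf⟩
  have h5 := h3 i σ
  unfold TS.chr at h5
  rw [Units.coe_prod] at h5
  simp only [Units.val_zpow_eq_zpow_val] at h5
  exact h5

/-- For an effective action there are semi-invariants `t_1, …, t_r` with the weights
`e_1, …, e_r`, and together with the invariants they generate the function field. -/
theorem TAct.exists_coords (τ : TAct r X) (heff : τ.Effective) :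
    ∃ t : Fin r → X.K, (∀ i, t i ≠ 0) ∧
      (∀ s i, (τ.act s).pull (t i) = algebraMap ℂ X.K (s i) * t i) ∧
      ∀ F : Subfield X.K, (∀ f ∈ τ.inv, f ∈ F) → (∀ i, t i ∈ F) → F = ⊤ := by
  obtain ⟨t, h1, h2, h3⟩ := τ.ratAct.exists_coords fun s hs => heff s (τ.f_eq_id s hs)
  exact ⟨t, h1, h2, fun F hF => h3 F fun f hf => hF f hf⟩

end Vale.Agent.P299.Q
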