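import Vale.Agent.P299.Q.TorSemi
import Mathlib.RingTheory.Localization.NumDen
import Mathlib.RingTheory.UniqueFactorizationDomain.Finite
import Mathlib.FieldTheory.IntermediateField.Basic
import Mathlib.GroupTheory.Index
import Mathlib.Analysis.Complex.Polynomial.Basic
import Mathlib.FieldTheory.IsAlgClosed.Basic

/-!
# Rational actions of tori on fields: finite dimensional invariant subspaces
-/

open MvPolynomial

namespace Vale.Agent.P299.Q.TS

variable {r : ℕ} {K : Type} [Field K] [Algebra ℂ K]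

/-- Different characters have different values. -/
theorem exists_chr_ne_one {w : Fin r → ℤ} (hw : w ≠ 0) : ∃ s : Fin r → ℂˣ, chr K w s ≠ 1 := by
  classical
  obtain ⟨i, hi⟩ := Function.ne_iff.1 hw
  refine ⟨Function.update 1 i (Units.mk0 2 two_ne_zero), ?_⟩
  unfold chr
  rw [Finset.prod_eq_single i]
  · rw [Function.update_self]
    intro h
    have h1 := injective_algebraMap (K := K) (h.trans (map_one _).symm)
    rw [Units.val_zpow_eq_zpow_val] at h1
    have h2 : ((2 : ℝ) : ℂ) ^ w i = 1 := by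
      push_cast
      exact h1
    have h3 : (2 : ℝ) ^ w i = 1 := by exact_mod_cast h2
    exact hi ((zpow_eq_one_iff_right₀ (by norm_num) (by norm_num)).1 h3)
  · intro j _ hj
    rw [Function.update_of_ne hj]
    simp
  · intro h
    exact absurd (Finset.mem_univ i) h

theorem exists_chr_ne {w w' : Fin r → ℤ} (hw : w ≠ w') :
    ∃ s : Fin r → ℂˣ, chr K w s ≠ chr K w' s := by
  obtain ⟨s, hs⟩ := exists_chr_ne_one (K := K) (sub_ne_zero.2 hw)
  refine ⟨s, fun h => hs ?_⟩
  rw [sub_eq_add_neg, chr_add, chr_neg, h, mul_inv_cancel₀ (chr_ne_zero _ _)]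

namespace RatAct

variable (τ : RatAct r K)

/-- The components of a sum of semi-invariants with different weights, in an invariant subspace,
belong to the subspace. -/
theorem mem_of_sum_mem {V : Submodule ℂ K} (hV : ∀ s, ∀ f ∈ V, τ.ρ s f ∈ V) {ι : Type}
    (S : Finset ι) (w : ι → Fin r → ℤ) (hw : Set.InjOn w S) (g : ι → K)
    (hg : ∀ i ∈ S, τ.Semi (w i) (g i)) (h : ∑ i ∈ S, g i ∈ V) : ∀ i ∈ S, g i ∈ V := by
  classical
  induction hn : S.card generalizing S g with
  | zero =>
    intro i hi
    rw [Finset.card_eq_zero.1 hn] at hi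
    exact absurd hi (Finset.notMem_empty i)
  | succ n ih =>
    intro i₁ hi₁
    by_cases hS : ∃ i₀ ∈ S, i₀ ≠ i₁
    · obtain ⟨i₀, hi₀, hne⟩ := hS
      obtain ⟨s, hs⟩ := exists_chr_ne (K := K) fun h : w i₁ = w i₀ => hne (hw hi₀ hi₁ h.symm)
      -- the character values are scalars
      let c : ι → ℂ := fun i => ((∏ j, s j ^ w i j : ℂˣ) : ℂ)
      have hc : ∀ i, chr K (w i) s = algebraMap ℂ K (c i) := fun _ => rfl
      have h1 : ∑ i ∈ S.erase i₀, (c i - c i₀) • g i ∈ V := by
        have h2 : τ.ρ s (∑ i ∈ S, g i) - c i₀ • ∑ i ∈ S, g i ∈ V :=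
          V.sub_mem (hV s _ h) (V.smul_mem _ h)
        have h3 : τ.ρ s (∑ i ∈ S, g i) - c i₀ • ∑ i ∈ S, g i =
            ∑ i ∈ S, (c i - c i₀) • g i := by
          rw [map_sum, Finset.smul_sum, ← Finset.sum_sub_distrib]
          refine Finset.sum_congr rfl fun i hi => ?_
          rw [hg i hi s, hc, sub_smul, Algebra.smul_def, Algebra.smul_def]
        rw [h3] at h2
        rwa [← Finset.add_sum_erase S _ hi₀, sub_self, zero_smul, zero_add] at h2
      have h2 := ih (S.erase i₀) (fun a ha b hb => hw (Finset.mem_of_mem_erase ha)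
        (Finset.mem_of_mem_erase hb)) (fun i => (c i - c i₀) • g i) (fun i hi σ => by
          rw [Algebra.smul_def, map_mul, τ.scalar, hg i (Finset.mem_of_mem_erase hi) σ]
          ring) h1 (by rw [Finset.card_erase_of_mem hi₀, hn]; rfl) i₁
        (Finset.mem_erase.2 ⟨hne.symm, hi₁⟩)
      have h3 : c i₁ - c i₀ ≠ 0 := by
        intro h0
        apply hs
        rw [hc, hc, sub_eq_zero.1 h0]
      have h4 := V.smul_mem (c i₁ - c i₀)⁻¹ h2
      rwa [smul_smul, inv_mul_cancel₀ h3, one_smul] at h4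
    · push Not at hS
      have h1 : S = {i₁} := Finset.eq_singleton_iff_unique_mem.2 ⟨hi₁, hS⟩
      rw [h1, Finset.sum_singleton] at h
      exact h

/-- The field of the invariants. -/
def fixed : IntermediateField ℂ K where
  carrier := {f | ∀ s, τ.ρ s f = f}
  mul_mem' := fun {a b} ha hb s => by rw [map_mul, ha s, hb s]
  one_mem' := fun s => map_one _
  add_mem' := fun {a b} ha hb s => by rw [map_add, ha s, hb s]
  zero_mem' := fun s => map_zero _
  algebraMap_mem' := fun c s => τ.scalar s c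
  inv_mem' := fun a ha s => by rw [map_inv₀, ha s]

/-- Coordinates: semi-invariants with linearly independent weights which generate `K`. -/
structure Coords (n : ℕ) (t : Fin n → K) (w : Fin n → Fin r → ℤ) : Prop where
  ne : ∀ i, t i ≠ 0
  li : LinearIndependent ℤ w
  semi : ∀ i, τ.Semi (w i) (t i)
  gen : ∀ F : Subfield K, (∀ f, (∀ s, τ.ρ s f = f) → f ∈ F) → (∀ i, t i ∈ F) → F = ⊤

variable {τ} {n : ℕ} {t : Fin n → K} {w : Fin n → Fin r → ℤ} (hc : τ.Coords n t w)

/-- The image of `s` under the homomorphism of tori given by the weights. -/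
def sw (w : Fin n → Fin r → ℤ) (s : Fin r → ℂˣ) : Fin n → ℂˣ := fun i => ∏ j, s j ^ w i j

theorem chr_sw (K : Type) [Field K] [Algebra ℂ K] (m : Fin n → ℤ) (s : Fin r → ℂˣ) :
    chr K m (sw w s) = chr K (∑ i, m i • w i) s := by
  unfold chr sw
  congr 2
  simp only [← Finset.prod_zpow]
  rw [Finset.prod_comm]
  refine Finset.prod_congr rfl fun j _ => ?_
  rw [Finset.sum_apply]
  have h : ∀ S : Finset (Fin n), ∏ i ∈ S, (s j ^ w i j) ^ m i = s j ^ ∑ i ∈ S, (m i • w i) j := by
    classical
    intro S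
    induction S using Finset.induction_on with
    | empty => simp
    | insert i S hi ih =>
      rw [Finset.prod_insert hi, Finset.sum_insert hi, ih, zpow_add, ← zpow_mul, Pi.smul_apply,
        smul_eq_mul, mul_comm (w i j)]
  exact h Finset.univ

include hc

theorem rho_aeval (s : Fin r → ℂˣ) (P : MvPolynomial (Fin n) τ.fixed) :
    τ.ρ s (aeval t P) = aeval t (scale (K := τ.fixed) (sw w s) P) := by
  have h : (τ.ρ s).comp (aeval t : MvPolynomial (Fin n) τ.fixed →ₐ[τ.fixed] K).toRingHom =
      (aeval t : MvPolynomial (Fin n) τ.fixed →ₐ[τ.fixed] K).toRingHom.comp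
        (scale (K := τ.fixed) (sw w s)).toRingHom := by
    apply MvPolynomial.ringHom_ext
    · intro c
      have h1 : τ.ρ s (c : K) = c := c.2 s
      simpa [scale] using h1
    · intro i
      have h1 : τ.ρ s (t i) = chr K (w i) s * t i := hc.semi i s
      have h2 : (scale (K := τ.fixed) (sw w s)) (X i) = C (pt τ.fixed (sw w s) i) * X i := by
        simp [scale]
      simp only [RingHom.comp_apply, AlgHom.toRingHom_eq_coe, RingHom.coe_coe, aeval_X, h2,
        map_mul, aeval_C]
      rw [h1]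
      rfl
  exact congrArg (fun f => f P) h

omit hc in
theorem sum_smul_injective (hli : LinearIndependent ℤ w) {m m' : Fin n →₀ ℕ}
    (h : ∑ i, (m i : ℤ) • w i = ∑ i, (m' i : ℤ) • w i) : m = m' := by
  have h1 : ∑ i, ((m i : ℤ) - m' i) • w i = 0 := by
    simp only [sub_smul, Finset.sum_sub_distrib]
    rw [h, sub_self]
  ext i
  have h2 := Fintype.linearIndependent_iff.1 hli _ h1 i
  omega

theorem aeval_injective :
    Function.Injective (aeval t : MvPolynomial (Fin n) τ.fixed →ₐ[τ.fixed] K) := by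
  classical
  rw [injective_iff_map_eq_zero]
  intro P
  induction hk : P.support.card using Nat.strong_induction_on generalizing P with
  | _ k ih =>
    intro hP
    by_contra hP0
    obtain ⟨m₀, hm₀⟩ := (support_nonempty.2 hP0)
    by_cases hS : ∃ m ∈ P.support, m ≠ m₀
    · obtain ⟨m, hm, hne⟩ := hS
      obtain ⟨s, hs⟩ := exists_chr_ne (K := τ.fixed)
        (fun h : ∑ i, (m i : ℤ) • w i = ∑ i, (m₀ i : ℤ) • w i =>
          hne (sum_smul_injective hc.li h))
      let P' := scale (K := τ.fixed) (sw w s) P -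
        C (chr τ.fixed (∑ i, (m₀ i : ℤ) • w i) s) * P
      have hcoef : ∀ l, coeff l P' = (chr τ.fixed (∑ i, (l i : ℤ) • w i) s -
          chr τ.fixed (∑ i, (m₀ i : ℤ) • w i) s) * coeff l P := by
        intro l
        rw [coeff_sub, coeff_scale, coeff_C_mul, chr_sw]
        ring
      have h1 : P'.support ⊆ P.support.erase m₀ := by
        intro l hl
        rw [mem_support_iff, hcoef] at hl
        rw [Finset.mem_erase, mem_support_iff]
        refine ⟨?_, right_ne_zero_of_mul hl⟩
        rintro rfl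
        rw [sub_self, zero_mul] at hl
        exact hl rfl
      have h2 : P'.support.card < k := by
        rw [← hk]
        exact (Finset.card_le_card h1).trans_lt (Finset.card_erase_lt_of_mem hm₀)
      have h3 : aeval t P' = 0 := by
        rw [map_sub, map_mul, ← rho_aeval hc, hP, map_zero, mul_zero, sub_self]
      have h4 := ih _ h2 P' rfl h3
      have h5 := hcoef m
      rw [h4, coeff_zero] at h5
      rcases mul_eq_zero.1 h5.symm with h6 | h6
      · exact hs (sub_eq_zero.1 h6)
      · exact (mem_support_iff.1 hm) h6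
    · push Not at hS
      have h1 : P = monomial m₀ (coeff m₀ P) := by
        ext l
        rw [coeff_monomial]
        split_ifs with h
        · rw [h]
        · by_contra hl
          exact h (hS l (mem_support_iff.2 fun h0 => hl (by rw [h0]))).symm
      rw [h1, aeval_monomial, Finsupp.prod_fintype _ _ (by simp)] at hP
      have h2 : ∏ i, t i ^ m₀ i ≠ 0 := Finset.prod_ne_zero_iff.2 fun i _ => pow_ne_zero _ (hc.ne i)
      rcases mul_eq_zero.1 hP with h3 | h3
      · refine (mem_support_iff.1 hm₀) ?_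
        exact (algebraMap τ.fixed K).injective (h3.trans (map_zero _).symm)
      · exact h2 h3

/-- Every element of `K` is a reduced fraction of polynomials in the `t_i`. -/
theorem exists_fraction (f : K) : ∃ P Q : MvPolynomial (Fin n) τ.fixed, Q ≠ 0 ∧ IsRelPrime P Q ∧
    f * aeval t Q = aeval t P := by
  let φ : MvPolynomial (Fin n) τ.fixed →ₐ[τ.fixed] K := aeval t
  have hφ : Function.Injective φ := aeval_injective hc
  let L := FractionRing (MvPolynomial (Fin n) τ.fixed)
  let ψ : L →+* K := IsFractionRing.lift (g := φ.toRingHom) hφ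
  have hψ : ∀ P, ψ (algebraMap _ L P) = φ P := fun P => IsFractionRing.lift_algebraMap _ P
  have htop : ψ.fieldRange = ⊤ := by
    apply hc.gen
    · intro g hg
      refine ⟨algebraMap _ L (C (⟨g, hg⟩ : τ.fixed) : MvPolynomial (Fin n) τ.fixed), ?_⟩
      rw [hψ, aeval_C]
      rfl
    · intro i
      refine ⟨algebraMap _ L (X i : MvPolynomial (Fin n) τ.fixed), ?_⟩
      rw [hψ, aeval_X]
  obtain ⟨y, hy⟩ : f ∈ ψ.fieldRange := by
    rw [htop]
    trivial
  obtain ⟨P, Q, hPQ, hmk⟩ := IsFractionRing.exists_reduced_fraction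
    (MvPolynomial (Fin n) τ.fixed) y
  refine ⟨P, Q, nonZeroDivisors.coe_ne_zero Q, hPQ, ?_⟩
  have h1 : y * algebraMap _ L (Q : MvPolynomial (Fin n) τ.fixed) = algebraMap _ L P := by
    rw [← hmk]
    exact IsLocalization.mk'_spec _ _ _
  have h2 := congrArg ψ h1
  rw [map_mul, hψ, hψ, hy] at h2
  exact h2

omit hc in
/-- If all the polynomials `Q(s t)` divide the same nonzero polynomial, then they are associated
to `Q`. -/
theorem associated_of_dvd {F : Type} [Field F] [Algebra ℂ F] {H Q : MvPolynomial (Fin n) F}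
    (hH : H ≠ 0) (hdvd : ∀ s : Fin r → ℂˣ, scale (sw w s) Q ∣ H) (s : Fin r → ℂˣ) :
    Associated (scale (sw w s) Q) Q := by
  have hsw : ∀ s s' : Fin r → ℂˣ, sw w (s * s') = sw w s * sw w s' := by
    intro s s'
    funext i
    simp only [sw, Pi.mul_apply, mul_zpow, Finset.prod_mul_distrib]
  have hsw1 : sw w (1 : Fin r → ℂˣ) = 1 := by
    funext i
    simp [sw]
  have hassoc : ∀ (s : Fin n → ℂˣ) {A B : MvPolynomial (Fin n) F}, Associated A B →
      Associated (scale s A) (scale s B) := fun s A B h => h.map (scale (K := F) s)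
  let G : Subgroup (Fin r → ℂˣ) :=
    { carrier := {s | Associated (scale (sw w s) Q) Q}
      mul_mem' := fun {a b} ha hb => by
        have h1 := hassoc (sw w a) hb
        rw [scale_scale, ← hsw] at h1
        exact h1.trans ha
      one_mem' := by
        have h1 : scale (sw w (1 : Fin r → ℂˣ)) Q = Q := by rw [hsw1, scale_one]
        change Associated _ _
        rw [h1]
      inv_mem' := fun {a} ha => by
        have h1 := hassoc (sw w a⁻¹) ha
        rw [scale_scale, ← hsw, inv_mul_cancel, hsw1, scale_one] at h1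
        exact h1.symm }
  have hfin : Finite ((Fin r → ℂˣ) ⧸ G) := by
    classical
    have hft : Finite {x : Associates (MvPolynomial (Fin n) F) // x ∣ Associates.mk H} :=
      @Finite.of_fintype _ (UniqueFactorizationMonoid.fintypeSubtypeDvd _
        (Associates.mk_ne_zero.2 hH))
    let θ : (Fin r → ℂˣ) ⧸ G → {x : Associates (MvPolynomial (Fin n) F) // x ∣ Associates.mk H} :=
      Quotient.lift (fun s => ⟨Associates.mk (scale (sw w s) Q),
        Associates.mk_dvd_mk.2 (hdvd s)⟩) (by
          intro a b hab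
          have hab' : a⁻¹ * b ∈ G := QuotientGroup.leftRel_apply.1 hab
          apply Subtype.ext
          apply Associates.mk_eq_mk_iff_associated.2
          have h1 := hassoc (sw w a) (show Associated (scale (sw w (a⁻¹ * b)) Q) Q from hab')
          rw [scale_scale, ← hsw, mul_inv_cancel_left] at h1
          exact h1.symm)
    refine Finite.of_injective θ ?_
    intro x y hxy
    induction x using QuotientGroup.induction_on with
    | H a =>
      induction y using QuotientGroup.induction_on with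
      | H b =>
        have h1 := Associates.mk_eq_mk_iff_associated.1 (congrArg Subtype.val hxy)
        apply QuotientGroup.eq.2
        have h2 := hassoc (sw w a⁻¹) h1
        rw [scale_scale, ← hsw, inv_mul_cancel, hsw1, scale_one, scale_scale, ← hsw] at h2
        exact h2.symm
  have hidx : G.index ≠ 0 := Subgroup.index_ne_zero_of_finite
  -- the torus is divisible
  have hroot : ∀ z : ℂˣ, ∃ u : ℂˣ, u ^ G.index = z := by
    intro z
    obtain ⟨u, hu⟩ := IsAlgClosed.exists_pow_nat_eq (z : ℂ) (Nat.pos_of_ne_zero hidx)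
    have hu0 : u ≠ 0 := by
      rintro rfl
      rw [zero_pow hidx] at hu
      exact z.ne_zero hu.symm
    exact ⟨Units.mk0 u hu0, Units.ext (by simpa using hu)⟩
  choose u hu using fun i => hroot (s i)
  have hs : s = (fun i => u i) ^ G.index := by
    funext i
    exact (hu i).symm
  have h1 : s ∈ G := by
    rw [hs]
    exact Subgroup.pow_index_mem G _
  exact h1

omit hc in
/-- A polynomial which is associated to all its transforms is a monomial. -/
theorem eq_monomial (hli : LinearIndependent ℤ w) {F : Type} [Field F] [Algebra ℂ F]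
    {Q : MvPolynomial (Fin n) F}
    (hQ : Q ≠ 0) (h : ∀ s : Fin r → ℂˣ, Associated (scale (sw w s) Q) Q) :
    ∃ (m : Fin n →₀ ℕ) (c : F), c ≠ 0 ∧ Q = monomial m c := by
  obtain ⟨m₀, hm₀⟩ := support_nonempty.2 hQ
  rw [mem_support_iff] at hm₀
  refine ⟨m₀, coeff m₀ Q, hm₀, ?_⟩
  ext m
  rw [coeff_monomial]
  split_ifs with hm
  · rw [hm]
  · by_contra hmQ
    obtain ⟨s, hs⟩ := exists_chr_ne (K := F)
      (fun h : ∑ i, (m₀ i : ℤ) • w i = ∑ i, (m i : ℤ) • w i => hm (sum_smul_injective hli h))
    obtain ⟨v, hv⟩ := h s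
    obtain ⟨c, hc0, hcv⟩ := (isUnit_iff_eq_C_of_isReduced).1 v.isUnit
    rw [hcv, mul_comm] at hv
    have h1 := congrArg (coeff m₀) hv
    have h2 := congrArg (coeff m) hv
    rw [coeff_C_mul, coeff_scale, chr_sw] at h1 h2
    apply hs
    have h3 : c * chr F (∑ i, (m₀ i : ℤ) • w i) s = 1 := by
      apply mul_right_cancel₀ hm₀
      rw [one_mul, mul_assoc]
      exact h1
    have h4 : c * chr F (∑ i, (m i : ℤ) • w i) s = 1 := by
      apply mul_right_cancel₀ hmQ
      rw [one_mul, mul_assoc]
      exact h2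
    have hc1 : c ≠ 0 := by
      rintro rfl
      rw [zero_mul] at h3
      exact zero_ne_one h3
    exact mul_left_cancel₀ hc1 (h3.trans h4.symm)

/-- **Finite dimensional invariant subspaces are spanned by semi-invariants.** -/
theorem exists_sum_semi (V : Submodule ℂ K) [Module.Finite ℂ V]
    (hV : ∀ s, ∀ f ∈ V, τ.ρ s f ∈ V) {f : K} (hf : f ∈ V) :
    ∃ (S : Finset (Fin n →₀ ℕ)) (v : (Fin n →₀ ℕ) → Fin r → ℤ) (g : (Fin n →₀ ℕ) → K),
      (∀ m ∈ S, τ.Semi (v m) (g m) ∧ g m ∈ V) ∧ f = ∑ m ∈ S, g m := by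
  classical
  let φ : MvPolynomial (Fin n) τ.fixed →ₐ[τ.fixed] K := aeval t
  have hφ : Function.Injective φ := aeval_injective hc
  -- a common denominator
  obtain ⟨B, hB⟩ := Module.Finite.fg_top (R := ℂ) (M := V)
  have hden : ∀ b : V, ∃ Q : MvPolynomial (Fin n) τ.fixed, Q ≠ 0 ∧ ∃ P, (b : K) * φ Q = φ P := by
    intro b
    obtain ⟨P, Q, hQ, -, h⟩ := exists_fraction hc (b : K)
    exact ⟨Q, hQ, P, h⟩
  choose Qd hQd hPd using hden
  let H := ∏ b ∈ B, Qd b
  have hH : H ≠ 0 := Finset.prod_ne_zero_iff.2 fun b _ => hQd b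
  have hHV : ∀ x : V, ∃ P, (x : K) * φ H = φ P := by
    let W : Submodule ℂ V :=
      { carrier := {x | ∃ P, (x : K) * φ H = φ P}
        zero_mem' := ⟨0, by rw [Submodule.coe_zero, zero_mul, map_zero]⟩
        add_mem' := by
          rintro x y ⟨P, hP⟩ ⟨P', hP'⟩
          exact ⟨P + P', by rw [Submodule.coe_add, add_mul, hP, hP', map_add]⟩
        smul_mem' := by
          rintro c x ⟨P, hP⟩
          refine ⟨C (algebraMap ℂ τ.fixed c) * P, ?_⟩
          rw [map_mul, ← hP, Submodule.coe_smul, Algebra.smul_def, mul_assoc]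
          congr 1
          rw [aeval_C]
          rfl }
    have hW : W = ⊤ := by
      rw [eq_top_iff, ← hB, Submodule.span_le]
      intro b hb
      obtain ⟨P, hP⟩ := hPd b
      refine ⟨P * ∏ b' ∈ B.erase b, Qd b', ?_⟩
      rw [map_mul, ← hP, mul_assoc, ← map_mul, Finset.mul_prod_erase B Qd hb]
    intro x
    have : x ∈ W := by
      rw [hW]
      trivial
    exact this
  obtain ⟨P, Q, hQ, hPQ, hfPQ⟩ := exists_fraction hc f
  have hscQ : ∀ s : Fin n → ℂˣ, scale (K := τ.fixed) s Q ≠ 0 := by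
    intro s h0
    apply hQ
    have h1 := scale_scale (K := τ.fixed) s⁻¹ s Q
    rw [h0, map_zero, inv_mul_cancel, scale_one] at h1
    exact h1.symm
  have hdvd : ∀ s : Fin r → ℂˣ, scale (K := τ.fixed) (sw w s) Q ∣ H := by
    intro s
    obtain ⟨A, hA⟩ := hHV ⟨τ.ρ s f, hV s f hf⟩
    have h1 := congrArg (τ.ρ s) hfPQ
    rw [map_mul, rho_aeval hc, rho_aeval hc] at h1
    have h2 : scale (K := τ.fixed) (sw w s) P * H = A * scale (K := τ.fixed) (sw w s) Q := by
      apply hφ
      rw [map_mul, map_mul, ← hA]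
      change aeval t _ * _ = _ * aeval t _
      rw [← h1]
      ring
    have h3 : IsRelPrime (scale (K := τ.fixed) (sw w s) P) (scale (K := τ.fixed) (sw w s) Q) :=
      isRelPrime_scale hPQ _
    exact h3.symm.dvd_of_dvd_mul_left ⟨A, by rw [h2]; ring⟩
  obtain ⟨m₀, c, hc0, rfl⟩ := eq_monomial hc.li hQ (associated_of_dvd hH hdvd)
  -- `f` is a Laurent polynomial
  have ht0 : ∏ i, t i ^ m₀ i ≠ 0 := Finset.prod_ne_zero_iff.2 fun i _ => pow_ne_zero _ (hc.ne i)
  have hcK : ((c : τ.fixed) : K) ≠ 0 := fun h0 => hc0 (Subtype.ext h0)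
  let g : (Fin n →₀ ℕ) → K := fun m =>
    ((coeff m P : τ.fixed) : K) / (c : K) * ∏ i, t i ^ ((m i : ℤ) - m₀ i)
  have hg : ∀ m, τ.Semi (∑ i, ((m i : ℤ) - m₀ i) • w i) (g m) := by
    intro m
    have h1 : τ.Semi 0 (((coeff m P : τ.fixed) : K) / (c : K)) := by
      intro s
      rw [map_div₀, (coeff m P).2 s, c.2 s, chr_zero, one_mul]
    have h2 := h1.mul τ (Semi.prod_zpow τ hc.semi fun i => (m i : ℤ) - m₀ i)
    rwa [zero_add] at h2
  have hsum : f = ∑ m ∈ P.support, g m := by
    rw [aeval_monomial, Finsupp.prod_fintype _ _ (by simp)] at hfPQ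
    have h1 : (aeval t P : K) = ∑ m ∈ P.support, ((coeff m P : τ.fixed) : K) * ∏ i, t i ^ m i := by
      rw [aeval_def, eval₂_eq']
      rfl
    rw [h1] at hfPQ
    have hne : (algebraMap τ.fixed K) c * ∏ i, t i ^ m₀ i ≠ 0 := mul_ne_zero hcK ht0
    apply mul_right_cancel₀ hne
    rw [hfPQ, Finset.sum_mul]
    refine Finset.sum_congr rfl fun m _ => ?_
    have h2 : (∏ i, t i ^ ((m i : ℤ) - m₀ i)) * (∏ i, t i ^ m₀ i) = ∏ i, t i ^ m i := by
      rw [← Finset.prod_mul_distrib]
      refine Finset.prod_congr rfl fun i _ => ?_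
      rw [zpow_sub₀ (hc.ne i), zpow_natCast, zpow_natCast, div_mul_cancel₀]
      exact pow_ne_zero _ (hc.ne i)
    have h3 : (algebraMap τ.fixed K) c = (c : K) := rfl
    have h4 : g m = ((coeff m P : τ.fixed) : K) / (c : K) * ∏ i, t i ^ ((m i : ℤ) - m₀ i) := rfl
    rw [h3, ← h2, h4]
    field_simp
  have hinj : Set.InjOn (fun m : Fin n →₀ ℕ => ∑ i, ((m i : ℤ) - m₀ i) • w i) P.support := by
    intro m _ m' _ hmm
    apply sum_smul_injective hc.li
    simp only [sub_smul, Finset.sum_sub_distrib, sub_left_inj] at hmm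
    exact hmm
  refine ⟨P.support, fun m => ∑ i, ((m i : ℤ) - m₀ i) • w i, g, fun m hm => ⟨hg m, ?_⟩, hsum⟩
  exact τ.mem_of_sum_mem hV P.support _ hinj g (fun m _ => hg m) (hsum ▸ hf) m hm

end RatAct

end Vale.Agent.P299.Q.TS
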