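import Vale.Agent.P299.Q.TorKoz
import Vale.Agent.P299.Q.TorCoords
import Vale.Agent.P299.Q.TorFin
import Vale.Agent.P299.Q.TBB

/-!
# Effective invariant ample divisors
-/

open CategoryTheory TopologicalSpace Opposite TopCat AlgebraicGeometry Order

namespace Vale.Agent.P299.Q

open Vale.Agent.P299.G

/-- Ampleness is invariant under linear equivalence. -/
theorem IsAmple.add_isDivOf {X : Var} {A P : Div X.X} {g : X.K} (hA : IsAmple A)
    (hP : IsDivOf g P) : IsAmple (A + P) := by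
  intro x
  obtain ⟨m, hm, s, hs, U, hU, hxU, hUs⟩ := hA x
  have hgm : g ^ m ≠ 0 := pow_ne_zero _ hP.1
  have key : ∀ y, coheight y = 1 → s ≠ 0 → Scheme.ord (s * (g ^ m)⁻¹) y + coef (m • (A + P)) y =
      Scheme.ord s y + coef (m • A) y := by
    intro y hy hs0
    rw [Scheme.ord_mul hs0 (inv_ne_zero hgm), Q.ord_inv hgm, Q.ord_pow hP.1, hP.2 y hy,
      coef_nsmul, coef_nsmul, coef_add]
    ring
  refine ⟨m, hm, s * (g ^ m)⁻¹, ?_, U, hU, hxU, fun y => ?_⟩
  · rw [mem_H0] at hs ⊢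
    intro y hy hne
    have hs0 : s ≠ 0 := left_ne_zero_of_mul hne
    rw [key y hy hs0]
    exact hs y hy hs0
  · rw [hUs y]
    constructor
    · rintro ⟨h1, h2⟩
      exact ⟨mul_ne_zero h1 (inv_ne_zero hgm), fun z hz hzy => by
        rw [key z hz h1]
        exact h2 z hz hzy⟩
    · rintro ⟨h1, h2⟩
      have hs0 : s ≠ 0 := left_ne_zero_of_mul h1
      exact ⟨hs0, fun z hz hzy => by
        rw [← key z hz hs0]
        exact h2 z hz hzy⟩

theorem ord_one' {X : Var} (x : X.X) : Scheme.ord (1 : X.K) x = 0 := by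
  have h := ord_constant (X := X.X) 1 one_ne_zero x
  rwa [map_one] at h

section Torus

variable {r : ℕ} {X : Var} (τ : TAct r X)

/-- Semi-invariant functions have invariant orders. -/
theorem TAct.ord_semi {s : X.K} (hs : ∀ σ, ∃ c : ℂ, c ≠ 0 ∧ (τ.act σ).pull s = c • s)
    (σ : Fin r → ℂˣ) (x : X.X) : Scheme.ord s ((τ.act σ).f x) = Scheme.ord s x := by
  obtain ⟨c, hc, h⟩ := hs σ
  rw [← τ.ord_act, h, ord_smul c hc]

theorem TAct.genAt_act {B : Div X.X} (hB : τ.InvDiv B) {s : X.K}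
    (hs : ∀ σ, ∃ c : ℂ, c ≠ 0 ∧ (τ.act σ).pull s = c • s) (σ : Fin r → ℂˣ) (x : X.X) :
    GenAt B s ((τ.act σ).f x) ↔ GenAt B s x := by
  have key : ∀ (σ : Fin r → ℂˣ) (x : X.X), GenAt B s x → GenAt B s ((τ.act σ).f x) := by
    intro σ x h
    refine ⟨h.1, fun y hy hyx => ?_⟩
    have h1 : (τ.act σ⁻¹).f y ⤳ x := by
      have h2 := hyx.map (τ.act σ⁻¹).f.continuous
      rwa [τ.act_inv_act] at h2
    have h2 := h.2 _ (by rw [τ.coheight_act]; exact hy) h1
    rwa [τ.ord_semi hs, hB] at h2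
  refine ⟨fun h => ?_, key σ x⟩
  have h1 := key σ⁻¹ _ h
  rwa [τ.act_inv_act] at h1

theorem isOpen_setOf_genAt (B : Div X.X) (s : X.K) : IsOpen {x : X.X | GenAt B s x} := by
  rw [isOpen_iff_forall_mem_open]
  intro y hy
  obtain ⟨U, hyU, hU⟩ := exists_genAt_nhds B y hy
  exact ⟨U, fun z hz => hU z hz, U.isOpen, hyU⟩

/-- The invariant open set where a semi-invariant section generates. -/
def TAct.genOpens {B : Div X.X} (hB : τ.InvDiv B) {s : X.K}
    (hs : ∀ σ, ∃ c : ℂ, c ≠ 0 ∧ (τ.act σ).pull s = c • s) : Opens τ.space where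
  carrier := {x : X.X | GenAt B s x}
  is_open' := ⟨isOpen_setOf_genAt B s, fun σ => Set.ext fun x => τ.genAt_act hB hs σ x⟩

theorem TAct.mem_genOpens {B : Div X.X} (hB : τ.InvDiv B) {s : X.K}
    (hs : ∀ σ, ∃ c : ℂ, c ≠ 0 ∧ (τ.act σ).pull s = c • s) (x : X.X) :
    (show τ.space from x) ∈ τ.genOpens hB hs ↔ GenAt B s x := Iff.rfl

theorem TAct.pull_mem_H0' {D : Div X.X} (hD : τ.InvDiv D) (σ : Fin r → ℂˣ) {f : X.K}
    (hf : f ∈ H0 (coef D)) : (τ.act σ).pull f ∈ H0 (coef D) := by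
  rw [mem_H0] at hf ⊢
  intro x hx hne
  have h1 : f ≠ 0 := by
    rintro rfl
    exact hne (map_zero _)
  have h2 := hf ((τ.act σ).f x) (by rw [τ.coheight_act, hx]) h1
  rwa [← τ.ord_act, hD] at h2

/-- If a `T`-invariant divisor is generated at `x`, it is generated by a semi-invariant section. -/
theorem TAct.exists_semi_genAt {D : Div X.X} (hD : τ.InvDiv D) {x : X.X} {s : X.K}
    (hs : s ∈ H0 (coef D)) (hx : GenAt D s x) :
    ∃ g ∈ H0 (coef D), GenAt D g x ∧ ∀ σ, ∃ c : ℂ, c ≠ 0 ∧ (τ.act σ).pull g = c • g := by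
  obtain ⟨n, t, w, h1, h2, h3, h4⟩ := τ.ratAct.exists_coords_li
  have hc : τ.ratAct.Coords n t w := ⟨h1, h2, h3, fun F hF hF' => h4 F hF hF'⟩
  have hfin : Module.Finite ℂ (H0 (coef D)) := finite_H0 factorialStalks D
  obtain ⟨S, v, g, hg, hsum⟩ := TS.RatAct.exists_sum_semi hc (H0 (coef D))
    (fun σ f hf => τ.pull_mem_H0' hD σ hf) hs
  by_contra hcon
  have hnot : ∀ m ∈ S, ¬ GenAt D (g m) x := by
    intro m hm hgen
    refine hcon ⟨g m, (hg m hm).2, hgen, fun σ => ?_⟩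
    exact ⟨((∏ i, σ i ^ (v m) i : ℂˣ) : ℂ), Units.ne_zero _, by
      rw [Algebra.smul_def]
      exact (hg m hm).1 σ⟩
  have h5 : ∀ S' : Finset (Fin n →₀ ℕ), (S' ⊆ S) →
      ∃ h : ∑ m ∈ S', g m ∈ H0 (coef D), (⟨_, h⟩ : H0 (coef D)) ∈ nonGen D x := by
    classical
    intro S'
    induction S' using Finset.induction_on with
    | empty =>
      intro _
      refine ⟨by rw [Finset.sum_empty]; exact Submodule.zero_mem _, ?_⟩
      have h6 := (nonGen D x).zero_mem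
      have e : (⟨∑ m ∈ (∅ : Finset (Fin n →₀ ℕ)), g m, by
          rw [Finset.sum_empty]; exact Submodule.zero_mem _⟩ : H0 (coef D)) = 0 :=
        Subtype.ext (by simp)
      rw [e]
      exact h6
    | insert a S' ha ih =>
      intro hsub
      obtain ⟨h6, h7⟩ := ih fun b hb => hsub (Finset.mem_insert_of_mem hb)
      have h8 := hg a (hsub (Finset.mem_insert_self a S'))
      have h9 : (⟨g a, h8.2⟩ : H0 (coef D)) ∈ nonGen D x :=
        hnot a (hsub (Finset.mem_insert_self a S'))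
      refine ⟨by rw [Finset.sum_insert ha]; exact Submodule.add_mem _ h8.2 h6, ?_⟩
      have h10 := (nonGen D x).add_mem h9 h7
      have e : (⟨∑ m ∈ insert a S', g m, by
          rw [Finset.sum_insert ha]; exact Submodule.add_mem _ h8.2 h6⟩ : H0 (coef D)) =
          ⟨g a, h8.2⟩ + ⟨_, h6⟩ := Subtype.ext (Finset.sum_insert ha)
      rw [e]
      exact h10
  obtain ⟨h6, h7⟩ := h5 S (Finset.Subset.refl S)
  have h8 : ¬ GenAt D (∑ m ∈ S, g m) x := h7
  rw [← hsum] at h8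
  exact h8 hx

/-- There are effective `T`-invariant ample divisors without common points. -/
theorem TAct.exists_effective {A : Div X.X} (hA : IsAmple A) (hi : τ.InvDiv A) :
    ∃ (N : ℕ) (B : Fin (N + 1) → Div X.X), (∀ j, IsAmple (B j) ∧ τ.InvDiv (B j) ∧
      (1 : X.K) ∈ H0 (coef (B j))) ∧ ∀ x, ∃ j, GenAt (B j) 1 x := by
  obtain ⟨m₀, hm₀⟩ := hA.forall_add (factorialStalks X) 0
  have hk := hm₀ (m₀ + 1) (by omega)
  rw [add_zero] at hk
  have hinv : τ.InvDiv ((m₀ + 1) • A) := TAct.InvDiv.nsmul τ hi _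
  have hB : ∀ x : X.X, ∃ B : Div X.X, IsAmple B ∧ τ.InvDiv B ∧ (1 : X.K) ∈ H0 (coef B) ∧
      GenAt B 1 x := by
    intro x
    obtain ⟨s, hs, hsx⟩ := hk.2 x
    obtain ⟨g, hg, hgx, hsemi⟩ := τ.exists_semi_genAt hinv hs hsx
    obtain ⟨P, hP⟩ := exists_isDivOf hgx.1
    refine ⟨(m₀ + 1) • A + P, hk.1.add_isDivOf hP, ?_, ?_, ?_⟩
    · refine TAct.InvDiv.add τ hinv fun σ y => ?_
      by_cases hy : coheight y = 1
      · rw [← hP.2 _ (by rw [τ.coheight_act, hy]), ← hP.2 y hy, τ.ord_semi hsemi]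
      · rw [coef_of_ne hy, coef_of_ne (by rwa [τ.coheight_act])]
    · rw [mem_H0]
      intro y hy _
      have h1 := (mem_H0.1 hg) y hy hgx.1
      rw [ord_one', coef_add, ← hP.2 y hy]
      linarith
    · refine ⟨one_ne_zero, fun y hy hyx => ?_⟩
      have h1 := hgx.2 y hy hyx
      rw [ord_one', coef_add, ← hP.2 y hy]
      linarith
  choose B hB1 hB2 hB3 hB4 using hB
  have hopen : ∀ x : X.X, ∃ U : X.X.Opens, x ∈ U ∧ ∀ y ∈ U, GenAt (B x) 1 y :=
    fun x => exists_genAt_nhds (B x) x (hB4 x)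
  choose U hxU hU using hopen
  obtain ⟨F, hF⟩ := isCompact_univ.elim_finite_subcover (fun x : X.X => (U x : Set X.X))
    (fun x => (U x).isOpen) fun x _ => Set.mem_iUnion.2 ⟨x, hxU x⟩
  have hFne : F.Nonempty := by
    obtain ⟨x₀⟩ : Nonempty X.X := inferInstance
    have h1 := hF (Set.mem_univ x₀)
    simp only [Set.mem_iUnion] at h1
    obtain ⟨a, ha, -⟩ := h1
    exact ⟨a, ha⟩
  obtain ⟨N, hN⟩ : ∃ N, F.card = N + 1 := ⟨F.card - 1, by
    have := hFne.card_pos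
    omega⟩
  let e : Fin (N + 1) ≃ F := (finCongr hN.symm).trans F.equivFin.symm
  refine ⟨N, fun j => B (e j), fun j => ⟨hB1 _, hB2 _, hB3 _⟩, fun x => ?_⟩
  have h1 := hF (Set.mem_univ x)
  simp only [Set.mem_iUnion] at h1
  obtain ⟨a, ha, hxa⟩ := h1
  refine ⟨e.symm ⟨a, ha⟩, ?_⟩
  change GenAt (B (e (e.symm ⟨a, ha⟩) : F)) 1 x
  rw [e.apply_symm_apply]
  exact hU a x hxa

end Torus

end Vale.Agent.P299.Q
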