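import Vale.Agent.P299.Q.ChiPoly
import Mathlib.Algebra.Group.ForwardDiff
import Mathlib.RingTheory.Polynomial.Pochhammer

/-!
# Polynomial functions on abelian groups
-/

open Finset

namespace Vale.Agent.P299.G

variable {A : Type*} [AddCommGroup A]

/-- A function is polynomial of degree less than `N` if its `N`-fold differences in the directions
of a set `C` vanish and every vector is a difference of two elements of `C`. -/
theorem polyLt_of_cube_on {C : Set A} (hC : ∀ w, ∃ a ∈ C, ∃ b ∈ C, w = a - b) {N : ℕ} {f : A → ℚ}
    (h : ∀ v : Fin N → A, (∀ i, v i ∈ C) → ∀ x : A,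
      ∑ S : Finset (Fin N), (-1 : ℚ) ^ S.card * f (x - ∑ i ∈ S, v i) = 0) : PolyLt N f := by
  induction N generalizing f with
  | zero =>
    change f = 0
    funext x
    have h1 := h (fun i => i.elim0) (fun i => i.elim0) x
    rw [Fintype.sum_unique, Subsingleton.elim (default : Finset (Fin 0)) ∅, Finset.card_empty,
      pow_zero, one_mul, Finset.sum_empty, sub_zero] at h1
    exact h1
  | succ N ih =>
    have key : ∀ a ∈ C, PolyLt N (fun x => f x - f (x - a)) := by
      intro a ha
      refine ih fun v hv x => ?_
      have h1 := h (Fin.cons a v) (fun i => by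
        refine Fin.cases ?_ (fun j => ?_) i
        · rw [Fin.cons_zero]; exact ha
        · rw [Fin.cons_succ]; exact hv j) x
      rw [cube_succ] at h1
      simp only [Fin.cons_succ, Fin.cons_zero] at h1
      rw [← h1]
    intro w
    obtain ⟨a, ha, b, hb, rfl⟩ := hC w
    have h1 := ((key a ha).add ((key b hb).smul (-1))).translate (-b)
    have e : (fun x => f x - f (x - (a - b))) = fun x =>
        ((fun x => f x - f (x - a)) + (-1 : ℚ) • fun x => f x - f (x - b)) (x - -b) := by
      funext x
      simp only [Pi.add_apply, Pi.smul_apply, smul_eq_mul]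
      have e1 : x - -b - b = x := by abel
      have e2 : x - -b - a = x - (a - b) := by abel
      rw [e1, e2]
      ring
    rw [e]
    exact h1

/-- The restriction of a polynomial function to a progression. -/
theorem PolyLt.fwdDiff_eq_zero {d : ℕ} {f : A → ℚ} (hf : PolyLt d f) (x v : A) (j : ℕ)
    (hj : d ≤ j) : (fwdDiff 1)^[j] (fun k : ℕ => f (x + k • v)) = 0 := by
  induction d generalizing f x j with
  | zero =>
    have h1 : f = 0 := hf
    rw [h1]
    clear hj
    induction j with
    | zero => rfl
    | succ j ih =>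
      rw [Function.iterate_succ_apply', ih]
      funext k
      simp [fwdDiff]
  | succ d ih =>
    obtain ⟨i, rfl⟩ := Nat.exists_eq_add_of_le' (show 1 ≤ j by omega)
    have h1 := ih (hf v) (x + v) i (by omega)
    rw [Function.iterate_succ_apply]
    have e : fwdDiff 1 (fun k : ℕ => f (x + k • v)) =
        fun k : ℕ => (fun x => f x - f (x - v)) (x + v + k • v) := by
      funext k
      have e1 : x + (k + 1) • v = x + v + k • v := by
        rw [add_smul, one_smul]; abel
      have e2 : x + v + k • v - v = x + k • v := by abel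
      simp only [fwdDiff]
      rw [e1, e2]
    rw [e]
    exact h1

/-- A polynomial function is given by a polynomial on progressions. -/
theorem PolyLt.exists_polynomial {d : ℕ} {f : A → ℚ} (hf : PolyLt d f) (x v : A) :
    ∃ p : Polynomial ℚ, ∀ k : ℕ, f (x + k • v) = p.eval (k : ℚ) := by
  set g : ℕ → ℚ := fun k : ℕ => f (x + k • v) with hg
  refine ⟨∑ j ∈ range d, Polynomial.C (((fwdDiff 1)^[j] g 0) / (j.factorial : ℚ)) *
    descPochhammer ℚ j, fun k => ?_⟩
  have h1 := shift_eq_sum_fwdDiff_iter (1 : ℕ) g k 0
  rw [zero_add, smul_eq_mul, mul_one] at h1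
  change g k = _
  rw [h1, Polynomial.eval_finsetSum]
  have hz : ∀ j, d ≤ j → (fwdDiff 1)^[j] g 0 = 0 := fun j hj => by
    rw [hf.fwdDiff_eq_zero x v j hj]
    rfl
  have h2 : ∀ j, Polynomial.eval (k : ℚ) (Polynomial.C (((fwdDiff 1)^[j] g 0) / (j.factorial : ℚ)) *
      descPochhammer ℚ j) = k.choose j • (fwdDiff 1)^[j] g 0 := by
    intro j
    rw [Polynomial.eval_mul, Polynomial.eval_C, nsmul_eq_mul,
      Nat.cast_choose_eq_descPochhammer_div]
    ring
  rw [Finset.sum_congr rfl fun j _ => h2 j]
  rcases le_total d (k + 1) with h | h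
  · refine (Finset.sum_subset (Finset.range_subset_range.2 h) fun j _ hj => ?_).symm
    rw [hz j (by simpa using hj), smul_zero]
  · refine Finset.sum_subset (Finset.range_subset_range.2 h) fun j _ hj => ?_
    rw [Nat.choose_eq_zero_of_lt (by simpa using hj), zero_smul]

end Vale.Agent.P299.G
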