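import Vale.Agent.P299.Q.SnapSplit
import Vale.Agent.P299.Q.SnapSections
import Vale.Agent.P299.Q.SnapPoly
import Vale.Agent.P299.Q.AsymKV
import Vale.Agent.P299.Q.FinDim

/-!
# Snapper's theorem

The Euler characteristic of `φ_* O_X(D + φ^*M)` is a polynomial function of `M`, if all these sheaves
satisfy Serre's vanishing theorem.
-/

open CategoryTheory TopologicalSpace Opposite TopCat AlgebraicGeometry Order

namespace Vale.Agent.P299.Q

open Vale.Agent.P299.G

section Koszul

variable {X Y : Var} (φ : DomHom X Y) {N : ℕ} (D : Div X.X) (A : Fin N → Div Y.X) (t : Fin N → Y.K)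

/-- The stalk at `y`, in the function field of `X`, of the sheaf `φ_* O_X(D)`. -/
noncomputable abbrev pushM (D : Div X.X) (y : Y.X) : Submodule ℂ X.K :=
  ⊤ ⊓ ⨅ x, ⨅ _ : φ.f x = y, polar (coef D) x

variable {φ} in
theorem mem_pushM {D : Div X.X} {y : Y.X} {f : X.K} :
    f ∈ pushM φ D y ↔ ∀ x, φ.f x = y → f ∈ polar (coef D) x := by
  rw [Submodule.mem_inf]
  simp only [Submodule.mem_iInf, Submodule.mem_top, true_and]

/-- The sheaf `φ_* O_X(D)`. -/
noncomputable abbrev push (D : Div X.X) :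
    Sheaf (Opens.grothendieckTopology (Y.X : TopCat.{0})) (ModuleCat.{0} ℂ) :=
  secSheaf (S := (Y.X : TopCat.{0})) φ.f ⊤ D

variable {A t}

theorem push_mul (ht : ∀ j, t j ∈ H0 (coef (A j))) (S : Finset (Fin N)) (j : Fin N) (hj : j ∉ S)
    (y : Y.X) (f : X.K)
    (hf : f ∈ pushM φ (D - ∑ i ∈ insert j S, φ.pb factorialStalks (A i)) y) :
    φ.pull (t j) * f ∈ pushM φ (D - ∑ i ∈ S, φ.pb factorialStalks (A i)) y := by
  rw [mem_pushM] at hf ⊢
  intro x hx hx1 hne
  have h1 := left_ne_zero_of_mul hne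
  have h2 := right_ne_zero_of_mul hne
  have h3 := (mem_H0.1 ((φ.isPullback_pb factorialStalks (A j)).pull_mem_H0 factorialStalks
    (ht j))) x hx1 h1
  have h4 := hf x hx hx1 h2
  rw [Finset.sum_insert hj, coef_sub, coef_add] at h4
  rw [Scheme.ord_mul h1 h2, coef_sub]
  linarith

theorem push_div (hgen : ∀ y : Y.X, ∃ j, GenAt (A j) (t j) y) (y₀ : Y.X) :
    ∃ V : Opens (Y.X : TopCat.{0}), y₀ ∈ V ∧ ∃ j, φ.pull (t j) ≠ 0 ∧ ∀ S : Finset (Fin N),
      j ∉ S → ∀ y ∈ V, ∀ f ∈ pushM φ (D - ∑ i ∈ S, φ.pb factorialStalks (A i)) y,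
      (φ.pull (t j))⁻¹ * f ∈
        pushM φ (D - ∑ i ∈ insert j S, φ.pb factorialStalks (A i)) y := by
  obtain ⟨j, hj⟩ := hgen y₀
  obtain ⟨V, hyV, hV⟩ := exists_genAt_nhds (A j) y₀ hj
  refine ⟨V, hyV, j, φ.pull_ne_zero hj.1, fun S hjS y hy f hf => ?_⟩
  rw [mem_pushM] at hf ⊢
  intro x hx hx1 hne
  have h2 := right_ne_zero_of_mul hne
  have h4 := hf x hx hx1 h2
  have h5 : GenAt (φ.pb factorialStalks (A j)) (φ.pull (t j)) x :=
    (φ.isPullback_pb factorialStalks (A j)).genAt factorialStalks (hV _ (by rw [hx]; exact hy))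
  have h6 := h5.ord hx1
  rw [Finset.sum_insert hjS, coef_sub, coef_add, Scheme.ord_mul (inv_ne_zero h5.1) h2,
    ord_inv h5.1, h6]
  rw [coef_sub] at h4
  linarith

variable (ht : ∀ j, t j ∈ H0 (coef (A j))) (hgen : ∀ y : Y.X, ∃ j, GenAt (A j) (t j) y)

include ht hgen

/-- The Koszul relation between Euler characteristics. -/
theorem push_eu {n : ℕ}
    (hgood : ∀ S : Finset (Fin N), Good n (push φ (D - ∑ i ∈ S, φ.pb factorialStalks (A i)))) :
    ∑ S : Finset (Fin N),
      (-1) ^ S.card * eu n (push φ (D - ∑ i ∈ S, φ.pb factorialStalks (A i))) = 0 :=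
  koszul_eu (T := (Y.X : TopCat.{0})) (K := X.K) (s := fun j => φ.pull (t j))
    (M := fun S y => pushM φ (D - ∑ i ∈ S, φ.pb factorialStalks (A i)) y)
    (push_mul φ D ht) (push_div φ D hgen) hgood

/-- Finiteness from the Koszul complex. -/
theorem push_good {m : ℕ} (hN : N = m + 1) (hgood : ∀ S : Finset (Fin N), S ≠ Finset.univ →
      Good 0 (push φ (D - ∑ i ∈ S, φ.pb factorialStalks (A i)))) :
    Good m (push φ (D - ∑ i, φ.pb factorialStalks (A i))) :=
  koszul_good (T := (Y.X : TopCat.{0})) (K := X.K) (s := fun j => φ.pull (t j))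
    (M := fun S y => pushM φ (D - ∑ i ∈ S, φ.pb factorialStalks (A i)) y)
    (push_mul φ D ht) (push_div φ D hgen) hN hgood

end Koszul

section Serre

variable {X Y : Var} (φ : DomHom X Y)

/-- The twists of `φ_* O_X(D)` satisfy Serre's vanishing and finiteness theorem. -/
def Serre (D : Div X.X) : Prop :=
  ∀ M H : Div Y.X, IsAmple H → ∃ k₀ : ℕ, ∀ k ≥ k₀,
    Good 0 (push φ (D + φ.pb factorialStalks (k • H + M)))

variable {φ} {D : Div X.X} (hD : Serre φ D)

include hD

/-- Finiteness and vanishing above the dimension. -/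
theorem Serre.good (M : Div Y.X) : Good Y.dim (push φ (D + φ.pb factorialStalks M)) := by
  obtain ⟨H, hH⟩ := Y.ample
  obtain ⟨k₀, hk₀⟩ := hD M H hH
  obtain ⟨m₀, hm₀⟩ := hH.forall_add (factorialStalks Y) 0
  set k := k₀ + m₀ + 1 with hk
  have hkg : IsGenerated (k • H) := by
    have := (hm₀ k (by omega)).2
    rwa [add_zero] at this
  obtain ⟨t, ht, hgen⟩ := exists_sections (fun _ : Fin (Y.dim + 1) => k • H) fun _ => hkg
  have key : ∀ S : Finset (Fin (Y.dim + 1)),
      D + φ.pb factorialStalks (((Y.dim + 1) * k) • H + M) -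
        ∑ i ∈ S, φ.pb factorialStalks (k • H) =
      D + φ.pb factorialStalks (((Y.dim + 1 - S.card) * k) • H + M) := by
    intro S
    have hS : S.card ≤ Y.dim + 1 := by
      have := Finset.card_le_univ S
      rwa [Fintype.card_fin] at this
    rw [Finset.sum_const, ← map_nsmul, add_sub_assoc, ← map_sub]
    have aux : ∀ n s : ℕ, s ≤ n → (n * k) • H + M - s • k • H = ((n - s) * k) • H + M := by
      intro n s hs
      obtain ⟨c, rfl⟩ := Nat.exists_eq_add_of_le hs
      rw [Nat.add_sub_cancel_left, ← mul_smul, add_mul, add_smul]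
      abel
    rw [aux _ _ hS]
  have h1 := push_good φ (D + φ.pb factorialStalks (((Y.dim + 1) * k) • H + M)) ht hgen rfl
    (fun S hS => by
      rw [key]
      have hS' : S.card < Y.dim + 1 := by
        have := (Finset.card_lt_iff_ne_univ S).2 hS
        rwa [Fintype.card_fin] at this
      refine hk₀ _ ?_
      obtain ⟨c, hc⟩ := Nat.exists_eq_add_of_lt hS'
      have h2 : Y.dim + 1 - S.card = c + 1 := by omega
      rw [h2, add_mul, one_mul]
      omega)
  rw [key, Finset.card_univ, Fintype.card_fin, Nat.sub_self, zero_mul, zero_smul, zero_add] at h1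
  exact h1

/-- **Snapper's theorem.** -/
theorem Serre.polyLt : PolyLt (Y.dim + 1)
    (fun M : Div Y.X => (eu Y.dim (push φ (D + φ.pb factorialStalks M)) : ℚ)) := by
  refine polyLt_of_cube_on (C := {A | IsGenerated A}) (fun w => ?_) fun v hv x => ?_
  · obtain ⟨H, hH⟩ := Y.ample
    obtain ⟨m₀, hm₀⟩ := hH.forall_add (factorialStalks Y) 0
    obtain ⟨m₁, hm₁⟩ := hH.forall_add (factorialStalks Y) w
    refine ⟨(m₀ + m₁) • H + w, (hm₁ _ (by omega)).2, (m₀ + m₁) • H, ?_, ?_⟩
    · have := (hm₀ (m₀ + m₁) (by omega)).2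
      rwa [add_zero] at this
    · abel
  · obtain ⟨t, ht, hgen⟩ := exists_sections v hv
    have key : ∀ S : Finset (Fin (Y.dim + 1)),
        D + φ.pb factorialStalks x - ∑ i ∈ S, φ.pb factorialStalks (v i) =
        D + φ.pb factorialStalks (x - ∑ i ∈ S, v i) := by
      intro S
      rw [map_sub, map_sum, add_sub_assoc]
    have h1 := push_eu φ (D + φ.pb factorialStalks x) ht hgen (n := Y.dim) fun S => by
      rw [key]
      exact hD.good _
    have h2 : ((∑ S : Finset (Fin (Y.dim + 1)), (-1) ^ S.card *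
      eu Y.dim (push φ (D + φ.pb factorialStalks x - ∑ i ∈ S, φ.pb factorialStalks (v i))) : ℤ) :
        ℚ) = 0 := by
      rw [h1, Int.cast_zero]
    rw [← h2, Int.cast_sum]
    refine Finset.sum_congr rfl fun S _ => ?_
    rw [key]
    push_cast
    rfl

end Serre

section Apply

variable (hKN : KollarNadelVanishing)

theorem good_zero {X Y : Var} {φ : DomHom X Y} {D : Div X.X}
    (h : ∀ i > 0, Subsingleton (Coh (push φ D) i)) : Good 0 (push φ D) := by
  refine ⟨fun i => ?_, h⟩
  rcases Nat.eq_zero_or_pos i with rfl | hi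
  · have h1 := finite_H0 factorialStalks D
    have h2 : Module.Finite ℂ (⊤ ⊓ H0 (coef D) : Submodule ℂ X.K) := by
      rw [top_inf_eq]
      exact h1
    exact Module.Finite.equiv
      (cohZeroSecSheaf (S := (Y.X : TopCat.{0})) (φ.f : X.X → Y.X) ⊤ D).symm
  · have := h i hi
    infer_instance

include hKN

theorem serre_id {X : Var} (D : Div X.X) : Serre (DomHom.id X) D := by
  intro M H hH
  obtain ⟨k₀, hk₀⟩ := exists_vanishing_forall hKN factorialStalks hH (D + M)
  refine ⟨k₀, fun k hk => good_zero fun i hi => ?_⟩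
  have h1 := hk₀ k hk 0 isNef_zero i hi
  rw [← (isPullback_id factorialStalks (k • H + M)).eq_pb factorialStalks]
  have e : D + (k • H + M) = D + M + k • H + 0 := by abel
  rw [e]
  exact h1

/-- The Euler characteristic is a polynomial function of degree at most `dim X` on the group of
divisors. -/
theorem chi_polyLt' (X : Var) : PolyLt (X.dim + 1) (fun D : Div X.X => (chi D : ℚ)) := by
  have h := (serre_id hKN (0 : Div X.X)).polyLt
  have e : (fun M : Div X.X => (chi M : ℚ)) = fun M : Div X.X =>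
      (eu X.dim (push (DomHom.id X) (0 + (DomHom.id X).pb factorialStalks M)) : ℚ) := by
    funext M
    rw [← (isPullback_id factorialStalks M).eq_pb factorialStalks, zero_add]
    rfl
  rw [e]
  exact h

/-- The one variable form, for the direct image of `κ + S`. -/
theorem snapper_semi {X Y : Var} (φ : DomHom X Y) {κ S : Div X.X} (hκ : IsCanonicalDivisor κ)
    (hS : SemiPos S) (hSp : IsPsef S) {M : Div Y.X} {M' : Div X.X} (hM : IsPullback φ M M') :
    ∃ p : Polynomial ℚ, ∀ k : ℕ,
      ∑ i ∈ Finset.range (Y.dim + 1), (-1 : ℚ) ^ i * hY φ (κ + S + k • M') i =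
        p.eval (k : ℚ) := by
  have hser : Serre φ (κ + S) := by
    intro M H hH
    obtain ⟨k₀, hk₀⟩ := hH.forall_add (factorialStalks Y) M
    refine ⟨k₀, fun k hk => good_zero fun i hi => ?_⟩
    have hA := (hk₀ k hk).1
    refine hKN X Y φ κ S (k • H + M) (k • H + M) _ _ hκ hS hA.isNef hA
      (φ.isPullback_pb factorialStalks _) (φ.isPullback_pb factorialStalks _)
      ⟨1, one_pos, ?_⟩ i hi
    rw [one_smul, add_sub_cancel_right]
    exact hSp
  obtain ⟨p, hp⟩ := hser.polyLt.exists_polynomial 0 M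
  refine ⟨p, fun k => ?_⟩
  rw [← hp k, zero_add, map_nsmul, ← hM.eq_pb factorialStalks]
  unfold eu
  push_cast
  rfl

/-- The one variable form, for divisors. -/
theorem chi_polynomial {X : Var} (D M : Div X.X) :
    ∃ p : Polynomial ℚ, ∀ k : ℕ, (chi (D + k • M) : ℚ) = p.eval (k : ℚ) :=
  (chi_polyLt' hKN X).exists_polynomial D M

end Apply

end Vale.Agent.P299.Q
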