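import Vale.Agent.P299.Q.TorMain
import Vale.Agent.P299.Q.TorCoords
import Vale.Agent.P299.G.StepA
import Vale.Agent.P299.Q.SnapFinal

/-!
# Invariant cohomology of the multiples of the anticanonical divisor
-/

open CategoryTheory TopologicalSpace Opposite TopCat AlgebraicGeometry Order

namespace Vale.Agent.P299.Q

open Vale.Agent.P299.G

/-- The invariants form an intermediate field. -/
noncomputable def TAct.invField {r : ℕ} {X : Var} (τ : TAct r X) : IntermediateField ℂ X.K where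
  carrier := {f | f ∈ τ.inv}
  mul_mem' := fun ha hb => τ.mul_mem ha hb
  one_mem' := fun _ => map_one _
  add_mem' := fun ha hb => τ.inv.add_mem ha hb
  zero_mem' := τ.inv.zero_mem
  algebraMap_mem' := fun c s => (τ.act s).pull_scalar c
  inv_mem' := fun _ ha => τ.inv_mem ha

theorem TAct.mem_invField {r : ℕ} {X : Var} (τ : TAct r X) {f : X.K} :
    f ∈ τ.invField ↔ f ∈ τ.inv := Iff.rfl

/-- Semi-invariant coordinates for a morphism to a model of the field of invariants. -/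
theorem TAct.exists_torusCoord {r : ℕ} {X Y : Var} (τ : TAct r X) {φ : DomHom X Y}
    (hφ : τ.InvHom φ) (hbase : ∀ f ∈ τ.inv, ∃ a, φ.pull a = f) :
    ∃ (s : ℕ) (t : Fin s → X.K) (w : Fin s → Fin r → ℤ), TorusCoord τ φ t w := by
  obtain ⟨s, t, w, h1, h2, h3, h4⟩ := τ.exists_semi
  refine ⟨s, t, w, h1, h2, h3, fun a => τ.pull_mem hφ a, hbase, fun F hF ht => ?_⟩
  refine h4 F (fun f hf => ?_) ht
  obtain ⟨a, rfl⟩ := hbase f hf
  exact hF a

/-- The model of the quotient and the invariant direct images on it. -/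
theorem exists_quotient_model {r : ℕ} (hFS : FactorialStalks) (hFM : FlatModelsAt r) {Z : Var}
    (τ : TAct r Z) {κ : Div Z.X} (hκ : τ.IsCanonical κ) (hκi : τ.InvDiv κ) :
    ∃ (Y Z' : Var) (τ' : TAct r Z') (μ : DomHom Z' Z) (φ : DomHom Z' Y) (κ' κ₀ E : Div Z'.X)
      (κY M : Div Y.X) (c : ℕ),
      μ.Birational ∧ (∀ t, (τ'.act t).f ≫ μ.f = μ.f ≫ (τ.act t).f) ∧ τ'.InvHom φ ∧
      (∀ g : Z.K, g ∈ τ.inv ↔ ∃ h : Y.K, φ.pull h = μ.pull g) ∧
      τ'.IsCanonical κ' ∧ τ'.InvDiv κ' ∧ IsPullback μ κ κ₀ ∧ κ' = κ₀ + E ∧ 0 ≤ E ∧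
      (∀ x : Z'.X, coheight (μ.f x) = 1 → coef E x = 0) ∧
      0 < c ∧ IsCanonicalDivisor κY ∧ ∀ j : ℕ, 0 < j →
        ∀ (B : Div Y.X) (B' : Div Z'.X), IsPullback φ B B' → ∀ U : Opens (Y.X : TopCat.{0}),
        (U : Set Y.X).Nonempty → ∀ f : Z'.K,
          (∃ g : Y.K, (∀ y : Y.X, y ∈ U → g ∈ polar (coef (κY + j • M + B)) y) ∧
            φ.pull g = f) ↔
          f ∈ τ'.inv ∧ ∀ x : Z'.X, φ.f x ∈ U →
            f ∈ polar (coef (κ' + (c * j) • -κ₀ + B')) x := by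
  obtain ⟨Y, Z', τ', μ, φ, W, κ', κ₀, E, hμ, heq, hφ, hk', hW, hWs, star, hκ', hκ'i, hκ₀, hκE,
    hE0, hEx⟩ := hFM Z τ κ hκ hκi τ.invField fun f hf => hf
  obtain ⟨s, t, w, h⟩ := τ'.exists_torusCoord hφ fun f hf => by
    obtain ⟨g, rfl⟩ := hμ.2 f
    obtain ⟨a, ha⟩ := (hk' g).1 ((mem_inv_pull τ heq g).1 hf)
    exact ⟨a, ha⟩
  obtain ⟨κY, M, c, hc, hκY, hsec⟩ := h.exists_direct_image_twist hFS hκ' hκ'i hE0
    (L' := -κ₀) (by rw [hκE]; abel) W hW hWs fun c R R' hR hle => by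
      have h1 : IsPullback μ (c • -κ) (c • -κ₀) := hκ₀.neg.nsmul c
      exact star _ _ R R' h1 hR hle
  exact ⟨Y, Z', τ', μ, φ, κ', κ₀, E, κY, M, c, hμ, heq, hφ, hk', hκ', hκ'i, hκ₀, hκE, hE0, hEx,
    hc, hκY, hsec⟩

/-- Nonzero values of a polynomial and nonvanishing cohomology. -/
theorem exists_coh_of_chi (hKN : KollarNadelVanishing) {r : ℕ} {Z Y : Var} (τ : TAct r Z)
    {κ : Div Z.X} {κY M : Div Y.X} {c : ℕ} (hc : 0 < c) (h0 : chi κY ≠ 0)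
    (h : ∀ j : ℕ, 0 < j → chi (κY + j • M) ≠ 0 → ∃ i, τ.h (κ + (c * j) • -κ) i ≠ 0) (M₀ : ℕ) :
    ∃ k ≥ M₀, ∃ i, τ.h (k • -κ) i ≠ 0 := by
  obtain ⟨p, hp⟩ := chi_polynomial hKN κY M
  have hp0 : p.eval 0 ≠ 0 := by
    have h1 := hp 0
    rw [zero_smul, add_zero, Nat.cast_zero] at h1
    rw [← h1]
    exact_mod_cast h0
  obtain ⟨j, hj, hpj'⟩ := Vale.Agent.P299.G.exists_eval_ne_zero hp0 (M₀ + 1)
  have hpj := hpj' j le_rfl
  have hj1 : chi (κY + j • M) ≠ 0 := by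
    intro h1
    apply hpj
    rw [← hp j, h1, Int.cast_zero]
  obtain ⟨i, hi⟩ := h j (by omega) hj1
  have hcj : M₀ + 1 ≤ c * j := hj.trans (Nat.le_mul_of_pos_left j hc)
  refine ⟨c * j - 1, by omega, i, ?_⟩
  have h2 : κ + (c * j) • -κ = (c * j - 1) • -κ := by
    obtain ⟨n, hn⟩ := Nat.exists_eq_add_of_lt (show 0 < c * j by omega)
    rw [hn, zero_add, Nat.add_sub_cancel, succ_nsmul]
    abel
  rwa [h2] at hi

theorem exists_hX_ne_zero {Y : Var} {D : Div Y.X} (h : chi D ≠ 0) : ∃ i, hX D i ≠ 0 := by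
  by_contra hcon
  push Not at hcon
  apply h
  unfold chi
  refine Finset.sum_eq_zero fun i _ => ?_
  have h1 : hh (S := (Y.X : TopCat.{0})) id ⊤ D i = 0 := hcon i
  rw [h1]
  simp

end Vale.Agent.P299.Q
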