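import Mathlib.AlgebraicGeometry.Morphisms.UniversallyOpen
import Mathlib.AlgebraicGeometry.AlgClosed.Basic
import Vale.Agent.P299.Q.TorEff
import Vale.Agent.P299.Q.TorEx
import Vale.Agent.P299.Q.SemiPos

/-!
# Charts of fibre bundles
-/

open CategoryTheory TopologicalSpace Opposite TopCat AlgebraicGeometry Order

namespace Vale.Agent.P299.Q

open Vale.Agent.P299.G

section Kmap

variable {X Y : Scheme.{0}} [IsIntegral X] [IsIntegral Y]

/-- The map of function fields given by a dominant morphism. -/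
noncomputable def kmap (f : X ⟶ Y) (h : f (genericPoint X) = genericPoint Y) :
    Y.functionField →+* X.functionField :=
  (f.stalkMap (genericPoint X)).hom.comp (Y.presheaf.stalkSpecializes (specializes_of_eq h)).hom

theorem kmap_toK (f : X ⟶ Y) (h : f (genericPoint X) = genericPoint Y) (x : X)
    (a : Y.presheaf.stalk (f x)) : kmap f h (toK (f x) a) = toK x ((f.stalkMap x).hom a) := by
  have h1 : (kmap f h).comp (toK (f x)) = (toK x).comp (f.stalkMap x).hom := by
    have h2 : (genericPoint X) ⤳ x := genericPoint_specializes x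
    have h3 := Scheme.Hom.stalkSpecializes_stalkMap f (genericPoint X) x h2
    have h4 : toK x = (X.presheaf.stalkSpecializes h2).hom := rfl
    have h5 : toK (f x) = (Y.presheaf.stalkSpecializes
      (genericPoint_specializes (f x))).hom := rfl
    rw [h4, h5]
    unfold kmap
    rw [← CommRingCat.hom_comp, ← CommRingCat.hom_comp, ← CommRingCat.hom_comp, ← h3,
      Presheaf.stalkSpecializes_comp_assoc]
  exact congrArg (fun r => r a) h1

theorem kmap_bijective (f : X ⟶ Y) [IsOpenImmersion f]
    (h : f (genericPoint X) = genericPoint Y) : Function.Bijective (kmap f h) := by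
  refine ⟨(kmap f h).injective, fun b => ?_⟩
  have h1 : Function.Bijective (f.stalkMap (genericPoint X)).hom :=
    (ConcreteCategory.isIso_iff_bijective (f.stalkMap (genericPoint X))).1 inferInstance
  obtain ⟨a, ha⟩ := h1.2 b
  refine ⟨toK (f (genericPoint X)) a, ?_⟩
  rw [kmap_toK, ha]
  have h2 : toK (genericPoint X) b = b := by
    have h3 : toK (genericPoint X) = (X.presheaf.stalkSpecializes
      (specializes_refl (genericPoint X))).hom := rfl
    rw [h3, TopCat.Presheaf.stalkSpecializes_refl]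
    rfl
  exact h2

end Kmap

/-- A chart for `q : X → B` with fibre `Z`. -/
structure Chart {X B : Var} (q : DomHom X B) (Z : Var) where
  /-- the open set -/
  U : B.X.Opens
  /-- the inverse image of `U` -/
  W : Scheme.{0}
  /-- the inclusion of `W` -/
  j : W ⟶ X.X
  /-- the restriction of `q` -/
  s : W ⟶ U.toScheme
  inv : CategoryTheory.IsPullback j s q.f U.ι
  /-- the other projection -/
  p : W ⟶ Z.X
  prod : CategoryTheory.IsPullback p s (Z.X ↘ SpecC) (U.ι ≫ (B.X ↘ SpecC))

namespace Chart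

variable {X B Z : Var} {q : DomHom X B} (c : Chart q Z)

instance : IsOpenImmersion c.j :=
  MorphismProperty.of_isPullback (P := @IsOpenImmersion) c.inv.flip inferInstance

instance : Flat c.p :=
  MorphismProperty.of_isPullback (P := @Flat) c.prod.flip inferInstance

theorem j_injective : Function.Injective c.j := c.j.isOpenEmbedding.injective

theorem over_j : c.p ≫ (Z.X ↘ SpecC) = c.j ≫ (X.X ↘ SpecC) := by
  rw [c.prod.w, ← Category.assoc, ← c.inv.w, Category.assoc, q.over]

/-- The inverse image of `U`. -/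
theorem mem_range_j {x : X.X} (hx : q.f x ∈ c.U) : ∃ w, c.j w = x := by
  obtain ⟨z, hz, -⟩ := Scheme.Pullback.exists_preimage_pullback (f := q.f) (g := c.U.ι) x
    ⟨q.f x, hx⟩ rfl
  refine ⟨c.inv.isoPullback.inv z, ?_⟩
  have h1 : c.inv.isoPullback.inv ≫ c.j = Limits.pullback.fst q.f c.U.ι :=
    c.inv.isoPullback_inv_fst
  rw [← hz, ← h1]
  exact (Scheme.Hom.comp_apply _ _ _).symm

theorem q_j_mem (w : c.W) : q.f (c.j w) ∈ c.U := by
  have h1 : q.f (c.j w) = c.U.ι (c.s w) := by
    have h2 := congrArg (fun f => f w) c.inv.w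
    simpa using h2
  rw [h1]
  exact (c.s w).2

section

variable [Nonempty c.W]

instance : IsIntegral c.W := isIntegral_of_isOpenImmersion c.j

theorem j_gen : c.j (genericPoint c.W) = genericPoint X.X := genericPoint_eq_of_isOpenImmersion c.j

theorem p_gen : c.p (genericPoint c.W) = genericPoint Z.X := by
  have h1 : GeneralizingMap c.p := Flat.generalizingMap c.p
  obtain ⟨w, hw, hwp⟩ := h1 (genericPoint_specializes (c.p (genericPoint c.W)))
  have h2 : w = genericPoint c.W := (hw.antisymm (genericPoint_specializes w)).eq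
  rw [← h2]
  exact hwp

/-- The embedding `K(Z) → K(X)` given by the chart. -/
noncomputable def ι : Z.K →+* X.K :=
  (RingEquiv.ofBijective (kmap c.j c.j_gen) (kmap_bijective c.j c.j_gen)).symm.toRingHom.comp
    (kmap c.p c.p_gen)

theorem kmap_ι (f : Z.K) : kmap c.j c.j_gen (c.ι f) = kmap c.p c.p_gen f :=
  (RingEquiv.ofBijective (kmap c.j c.j_gen) (kmap_bijective c.j c.j_gen)).apply_symm_apply _

theorem ι_toK {w : c.W} {a : Z.X.presheaf.stalk (c.p w)} {b : X.X.presheaf.stalk (c.j w)}
    (h : (c.j.stalkMap w).hom b = (c.p.stalkMap w).hom a) :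
    c.ι (toK (c.p w) a) = toK (c.j w) b := by
  apply (kmap_bijective c.j c.j_gen).1
  rw [kmap_ι, kmap_toK, kmap_toK, h]

omit [Nonempty c.W] in
theorem exists_stalk (w : c.W) (a : Z.X.presheaf.stalk (c.p w)) :
    ∃ b : X.X.presheaf.stalk (c.j w), (c.j.stalkMap w).hom b = (c.p.stalkMap w).hom a :=
  ((ConcreteCategory.isIso_iff_bijective (c.j.stalkMap w)).1 inferInstance).2 _

omit [Nonempty c.W] in
theorem isUnit_iff {w : c.W} {a : Z.X.presheaf.stalk (c.p w)} {b : X.X.presheaf.stalk (c.j w)}
    (h : (c.j.stalkMap w).hom b = (c.p.stalkMap w).hom a) : IsUnit b ↔ IsUnit a := by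
  constructor
  · intro hb
    have h1 : IsUnit ((c.j.stalkMap w).hom b) := hb.map _
    rw [h] at h1
    exact isUnit_of_map_unit (c.p.stalkMap w).hom a h1
  · intro ha
    have h1 : IsUnit ((c.p.stalkMap w).hom a) := ha.map _
    rw [← h] at h1
    exact isUnit_of_map_unit (c.j.stalkMap w).hom b h1

/-- Constants. -/
theorem ι_const (a : ℂ) : c.ι (algebraMap ℂ Z.K a) = algebraMap ℂ X.K a := by
  obtain ⟨w⟩ : Nonempty c.W := inferInstance
  rw [← toK_germ_const (c.p w) a, ← toK_germ_const (c.j w) a]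
  apply c.ι_toK
  have h1 := congrArg (fun f => f.hom (constants X.X a))
    (Scheme.Hom.germ_stalkMap c.j ⊤ w (Opens.mem_top _))
  have h2 := congrArg (fun f => f.hom (constants Z.X a))
    (Scheme.Hom.germ_stalkMap c.p ⊤ w (Opens.mem_top _))
  refine h1.trans (Eq.trans ?_ h2.symm)
  have h3 : (Scheme.ΓSpecIso (CommRingCat.of ℂ)).inv ≫ (X.X ↘ SpecC).appTop ≫ c.j.appTop =
      (Scheme.ΓSpecIso (CommRingCat.of ℂ)).inv ≫ (Z.X ↘ SpecC).appTop ≫ c.p.appTop := by
    rw [← Scheme.Hom.comp_appTop, ← Scheme.Hom.comp_appTop, c.over_j]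
  have h4 := congrArg (fun f => (c.W.presheaf.germ ⊤ w (Opens.mem_top _)).hom (f.hom a)) h3
  exact h4

/-- Values. -/
theorem hasValue_ι {f : Z.K} {w : c.W} {v : ℂ} (h : HasValue f (c.p w) v) :
    HasValue (c.ι f) (c.j w) v := by
  obtain ⟨a, ha, hav⟩ := h
  obtain ⟨b, hb⟩ := c.exists_stalk w a
  refine ⟨b, ?_, ?_⟩
  · rw [IsLocalRing.mem_maximalIdeal] at ha ⊢
    exact fun hu => ha ((c.isUnit_iff hb).1 hu)
  · have h1 := c.ι_toK hb
    change toK (c.p w) a = _ at hav
    rw [hav, map_sub, c.ι_const] at h1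
    exact h1.symm

end

end Chart

end Vale.Agent.P299.Q
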