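import Vale.Agent.P299.Q.BunA

/-!
# Sections of charts, ramification
-/

open CategoryTheory TopologicalSpace Opposite TopCat AlgebraicGeometry Order

namespace Vale.Agent.P299.Q

open Vale.Agent.P299.G

theorem stalkMap_section {Z W : Scheme.{0}} {σ : Z ⟶ W} {p : W ⟶ Z} (h : σ ≫ p = 𝟙 Z) {z : Z}
    (hz : p (σ z) ⤳ z) (a : Z.presheaf.stalk z) :
    (σ.stalkMap z).hom ((p.stalkMap (σ z)).hom ((Z.presheaf.stalkSpecializes hz).hom a)) = a := by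
  have key : ∀ (f : Z ⟶ Z), f = 𝟙 Z → ∀ h : f z ⤳ z,
      Z.presheaf.stalkSpecializes h ≫ f.stalkMap z = 𝟙 _ := by
    rintro f rfl h
    rw [Scheme.Hom.stalkMap_id]
    exact (Category.comp_id _).trans (TopCat.Presheaf.stalkSpecializes_refl _ _)
  have h1 := key _ h hz
  rw [Scheme.Hom.stalkMap_comp] at h1
  exact congrArg (fun f => f.hom a) h1

/-- The point of `Spec ℂ`. -/
noncomputable def ptC : SpecC := IsLocalRing.closedPoint ℂ

namespace Chart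

variable {X B Z : Var} {q : DomHom X B} (c : Chart q Z)

/-- The section of `p` given by a point of `U`. -/
noncomputable def sec (β : SpecC ⟶ c.U.toScheme) (hβ : β ≫ c.U.ι ≫ (B.X ↘ SpecC) = 𝟙 SpecC) :
    Z.X ⟶ c.W :=
  c.prod.lift (𝟙 Z.X) ((Z.X ↘ SpecC) ≫ β) (by
    rw [Category.assoc, hβ, Category.comp_id, Category.id_comp])

theorem sec_p (β : SpecC ⟶ c.U.toScheme) (hβ : β ≫ c.U.ι ≫ (B.X ↘ SpecC) = 𝟙 SpecC) :
    c.sec β hβ ≫ c.p = 𝟙 Z.X := c.prod.lift_fst _ _ _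

theorem sec_s (β : SpecC ⟶ c.U.toScheme) (hβ : β ≫ c.U.ι ≫ (B.X ↘ SpecC) = 𝟙 SpecC) :
    c.sec β hβ ≫ c.s = (Z.X ↘ SpecC) ≫ β := c.prod.lift_snd _ _ _

theorem p_sec (β : SpecC ⟶ c.U.toScheme) (hβ : β ≫ c.U.ι ≫ (B.X ↘ SpecC) = 𝟙 SpecC) (z : Z.X) :
    c.p (c.sec β hβ z) = z := by
  have h1 := congrArg (fun f => f z) (c.sec_p β hβ)
  simpa using h1

/-- There is a section through every closed point. -/
theorem exists_sec {w : c.W} (hw : IsClosed {c.j w}) :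
    ∃ (β : SpecC ⟶ c.U.toScheme) (hβ : β ≫ c.U.ι ≫ (B.X ↘ SpecC) = 𝟙 SpecC),
      c.sec β hβ (c.p w) = w := by
  let ω : SpecC ⟶ X.X := pointOfClosedPoint (X.X ↘ SpecC) (c.j w) hw
  have hω : ω ≫ (X.X ↘ SpecC) = 𝟙 SpecC := pointOfClosedPoint_comp (X.X ↘ SpecC) (c.j w) hw
  have hω' : ∀ a, ω a = c.j w := fun a => pointOfClosedPoint_apply (X.X ↘ SpecC) (c.j w) hw a
  have hrange : Set.range ω ⊆ Set.range c.j := by
    rintro _ ⟨a, rfl⟩
    exact ⟨w, (hω' a).symm⟩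
  let ω₁ : SpecC ⟶ c.W := IsOpenImmersion.lift c.j ω hrange
  have hω₁ : ω₁ ≫ c.j = ω := IsOpenImmersion.lift_fac c.j ω hrange
  have hω₁w : ω₁ ptC = w := by
    apply c.j_injective
    rw [← hω' ptC, ← hω₁]
    exact (Scheme.Hom.comp_apply _ _ _).symm
  have hβ : (ω₁ ≫ c.s) ≫ c.U.ι ≫ (B.X ↘ SpecC) = 𝟙 SpecC := by
    rw [Category.assoc, ← c.prod.w, c.over_j, ← Category.assoc, hω₁, hω]
  refine ⟨ω₁ ≫ c.s, hβ, ?_⟩
  have h1 : (ω₁ ≫ c.p) ≫ c.sec (ω₁ ≫ c.s) hβ = ω₁ := by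
    apply c.prod.hom_ext
    · rw [Category.assoc, c.sec_p, Category.comp_id]
    · rw [Category.assoc, c.sec_s, Category.assoc, ← Category.assoc c.p, c.over_j,
        Category.assoc, ← Category.assoc ω₁ c.j, hω₁, ← Category.assoc ω, hω, Category.id_comp]
  have h2 := congrArg (fun f => f ptC) h1
  have h3 : ((ω₁ ≫ c.p) ≫ c.sec (ω₁ ≫ c.s) hβ) ptC = c.sec (ω₁ ≫ c.s) hβ (c.p (ω₁ ptC)) := by
    rw [Scheme.Hom.comp_apply, Scheme.Hom.comp_apply]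
  rw [← hω₁w]
  exact h3.symm.trans h2

/-- The restriction of functions to the fibre. -/
noncomputable def res (β : SpecC ⟶ c.U.toScheme)
    (hβ : β ≫ c.U.ι ≫ (B.X ↘ SpecC) = 𝟙 SpecC) (z : Z.X) :
    X.X.presheaf.stalk (c.j (c.sec β hβ z)) →+* Z.X.presheaf.stalk z :=
  ((c.sec β hβ).stalkMap z).hom.comp (c.j.stalkMap (c.sec β hβ z)).hom

theorem isUnit_of_res {β : SpecC ⟶ c.U.toScheme}
    {hβ : β ≫ c.U.ι ≫ (B.X ↘ SpecC) = 𝟙 SpecC} {z : Z.X}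
    {b : X.X.presheaf.stalk (c.j (c.sec β hβ z))} (h : IsUnit (c.res β hβ z b)) : IsUnit b :=
  isUnit_of_map_unit (c.j.stalkMap (c.sec β hβ z)).hom b
    (isUnit_of_map_unit ((c.sec β hβ).stalkMap z).hom _ h)

/-- Restriction to the fibre of a function which comes from `Z`. -/
theorem exists_res (β : SpecC ⟶ c.U.toScheme) (hβ : β ≫ c.U.ι ≫ (B.X ↘ SpecC) = 𝟙 SpecC)
    (z : Z.X) (a : Z.X.presheaf.stalk z) [Nonempty c.W] :
    ∃ b : X.X.presheaf.stalk (c.j (c.sec β hβ z)), c.res β hβ z b = a ∧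
      c.ι (toK z a) = toK (c.j (c.sec β hβ z)) b := by
  have hz : c.p (c.sec β hβ z) ⤳ z := specializes_of_eq (c.p_sec β hβ z)
  obtain ⟨b, hb⟩ := c.exists_stalk (c.sec β hβ z) ((Z.X.presheaf.stalkSpecializes hz).hom a)
  refine ⟨b, ?_, ?_⟩
  · change ((c.sec β hβ).stalkMap z).hom ((c.j.stalkMap (c.sec β hβ z)).hom b) = a
    rw [hb]
    exact stalkMap_section (c.sec_p β hβ) hz a
  · rw [← c.ι_toK hb]
    congr 1
    exact (toK_toStalk hz a).symm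

end Chart

end Vale.Agent.P299.Q
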