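import Vale.Agent.P299.Q.BunB

/-!
# Charts of fibre bundles: orders of functions from the fibre
-/

open CategoryTheory TopologicalSpace Opposite TopCat AlgebraicGeometry Order

namespace Vale.Agent.P299.Q

open Vale.Agent.P299.G

theorem Var.jacobson (X : Var) : JacobsonSpace X.X :=
  LocallyOfFiniteType.jacobsonSpace (X.X ↘ SpecC)

theorem isMax_of_eq_generic {T : Scheme.{0}} [IsIntegral T] : coheight (genericPoint T) = 0 := by
  rw [coheight_eq_zero]
  intro w _
  exact genericPoint_specializes w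

theorem eq_generic_of_coheight {T : Scheme.{0}} [IsIntegral T] {x : T} (h : coheight x = 0) :
    x = genericPoint T := by
  rw [coheight_eq_zero] at h
  have h1 : x ≤ genericPoint T := genericPoint_specializes x
  have h2 : genericPoint T ≤ x := h h1
  exact (Specializes.antisymm h2 (genericPoint_specializes x)).eq

theorem coef_generic {X : Var} (D : Div X.X) : coef D (genericPoint X.X) = 0 := by
  unfold coef
  rw [dif_neg]
  rw [isMax_of_eq_generic]
  exact zero_ne_one

namespace Chart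

variable {X B Z : Var} {q : DomHom X B} (c : Chart q Z)

theorem exists_closed {w : c.W} {O : Set X.X} (hO : IsOpen O) (hw : c.j w ∈ O) :
    ∃ w₀ : c.W, w ⤳ w₀ ∧ c.j w₀ ∈ O ∧ IsClosed {c.j w₀} := by
  have := X.jacobson
  have h1 : IsOpen (Set.range c.j) := c.j.isOpenEmbedding.isOpen_range
  obtain ⟨x, ⟨hx1, hx2, w₀, rfl⟩, hx4⟩ := nonempty_inter_closedPoints
    (Z := closure {c.j w} ∩ (O ∩ Set.range c.j)) ⟨c.j w, subset_closure rfl, hw, w, rfl⟩
    (isClosed_closure.isLocallyClosed.inter (hO.inter h1).isLocallyClosed)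
  refine ⟨w₀, ?_, hx2, hx4⟩
  rw [← c.j.isOpenEmbedding.isInducing.specializes_iff]
  exact specializes_iff_mem_closure.2 hx1

section

variable [Nonempty c.W]

theorem eq_generic_of_j {w : c.W} (h : c.j w = genericPoint X.X) : w = genericPoint c.W :=
  c.j_injective (h.trans c.j_gen.symm)

theorem coheight_p_le {w : c.W} (h : coheight (c.j w) = 1) : coheight (c.p w) ≤ 1 := by
  have h1 : GeneralizingMap c.p := Flat.generalizingMap c.p
  have h2 : coheight (c.p w) ≤ ((1 : ℕ) : ℕ∞) := by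
    rw [coheight_le_coe_iff]
    intro y hy
    obtain ⟨w', hw', rfl⟩ := h1 (show y ⤳ c.p w from hy.le)
    have h3 : c.j w' ⤳ c.j w := hw'.map c.j.continuous
    have h4 : c.j w < c.j w' := by
      refine lt_of_le_not_ge h3 fun h5 => hy.not_ge ?_
      have h6 : w ⤳ w' := (c.j.isOpenEmbedding.isInducing.specializes_iff).1 h5
      exact h6.map c.p.continuous
    have h5 : coheight (c.j w') < ((1 : ℕ) : ℕ∞) :=
      coheight_le_coe_iff.1 (show coheight (c.j w) ≤ ((1 : ℕ) : ℕ∞) by rw [h]; rfl) _ h4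
    have h6 : coheight (c.j w') = 0 := by
      rw [Nat.cast_one] at h5
      exact Order.lt_one_iff.1 h5
    rw [c.eq_generic_of_j (eq_generic_of_coheight h6), c.p_gen, isMax_of_eq_generic]
    exact zero_lt_one
  exact h2

/-- Functions from `Z` are units along the divisors which dominate `Z`. -/
theorem ord_ι_of_generic {w : c.W} (hw : c.p w = genericPoint Z.X) {f : Z.K} (hf : f ≠ 0) :
    Scheme.ord (c.ι f) (c.j w) = 0 := by
  have h2 : c.p w ⤳ genericPoint Z.X := specializes_of_eq hw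
  have h3 : toK (c.p w) (toStalk h2 f) = f := by
    rw [toK_toStalk]
    have h4 : toK (genericPoint Z.X) = (Z.X.presheaf.stalkSpecializes
      (specializes_refl (genericPoint Z.X))).hom := rfl
    rw [h4, TopCat.Presheaf.stalkSpecializes_refl]
    rfl
  have hu : IsUnit (toStalk h2 f) := (isUnit_iff_ne_zero.2 hf).map _
  obtain ⟨b, hb⟩ := c.exists_stalk w (toStalk h2 f)
  have h5 := c.ι_toK hb
  rw [h3] at h5
  rw [h5]
  exact ord_toK_of_isUnit ((c.isUnit_iff hb).2 hu)

theorem ι_ne_zero {f : Z.K} (hf : f ≠ 0) : c.ι f ≠ 0 := by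
  rwa [Ne, map_eq_zero]

/-- Charts are unramified. -/
theorem ord_ι {w : c.W} (hw : coheight (c.j w) = 1) (hz : coheight (c.p w) = 1) {f : Z.K}
    (hf : f ≠ 0) : Scheme.ord (c.ι f) (c.j w) = Scheme.ord f (c.p w) := by
  -- the multiplicity
  have hdz := Z.dvr _ hz
  obtain ⟨ϖ, hϖ⟩ := IsDiscreteValuationRing.exists_irreducible (Z.X.presheaf.stalk (c.p w))
  obtain ⟨b, hb⟩ := c.exists_stalk w ϖ
  have hιb : c.ι (toK (c.p w) ϖ) = toK (c.j w) b := c.ι_toK hb
  have hϖ0 : toK (c.p w) ϖ ≠ 0 := toK_ne_zero hϖ.ne_zero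
  have hb0 : b ≠ 0 := by
    rintro rfl
    rw [map_zero] at hιb
    exact c.ι_ne_zero hϖ0 hιb
  set m : ℤ := Scheme.ord (c.ι (toK (c.p w) ϖ)) (c.j w) with hm
  have hm1 : 1 ≤ m := by
    have h1 : 0 ≤ m := by
      rw [hm, hιb]
      exact ord_toK_nonneg b
    have h2 : m ≠ 0 := by
      intro h2
      rw [hm, hιb] at h2
      have h3 : IsUnit b := G.isUnit_of_ord_eq_zero X.dvr hw hb0 h2
      exact hϖ.not_isUnit ((c.isUnit_iff hb).1 h3)
    omega
  have hmul : ∀ f : Z.K, f ≠ 0 → Scheme.ord (c.ι f) (c.j w) = m * Scheme.ord f (c.p w) := by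
    intro f hf
    obtain ⟨u, hu⟩ := exists_eq_unit_mul_zpow (c.p w) hz hϖ hf
    obtain ⟨v, hv⟩ := c.exists_stalk w (u : Z.X.presheaf.stalk (c.p w))
    have h1 : c.ι (toK (c.p w) (u : Z.X.presheaf.stalk (c.p w))) = toK (c.j w) v := c.ι_toK hv
    have hvu : IsUnit v := (c.isUnit_iff hv).2 u.isUnit
    have h2 : c.ι f = toK (c.j w) v * (c.ι (toK (c.p w) ϖ)) ^ (Scheme.ord f (c.p w)) := by
      conv_lhs => rw [hu]
      rw [map_mul, map_zpow₀]
      exact congrArg₂ (· * ·) h1 rfl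
    rw [h2, Scheme.ord_mul (toK_ne_zero hvu.ne_zero) (zpow_ne_zero _ (c.ι_ne_zero hϖ0)),
      ord_toK_of_isUnit hvu, zero_add, ord_zpow (c.ι_ne_zero hϖ0)]
    ring
  -- a closed point
  obtain ⟨w₀, hw₀, -, hw₀c⟩ := c.exists_closed (w := w) isOpen_univ trivial
  have hzz : c.p w ⤳ c.p w₀ := hw₀.map c.p.continuous
  have hxx : c.j w ⤳ c.j w₀ := hw₀.map c.j.continuous
  obtain ⟨β, hβ, hsec⟩ := c.exists_sec hw₀c
  have hUZ := factorialStalks Z (c.p w₀)
  have hUX := factorialStalks X (c.j (c.sec β hβ (c.p w₀)))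
  obtain ⟨P, hP, hPs, hP1⟩ := exists_prime_elem Z.dvr hzz hz
  obtain ⟨b, hba, hb⟩ := c.exists_res β hβ (c.p w₀) P
  have hxs : c.j w ⤳ c.j (c.sec β hβ (c.p w₀)) := by rwa [hsec]
  obtain ⟨H, hH, hHs, hH1⟩ := exists_prime_elem X.dvr hxs hw
  have hord : Scheme.ord (toK _ b) (c.j w) = m := by
    rw [← hb, hmul _ (toK_ne_zero hP.ne_zero), hP1, mul_one]
  have hmem : ∀ d : X.X.presheaf.stalk (c.j (c.sec β hβ (c.p w₀))),
      1 ≤ Scheme.ord (toK _ d) (c.j w) → H ∣ d := by
    intro d hd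
    rw [← Ideal.mem_span_singleton, ← hHs]
    by_contra hd'
    have := ord_toK_eq_zero_of_notMem hxs hd'
    omega
  have hm2 : m = 1 := by
    by_contra hne
    obtain ⟨b₁, hb₁⟩ := hmem b (by rw [hord]; exact hm1)
    have hb0 : b ≠ 0 := by
      rintro rfl
      rw [map_zero] at hb
      exact c.ι_ne_zero (toK_ne_zero hP.ne_zero) hb
    have hb₁0 : b₁ ≠ 0 := by
      rintro rfl
      exact hb0 (by rw [hb₁, mul_zero])
    have h1 : Scheme.ord (toK _ b₁) (c.j w) = m - 1 := by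
      rw [hb₁, map_mul, Scheme.ord_mul (toK_ne_zero hH.ne_zero) (toK_ne_zero hb₁0), hH1] at hord
      omega
    obtain ⟨b₂, hb₂⟩ := hmem b₁ (by rw [h1]; omega)
    have h2 : P = c.res β hβ (c.p w₀) H * (c.res β hβ (c.p w₀) H * c.res β hβ (c.p w₀) b₂) := by
      rw [← hba, hb₁, hb₂, map_mul, map_mul]
    have h3 : ¬ IsUnit (c.res β hβ (c.p w₀) H) := fun h => hH.not_isUnit (c.isUnit_of_res h)
    rcases hP.irreducible.isUnit_or_isUnit h2 with h | h
    · exact h3 h
    · exact h3 (isUnit_of_mul_isUnit_left h)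
  rw [hmul f hf, hm2, one_mul]

/-- Local generators on the fibre give local generators. -/
theorem genAt_ι {D : Div Z.X} {D' : Div X.X}
    (hD : ∀ w, coheight (c.j w) = 1 → coef D' (c.j w) = coef D (c.p w)) {g : Z.K} {w : c.W}
    (h : GenAt D g (c.p w)) : GenAt D' (c.ι g) (c.j w) := by
  refine ⟨c.ι_ne_zero h.1, fun y hy hyw => ?_⟩
  have h1 : y ∈ Set.range c.j := hyw.mem_open c.j.isOpenEmbedding.isOpen_range ⟨w, rfl⟩
  obtain ⟨w', rfl⟩ := h1
  have h2 : w' ⤳ w := (c.j.isOpenEmbedding.isInducing.specializes_iff).1 hyw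
  rw [hD w' hy]
  by_cases h3 : coheight (c.p w') = 1
  · rw [c.ord_ι hy h3 h.1]
    exact h.2 _ h3 (h2.map c.p.continuous)
  · have h4 : coheight (c.p w') = 0 := by
      rcases (c.coheight_p_le hy).lt_or_eq with h5 | h5
      · exact Order.lt_one_iff.1 h5
      · exact absurd h5 h3
    have h5 := eq_generic_of_coheight h4
    rw [c.ord_ι_of_generic h5 h.1, h5, coef_generic, add_zero]

theorem ι_mem_polar {D : Div Z.X} {D' : Div X.X}
    (hD : ∀ w, coheight (c.j w) = 1 → coef D' (c.j w) = coef D (c.p w)) {g : Z.K} {w : c.W}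
    (h : g ∈ polar (coef D) (c.p w)) : c.ι g ∈ polar (coef D') (c.j w) := by
  intro hy hg
  have hg0 : g ≠ 0 := by
    rintro rfl
    exact hg (map_zero _)
  rw [hD w hy]
  by_cases h3 : coheight (c.p w) = 1
  · rw [c.ord_ι hy h3 hg0]
    exact h h3 hg0
  · have h4 : coheight (c.p w) = 0 := by
      rcases (c.coheight_p_le hy).lt_or_eq with h5 | h5
      · exact Order.lt_one_iff.1 h5
      · exact absurd h5 h3
    have h5 := eq_generic_of_coheight h4
    rw [c.ord_ι_of_generic h5 hg0, h5, coef_generic, add_zero]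

end

end Chart

end Vale.Agent.P299.Q
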