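import Vale.Agent.P299.Q.Torus

/-!
# The data comparing the cohomology of a fibre bundle with that of its fibre
-/

open CategoryTheory TopologicalSpace Opposite TopCat AlgebraicGeometry Order

namespace Vale.Agent.P299.Q

/-- A continuous map `a` from `X` to the space of orbits of the fibre `Z`, and the inclusion `i` of
a fibre, with the corresponding maps of functions. -/
structure BunData {r : ℕ} {X Z : Var} (τ : TAct r Z) (D : Div Z.X) (D' : Div X.X) where
  a : X.X → Z.X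
  a_cont : ∀ U : Opens τ.space, IsOpen {x : X.X | (show τ.space from a x) ∈ U}
  i : Z.X → X.X
  i_cont : Continuous i
  i_closed : IsClosedMap i
  a_i : ∀ z, a (i z) = z
  ι : Z.K →ₗ[ℂ] X.K
  ι_mem : ∀ f ∈ τ.inv, ∀ x : X.X, (∀ z, z ⤳ a x → f ∈ polar (coef D) z) →
    ι f ∈ polar (coef D') x
  ρ : X.K →ₗ[ℂ] Z.K
  ρ_mem : ∀ (z : Z.X) (f : X.K), (∀ x, x ⤳ i z → f ∈ polar (coef D') x) →
    ρ f ∈ polar (coef D) z
  ρ_ι : ∀ f ∈ τ.inv, ρ (ι f) = f

end Vale.Agent.P299.Q
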