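import Vale.Agent.P299.Q.BunC
import Vale.Agent.P299.Q.BunData

/-!
# Fibre bundles and their fibres
-/

open CategoryTheory TopologicalSpace Opposite TopCat AlgebraicGeometry Order

namespace Vale.Agent.P299.Q

open Vale.Agent.P299.G

theorem toK_generic {T : Scheme.{0}} [IsIntegral T] (b : T.functionField) :
    toK (genericPoint T) b = b := by
  have h3 : toK (genericPoint T) = (T.presheaf.stalkSpecializes
    (specializes_refl (genericPoint T))).hom := rfl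
  rw [h3, TopCat.Presheaf.stalkSpecializes_refl]
  rfl

namespace Chart

variable {X B Z : Var} {q : DomHom X B} (c : Chart q Z)

theorem stalk_const (w : c.W) (a : ℂ) :
    (c.j.stalkMap w).hom ((X.X.presheaf.germ ⊤ (c.j w) (Opens.mem_top _)).hom (constants X.X a)) =
    (c.p.stalkMap w).hom
      ((Z.X.presheaf.germ ⊤ (c.p w) (Opens.mem_top _)).hom (constants Z.X a)) := by
  have h1 := congrArg (fun f => f.hom (constants X.X a))
    (Scheme.Hom.germ_stalkMap c.j ⊤ w (Opens.mem_top _))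
  have h2 := congrArg (fun f => f.hom (constants Z.X a))
    (Scheme.Hom.germ_stalkMap c.p ⊤ w (Opens.mem_top _))
  refine h1.trans (Eq.trans ?_ h2.symm)
  have h3 : (Scheme.ΓSpecIso (CommRingCat.of ℂ)).inv ≫ (X.X ↘ SpecC).appTop ≫ c.j.appTop =
      (Scheme.ΓSpecIso (CommRingCat.of ℂ)).inv ≫ (Z.X ↘ SpecC).appTop ≫ c.p.appTop := by
    rw [← Scheme.Hom.comp_appTop, ← Scheme.Hom.comp_appTop, c.over_j]
  have h4 := congrArg (fun f => (c.W.presheaf.germ ⊤ w (Opens.mem_top _)).hom (f.hom a)) h3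
  exact h4

theorem res_const (β : SpecC ⟶ c.U.toScheme) (hβ : β ≫ c.U.ι ≫ (B.X ↘ SpecC) = 𝟙 SpecC)
    (z : Z.X) (a : ℂ) :
    c.res β hβ z ((X.X.presheaf.germ ⊤ (c.j (c.sec β hβ z)) (Opens.mem_top _)).hom
      (constants X.X a)) = (Z.X.presheaf.germ ⊤ z (Opens.mem_top _)).hom (constants Z.X a) := by
  have hz : c.p (c.sec β hβ z) ⤳ z := specializes_of_eq (c.p_sec β hβ z)
  change ((c.sec β hβ).stalkMap z).hom ((c.j.stalkMap (c.sec β hβ z)).hom _) = _
  rw [c.stalk_const]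
  have h1 := stalkMap_section (c.sec_p β hβ) hz
    ((Z.X.presheaf.germ ⊤ z (Opens.mem_top _)).hom (constants Z.X a))
  rw [← h1]
  congr 2
  have h2 := congrArg (fun f => f.hom (constants Z.X a))
    (Z.X.presheaf.germ_stalkSpecializes (U := ⊤) (Opens.mem_top z) hz)
  exact h2.symm

theorem res_toStalk (β : SpecC ⟶ c.U.toScheme) (hβ : β ≫ c.U.ι ≫ (B.X ↘ SpecC) = 𝟙 SpecC)
    {z z' : Z.X} (h : z' ⤳ z) (h' : c.j (c.sec β hβ z') ⤳ c.j (c.sec β hβ z))
    (b : X.X.presheaf.stalk (c.j (c.sec β hβ z))) :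
    c.res β hβ z' (toStalk h' b) = toStalk h (c.res β hβ z b) := by
  have h1 := Scheme.Hom.stalkSpecializes_stalkMap (c.sec β hβ) z' z h
  have h2 := Scheme.Hom.stalkSpecializes_stalkMap c.j (c.sec β hβ z') (c.sec β hβ z)
    (h.map (c.sec β hβ).continuous)
  have h3 : (X.X.presheaf.stalkSpecializes h' ≫ c.j.stalkMap (c.sec β hβ z')) ≫
      (c.sec β hβ).stalkMap z' = (c.j.stalkMap (c.sec β hβ z) ≫ (c.sec β hβ).stalkMap z) ≫
        Z.X.presheaf.stalkSpecializes h := by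
    rw [h2, Category.assoc, h1, Category.assoc]
  exact congrArg (fun f => f.hom b) h3

variable [Nonempty c.W]

/-- Values of functions from `Z`. -/
theorem hasValue_of_ι {f : Z.K} {w : c.W} {v : ℂ} {a : Z.X.presheaf.stalk (c.p w)}
    (ha : toK (c.p w) a = f) (h : HasValue (c.ι f) (c.j w) v) : HasValue f (c.p w) v := by
  obtain ⟨b, hb, hbv⟩ := h
  refine ⟨a - (Z.X.presheaf.germ ⊤ (c.p w) (Opens.mem_top _)).hom (constants Z.X v), ?_, ?_⟩
  · rw [IsLocalRing.mem_maximalIdeal]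
    intro hu
    obtain ⟨b', hb'⟩ := c.exists_stalk w
      (a - (Z.X.presheaf.germ ⊤ (c.p w) (Opens.mem_top _)).hom (constants Z.X v))
    have h1 := c.ι_toK hb'
    rw [map_sub, toK_germ_const, ha, map_sub, c.ι_const] at h1
    have h2 : b' = b := toK_injective _ (h1.symm.trans hbv.symm)
    subst h2
    exact (IsLocalRing.mem_maximalIdeal _).1 hb ((c.isUnit_iff hb').2 hu)
  · change toK (c.p w) _ = _
    rw [map_sub, toK_germ_const, ha]

end Chart

section Bundle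

variable {X B Z : Var} {q : DomHom X B} {r : ℕ} {τ : TAct r Z} {𝒜 : Set (Chart q Z)}

/-- The charts of `𝒜` form a fibre bundle with structure group `T`. -/
def IsBundle (q : DomHom X B) (τ : TAct r Z) (𝒜 : Set (Chart q Z)) : Prop :=
  (∀ b : B.X, ∃ c ∈ 𝒜, b ∈ c.U) ∧
  ∀ c ∈ 𝒜, ∀ c' ∈ 𝒜, ∀ (w : c.W) (w' : c'.W), IsClosed {c.j w} → c.j w = c'.j w' →
    ∃ t : Fin r → ℂˣ, c'.p w' = (τ.act t).f (c.p w)

/-- The divisor on the bundle corresponding to a divisor on the fibre. -/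
def Corr (𝒜 : Set (Chart q Z)) (D : Div Z.X) (D' : Div X.X) : Prop :=
  ∀ c ∈ 𝒜, ∀ w : c.W, coheight (c.j w) = 1 → coef D' (c.j w) = coef D (c.p w)

theorem TAct.act_inv_apply (τ : TAct r Z) (t : Fin r → ℂˣ) (z : Z.X) :
    (τ.act t⁻¹).f ((τ.act t).f z) = z := by
  have h1 := τ.act_mul t t⁻¹
  rw [mul_inv_cancel, τ.act_one] at h1
  have h2 := congrArg (fun f => f z) h1
  simpa using h2.symm

theorem IsBundle.mem_of_mem (h : IsBundle q τ 𝒜) {c c' : Chart q Z} (hc : c ∈ 𝒜) (hc' : c' ∈ 𝒜)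
    {V : Set Z.X} (hV : IsOpen V) (hV' : ∀ t, (τ.act t).f ⁻¹' V = V) {w : c.W} {w' : c'.W}
    (hw : c.j w = c'.j w') (hm : c.p w ∈ V) : c'.p w' ∈ V := by
  by_contra hn
  have := X.jacobson
  have h1 : IsOpen (c.j '' (c.p ⁻¹' V)) :=
    c.j.isOpenEmbedding.isOpenMap _ (hV.preimage c.p.continuous)
  have h2 : IsLocallyClosed (c'.j '' (c'.p ⁻¹' Vᶜ)) :=
    ((hV.isClosed_compl.preimage c'.p.continuous).isLocallyClosed).image
      c'.j.isOpenEmbedding.isInducing c'.j.isOpenEmbedding.isOpen_range.isLocallyClosed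
  obtain ⟨x, ⟨⟨w₁, hw₁, rfl⟩, w₂, hw₂, h12⟩, hx⟩ := nonempty_inter_closedPoints
    (Z := c.j '' (c.p ⁻¹' V) ∩ c'.j '' (c'.p ⁻¹' Vᶜ))
    ⟨c.j w, ⟨w, hm, rfl⟩, w', hn, hw.symm⟩ (h1.isLocallyClosed.inter h2)
  obtain ⟨t, ht⟩ := h.2 c hc c' hc' w₁ w₂ hx h12.symm
  apply hw₂
  rw [ht]
  change c.p w₁ ∈ (τ.act t).f ⁻¹' V
  rw [hV' t]
  exact hw₁

/-- The embedding of the invariant functions does not depend on the chart. -/
theorem IsBundle.ι_eq (h : IsBundle q τ 𝒜) {c c' : Chart q Z} (hc : c ∈ 𝒜) (hc' : c' ∈ 𝒜)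
    [Nonempty c.W] [Nonempty c'.W] {f : Z.K} (hf : f ∈ τ.inv) : c.ι f = c'.ι f := by
  by_contra hne
  have hf0 : f ≠ 0 := by
    rintro rfl
    rw [map_zero, map_zero] at hne
    exact hne rfl
  have := X.jacobson
  have hg1 : GenAt (0 : Div X.X) (c.ι f - c'.ι f) (genericPoint X.X) :=
    ⟨sub_ne_zero.2 hne, fun y hy hyg => by
      rw [(hyg.antisymm (genericPoint_specializes y)).eq, isMax_of_eq_generic] at hy
      exact absurd hy zero_ne_one⟩
  have hg2 : GenAt (0 : Div Z.X) f (genericPoint Z.X) :=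
    ⟨hf0, fun y hy hyg => by
      rw [(hyg.antisymm (genericPoint_specializes y)).eq, isMax_of_eq_generic] at hy
      exact absurd hy zero_ne_one⟩
  obtain ⟨U₁, hU₁, hU₁'⟩ := exists_genAt_nhds 0 _ hg1
  obtain ⟨V, hV, hV'⟩ := exists_genAt_nhds 0 _ hg2
  have h1 : IsOpen (c.j '' (c.p ⁻¹' (V : Set Z.X))) :=
    c.j.isOpenEmbedding.isOpenMap _ (V.2.preimage c.p.continuous)
  obtain ⟨x, ⟨⟨⟨w, hw, rfl⟩, w', hww⟩, hxU⟩, hx⟩ := nonempty_inter_closedPoints
    (Z := (c.j '' (c.p ⁻¹' (V : Set Z.X)) ∩ Set.range c'.j) ∩ (U₁ : Set X.X))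
    ⟨genericPoint X.X, ⟨⟨genericPoint c.W, by
      change c.p _ ∈ V
      rw [c.p_gen]
      exact hV, c.j_gen⟩, genericPoint c'.W, c'.j_gen⟩, hU₁⟩
    (((h1.inter c'.j.isOpenEmbedding.isOpen_range).inter U₁.2).isLocallyClosed)
  -- values
  have hUZ := factorialStalks Z (c.p w)
  have hUX := factorialStalks X (c.j w)
  obtain ⟨a, -, ha⟩ := exists_unit_of_forall_ord_eq_zero Z.dvr (c.p w) f hf0
    (fun y hy hyw => by
      have := (hV' _ hw).2 y hy hyw
      rwa [coef_zero, add_zero] at this)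
  obtain ⟨e, he, hed⟩ := exists_unit_of_forall_ord_eq_zero X.dvr (c.j w) (c.ι f - c'.ι f)
    (sub_ne_zero.2 hne) (fun y hy hyw => by
      have := (hU₁' _ hxU).2 y hy hyw
      rwa [coef_zero, add_zero] at this)
  obtain ⟨b, hb⟩ := c.exists_stalk w a
  have h3 := c.ι_toK hb
  rw [ha] at h3
  obtain ⟨v, hv⟩ := exists_hasValue (c.j w) hx b
  rw [← h3] at hv
  have hv2 := c.hasValue_of_ι ha hv
  obtain ⟨t, ht⟩ := h.2 c hc c' hc' w w' hx hww.symm
  have hv3 : HasValue f ((τ.act t⁻¹).f (c'.p w')) v := by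
    rw [ht, τ.act_inv_apply]
    exact hv2
  have hv4 := HasValue.pull (τ.act t⁻¹) hv3
  rw [hf t⁻¹] at hv4
  have hv5 := c'.hasValue_ι hv4
  rw [hww] at hv5
  have hv6 := hv.add ((hasValue_const (c.j w) (-1)).mul hv5)
  have h7 : c.ι f + algebraMap ℂ X.K (-1) * c'.ι f = toK (c.j w) e := by
    rw [hed, map_neg, map_one]
    ring
  rw [h7] at hv6
  exact HasValue.ne_zero he hv6 (by ring)

end Bundle

end Vale.Agent.P299.Q
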