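import Vale.Agent.P299.Q.BunD

/-!
# The data of a fibre bundle
-/

open CategoryTheory TopologicalSpace Opposite TopCat AlgebraicGeometry Order

namespace Vale.Agent.P299.Q

open Vale.Agent.P299.G

variable {X B Z : Var} {q : DomHom X B} {r : ℕ} {τ : TAct r Z} {𝒜 : Set (Chart q Z)}

/-- The functions which are regular at a point. -/
noncomputable def locSub (x : X.X) : Submodule ℂ X.K where
  carrier := {f | ∃ b : X.X.presheaf.stalk x, toK x b = f}
  zero_mem' := ⟨0, map_zero _⟩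
  add_mem' := by
    rintro _ _ ⟨a, rfl⟩ ⟨b, rfl⟩
    exact ⟨a + b, map_add _ _ _⟩
  smul_mem' := by
    rintro a _ ⟨b, rfl⟩
    refine ⟨(X.X.presheaf.germ ⊤ x (Opens.mem_top _)).hom (constants X.X a) * b, ?_⟩
    rw [map_mul, toK_germ_const, Algebra.smul_def]

/-- The restriction of regular functions, as a linear map. -/
noncomputable def Chart.resLin (c : Chart q Z) (β : SpecC ⟶ c.U.toScheme)
    (hβ : β ≫ c.U.ι ≫ (B.X ↘ SpecC) = 𝟙 SpecC) :
    locSub (X := X) (c.j (c.sec β hβ (genericPoint Z.X))) →ₗ[ℂ] Z.K where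
  toFun f := c.res β hβ (genericPoint Z.X) f.2.choose
  map_add' f g := by
    rw [← map_add]
    congr 1
    apply toK_injective
    rw [map_add, (f + g).2.choose_spec, f.2.choose_spec, g.2.choose_spec]
    rfl
  map_smul' a f := by
    have h1 : (a • f).2.choose = (X.X.presheaf.germ ⊤ _ (Opens.mem_top _)).hom
        (constants X.X a) * f.2.choose := by
      apply toK_injective
      rw [map_mul, toK_germ_const, (a • f).2.choose_spec, f.2.choose_spec, ← Algebra.smul_def]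
      rfl
    rw [h1, map_mul, c.res_const, RingHom.id_apply, Algebra.smul_def]
    congr 1

theorem Chart.resLin_toK (c : Chart q Z) (β : SpecC ⟶ c.U.toScheme)
    (hβ : β ≫ c.U.ι ≫ (B.X ↘ SpecC) = 𝟙 SpecC)
    (b : X.X.presheaf.stalk (c.j (c.sec β hβ (genericPoint Z.X)))) :
    c.resLin β hβ ⟨toK _ b, b, rfl⟩ = c.res β hβ (genericPoint Z.X) b := by
  have h1 : (⟨toK _ b, b, rfl⟩ :
      locSub (X := X) (c.j (c.sec β hβ (genericPoint Z.X)))).2.choose = b :=
    toK_injective _ (⟨toK _ b, b, rfl⟩ :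
      locSub (X := X) (c.j (c.sec β hβ (genericPoint Z.X)))).2.choose_spec
  change c.res β hβ (genericPoint Z.X) _ = _
  rw [h1]

/-- The restriction of rational functions to the fibre. -/
theorem Chart.exists_ρ (c : Chart q Z) [Nonempty c.W] (β : SpecC ⟶ c.U.toScheme)
    (hβ : β ≫ c.U.ι ≫ (B.X ↘ SpecC) = 𝟙 SpecC) {D : Div Z.X} {D' : Div X.X}
    (hD : ∀ w, coheight (c.j w) = 1 → coef D' (c.j w) = coef D (c.p w)) :
    ∃ ρ : X.K →ₗ[ℂ] Z.K,
      (∀ (z : Z.X) (f : X.K), (∀ x, x ⤳ c.j (c.sec β hβ z) → f ∈ polar (coef D') x) →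
        ρ f ∈ polar (coef D) z) ∧ ∀ f, ρ (c.ι f) = f := by
  obtain ⟨ρ, hρ⟩ := LinearMap.exists_extend (c.resLin β hβ)
  have hρ' : ∀ b : X.X.presheaf.stalk (c.j (c.sec β hβ (genericPoint Z.X))),
      ρ (toK _ b) = c.res β hβ (genericPoint Z.X) b := by
    intro b
    rw [← c.resLin_toK β hβ b, ← hρ]
    rfl
  refine ⟨ρ, fun z f hf => ?_, fun f => ?_⟩
  · by_cases hf0 : f = 0
    · rw [hf0, map_zero]
      exact Submodule.zero_mem _
    have hUZ := factorialStalks Z z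
    have hUX := factorialStalks X (c.j (c.sec β hβ z))
    obtain ⟨g, hg⟩ := exists_genAt D z
    have hg' : GenAt D g (c.p (c.sec β hβ z)) := by rwa [c.p_sec]
    have hιg := c.genAt_ι hD hg'
    obtain ⟨b, hb⟩ := exists_of_forall_ord_nonneg X.dvr (c.j (c.sec β hβ z)) (f / c.ι g)
      (fun y hy hyz => by
        have h1 := hιg.2 y hy hyz
        have h2 := hf y hyz hy hf0
        rw [ord_div hf0 hιg.1]
        omega)
    have hη : genericPoint Z.X ⤳ z := genericPoint_specializes z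
    have hη' : c.j (c.sec β hβ (genericPoint Z.X)) ⤳ c.j (c.sec β hβ z) :=
      (hη.map (c.sec β hβ).continuous).map c.j.continuous
    obtain ⟨bg, hbg, hbg'⟩ := c.exists_res β hβ (genericPoint Z.X) g
    rw [toK_generic] at hbg'
    have h1 : f = toK _ (toStalk hη' b * bg) := by
      rw [map_mul, toK_toStalk, hb, ← hbg', div_mul_cancel₀ _ hιg.1]
    rw [h1, hρ', map_mul, hbg, c.res_toStalk β hβ hη hη']
    intro hz hne
    have h2 : toStalk hη (c.res β hβ z b) = toK z (c.res β hβ z b) := rfl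
    rw [h2] at hne ⊢
    have h3 := Scheme.ord_mul (x := z) (left_ne_zero_of_mul hne) (right_ne_zero_of_mul hne)
    rw [h3]
    have h4 := hg.2 z hz specializes_rfl
    have h5 : 0 ≤ Scheme.ord (toK z (c.res β hβ z b)) z := ord_toK_nonneg _
    omega
  · obtain ⟨bf, hbf, hbf'⟩ := c.exists_res β hβ (genericPoint Z.X) f
    rw [toK_generic] at hbf'
    rw [hbf', hρ', hbf]

/-- The inclusion of a fibre is proper. -/
theorem Chart.isProper_sec (c : Chart q Z) (β : SpecC ⟶ c.U.toScheme)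
    (hβ : β ≫ c.U.ι ≫ (B.X ↘ SpecC) = 𝟙 SpecC) : IsProper (c.sec β hβ ≫ c.j) := by
  have h1 : (c.sec β hβ ≫ c.j) ≫ (X.X ↘ SpecC) = Z.X ↘ SpecC := by
    rw [Category.assoc, ← c.over_j, ← Category.assoc, c.sec_p, Category.id_comp]
  have h2 : IsProper ((c.sec β hβ ≫ c.j) ≫ (X.X ↘ SpecC)) := by
    rw [h1]
    infer_instance
  exact MorphismProperty.of_postcomp (W := @IsProper) (W' := @IsSeparated) _ (X.X ↘ SpecC)
    inferInstance h2

theorem IsBundle.exists_chart (h : IsBundle q τ 𝒜) (x : X.X) :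
    ∃ c ∈ 𝒜, ∃ w : c.W, c.j w = x := by
  obtain ⟨c, hc, hx⟩ := h.1 (q.f x)
  obtain ⟨w, hw⟩ := c.mem_range_j hx
  exact ⟨c, hc, w, hw⟩

/-- **The data of a fibre bundle.** -/
theorem IsBundle.nonempty_bunData (h : IsBundle q τ 𝒜) {D : Div Z.X} {D' : Div X.X}
    (hD : Corr 𝒜 D D') : Nonempty (BunData τ D D') := by
  obtain ⟨c₀, hc₀, w, -⟩ := h.exists_chart (genericPoint X.X)
  have hne : Nonempty c₀.W := ⟨w⟩
  obtain ⟨w₀, -, -, hw₀⟩ := c₀.exists_closed (w := w) isOpen_univ trivial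
  obtain ⟨β, hβ, -⟩ := c₀.exists_sec hw₀
  obtain ⟨ρ, hρ, hρι⟩ := c₀.exists_ρ β hβ (hD c₀ hc₀)
  have hproper := c₀.isProper_sec β hβ
  have hex : ∀ x : X.X, ∃ z : Z.X, (∃ c ∈ 𝒜, ∃ w : c.W, c.j w = x ∧ c.p w = z) ∧
      ∀ w : c₀.W, c₀.j w = x → c₀.p w = z := by
    intro x
    by_cases hx : ∃ w : c₀.W, c₀.j w = x
    · obtain ⟨w, rfl⟩ := hx
      exact ⟨c₀.p w, ⟨c₀, hc₀, w, rfl, rfl⟩, fun w' hw' => by rw [c₀.j_injective hw']⟩
    · obtain ⟨c, hc, w, hw⟩ := h.exists_chart x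
      exact ⟨c.p w, ⟨c, hc, w, hw, rfl⟩, fun w' hw' => absurd ⟨w', hw'⟩ hx⟩
  choose a ha ha' using hex
  let ι : Z.K →ₗ[ℂ] X.K :=
    { toFun := c₀.ι
      map_add' := map_add _
      map_smul' := fun a f => by
        rw [Algebra.smul_def, map_mul, c₀.ι_const, RingHom.id_apply, Algebra.smul_def] }
  refine ⟨{ a := a, a_cont := fun U => ?_, i := fun z => c₀.j (c₀.sec β hβ z),
            i_cont := c₀.j.continuous.comp (c₀.sec β hβ).continuous, i_closed := ?_,
            a_i := fun z => ?_, ι := ι, ι_mem := fun f hf x hx => ?_, ρ := ρ,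
            ρ_mem := hρ, ρ_ι := fun f _ => hρι f }⟩
  · let V : Set Z.X := U.carrier
    have hU1 : IsOpen V := U.2.1
    have hU2 : ∀ t, (τ.act t).f ⁻¹' V = V := U.2.2
    have h1 : {x : X.X | (show τ.space from a x) ∈ U} =
        ⋃ c ∈ 𝒜, c.j '' (c.p ⁻¹' V) := by
      ext x
      simp only [Set.mem_iUnion]
      constructor
      · intro hx
        obtain ⟨c, hc, w, hw, hwa⟩ := ha x
        refine ⟨c, hc, w, ?_, hw⟩
        change c.p w ∈ V
        rw [hwa]
        exact hx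
      · rintro ⟨c, hc, w, hw, rfl⟩
        obtain ⟨c', hc', w', hw', hwa⟩ := ha (c.j w)
        have h2 := h.mem_of_mem hc hc' hU1 hU2 hw'.symm hw
        rw [hwa] at h2
        exact h2
    rw [h1]
    exact isOpen_biUnion fun c _ =>
      c.j.isOpenEmbedding.isOpenMap _ (hU1.preimage c.p.continuous)
  · have h1 := (c₀.sec β hβ ≫ c₀.j).isClosedMap
    have h2 : (fun z => c₀.j (c₀.sec β hβ z)) = (c₀.sec β hβ ≫ c₀.j : Z.X ⟶ X.X) := by
      funext z
      exact (Scheme.Hom.comp_apply _ _ _).symm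
    rw [h2]
    exact h1
  · exact (ha' _ _ rfl).symm.trans (c₀.p_sec β hβ z)
  · obtain ⟨c, hc, w, hw, hwa⟩ := ha x
    have hne' : Nonempty c.W := ⟨w⟩
    change c₀.ι f ∈ _
    rw [h.ι_eq hc₀ hc hf, ← hw]
    apply c.ι_mem_polar (hD c hc)
    rw [hwa]
    exact hx _ specializes_rfl

end Vale.Agent.P299.Q
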