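import Vale.Agent.P299.Q.Numeric

/-!
# Cohomology depends only on the class of a divisor
-/

open CategoryTheory TopologicalSpace Opposite TopCat AlgebraicGeometry Order

namespace Vale.Agent.P299.Q

section Iso

variable {T : TopCat.{0}}

/-- `Ext` of isomorphic objects has the same dimension. -/
theorem finrank_ext_congr {C : Type*} [Category C] [Abelian C] [Linear ℂ C] [HasExt.{0} C] (A : C)
    {F F' : C} (e : F ≅ F') (i : ℕ) :
    Module.finrank ℂ (Abelian.Ext.{0} A F i) = Module.finrank ℂ (Abelian.Ext.{0} A F' i) :=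
  LinearEquiv.finrank_eq <| LinearEquiv.ofLinearMap
    (Abelian.Ext.postcompOfLinear (Abelian.Ext.mk₀ e.hom) ℂ _ (add_zero i))
    (Abelian.Ext.postcompOfLinear (Abelian.Ext.mk₀ e.inv) ℂ _ (add_zero i))
    (by
      apply LinearMap.ext
      intro x
      simp)
    (by
      apply LinearMap.ext
      intro x
      simp)

/-- Isomorphic sheaves have cohomology of the same dimension. -/
theorem finrank_coh_congr {F F' : Sheaf (Opens.grothendieckTopology T) (ModuleCat.{0} ℂ)}
    (e : F ≅ F') (i : ℕ) : Module.finrank ℂ (Coh F i) = Module.finrank ℂ (Coh F' i) :=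
  finrank_ext_congr _ e i

variable {K : Type} [AddCommGroup K] [Module ℂ K] [PreirreducibleSpace T]

/-- Transport of a subsheaf of a constant sheaf through an automorphism. -/
def constSheafIso (e : K ≃ₗ[ℂ] K) (M M' : T → Submodule ℂ K)
    (h : ∀ x f, f ∈ M x ↔ e f ∈ M' x) : constSheaf M ≅ constSheaf M' :=
  ObjectProperty.isoMk _ (NatIso.ofComponents (fun U =>
    LinearEquiv.toModuleIso
      { toFun := fun s => ⟨fun x => e (s.1 x), fun x y => congrArg e (s.2.1 x y),
          fun x => (h _ _).1 (s.2.2 x)⟩
        map_add' := fun s t => by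
          apply Subtype.ext
          funext x
          exact map_add e _ _
        map_smul' := fun c s => by
          apply Subtype.ext
          funext x
          exact map_smul e _ _
        invFun := fun s => ⟨fun x => e.symm (s.1 x), fun x y => congrArg e.symm (s.2.1 x y),
          fun x => (h _ _).2 (by rw [e.apply_symm_apply]; exact s.2.2 x)⟩
        left_inv := fun s => by
          apply Subtype.ext
          funext x
          exact e.symm_apply_apply _
        right_inv := fun s => by
          apply Subtype.ext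
          funext x
          exact e.apply_symm_apply _ }) (fun i => rfl))

end Iso

/-- Multiplication by a nonzero element of a field. -/
def mulEquiv {K : Type} [Field K] [Algebra ℂ K] (g : K) (hg : g ≠ 0) : K ≃ₗ[ℂ] K where
  toFun f := g * f
  invFun f := g⁻¹ * f
  map_add' _ _ := mul_add _ _ _
  map_smul' _ _ := mul_smul_comm _ _ _
  left_inv a := inv_mul_cancel_left₀ hg a
  right_inv a := mul_inv_cancel_left₀ hg a

/-- The same with the instances used by `constSheaf`. -/
def mulEquiv' {K : Type} [Field K] [Algebra ℂ K] (g : K) (hg : g ≠ 0) :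
    @LinearEquiv ℂ ℂ _ _ (RingHom.id ℂ) (RingHom.id ℂ) _ _ K K AddCommGroup.toAddCommMonoid
      AddCommGroup.toAddCommMonoid _ _ := mulEquiv g hg

theorem finrank_constSheaf_congr {T : TopCat.{0}} {K : Type} [AddCommGroup K] [Module ℂ K]
    [PreirreducibleSpace T] (e : K ≃ₗ[ℂ] K) (M M' : T → Submodule ℂ K)
    (h : ∀ x f, f ∈ M x ↔ e f ∈ M' x) (i : ℕ) :
    Module.finrank ℂ (Coh (constSheaf M) i) = Module.finrank ℂ (Coh (constSheaf M') i) :=
  finrank_coh_congr (constSheafIso e M M' h) i

section Principal

variable {X : Var} {S : TopCat.{0}} [PreirreducibleSpace S] (q : X.X → S)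

theorem secSheaf_eq (E : Submodule ℂ X.K) (D : Div X.X) :
    secSheaf q E D =
      constSheaf (T := S) (fun s => E ⊓ ⨅ x, ⨅ _ : q x = s, polar (coef D) x) := rfl

theorem hh_eq (E : Submodule ℂ X.K) (D : Div X.X) (i : ℕ) :
    hh q E D i = Module.finrank ℂ (Coh (secSheaf q E D) i) := rfl

theorem hh_eq_constSheaf (E : Submodule ℂ X.K) (D : Div X.X) (i : ℕ) :
    hh q E D i = Module.finrank ℂ
      (Coh (constSheaf (T := S) (fun s => E ⊓ ⨅ x, ⨅ _ : q x = s, polar (coef D) x)) i) := by
  rw [hh_eq, secSheaf_eq]

/-- Multiplication by `g` gives an isomorphism `O_X(D + div g) ≅ O_X(D)`. -/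
theorem hh_add_principal (E : Submodule ℂ X.K) {g : X.K} {P : Div X.X} (hg : IsDivOf g P)
    (hE : ∀ f, f ∈ E ↔ g * f ∈ E) (D : Div X.X) (i : ℕ) :
    hh q E (D + P) i = hh q E D i := by
  rw [hh_eq_constSheaf, hh_eq_constSheaf]
  refine finrank_constSheaf_congr (mulEquiv' g hg.1) _ _ (fun s f => ?_) i
  have he : mulEquiv' g hg.1 f = g * f := rfl
  rw [he]
  simp only [Submodule.mem_inf, Submodule.mem_iInf, mem_polar]
  refine and_congr (hE f) (forall_congr' fun x => forall_congr' fun _ => ?_)
  constructor
  · intro h hx hgf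
    have hf : f ≠ 0 := right_ne_zero_of_mul hgf
    have := h hx hf
    rw [Scheme.ord_mul hg.1 hf, hg.2 x hx]
    rw [coef_add] at this
    omega
  · intro h hx hf
    have := h hx (mul_ne_zero hg.1 hf)
    rw [Scheme.ord_mul hg.1 hf, hg.2 x hx] at this
    rw [coef_add]
    omega

theorem chi_add_principal {g : X.K} {P : Div X.X} (hg : IsDivOf g P) (D : Div X.X) :
    chi (D + P) = chi D := by
  unfold chi
  refine Finset.sum_congr rfl fun i _ => ?_
  rw [hh_add_principal id ⊤ hg (fun _ => ⟨fun _ => trivial, fun _ => trivial⟩) D i]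

theorem chi_sub_principal {g : X.K} {P : Div X.X} (hg : IsDivOf g P) (D : Div X.X) :
    chi (D - P) = chi D := by
  have := chi_add_principal hg (D - P)
  rw [sub_add_cancel] at this
  exact this.symm

/-- Intersection numbers with a principal divisor vanish. -/
theorem inter_principal (D : Fin X.dim → Div X.X) (i : Fin X.dim) {g : X.K}
    (hg : IsDivOf g (D i)) : inter D = 0 := by
  classical
  unfold inter
  rw [← Finset.powerset_univ, ← Finset.insert_erase (Finset.mem_univ i),
    Finset.sum_powerset_insert (Finset.notMem_erase i _), ← Finset.sum_add_distrib]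
  refine Finset.sum_eq_zero fun S hS => ?_
  have hi : i ∉ S := fun h => Finset.notMem_erase i Finset.univ (Finset.mem_powerset.1 hS h)
  rw [Finset.sum_insert hi, Finset.card_insert_of_notMem hi]
  have h1 : chi (-(D i + ∑ j ∈ S, D j)) = chi (-∑ j ∈ S, D j) := by
    have := chi_sub_principal hg (-∑ j ∈ S, D j)
    rw [← this]
    congr 1
    abel
  rw [h1, pow_succ]
  ring

end Principal

end Vale.Agent.P299.Q
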