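import Vale.Agent.P299.Q.Frame
import Vale.Agent.P299.Q.StepDet
import Vale.Agent.P299.Q.Numeric
import Vale.Agent.P299.Q.Principal

/-!
# Two canonical divisors are linearly equivalent
-/

open CategoryTheory TopologicalSpace Opposite TopCat AlgebraicGeometry Order

namespace Vale.Agent.P299.Q

variable {X : Var}

/-- Two canonical divisors are linearly equivalent. -/
theorem IsCanonicalDivisor.exists_principal {κ κ' : Div X.X} (hκ : IsCanonicalDivisor κ)
    (hκ' : IsCanonicalDivisor κ') : ∃ (g : X.K) (P : Div X.X), IsDivOf g P ∧ κ' = κ + P := by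
  obtain ⟨ω, h0, halt, hdiv⟩ := hκ
  obtain ⟨ω', h0', halt', hdiv'⟩ := hκ'
  obtain ⟨t, w, -, -, h1, h2⟩ := exists_frame_at X (genericPoint X.X)
  have hne := value_frame_ne_zero h0 halt h1 h2
  have hne' := value_frame_ne_zero h0' halt' h1 h2
  have hg : ω' w / ω w ≠ 0 := div_ne_zero hne' hne
  have hmul : ∀ v, ω' v = (ω' w / ω w) * ω v := by
    intro v
    rw [exists_det halt' h1 h2 v, exists_det halt h1 h2 v]
    field_simp
  obtain ⟨P, hP⟩ := exists_isDivOf hg
  refine ⟨ω' w / ω w, P, hP, ?_⟩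
  refine hdiv'.unique fun x hx => ?_
  obtain ⟨⟨v, hv, hv0, hv1⟩, hmin⟩ := hdiv x hx
  constructor
  · refine ⟨v, hv, ?_, ?_⟩
    · rw [hmul]
      exact mul_ne_zero hg hv0
    · rw [hmul, Scheme.ord_mul hg hv0, hv1, hP.2 x hx, coef_add]
      ring
  · rintro n ⟨u, hu, hu0, rfl⟩
    rw [hmul] at hu0 ⊢
    have hu1 := right_ne_zero_of_mul hu0
    rw [Scheme.ord_mul hg hu1, hP.2 x hx, coef_add]
    have := hmin ⟨u, hu, hu1, rfl⟩
    linarith

/-- The cohomology of the multiples of two canonical divisors agree. -/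
theorem IsCanonicalDivisor.hh_eq {κ κ' : Div X.X} (hκ : IsCanonicalDivisor κ)
    (hκ' : IsCanonicalDivisor κ') (m i : ℕ) :
    hh (S := (X.X : TopCat.{0})) id ⊤ (m • -κ') i =
      hh (S := (X.X : TopCat.{0})) id ⊤ (m • -κ) i := by
  obtain ⟨g, P, hP, rfl⟩ := hκ.exists_principal hκ'
  have h1 : IsDivOf (g⁻¹ ^ m) (m • -P) := by
    refine ⟨pow_ne_zero _ (inv_ne_zero hP.1), fun y hy => ?_⟩
    rw [ord_pow (inv_ne_zero hP.1), ord_inv hP.1, hP.2 y hy, coef_nsmul, coef_neg]
  have h2 : m • -(κ + P) = m • -κ + m • -P := by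
    rw [neg_add, smul_add]
  rw [h2]
  exact hh_add_principal id ⊤ h1 (fun _ => ⟨fun _ => trivial, fun _ => trivial⟩) _ i

end Vale.Agent.P299.Q
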