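import Mathlib.AlgebraicGeometry.Morphisms.Finite
import Mathlib.RingTheory.Norm.Transitivity
import Mathlib.RingTheory.Ideal.GoingUp
import Vale.Agent.P299.Q.BB
import Vale.Agent.P299.Q.Pull

/-!
# Norms of sections under finite morphisms
-/

open CategoryTheory TopologicalSpace Opposite TopCat AlgebraicGeometry Order IsLocalRing

namespace Vale.Agent.P299.Q

open Vale.Agent.P299.G

/-- If `w` is a fraction with denominator outside `Q`, for all primes `Q` of `C` over the prime `p`
of `B`, then it is a fraction with denominator in `B`, outside `p`. -/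
lemma exists_mul_mem {B C L : Type*} [CommRing B] [CommRing C] [Field L] (f : B →+* C)
    (hf : f.IsIntegral) (g : C →+* L) (p : Ideal B) [p.IsPrime] (w : L)
    (h : ∀ Q : Ideal C, Q.IsPrime → Q.comap f = p → ∃ c s : C, s ∉ Q ∧ w * g s = g c) :
    ∃ b : B, b ∉ p ∧ ∃ c : C, w * g (f b) = g c := by
  let I : Ideal C :=
    { carrier := {s | ∃ c, w * g s = g c}
      zero_mem' := ⟨0, by simp⟩
      add_mem' := by
        rintro a b ⟨c, hc⟩ ⟨d, hd⟩
        exact ⟨c + d, by rw [map_add, mul_add, hc, hd, map_add]⟩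
      smul_mem' := by
        rintro a b ⟨c, hc⟩
        refine ⟨a * c, ?_⟩
        rw [smul_eq_mul, map_mul, map_mul, ← hc]
        ring }
  by_contra hcon
  push Not at hcon
  algebraize [f]
  have hint : Algebra.IsIntegral B C := ⟨hf⟩
  have hIP : I.comap (algebraMap B C) ≤ p := by
    intro b hb
    by_contra hbp
    obtain ⟨c, hc⟩ := hb
    exact hcon b hbp c hc
  obtain ⟨Q, hQI, hQ, hQp⟩ := Ideal.exists_ideal_over_prime_of_isIntegral p I hIP
  obtain ⟨c, s, hs, hsc⟩ := h Q hQ hQp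
  exact hs (hQI ⟨c, hsc⟩)

variable {X Y : Var} (π : DomHom X Y) [IsFinite π.f]

/-- Primes of codimension one do not dominate the base of a finite morphism. -/
lemma ne_generic_of_finite {z : X.X} (hz : coheight z = 1) : π.f z ≠ genericPoint Y.X := by
  intro h0
  obtain ⟨_, ⟨V, hV, rfl⟩, hxV, -⟩ :=
    Y.X.isBasis_affineOpens.exists_subset_of_mem_open (Set.mem_univ (π.f z)) isOpen_univ
  have hU : IsAffineOpen (π.f ⁻¹ᵁ V) := hV.preimage π.f
  have hzU : z ∈ π.f ⁻¹ᵁ V := hxV
  have hVne : Nonempty V := ⟨⟨_, hxV⟩⟩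
  have hUne : Nonempty (π.f ⁻¹ᵁ V) := ⟨⟨z, hzU⟩⟩
  have hint : (π.f.app V).hom.IsIntegral := (π.f.finite_app V hV).to_isIntegral
  have h1 := IsAffineOpen.comap_primeIdealOf_appLE V hV (π.f ⁻¹ᵁ V) hU le_rfl hzU
  have h2 : (hV.primeIdealOf ⟨π.f z, hxV⟩).asIdeal = ⊥ := by
    have h3 := hV.primeIdealOf_genericPoint
    have h4 : (⟨π.f z, hxV⟩ : V) = ⟨genericPoint Y.X,
        ((genericPoint_spec Y.X).mem_open_set_iff V.isOpen).mpr (by simpa using hVne)⟩ :=
      Subtype.ext h0
    rw [h4, h3, genericPoint_eq_bot_of_affine]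
    rfl
  have h3 : Ideal.comap (π.f.app V).hom (hU.primeIdealOf ⟨z, hzU⟩).asIdeal = ⊥ := by
    rw [← h2]
    have := congrArg PrimeSpectrum.asIdeal h1
    rw [← this]
    simp [Scheme.Hom.app_eq_appLE]
  have h4 : (hU.primeIdealOf ⟨z, hzU⟩).asIdeal = ⊥ := by
    algebraize [(π.f.app V).hom]
    have : Algebra.IsIntegral Γ(Y.X, V) Γ(X.X, π.f ⁻¹ᵁ V) := ⟨hint⟩
    exact Ideal.eq_bot_of_comap_eq_bot h3
  have hgU : genericPoint X.X ∈ π.f ⁻¹ᵁ V :=
    ((genericPoint_spec X.X).mem_open_set_iff (π.f ⁻¹ᵁ V).isOpen).mpr (by simpa using hUne)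
  have h5 : hU.primeIdealOf ⟨z, hzU⟩ = hU.primeIdealOf ⟨genericPoint X.X, hgU⟩ := by
    have h6 := hU.primeIdealOf_genericPoint
    rw [h6, genericPoint_eq_bot_of_affine]
    exact PrimeSpectrum.ext h4
  have h6 : z = genericPoint X.X := by
    have h7 := hU.fromSpec_primeIdealOf ⟨z, hzU⟩
    have h8 := hU.fromSpec_primeIdealOf ⟨genericPoint X.X, hgU⟩
    rw [h5, h8] at h7
    exact h7.symm
  have h7 : coheight z = 0 := by
    rw [coheight_eq_zero, h6]
    intro w _
    exact genericPoint_specializes w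
  rw [hz] at h7
  exact one_ne_zero h7

omit [IsFinite π.f] in
/-- A generization of a point of codimension one is the point itself or the generic point. -/
lemma eq_or_eq_generic {x y : Y.X} (hx : coheight x = 1) (h : y ⤳ x) :
    y = x ∨ y = genericPoint Y.X := by
  by_cases hxy : x ⤳ y
  · left
    exact (h.antisymm hxy).eq
  · right
    have hlt : x < y := lt_of_le_not_ge h hxy
    have h1 := coheight_add_one_le hlt
    rw [hx] at h1
    have h2 : coheight y = 0 := by
      by_contra hc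
      have h3 : (1 : ℕ∞) ≤ coheight y := Order.one_le_iff_ne_zero.2 hc
      have h4 : (1 : ℕ∞) + 1 ≤ 1 := (add_le_add_left h3 1).trans h1
      exact absurd h4 (by decide)
    rw [coheight_eq_zero] at h2
    have h3 : genericPoint Y.X ⤳ y := genericPoint_specializes y
    have h4 : y ⤳ genericPoint Y.X := h2 h3
    exact (h4.antisymm h3).eq

/-- A rational function without poles at the primes over `x` is regular at the points over `x`. -/
lemma exists_of_ord_over (hFS : FactorialStalks) {x : Y.X} (hx : coheight x = 1) {w : X.K}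
    (hw : ∀ z : X.X, coheight z = 1 → π.f z = x → 0 ≤ Scheme.ord w z) {y : X.X}
    (hy : π.f y = x) : ∃ a : X.X.presheaf.stalk y, toK y a = w := by
  have := hFS X y
  refine exists_of_forall_ord_nonneg X.dvr y w fun z hz hzy => hw z hz ?_
  have h1 : π.f z ⤳ x := by
    rw [← hy]
    exact hzy.map π.f.continuous
  exact (eq_or_eq_generic hx h1).resolve_right (ne_generic_of_finite π hz)

/-- Such a function is integral over the local ring of `x`. -/
lemma isIntegral_of_ord_over (hFS : FactorialStalks) {x : Y.X} (hx : coheight x = 1) {w : X.K}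
    (hw : ∀ z : X.X, coheight z = 1 → π.f z = x → 0 ≤ Scheme.ord w z) :
    (π.pull.comp (toK x)).IsIntegralElem w := by
  obtain ⟨_, ⟨V, hV, rfl⟩, hxV, -⟩ :=
    Y.X.isBasis_affineOpens.exists_subset_of_mem_open (Set.mem_univ x) isOpen_univ
  have hU : IsAffineOpen (π.f ⁻¹ᵁ V) := hV.preimage π.f
  have hVne : Nonempty V := ⟨⟨_, hxV⟩⟩
  have hgU : genericPoint X.X ∈ π.f ⁻¹ᵁ V := by
    change π.f (genericPoint X.X) ∈ V
    rw [π.dominant]
    exact ((genericPoint_spec Y.X).mem_open_set_iff V.isOpen).mpr (by simpa using hVne)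
  have hUne : Nonempty (π.f ⁻¹ᵁ V) := ⟨⟨_, hgU⟩⟩
  have hint : (π.f.app V).hom.IsIntegral := (π.f.finite_app V hV).to_isIntegral
  -- the prime of `x`
  have hloc := hV.isLocalization_stalk ⟨x, hxV⟩
  let _ := TopCat.Presheaf.algebra_section_stalk Y.X.presheaf (U := V) ⟨x, hxV⟩
  obtain ⟨b, hb, c, hc⟩ := exists_mul_mem (π.f.app V).hom hint
    (X.X.germToFunctionField (π.f ⁻¹ᵁ V)).hom (hV.primeIdealOf ⟨x, hxV⟩).asIdeal w (by
      intro Q hQ hQp
      let q : Spec Γ(X.X, π.f ⁻¹ᵁ V) := ⟨Q, hQ⟩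
      let y : X.X := hU.fromSpec q
      have hyU : y ∈ π.f ⁻¹ᵁ V := by
        have : y ∈ Set.range hU.fromSpec := ⟨q, rfl⟩
        rw [hU.range_fromSpec] at this
        exact this
      have hq : hU.primeIdealOf ⟨y, hyU⟩ = q := by
        have h1 := hU.fromSpec_primeIdealOf ⟨y, hyU⟩
        exact hU.fromSpec.isOpenEmbedding.injective h1
      have hyx : π.f y = x := by
        have h1 := IsAffineOpen.comap_primeIdealOf_appLE V hV (π.f ⁻¹ᵁ V) hU le_rfl hyU
        have h2 : (hV.primeIdealOf ⟨π.f y, hyU⟩).asIdeal =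
            (hV.primeIdealOf ⟨x, hxV⟩).asIdeal := by
          rw [← hQp, ← h1, hq]
          simp [Scheme.Hom.app_eq_appLE, q]
        have h3 := PrimeSpectrum.ext h2
        have h4 := hV.fromSpec_primeIdealOf ⟨π.f y, hyU⟩
        have h5 := hV.fromSpec_primeIdealOf ⟨x, hxV⟩
        rw [h3, h5] at h4
        exact h4.symm
      obtain ⟨a, ha⟩ := exists_of_ord_over π hFS hx hw hyx
      have hloc' := hU.isLocalization_stalk ⟨y, hyU⟩
      let _ := TopCat.Presheaf.algebra_section_stalk X.X.presheaf (U := π.f ⁻¹ᵁ V) ⟨y, hyU⟩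
      obtain ⟨⟨c, s⟩, hcs⟩ := IsLocalization.surj
        (hU.primeIdealOf ⟨y, hyU⟩).asIdeal.primeCompl a
      refine ⟨c, s.1, ?_, ?_⟩
      · intro hsQ
        have h1 : Q ≤ (hU.primeIdealOf ⟨y, hyU⟩).asIdeal :=
          (congrArg PrimeSpectrum.asIdeal hq).ge
        exact s.2 (h1 hsQ)
      · have h1 := congrArg (toK y) hcs
        rw [map_mul, ha] at h1
        have h2 : ∀ e : Γ(X.X, π.f ⁻¹ᵁ V), toK y (algebraMap Γ(X.X, π.f ⁻¹ᵁ V)
            (X.X.presheaf.stalk y) e) = X.X.germToFunctionField (π.f ⁻¹ᵁ V) e := fun e =>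
          Scheme.algebraMap_germ_eq_germToFunctionField X.X hyU e
        rw [h2, h2] at h1
        exact h1)
  -- `b` is a unit at `x`
  have hgV : genericPoint Y.X ∈ V :=
    ((genericPoint_spec Y.X).mem_open_set_iff V.isOpen).mpr (by simpa using hVne)
  have hbK : ∀ e : Γ(Y.X, V), (π.pull.comp (toK x)) (Y.X.presheaf.germ V x hxV e) =
      X.X.germToFunctionField (π.f ⁻¹ᵁ V) (π.f.app V e) := by
    intro e
    rw [RingHom.comp_apply]
    have h1 : toK x (Y.X.presheaf.germ V x hxV e) = Y.X.germToFunctionField V e :=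
      Scheme.algebraMap_germ_eq_germToFunctionField Y.X hxV e
    rw [h1]
    exact π.pull_germ_of_mem V hgV hgU e
  have hbu : IsUnit (Y.X.presheaf.germ V x hxV b) := IsLocalization.map_units
    (Y.X.presheaf.stalk x) (⟨b, hb⟩ : (hV.primeIdealOf ⟨x, hxV⟩).asIdeal.primeCompl)
  obtain ⟨b', hb'⟩ := hbu.exists_right_inv
  -- `c` is integral
  have hcint : (π.pull.comp (toK x)).IsIntegralElem (X.X.germToFunctionField (π.f ⁻¹ᵁ V) c) := by
    obtain ⟨P, hP, hP0⟩ := hint c
    refine ⟨P.map (Y.X.presheaf.germ V x hxV).hom, hP.map _, ?_⟩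
    have h1 : (π.pull.comp (toK x)).comp (Y.X.presheaf.germ V x hxV).hom =
        (X.X.germToFunctionField (π.f ⁻¹ᵁ V)).hom.comp (π.f.app V).hom := RingHom.ext hbK
    rw [Polynomial.eval₂_map, h1]
    have h2 := congrArg (X.X.germToFunctionField (π.f ⁻¹ᵁ V)).hom hP0
    rw [Polynomial.hom_eval₂, map_zero] at h2
    exact h2
  have hw' : w = X.X.germToFunctionField (π.f ⁻¹ᵁ V) c * (π.pull.comp (toK x)) b' := by
    have h1 : w * (π.pull.comp (toK x)) (Y.X.presheaf.germ V x hxV b) =
        X.X.germToFunctionField (π.f ⁻¹ᵁ V) c := by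
      rw [hbK]
      exact hc
    rw [← h1, mul_assoc, ← map_mul, hb', map_one, mul_one]
  rw [hw']
  exact hcint.mul _ (RingHom.isIntegralElem_map _)

/-- The norm of such a function is regular at `x`. -/
lemma ord_norm_nonneg (hFS : FactorialStalks) {x : Y.X} (hx : coheight x = 1) {w : X.K}
    (hw : ∀ z : X.X, coheight z = 1 → π.f z = x → 0 ≤ Scheme.ord w z) :
    letI := π.pull.toAlgebra
    0 ≤ Scheme.ord (Algebra.norm Y.K w) x := by
  let _ := π.pull.toAlgebra
  let _ : Algebra (Y.X.presheaf.stalk x) X.K := (π.pull.comp (toK x)).toAlgebra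
  have hst : IsScalarTower (Y.X.presheaf.stalk x) Y.K X.K := IsScalarTower.of_algebraMap_eq' rfl
  have h1 : IsIntegral (Y.X.presheaf.stalk x) w := isIntegral_of_ord_over π hFS hx hw
  have h2 : IsIntegral (Y.X.presheaf.stalk x) (Algebra.norm Y.K w) := Algebra.isIntegral_norm Y.K h1
  have := Y.dvr x hx
  obtain ⟨a, ha⟩ := IsIntegrallyClosed.isIntegral_iff.1 h2
  rw [← ha]
  exact ord_toK_nonneg a

/-- The field extension defined by a finite module over a domain is finite. -/
lemma finite_of_fractions {B C K L : Type*} [CommRing B] [CommRing C] [Field K] [Field L]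
    [Algebra B C] [Algebra B K] [Algebra C L] [Algebra K L] [Algebra B L] [IsScalarTower B C L]
    [IsScalarTower B K L] [Module.Finite B C] [IsFractionRing C L] : Module.Finite K L := by
  obtain ⟨s, hs⟩ := (Module.Finite.fg_top (R := B) (M := C))
  let T : Set L := (algebraMap C L) '' s
  let F := IntermediateField.adjoin K T
  have h1 : ∀ c : C, algebraMap C L c ∈ F := by
    intro c
    have hc : c ∈ Submodule.span B (s : Set C) := by rw [hs]; trivial
    induction hc using Submodule.span_induction with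
    | mem x hx => exact IntermediateField.subset_adjoin K T ⟨x, hx, rfl⟩
    | zero => rw [map_zero]; exact F.zero_mem
    | add x y _ _ hx hy => rw [map_add]; exact F.add_mem hx hy
    | smul b x _ hx =>
      rw [Algebra.smul_def, map_mul, ← IsScalarTower.algebraMap_apply,
        IsScalarTower.algebraMap_apply B K L]
      exact F.mul_mem (F.algebraMap_mem _) hx
  have h2 : F = ⊤ := by
    rw [eq_top_iff]
    intro x _
    obtain ⟨a, b, -, rfl⟩ := IsFractionRing.div_surjective (A := C) x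
    exact F.div_mem (h1 a) (h1 b)
  have hT : Finite T := (s.finite_toSet.image _).to_subtype
  have h3 : FiniteDimensional K F := by
    refine IntermediateField.finiteDimensional_adjoin fun x hx => ?_
    obtain ⟨c, -, rfl⟩ := hx
    have h4 : IsIntegral B c := Algebra.IsIntegral.isIntegral c
    have h5 : IsIntegral B (algebraMap C L c) := h4.map (IsScalarTower.toAlgHom B C L)
    exact h5.tower_top
  have h4 : FiniteDimensional K (⊤ : IntermediateField K L) := h2 ▸ h3
  exact Module.Finite.equiv (IntermediateField.topEquiv (F := K) (E := L)).toLinearEquiv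

/-- A finite morphism induces a finite extension of function fields. -/
lemma finite_pull : letI := π.pull.toAlgebra; Module.Finite Y.K X.K := by
  let _ := π.pull.toAlgebra
  obtain ⟨_, ⟨V, hV, rfl⟩, hxV, -⟩ :=
    Y.X.isBasis_affineOpens.exists_subset_of_mem_open (Set.mem_univ (genericPoint Y.X)) isOpen_univ
  have hU : IsAffineOpen (π.f ⁻¹ᵁ V) := hV.preimage π.f
  have hVne : Nonempty V := ⟨⟨_, hxV⟩⟩
  have hgU : genericPoint X.X ∈ π.f ⁻¹ᵁ V := by
    change π.f (genericPoint X.X) ∈ V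
    rw [π.dominant]
    exact hxV
  have hUne : Nonempty (π.f ⁻¹ᵁ V) := ⟨⟨_, hgU⟩⟩
  have hfin : (π.f.app V).hom.Finite := π.f.finite_app V hV
  let _ : Algebra Γ(Y.X, V) Γ(X.X, π.f ⁻¹ᵁ V) := (π.f.app V).hom.toAlgebra
  have : Module.Finite Γ(Y.X, V) Γ(X.X, π.f ⁻¹ᵁ V) := hfin
  let _ : Algebra Γ(Y.X, V) X.K := (π.pull.comp (Y.X.germToFunctionField V).hom).toAlgebra
  have h1 : IsScalarTower Γ(Y.X, V) Y.K X.K := IsScalarTower.of_algebraMap_eq' rfl
  have h2 : IsScalarTower Γ(Y.X, V) Γ(X.X, π.f ⁻¹ᵁ V) X.K :=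
    IsScalarTower.of_algebraMap_eq fun e => π.pull_germ_of_mem V hxV hgU e
  have h3 : IsFractionRing Γ(X.X, π.f ⁻¹ᵁ V) X.K :=
    functionField_isFractionRing_of_isAffineOpen X.X (π.f ⁻¹ᵁ V) hU
  exact finite_of_fractions (B := Γ(Y.X, V)) (C := Γ(X.X, π.f ⁻¹ᵁ V))

/-- **Norms of sections.** For a finite morphism `π` there is `d > 0` such that, if `π^*D` has a
nonzero section, then so has `dD`. -/
theorem exists_norm (hFS : FactorialStalks) : ∃ d : ℕ, 0 < d ∧ ∀ (D : Div Y.X) (D' : Div X.X),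
    IsPullback π D D' → ∀ h ∈ H0 (coef D'), h ≠ 0 → ∃ g ∈ H0 (coef (d • D)), g ≠ 0 := by
  let _ := π.pull.toAlgebra
  have hfin : Module.Finite Y.K X.K := finite_pull π
  refine ⟨Module.finrank Y.K X.K, Module.finrank_pos, fun D D' hD h hh hh0 => ?_⟩
  refine ⟨Algebra.norm Y.K h, ?_, Algebra.norm_ne_zero_iff.2 hh0⟩
  rw [mem_H0]
  intro x hx _
  have := hFS Y x
  obtain ⟨u, hu⟩ := exists_genAt D x
  have hu0 : π.pull u ≠ 0 := π.pull_ne_zero hu.1
  have h1 : 0 ≤ Scheme.ord (Algebra.norm Y.K (h / π.pull u)) x := by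
    refine ord_norm_nonneg π hFS hx fun z hz hzx => ?_
    rw [Q.ord_div hh0 hu0]
    have h2 := mem_H0.1 hh z hz hh0
    have h3 := hD.ord_pull hFS hz (g := u) (by rw [hzx]; exact hu)
    linarith
  have h2 : Algebra.norm Y.K (π.pull u) = u ^ Module.finrank Y.K X.K :=
    Algebra.norm_algebraMap u
  have h3 : Algebra.norm Y.K (h / π.pull u) =
      Algebra.norm Y.K h / u ^ Module.finrank Y.K X.K := by
    rw [eq_div_iff (pow_ne_zero _ hu.1), ← h2, ← map_mul, div_mul_cancel₀ _ hu0]
  rw [h3, Q.ord_div (Algebra.norm_ne_zero_iff.2 hh0) (pow_ne_zero _ hu.1), Q.ord_pow hu.1,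
    hu.ord hx] at h1
  rw [coef_nsmul]
  linarith

end Vale.Agent.P299.Q
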