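import Mathlib.RingTheory.Etale.Kaehler
import Mathlib.RingTheory.Etale.Field
import Mathlib.RingTheory.Unramified.Basic
import Vale.Agent.P299.Q.Frame

/-!
# Extension of derivations to algebraic extensions of the function field
-/

open CategoryTheory TopologicalSpace Opposite TopCat AlgebraicGeometry Order
open TensorProduct KaehlerDifferential

namespace Vale.Agent.P299.Q

section Algebra

variable {k K L : Type*} [Field k] [Field K] [Field L] [Algebra k K] [Algebra k L] [Algebra K L]
  [IsScalarTower k K L] [Algebra.FormallyEtale K L]

/-- The extension of a derivation to a separable algebraic extension. -/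
noncomputable def extDer (D : Derivation k K K) : Derivation k L L :=
  ((((Algebra.linearMap K L) ∘ₗ D.liftKaehlerDifferential).liftBaseChange L) ∘ₗ
    (tensorKaehlerEquivOfFormallyEtale k K L).symm.toLinearMap).compDer (KaehlerDifferential.D k L)

theorem extDer_algebraMap (D : Derivation k K K) (a : K) :
    extDer (L := L) D (algebraMap K L a) = algebraMap K L (D a) := by
  change (((Algebra.linearMap K L) ∘ₗ D.liftKaehlerDifferential).liftBaseChange L)
    ((tensorKaehlerEquivOfFormallyEtale k K L).symm (KaehlerDifferential.D k L (algebraMap K L a)))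
      = _
  rw [tensorKaehlerEquivOfFormallyEtale_symm_D_algebraMap, LinearMap.liftBaseChange_tmul]
  simp

theorem der_eq_of_base {d d' : Derivation k L L}
    (h : ∀ a : K, d (algebraMap K L a) = d' (algebraMap K L a)) : d = d' := by
  have h1 : d.liftKaehlerDifferential ∘ₗ
      (tensorKaehlerEquivOfFormallyEtale k K L).toLinearMap =
      d'.liftKaehlerDifferential ∘ₗ
      (tensorKaehlerEquivOfFormallyEtale k K L).toLinearMap := by
    refine TensorProduct.AlgebraTensorModule.curry_injective ?_
    refine LinearMap.ext fun l => ?_
    refine LinearMap.ext_on_range (v := fun a : K => KaehlerDifferential.D k K a)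
      (KaehlerDifferential.span_range_derivation k K) fun a => ?_
    change d.liftKaehlerDifferential (tensorKaehlerEquivOfFormallyEtale k K L
      (l ⊗ₜ[K] KaehlerDifferential.D k K a)) = d'.liftKaehlerDifferential
      (tensorKaehlerEquivOfFormallyEtale k K L (l ⊗ₜ[K] KaehlerDifferential.D k K a))
    rw [tensorKaehlerEquivOfFormallyEtale_apply, mapBaseChange_tmul, map_D, map_smul, map_smul,
      Derivation.liftKaehlerDifferential_comp_D, Derivation.liftKaehlerDifferential_comp_D, h]
  ext l
  rw [← Derivation.liftKaehlerDifferential_comp_D d l,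
    ← Derivation.liftKaehlerDifferential_comp_D d' l]
  obtain ⟨z, hz⟩ := (tensorKaehlerEquivOfFormallyEtale k K L).surjective
    (KaehlerDifferential.D k L l)
  rw [← hz]
  exact congrArg (fun F => F z) h1

theorem span_D_eq_top {n : ℕ} {t : Fin n → K}
    (h : ∀ v : Derivation k K K, (∀ i, v (t i) = 0) → v = 0) :
    Submodule.span K (Set.range fun i => KaehlerDifferential.D k K (t i)) = ⊤ := by
  by_contra hne
  obtain ⟨f, hf0, hf⟩ := Submodule.exists_le_ker_of_lt_top _ (lt_top_iff_ne_top.2 hne)
  apply hf0
  have h1 : f.compDer (KaehlerDifferential.D k K) = 0 := by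
    refine h _ fun i => ?_
    exact hf (Submodule.subset_span ⟨i, rfl⟩)
  refine LinearMap.ext_on_range (v := fun a : K => KaehlerDifferential.D k K a)
    (KaehlerDifferential.span_range_derivation k K) fun a => ?_
  exact congrArg (fun D => D a) h1

/-- A derivation of `L` is determined by its values on the coordinates of `K`. -/
theorem der_eq_of_coords {n : ℕ} {t : Fin n → K}
    (h : ∀ v : Derivation k K K, (∀ i, v (t i) = 0) → v = 0) {d d' : Derivation k L L}
    (hd : ∀ i, d (algebraMap K L (t i)) = d' (algebraMap K L (t i))) : d = d' := by
  refine der_eq_of_base (K := K) fun a => ?_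
  have h1 : (d.compAlgebraMap K).liftKaehlerDifferential =
      (d'.compAlgebraMap K).liftKaehlerDifferential := by
    refine LinearMap.ext_on_range (span_D_eq_top h) fun i => ?_
    rw [Derivation.liftKaehlerDifferential_comp_D, Derivation.liftKaehlerDifferential_comp_D]
    exact hd i
  have h2 := congrArg (fun F => F (KaehlerDifferential.D k K a)) h1
  simp only [Derivation.liftKaehlerDifferential_comp_D] at h2
  exact h2

end Algebra

end Vale.Agent.P299.Q
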