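import Vale.Agent.P299.Q.Tensor
import Vale.Agent.P299.Q.Numeric

/-!
# The poles of a rational vector field; sections from twisted tensors
-/

open CategoryTheory TopologicalSpace Opposite TopCat AlgebraicGeometry Order

namespace Vale.Agent.P299.Q

variable {X : Var}

/-- A multiple of a regular vector field is regular. -/
theorem RegDer.smul {x : X.X} {v : X.Der} (hv : RegDer x v) {a : X.K} (ha : a ∈ locRing X x) :
    RegDer x (a • v) := by
  rw [regDer_iff_locRing] at hv ⊢
  intro f hf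
  rw [Derivation.smul_apply, smul_eq_mul]
  exact mul_mem ha (hv f hf)

theorem finite_not_regDer (w : X.Der) : {x : X.X | coheight x = 1 ∧ ¬ RegDer x w}.Finite := by
  classical
  obtain ⟨U, hU, hne⟩ := exists_affine_nonempty X
  obtain ⟨s, hs⟩ := exists_gens U hU
  have hgen : genericPoint X.X ∈ U :=
    ((genericPoint_spec X.X).mem_open_set_iff U.isOpen).mpr (by simpa using hne)
  let B1 : Set X.X := {x | x ∈ ((U : Set X.X)ᶜ) ∧ coheight x = 1}
  let B2 : Set X.X := ⋃ g : s, {x | w (X.X.germToFunctionField U g.1) ≠ 0 ∧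
    Scheme.ord (w (X.X.germToFunctionField U g.1)) x ≠ 0}
  have hB1 : B1.Finite := G.finite_codim_one _ U.isOpen.isClosed_compl (by simpa using hgen)
  have hB2 : B2.Finite := by
    refine Set.finite_iUnion fun g => ?_
    by_cases h : w (X.X.germToFunctionField U g.1) = 0
    · exact Set.Finite.subset Set.finite_empty fun x hx => absurd h hx.1
    · exact (G.finite_ord_ne_zero _ h).subset fun x hx => hx.2
  refine (hB1.union hB2).subset ?_
  rintro x ⟨hx, hreg⟩
  by_contra hcon
  have h1 : x ∉ B1 := fun h => hcon (Or.inl h)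
  have h2 : x ∉ B2 := fun h => hcon (Or.inr h)
  have hxU : x ∈ U := by
    by_contra h
    exact h1 ⟨h, hx⟩
  apply hreg
  rw [regDer_iff hU hs hxU]
  intro g hg
  refine locRing_of_ord_nonneg hx fun hne => ?_
  by_contra h
  refine h2 (Set.mem_iUnion.2 ⟨⟨g, hg⟩, hne, fun h0 => h ?_⟩)
  rw [h0]

/-- The divisor of poles of a rational vector field. -/
theorem exists_poleDiv (w : X.Der) : ∃ C : Div X.X, 0 ≤ C ∧ ∀ x : X.X, coheight x = 1 →
    ∀ a : X.K, a ≠ 0 → coef C x ≤ Scheme.ord a x → RegDer x (a • w) := by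
  classical
  obtain ⟨U, hU, hne⟩ := exists_affine_nonempty X
  have hsm : ∀ x : X.X, ∃ a : X.K, a ≠ 0 ∧ RegDer x (a • w) := by
    intro x
    obtain ⟨_, ⟨V, hV, rfl⟩, hxV, -⟩ := X.X.isBasis_affineOpens.exists_subset_of_mem_open
      (Set.mem_univ x) isOpen_univ
    have hneV : Nonempty V := ⟨⟨x, hxV⟩⟩
    obtain ⟨s, hs⟩ := exists_gens V hV
    exact exists_smul_regDer hV hs hxV w
  choose a ha0 ha using hsm
  have hfin : {x : X.X | coheight x = 1 ∧
      (if RegDer x w then (0 : ℤ) else max 0 (Scheme.ord (a x) x)) ≠ 0}.Finite := by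
    refine (finite_not_regDer w).subset ?_
    rintro x ⟨hx, h⟩
    refine ⟨hx, fun hreg => h ?_⟩
    rw [if_pos hreg]
  refine ⟨mkDiv _ hfin, ?_, fun x hx b hb0 hb => ?_⟩
  · intro x
    have h1 := coef_mkDiv _ hfin x.2
    rw [coef_val] at h1
    change (0 : ℤ) ≤ mkDiv _ hfin x
    rw [h1]
    split_ifs
    · exact le_refl _
    · exact le_max_left _ _
  · rw [coef_mkDiv _ hfin hx] at hb
    split_ifs at hb with hreg
    · exact hreg.smul (locRing_of_ord_nonneg hx fun _ => hb)
    · have h1 : b • w = (b / a x) • (a x • w) := by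
        rw [smul_smul, div_mul_cancel₀ _ (ha0 x)]
      rw [h1]
      refine (ha x).smul (locRing_of_ord_nonneg hx fun _ => ?_)
      rw [ord_div hb0 (ha0 x)]
      have := (le_max_right 0 (Scheme.ord (a x) x)).trans hb
      linarith

/-- A nonzero section of `(Ω^1)^{⊗p} ⊗ O(S)` gives a nonzero section of `O(S + B)`, for a fixed
divisor `B`. -/
theorem exists_section_of_twTensor (X : Var) (p : ℕ) : ∃ B : Div X.X, ∀ (S : Div X.X)
    (e : X.Ten p), e ≠ 0 → IsTwTensor e S → H0 (coef (S + B)) ≠ ⊥ := by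
  classical
  obtain ⟨U, hU, hne⟩ := exists_affine_nonempty X
  obtain ⟨s, hs⟩ := exists_gens U hU
  obtain ⟨w, hw⟩ := exists_frame hU hs
  choose C hC0 hC using fun g : s => exists_poleDiv (w g)
  refine ⟨p • ∑ g, C g, fun S e he htw => ?_⟩
  obtain ⟨φ, hφ⟩ := exists_frame_ne_zero hw he
  rw [H0_ne_bot_iff]
  refine ⟨e (fun i => w (φ i)), ?_, hφ⟩
  rw [mem_H0]
  intro x hx _
  have hdvr := X.dvr x hx
  obtain ⟨t, ht0, ht⟩ := G.exists_uniformizer (fun y hy => X.dvr y hy) hx
  have ht0' : G.toK x t ≠ 0 := G.toK_ne_zero ht0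
  have hcoef : ∀ g, 0 ≤ coef (C g) x := fun g => by
    rw [coef_mk hx]
    exact hC0 g ⟨x, hx⟩
  have hreg : ∀ i, RegDer x ((G.toK x t ^ coef (C (φ i)) x) • w (φ i)) := by
    intro i
    refine hC (φ i) x hx _ (zpow_ne_zero _ ht0') ?_
    rw [ord_zpow ht0', ht, mul_one]
  have hval : e (fun i => (G.toK x t ^ coef (C (φ i)) x) • w (φ i)) =
      (∏ i, G.toK x t ^ coef (C (φ i)) x) * e (fun i => w (φ i)) := by
    rw [MultilinearMap.map_smul_univ, smul_eq_mul]
  have hprod0 : ∏ i, G.toK x t ^ coef (C (φ i)) x ≠ 0 :=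
    Finset.prod_ne_zero_iff.2 fun i _ => zpow_ne_zero _ ht0'
  have hordprod : ∀ T : Finset (Fin p), Scheme.ord (∏ i ∈ T, G.toK x t ^ coef (C (φ i)) x) x =
      ∑ i ∈ T, coef (C (φ i)) x := by
    intro T
    induction T using Finset.induction_on with
    | empty => simp [ord_one]
    | insert i T hi ih =>
      rw [Finset.prod_insert hi, Finset.sum_insert hi, Scheme.ord_mul (zpow_ne_zero _ ht0')
        (Finset.prod_ne_zero_iff.2 fun i _ => zpow_ne_zero _ ht0'), ih, ord_zpow ht0', ht, mul_one]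
  have h1 := htw x hx _ hreg (by rw [hval]; exact mul_ne_zero hprod0 hφ)
  rw [hval, Scheme.ord_mul hprod0 hφ, hordprod] at h1
  have h2 : ∑ i, coef (C (φ i)) x ≤ coef (p • ∑ g, C g) x := by
    have h3 : ∀ i, coef (C (φ i)) x ≤ coef (∑ g, C g) x := by
      intro i
      have h4 : coef (∑ g, C g) x = ∑ g, coef (C g) x := by
        have : ∀ T : Finset s, coef (∑ g ∈ T, C g) x = ∑ g ∈ T, coef (C g) x := by
          intro T
          induction T using Finset.induction_on with
          | empty => simp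
          | insert i T hi ih => rw [Finset.sum_insert hi, Finset.sum_insert hi, coef_add, ih]
        exact this _
      rw [h4]
      exact Finset.single_le_sum (f := fun g => coef (C g) x) (fun g _ => hcoef g)
        (Finset.mem_univ (φ i))
    rw [coef_nsmul]
    calc ∑ i, coef (C (φ i)) x ≤ ∑ _i : Fin p, coef (∑ g, C g) x :=
          Finset.sum_le_sum fun i _ => h3 i
      _ = p * coef (∑ g, C g) x := by simp
  rw [coef_add]
  linarith

end Vale.Agent.P299.Q
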