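import Vale.Agent.P299.Q.Stable
import Vale.Agent.P299.Q.PoleDiv
import Vale.Agent.P299.Q.Canon

/-!
# Orders of vanishing of the derivatives
-/

open CategoryTheory TopologicalSpace Opposite TopCat AlgebraicGeometry Order

namespace Vale.Agent.P299.Q

open Vale.Agent.P299.G

variable {X : Var}

/-- The order of `f` at `x` is at least `a`, or `f = 0`. -/
def og (x : X.X) (a : ℤ) (f : X.K) : Prop := f ≠ 0 → a ≤ Scheme.ord f x

theorem og_zero (x : X.X) (a : ℤ) : og x a (0 : X.K) := fun h => absurd rfl h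

theorem og.mono {x : X.X} {a b : ℤ} {f : X.K} (h : og x a f) (hb : b ≤ a) : og x b f :=
  fun h0 => hb.trans (h h0)

theorem og.neg {x : X.X} {a : ℤ} {f : X.K} (h : og x a f) : og x a (-f) := by
  intro h0
  have hf : f ≠ 0 := fun h => h0 (by rw [h, neg_zero])
  have h1 : -f = (-1 : ℂ) • f := by rw [neg_smul, one_smul]
  rw [h1, ord_smul (-1 : ℂ) (neg_ne_zero.2 one_ne_zero)]
  exact h hf

theorem og.mul {x : X.X} {a b : ℤ} {f g : X.K} (hf : og x a f) (hg : og x b g) :
    og x (a + b) (f * g) := by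
  intro h0
  have h1 := left_ne_zero_of_mul h0
  have h2 := right_ne_zero_of_mul h0
  rw [Scheme.ord_mul h1 h2]
  exact add_le_add (hf h1) (hg h2)

theorem og.add {x : X.X} (hx : coheight x = 1) {a : ℤ} {f g : X.K} (hf : og x a f)
    (hg : og x a g) : og x a (f + g) := by
  intro h0
  by_cases hf0 : f = 0
  · rw [hf0, zero_add] at h0 ⊢
    exact hg h0
  by_cases hg0 : g = 0
  · rw [hg0, add_zero] at h0 ⊢
    exact hf h0
  have := X.dvr x hx
  have h1 := Scheme.ord_add (x := x) h0
  have h2 := hf hf0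
  have h3 := hg hg0
  exact (le_min h2 h3).trans h1

theorem og.sub {x : X.X} (hx : coheight x = 1) {a : ℤ} {f g : X.K} (hf : og x a f)
    (hg : og x a g) : og x a (f - g) := by
  rw [sub_eq_add_neg]
  exact hf.add hx hg.neg

theorem og_sum {x : X.X} (hx : coheight x = 1) {a : ℤ} {ι : Type*} (s : Finset ι) (f : ι → X.K)
    (h : ∀ i ∈ s, og x a (f i)) : og x a (∑ i ∈ s, f i) := by
  classical
  induction s using Finset.induction_on with
  | empty => exact og_zero x a
  | insert i s hi ih =>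
    rw [Finset.sum_insert hi]
    exact (h i (Finset.mem_insert_self _ _)).add hx (ih fun j hj => h j
      (Finset.mem_insert_of_mem hj))

theorem og_iff {x : X.X} (hx : coheight x = 1) {f : X.K} : og x 0 f ↔ f ∈ locRing X x :=
  ⟨fun h => locRing_of_ord_nonneg hx h, fun h _ => ord_nonneg_of_locRing h⟩

theorem og_self {x : X.X} (f : X.K) : og x (Scheme.ord f x) f := fun _ => le_rfl

theorem og.zpow {x : X.X} {f : X.K} (hf : f ≠ 0) (n : ℤ) :
    og x (n * Scheme.ord f x) (f ^ n) := by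
  intro _
  rw [ord_zpow hf]

/-- Dividing out. -/
theorem og.of_mul {x : X.X} {a : ℤ} {f g : X.K} (hf : f ≠ 0) (h : og x a (f * g)) :
    og x (a - Scheme.ord f x) g := by
  intro hg
  have h1 := h (mul_ne_zero hf hg)
  rw [Scheme.ord_mul hf hg] at h1
  linarith

/-- A uniformizer in the function field, and the decomposition of the rational functions. -/
theorem exists_unif {x : X.X} (hx : coheight x = 1) : ∃ p : X.K, p ≠ 0 ∧ Scheme.ord p x = 1 := by
  obtain ⟨t, ht0, ht⟩ := G.exists_uniformizer (fun y hy => X.dvr y hy) hx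
  exact ⟨G.toK x t, G.toK_ne_zero ht0, ht⟩

theorem exists_decomp {x : X.X} {p : X.K} (hp0 : p ≠ 0)
    (hp : Scheme.ord p x = 1) {f : X.K} (hf : f ≠ 0) :
    ∃ u : X.K, u ≠ 0 ∧ Scheme.ord u x = 0 ∧ f = u * p ^ Scheme.ord f x := by
  refine ⟨f / p ^ Scheme.ord f x, div_ne_zero hf (zpow_ne_zero _ hp0), ?_, ?_⟩
  · rw [ord_div hf (zpow_ne_zero _ hp0), ord_zpow hp0, hp]
    ring
  · rw [div_mul_cancel₀ _ (zpow_ne_zero _ hp0)]

/-- The derivative of a product with a power. -/
theorem der_mul_zpow (D : X.Der) {u p : X.K} (hp : p ≠ 0) (k : ℤ) :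
    D (u * p ^ k) = p ^ k * D u + (k : X.K) * u * (p ^ (k - 1) * D p) := by
  rw [Derivation.leibniz, Derivation.leibniz_zpow, smul_eq_mul, smul_eq_mul]
  simp only [zsmul_eq_mul, smul_eq_mul]
  ring

theorem og_intCast {x : X.X} (hx : coheight x = 1) (k : ℤ) : og x 0 (k : X.K) := by
  rw [og_iff hx]
  exact intCast_mem _ k

/-- A regular vector field lowers the order by at most one. -/
theorem RegDer.ord_le {x : X.X} (hx : coheight x = 1) {D : X.Der} (hD : RegDer x D) {f : X.K}
    (hf : f ≠ 0) : og x (Scheme.ord f x - 1) (D f) := by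
  obtain ⟨p, hp0, hp⟩ := exists_unif hx
  obtain ⟨u, hu0, hu, hfu⟩ := exists_decomp hp0 hp hf
  have hreg := regDer_iff_locRing.1 hD
  have h1 : og x 0 (D u) := (og_iff hx).2 (hreg _ ((og_iff hx).1 (fun _ => hu.ge)))
  have h2 : og x 0 (D p) := (og_iff hx).2 (hreg _ ((og_iff hx).1 (fun _ => by rw [hp]; norm_num)))
  have h3 : D f = p ^ Scheme.ord f x * D u + (Scheme.ord f x : X.K) * u *
      (p ^ (Scheme.ord f x - 1) * D p) := by
    conv_lhs => rw [hfu]
    exact der_mul_zpow D hp0 _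
  rw [h3]
  have hu' : og x 0 u := fun _ => hu.ge
  have hz : ∀ k : ℤ, og x k (p ^ k) := fun k => by
    have := og.zpow (x := x) hp0 k
    rwa [hp, mul_one] at this
  refine og.add hx (((hz _).mul h1).mono (by linarith)) ?_
  exact (((og_intCast hx _).mul hu').mul ((hz _).mul h2)).mono (by linarith)

end Vale.Agent.P299.Q
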