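import Mathlib.LinearAlgebra.Matrix.Adjugate
import Vale.Agent.P299.Q.OrdGe
import Vale.Agent.P299.Q.DerExt

/-!
# The ramification divisor of a generically finite morphism
-/

open CategoryTheory TopologicalSpace Opposite TopCat AlgebraicGeometry Order

namespace Vale.Agent.P299.Q

open Vale.Agent.P299.G

/-- Local coordinates at `x` and the dual frame of vector fields. -/
structure Fr {X : Var} {n : ℕ} (x : X.X) (t : Fin n → X.K) (w : Fin n → X.Der) : Prop where
  mem : ∀ j, t j ∈ locRing X x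
  reg : ∀ i, RegDer x (w i)
  dual : ∀ i j, w i (t j) = if i = j then 1 else 0
  expand : ∀ v : X.Der, v = ∑ i, v (t i) • w i

theorem exists_fr {X : Var} {n : ℕ} (hn : X.dim = n) (x : X.X) :
    ∃ (t : Fin n → X.K) (w : Fin n → X.Der), Fr x t w := by
  subst hn
  obtain ⟨t, w, h1, h2, h3, h4⟩ := exists_frame_at X x
  exact ⟨t, w, h1, h2, h3, h4⟩

theorem sum_smul_apply {X : Var} {ι : Type*} (s : Finset ι) (a : ι → X.K) (w : ι → X.Der)
    (f : X.K) : (∑ i ∈ s, a i • w i) f = ∑ i ∈ s, a i * w i f := by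
  classical
  induction s using Finset.induction_on with
  | empty => simp
  | insert a s ha ih =>
    rw [Finset.sum_insert ha, Finset.sum_insert ha, Derivation.add_apply, ih,
      Derivation.smul_apply, smul_eq_mul]

/-- Some vector field of a frame does not vanish on a uniformizer. -/
theorem Fr.exists_unit {X : Var} {n : ℕ} {x : X.X} {t : Fin n → X.K} {w : Fin n → X.Der}
    (h : Fr x t w) (hx : coheight x = 1) {p : X.K} (hp0 : p ≠ 0) (hp : Scheme.ord p x = 1) :
    ∃ i, w i p ≠ 0 ∧ Scheme.ord (w i p) x = 0 := by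
  by_contra hcon
  push Not at hcon
  have hpO : p ∈ locRing X x := (og_iff hx).1 (fun _ => by rw [hp]; norm_num)
  have hwp : ∀ i, og x 1 (w i p) := by
    intro i hne
    have h1 := ord_nonneg_of_locRing (regDer_iff_locRing.1 (h.reg i) _ hpO)
    have h2 := hcon i hne
    omega
  apply hp0
  refine eq_zero_of_stable_frame h.mem h.dual h.expand (I := {c | og x 1 c}) ?_ ?_ ?_
    (c := p) (fun _ => hp.ge) hpO
  · intro r hr c hc
    have h1 := ((og_iff hx).2 hr).mul hc
    rwa [zero_add] at h1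
  · intro i c hc
    by_cases hc0 : c = 0
    · rw [hc0, Set.mem_ofPred_eq, map_zero]
      exact og_zero x 1
    have h1 : c = (c / p) * p := (div_mul_cancel₀ _ hp0).symm
    have h2 : og x 0 (c / p) := by
      intro _
      rw [ord_div hc0 hp0, hp]
      have := hc hc0
      linarith
    have h3 : og x 0 (w i (c / p)) :=
      (og_iff hx).2 (regDer_iff_locRing.1 (h.reg i) _ ((og_iff hx).1 h2))
    rw [Set.mem_ofPred_eq, h1, Derivation.leibniz, smul_eq_mul, smul_eq_mul]
    refine og.add hx ?_ ?_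
    · exact (h2.mul (hwp i)).mono (by norm_num)
    · have h4 : og x 1 p := fun _ => hp.ge
      exact (h4.mul h3).mono (by norm_num)
  · intro h1
    have h2 := h1 one_ne_zero
    rw [ord_one] at h2
    norm_num at h2

variable {X Y : Var}

/-- The function field of `X` is algebraic over the function field of `Y`. -/
def DomHom.Alg (φ : DomHom X Y) : Prop :=
  letI := φ.pull.toAlgebra
  Algebra.IsAlgebraic Y.K X.K

section Ext

variable {φ : DomHom X Y} (hφ : φ.Alg)

include hφ

theorem DomHom.Alg.exists_up (D : Y.Der) : ∃ D' : X.Der, ∀ a, D' (φ.pull a) = φ.pull (D a) := by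
  let _ := φ.pull.toAlgebra
  have h1 : Algebra.IsAlgebraic Y.K X.K := hφ
  have h2 : IsScalarTower ℂ Y.K X.K :=
    IsScalarTower.of_algebraMap_eq fun c => (φ.pull_constant c).symm
  have hchar : CharZero Y.K := charZero_of_injective_algebraMap (algebraMap ℂ Y.K).injective
  have h3 : Algebra.FormallyEtale Y.K X.K := Algebra.FormallyEtale.of_isSeparable Y.K X.K
  exact ⟨extDer D, fun a => extDer_algebraMap D a⟩

/-- The extension of a rational vector field of `Y` to `X`. -/
noncomputable def DomHom.Alg.up (D : Y.Der) : X.Der := (hφ.exists_up D).choose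

theorem DomHom.Alg.up_pull (D : Y.Der) (a : Y.K) : hφ.up D (φ.pull a) = φ.pull (D a) :=
  (hφ.exists_up D).choose_spec a

theorem DomHom.Alg.der_ext {v v' : X.Der} (h : ∀ a : Y.K, v (φ.pull a) = v' (φ.pull a)) :
    v = v' := by
  let _ := φ.pull.toAlgebra
  have h1 : Algebra.IsAlgebraic Y.K X.K := hφ
  have h2 : IsScalarTower ℂ Y.K X.K :=
    IsScalarTower.of_algebraMap_eq fun c => (φ.pull_constant c).symm
  have hchar : CharZero Y.K := charZero_of_injective_algebraMap (algebraMap ℂ Y.K).injective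
  have h3 : Algebra.FormallyEtale Y.K X.K := Algebra.FormallyEtale.of_isSeparable Y.K X.K
  exact der_eq_of_base (K := Y.K) h

theorem DomHom.Alg.dual {n : ℕ} {t : Fin n → Y.K} {w : Fin n → Y.Der}
    (h1 : ∀ i j, w i (t j) = if i = j then 1 else 0) (i j : Fin n) :
    hφ.up (w i) (φ.pull (t j)) = if i = j then 1 else 0 := by
  rw [hφ.up_pull, h1]
  split_ifs
  · rw [map_one]
  · rw [map_zero]

theorem DomHom.Alg.expand {n : ℕ} {t : Fin n → Y.K} {w : Fin n → Y.Der}
    (h1 : ∀ i j, w i (t j) = if i = j then 1 else 0)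
    (h2 : ∀ v : Y.Der, v = ∑ i, v (t i) • w i)
    (v : X.Der) : v = ∑ i, v (φ.pull (t i)) • hφ.up (w i) := by
  let _ := φ.pull.toAlgebra
  have h1' : Algebra.IsAlgebraic Y.K X.K := hφ
  have h2' : IsScalarTower ℂ Y.K X.K :=
    IsScalarTower.of_algebraMap_eq fun c => (φ.pull_constant c).symm
  have hchar : CharZero Y.K := charZero_of_injective_algebraMap (algebraMap ℂ Y.K).injective
  have h3 : Algebra.FormallyEtale Y.K X.K := Algebra.FormallyEtale.of_isSeparable Y.K X.K
  refine der_eq_of_coords (K := Y.K) (t := t) (fun v hv => ?_) fun i => ?_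
  · rw [h2 v]
    simp [hv]
  · change v (φ.pull (t i)) = (∑ i, v (φ.pull (t i)) • hφ.up (w i)) (φ.pull (t i))
    rw [sum_smul_apply]
    have h4 : ∀ j, v (φ.pull (t j)) * hφ.up (w j) (φ.pull (t i)) =
        if j = i then v (φ.pull (t i)) else 0 := by
      intro j
      rw [hφ.dual h1]
      split_ifs with hj
      · rw [mul_one, hj]
      · rw [mul_zero]
    rw [Finset.sum_congr rfl fun j _ => h4 j]
    simp

theorem DomHom.Alg.up_eq {n : ℕ} {t : Fin n → Y.K} {w : Fin n → Y.Der}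
    (h1 : ∀ i j, w i (t j) = if i = j then 1 else 0)
    (h2 : ∀ v : Y.Der, v = ∑ i, v (t i) • w i)
    (D : Y.Der) : hφ.up D = ∑ i, φ.pull (D (t i)) • hφ.up (w i) := by
  conv_lhs => rw [hφ.expand h1 h2 (hφ.up D)]
  refine Finset.sum_congr rfl fun i _ => ?_
  rw [hφ.up_pull]

theorem DomHom.Alg.dim_eq : X.dim = Y.dim := by
  obtain ⟨t, w, h⟩ := exists_fr (X := Y) rfl (genericPoint Y.X)
  obtain ⟨b, -, -⟩ := exists_basis (hφ.dual h.dual) (hφ.expand h.dual h.expand)
  have := Module.finrank_eq_card_basis b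
  rwa [Fintype.card_fin] at this

end Ext

/-- A top form with a given value on a frame. -/
theorem exists_top {X : Var} {n : ℕ} (hn : X.dim = n) {t : Fin n → X.K} {w : Fin n → X.Der}
    (h1 : ∀ i j, w i (t j) = if i = j then 1 else 0)
    (h2 : ∀ v : X.Der, v = ∑ i, v (t i) • w i) {c : X.K} (hc : c ≠ 0) :
    ∃ ω : X.Ten X.dim, ω ≠ 0 ∧ IsAlt ω ∧ ∀ v : Fin n → X.Der,
      ω (fun k => v (Fin.cast hn k)) = c * (Matrix.of fun i j => v j (t i)).det := by
  subst hn
  obtain ⟨b, hb, hr⟩ := exists_basis h1 h2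
  have hdet : ∀ v : Fin X.dim → X.Der, (c • b.det.toMultilinearMap) v =
      c * (Matrix.of fun i j => v j (t i)).det := by
    intro v
    rw [MultilinearMap.smul_apply, smul_eq_mul]
    change c * b.det v = _
    rw [Module.Basis.det_apply]
    congr 2
    ext i j
    rw [Module.Basis.toMatrix_apply, hr, Matrix.of_apply]
  refine ⟨c • b.det.toMultilinearMap, ?_, ?_, hdet⟩
  · intro h0
    have h3 := hdet w
    rw [h0] at h3
    have h4 : (Matrix.of fun i j => w j (t i)) = (1 : Matrix (Fin X.dim) (Fin X.dim) X.K) := by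
      ext i j
      rw [Matrix.of_apply, h1, Matrix.one_apply]
      by_cases h : i = j
      · rw [if_pos h, if_pos h.symm]
      · rw [if_neg h, if_neg (Ne.symm h)]
    rw [h4, Matrix.det_one, mul_one] at h3
    exact hc h3.symm
  · intro v i j hij hne
    rw [MultilinearMap.smul_apply, smul_eq_mul]
    change c * b.det v = 0
    rw [b.det.map_eq_zero_of_eq v hij hne, mul_zero]

theorem Fr.genAt {X : Var} {n : ℕ} (hn : X.dim = n) {ω : X.Ten X.dim} (hω0 : ω ≠ 0)
    (hω : IsAlt ω) {κ : Div X.X} (hκ : IsDivTensor ω κ) {x : X.X} {t : Fin n → X.K}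
    {w : Fin n → X.Der} (h : Fr x t w) : GenAt (-κ) (ω (fun k => w (Fin.cast hn k))) x := by
  subst hn
  exact genAt_of_frame hω0 hω hκ h.mem h.reg h.dual h.expand

/-- The Jacobian matrix. -/
noncomputable def jac (φ : DomHom X Y) {n : ℕ} (s : Fin n → Y.K) (δ : Fin n → X.Der) :
    Matrix (Fin n) (Fin n) X.K := Matrix.of fun i j => δ j (φ.pull (s i))

/-- **The ramification divisor** of a generically finite morphism is given by the determinants of
the Jacobian matrices. -/
theorem DomHom.Alg.exists_canonical (hFS : FactorialStalks) {φ : DomHom X Y} (hφ : φ.Alg)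
    {κ : Div Y.X} (hκ : IsCanonicalDivisor κ) :
    ∃ κ' κ₀ E : Div X.X, IsCanonicalDivisor κ' ∧ IsPullback φ κ κ₀ ∧ κ' = κ₀ + E ∧
      ∀ x : X.X, coheight x = 1 → ∀ (s : Fin Y.dim → Y.K) (w : Fin Y.dim → Y.Der)
        (u : Fin Y.dim → X.K) (δ : Fin Y.dim → X.Der), Fr (φ.f x) s w → Fr x u δ →
        (jac φ s δ).det ≠ 0 ∧ coef E x = Scheme.ord (jac φ s δ).det x := by
  obtain ⟨ω, hω0, hω, hdiv⟩ := hκ
  obtain ⟨t₀, w₀, h₀⟩ := exists_fr (X := Y) rfl (genericPoint Y.X)
  have hc := value_frame_ne_zero hω0 hω h₀.dual h₀.expand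
  obtain ⟨ω', hω'0, hω', hval⟩ := exists_top hφ.dim_eq (hφ.dual h₀.dual)
    (hφ.expand h₀.dual h₀.expand) (c := φ.pull (ω w₀)) (φ.pull_ne_zero hc)
  obtain ⟨κ', hκ'⟩ := exists_isDivTensor hω'0
  obtain ⟨κ₀, hκ₀⟩ := exists_isPullback hFS φ κ
  refine ⟨κ', κ₀, κ' - κ₀, ⟨ω', hω'0, hω', hκ'⟩, hκ₀, by abel, fun x hx s w u δ hsw huδ => ?_⟩
  have h1 : coef κ₀ x = Scheme.ord (φ.pull (ω w)) x := by
    have h3 := genAt_of_frame hω0 hω hdiv hsw.mem hsw.reg hsw.dual hsw.expand
    have h4 := hκ₀.neg.ord_pull hFS hx h3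
    rw [coef_neg] at h4
    linarith
  have h2 := huδ.genAt hφ.dim_eq hω'0 hω' hκ'
  have h3 := h2.ord hx
  rw [coef_neg, neg_neg] at h3
  have h4 : ω' (fun k => δ (Fin.cast hφ.dim_eq k)) = φ.pull (ω w) * (jac φ s δ).det := by
    rw [hval, exists_det hω h₀.dual h₀.expand w, map_mul, mul_assoc]
    congr 1
    rw [RingHom.map_det, ← Matrix.det_mul]
    congr 1
    ext i j
    rw [Matrix.of_apply, Matrix.mul_apply]
    conv_lhs => rw [hφ.expand hsw.dual hsw.expand (δ j)]
    rw [sum_smul_apply]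
    refine Finset.sum_congr rfl fun k _ => ?_
    rw [hφ.up_pull, RingHom.mapMatrix_apply, Matrix.map_apply, Matrix.of_apply, jac,
      Matrix.of_apply, mul_comm]
  have h5 := h2.1
  rw [h4] at h5 h3
  have h6 := left_ne_zero_of_mul h5
  have h7 := right_ne_zero_of_mul h5
  refine ⟨h7, ?_⟩
  rw [Scheme.ord_mul h6 h7] at h3
  rw [coef_sub, ← h3, h1]
  ring

theorem jac_mem {φ : DomHom X Y} {n : ℕ} {x : X.X} {s : Fin n → Y.K} {w : Fin n → Y.Der}
    {u : Fin n → X.K} {δ : Fin n → X.Der} (hsw : Fr (φ.f x) s w) (huδ : Fr x u δ) (i j : Fin n) :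
    jac φ s δ i j ∈ locRing X x :=
  regDer_iff_locRing.1 (huδ.reg j) _ (pull_mem_locRing φ (hsw.mem i))

theorem adjugate_mem {n : ℕ} {x : X.X} {M : Matrix (Fin n) (Fin n) X.K}
    (h : ∀ i j, M i j ∈ locRing X x) (i j : Fin n) : M.adjugate i j ∈ locRing X x := by
  rw [Matrix.adjugate_apply]
  refine det_mem_locRing fun a b => ?_
  rw [Matrix.updateRow_apply]
  split_ifs
  · rw [Pi.single_apply]
    split_ifs
    · exact one_mem _
    · exact zero_mem _
  · exact h _ _

/-- The inverse of the Jacobian matrix. -/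
theorem jac_mul {φ : DomHom X Y} (hφ : φ.Alg) {n : ℕ} {x : X.X} {s : Fin n → Y.K}
    {w : Fin n → Y.Der} {u : Fin n → X.K} {δ : Fin n → X.Der} (hsw : Fr (φ.f x) s w)
    (huδ : Fr x u δ) : jac φ s δ * Matrix.of (fun j k => hφ.up (w k) (u j)) = 1 := by
  ext i k
  rw [Matrix.mul_apply]
  have h1 := hφ.dual hsw.dual k i
  rw [huδ.expand (hφ.up (w k)), sum_smul_apply] at h1
  have h2 : ∀ j, jac φ s δ i j * (Matrix.of (fun j k => hφ.up (w k) (u j))) j k =
      hφ.up (w k) (u j) * δ j (φ.pull (s i)) := fun j => by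
    rw [Matrix.of_apply, jac, Matrix.of_apply, mul_comm]
  rw [Finset.sum_congr rfl fun j _ => h2 j, h1, Matrix.one_apply]
  by_cases h : i = k
  · rw [if_pos h, if_pos h.symm]
  · rw [if_neg h, if_neg (Ne.symm h)]

/-- The extension of a regular vector field becomes regular after multiplication by the Jacobian
determinant. -/
theorem regDer_det_smul_up {φ : DomHom X Y} (hφ : φ.Alg) {n : ℕ} {x : X.X} {s : Fin n → Y.K}
    {w : Fin n → Y.Der} {u : Fin n → X.K} {δ : Fin n → X.Der} (hsw : Fr (φ.f x) s w)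
    (huδ : Fr x u δ) {D : Y.Der} (hD : RegDer (φ.f x) D) :
    RegDer x ((jac φ s δ).det • hφ.up D) := by
  have h1 : ∀ j, (jac φ s δ).det * hφ.up D (u j) ∈ locRing X x := by
    intro j
    rw [hφ.up_eq hsw.dual hsw.expand D, sum_smul_apply, Finset.mul_sum]
    refine sum_mem fun k _ => ?_
    have h2 : (jac φ s δ).det * hφ.up (w k) (u j) = (jac φ s δ).adjugate j k := by
      have h3 : (jac φ s δ).adjugate * (jac φ s δ * Matrix.of (fun j k => hφ.up (w k) (u j))) =
          (jac φ s δ).adjugate := by rw [jac_mul hφ hsw huδ, mul_one]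
      rw [← Matrix.mul_assoc, Matrix.adjugate_mul, Matrix.smul_mul, Matrix.one_mul] at h3
      have h4 := congrFun (congrFun h3 j) k
      rw [Matrix.smul_apply, Matrix.of_apply, smul_eq_mul] at h4
      exact h4
    have h3 : (jac φ s δ).det * (φ.pull (D (s k)) * hφ.up (w k) (u j)) =
        φ.pull (D (s k)) * (jac φ s δ).adjugate j k := by
      rw [← h2]
      ring
    rw [h3]
    exact mul_mem (pull_mem_locRing φ (regDer_iff_locRing.1 hD _ (hsw.mem k)))
      (adjugate_mem (jac_mem hsw huδ) _ _)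
  rw [regDer_iff_locRing]
  intro f hf
  rw [huδ.expand ((jac φ s δ).det • hφ.up D), sum_smul_apply]
  refine sum_mem fun j _ => ?_
  rw [Derivation.smul_apply, smul_eq_mul]
  exact mul_mem (h1 j) (regDer_iff_locRing.1 (huδ.reg j) _ hf)

/-- The derivative along the extension of a regular vector field. -/
theorem og_up {φ : DomHom X Y} (hφ : φ.Alg) {n : ℕ} {x : X.X} (hx : coheight x = 1)
    {s : Fin n → Y.K} {w : Fin n → Y.Der} {u : Fin n → X.K} {δ : Fin n → X.Der}
    (hsw : Fr (φ.f x) s w) (huδ : Fr x u δ) {D : Y.Der} (hD : RegDer (φ.f x) D) {f : X.K}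
    (hf : f ≠ 0) (h0 : (jac φ s δ).det ≠ 0) :
    og x (Scheme.ord f x - (Scheme.ord (jac φ s δ).det x + 1)) (hφ.up D f) := by
  have h1 := (regDer_det_smul_up hφ hsw huδ hD).ord_le hx hf
  rw [Derivation.smul_apply, smul_eq_mul] at h1
  exact (h1.of_mul h0).mono (by linarith)

end Vale.Agent.P299.Q
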