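import Mathlib.RingTheory.Polynomial.Content
import Vale.Agent.P299.Q.Jacob

/-!
# The order of the ramification divisor over a prime divisor
-/

open CategoryTheory TopologicalSpace Opposite TopCat AlgebraicGeometry Order

namespace Vale.Agent.P299.Q

open Vale.Agent.P299.G

variable {X Y : Var}

/-- The derivative of the value of a polynomial. -/
theorem der_eval₂_mem {R : Type*} [CommRing R] (D : X.Der) (ρ : R →+* X.K) (O : Subring X.K)
    {u : X.K} (hu : u ∈ O) (hD : ∀ a, D (ρ a) ∈ O) (P : Polynomial R) :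
    D (P.eval₂ ρ u) - (Polynomial.derivative P).eval₂ ρ u * D u ∈ O := by
  induction P using Polynomial.induction_on' with
  | add p q hp hq =>
    rw [Polynomial.eval₂_add, map_add, map_add, Polynomial.eval₂_add]
    have h := add_mem hp hq
    have e : D (p.eval₂ ρ u) - (Polynomial.derivative p).eval₂ ρ u * D u +
      (D (q.eval₂ ρ u) - (Polynomial.derivative q).eval₂ ρ u * D u) =
      D (p.eval₂ ρ u) + D (q.eval₂ ρ u) - ((Polynomial.derivative p).eval₂ ρ u +
        (Polynomial.derivative q).eval₂ ρ u) * D u := by ring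
    rwa [e] at h
  | monomial n a =>
    rw [Polynomial.eval₂_monomial, Polynomial.derivative_monomial, Polynomial.eval₂_monomial,
      Derivation.leibniz, Derivation.leibniz_pow, smul_eq_mul, smul_eq_mul, nsmul_eq_mul,
      smul_eq_mul, map_mul, map_natCast]
    have e : ρ a * ((n : X.K) * (u ^ (n - 1) * D u)) + u ^ n * D (ρ a) -
        ρ a * (n : X.K) * u ^ (n - 1) * D u = u ^ n * D (ρ a) := by ring
    rw [e]
    exact mul_mem (pow_mem hu _) (hD a)

/-- The constants in a local ring. -/
noncomputable def cstStalk (y : Y.X) : ℂ →+* Y.X.presheaf.stalk y :=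
  (Y.X.presheaf.germ ⊤ y trivial).hom.comp (constants Y.X)

instance (y : Y.X) : CharZero (IsLocalRing.ResidueField (Y.X.presheaf.stalk y)) :=
  charZero_of_injective_ringHom
    ((IsLocalRing.residue (Y.X.presheaf.stalk y)).comp (cstStalk y)).injective

/-- The residue of a unit at `x` is algebraic over the residue field of `φ(x)`. -/
theorem exists_residue_poly {φ : DomHom X Y} (hφ : φ.Alg) {x : X.X}
    (hy : coheight (φ.f x) = 1) (v : X.X.presheaf.stalk x) :
    ∃ P : Polynomial (Y.X.presheaf.stalk (φ.f x)),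
      ¬ IsUnit (P.eval₂ (φ.stalk x) v) ∧
      IsUnit ((Polynomial.derivative P).eval₂ (φ.stalk x) v) := by
  have hdvr := Y.dvr (φ.f x) hy
  let R := Y.X.presheaf.stalk (φ.f x)
  let S := X.X.presheaf.stalk x
  let ρ : R →+* S := φ.stalk x
  have hloc : IsLocalHom ρ := inferInstanceAs (IsLocalHom (φ.f.stalkMap x).hom)
  let _ : Algebra Y.K X.K := φ.pull.toAlgebra
  have halg : Algebra.IsAlgebraic Y.K X.K := hφ
  let _ : Algebra R X.K := (φ.pull.comp (toK (φ.f x))).toAlgebra
  have hst : IsScalarTower R Y.K X.K := IsScalarTower.of_algebraMap_eq' rfl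
  have halg' : Algebra.IsAlgebraic R X.K :=
    (IsFractionRing.comap_isAlgebraic_iff (A := R) (K := Y.K) (C := X.K)).2 halg
  obtain ⟨p, hp0, hp⟩ := halg'.isAlgebraic (toK x v)
  obtain ⟨ϖ, hϖ⟩ := IsDiscreteValuationRing.exists_irreducible R
  have hCϖ : Irreducible (Polynomial.C ϖ : Polynomial R) :=
    (Polynomial.prime_C_iff.2 hϖ.prime).irreducible
  obtain ⟨n, q, hq, hpq⟩ := WfDvdMonoid.max_power_factor hp0 hCϖ
  have hq0 : q.eval₂ ρ v = 0 := by
    have h1 : toK x (p.eval₂ ρ v) = 0 := by
      rw [Polynomial.hom_eval₂, ← hp, Polynomial.aeval_def]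
      congr 1
      ext a
      exact (φ.pull_toK x a).symm
    have h2 : p.eval₂ ρ v = 0 := toK_injective x (by rw [h1, map_zero])
    rw [hpq, Polynomial.eval₂_mul, Polynomial.eval₂_pow, Polynomial.eval₂_C] at h2
    refine (mul_eq_zero.1 h2).resolve_left (pow_ne_zero _ ?_)
    intro h0
    exact hϖ.ne_zero (φ.stalkMap_injective x (by rw [map_zero]; exact h0))
  let κR := IsLocalRing.ResidueField R
  let κS := IsLocalRing.ResidueField S
  let ρ' : κR →+* κS := IsLocalRing.ResidueField.map ρ
  let _ : Algebra κR κS := ρ'.toAlgebra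
  have hev : ∀ P : Polynomial R, Polynomial.aeval (IsLocalRing.residue S v)
      (P.map (IsLocalRing.residue R)) = IsLocalRing.residue S (P.eval₂ ρ v) := by
    intro P
    rw [Polynomial.hom_eval₂, Polynomial.aeval_def, Polynomial.eval₂_map]
    rfl
  have halgv : IsAlgebraic κR (IsLocalRing.residue S v) := by
    refine ⟨q.map (IsLocalRing.residue R), ?_, by rw [hev, hq0, map_zero]⟩
    intro h0
    apply hq
    rw [Polynomial.C_dvd_iff_dvd_coeff]
    intro i
    have h1 := congrArg (fun r => r.coeff i) h0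
    simp only [Polynomial.coeff_map, Polynomial.coeff_zero] at h1
    rw [IsLocalRing.residue_eq_zero_iff, hϖ.maximalIdeal_eq, Ideal.mem_span_singleton] at h1
    exact h1
  have hsep : (minpoly κR (IsLocalRing.residue S v)).Separable :=
    (minpoly.irreducible halgv.isIntegral).separable
  obtain ⟨P, hP⟩ := Polynomial.map_surjective (IsLocalRing.residue R)
    IsLocalRing.residue_surjective (minpoly κR (IsLocalRing.residue S v))
  refine ⟨P, ?_, ?_⟩
  · intro hu
    have h1 := hev P
    rw [hP, minpoly.aeval] at h1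
    exact (hu.map (IsLocalRing.residue S)).ne_zero h1.symm
  · have h1 := hev (Polynomial.derivative P)
    rw [← Polynomial.derivative_map, hP] at h1
    have h2 := hsep.aeval_derivative_ne_zero (minpoly.aeval κR (IsLocalRing.residue S v))
    rw [h1] at h2
    by_contra hu
    exact h2 ((IsLocalRing.residue_eq_zero_iff _).2 ((IsLocalRing.mem_maximalIdeal _).2 hu))

theorem og_pow_unif {x : X.X} {p : X.K} (hp0 : p ≠ 0) (hp : Scheme.ord p x = 1) (k : ℤ) :
    og x k (p ^ k) := by
  have := og.zpow (x := x) hp0 k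
  rwa [hp, mul_one] at this

/-- A regular vector field with `D(p) ∈ (p)` is logarithmic. -/
theorem og_log {x : X.X} (hx : coheight x = 1) {D : X.Der} (hD : RegDer x D) {p : X.K}
    (hp0 : p ≠ 0) (hp : Scheme.ord p x = 1) (hDp : og x 1 (D p)) {a : ℤ} {f : X.K}
    (hf : og x a f) : og x a (D f) := by
  by_cases hf0 : f = 0
  · rw [hf0, map_zero]
    exact og_zero x a
  obtain ⟨u, hu0, hu, hfu⟩ := exists_decomp hp0 hp hf0
  have ha := hf hf0
  have h1 : og x 0 (D u) := (og_iff hx).2 (regDer_iff_locRing.1 hD _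
    ((og_iff hx).1 (fun _ => hu.ge)))
  have hu' : og x 0 u := fun _ => hu.ge
  rw [hfu, der_mul_zpow D hp0]
  refine og.mono ?_ ha
  refine og.add hx (((og_pow_unif hp0 hp _).mul h1).mono (by linarith)) ?_
  exact (((og_intCast hx _).mul hu').mul ((og_pow_unif hp0 hp _).mul hDp)).mono (by linarith)

/-- The induction step for the extension of logarithmic vector fields. -/
theorem log_step {φ : DomHom X Y} (hφ : φ.Alg) {x : X.X} (hx : coheight x = 1)
    (hy : coheight (φ.f x) = 1) {D : Y.Der}
    (hlog : ∀ (a : ℤ) (f : Y.K), og (φ.f x) a f → og (φ.f x) a (D f)) {N : ℤ} (hN : 0 ≤ N)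
    (h : ∀ f : X.K, f ≠ 0 → og x (Scheme.ord f x - (N + 1)) (hφ.up D f)) (f : X.K) (hf : f ≠ 0) :
    og x (Scheme.ord f x - N) (hφ.up D f) := by
  -- units
  have hunit : ∀ u : X.K, u ≠ 0 → Scheme.ord u x = 0 → og x (-N) (hφ.up D u) := by
    intro u hu0 hu
    obtain ⟨v, rfl⟩ := (og_iff hx).1 (show og x 0 u from fun _ => hu.ge)
    change toK x v ≠ 0 at hu0
    change Scheme.ord (toK x v) x = 0 at hu
    obtain ⟨P, hP1, hP2⟩ := exists_residue_poly hφ hy v
    have hval : ∀ Q : Polynomial (Y.X.presheaf.stalk (φ.f x)),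
        Q.eval₂ (φ.pull.comp (toK (φ.f x))) (toK x v) = toK x (Q.eval₂ (φ.stalk x) v) := by
      intro Q
      rw [Polynomial.hom_eval₂]
      congr 1
      ext a
      exact φ.pull_toK x a
    have hDP : og x (-N) (hφ.up D (toK x (P.eval₂ (φ.stalk x) v))) := by
      by_cases h0 : P.eval₂ (φ.stalk x) v = 0
      · rw [h0, map_zero, map_zero]
        exact og_zero x _
      · refine (h _ (toK_ne_zero h0)).mono ?_
        have h1 := ord_toK_nonneg (y := x) (P.eval₂ (φ.stalk x) v)
        have h2 : Scheme.ord (toK x (P.eval₂ (φ.stalk x) v)) x ≠ 0 := fun h2 =>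
          hP1 (Vale.Agent.P299.G.isUnit_of_ord_eq_zero X.dvr hx h0 h2)
        omega
    have h1 := der_eval₂_mem (hφ.up D) (φ.pull.comp (toK (φ.f x))) (locRing X x)
      (u := toK x v) ⟨v, rfl⟩ (fun a => by
        rw [RingHom.comp_apply, hφ.up_pull]
        refine pull_mem_locRing φ ((og_iff hy).1 (hlog 0 _ ((og_iff hy).2 ⟨a, rfl⟩)))) P
    rw [hval, hval] at h1
    have h2 : og x (-N) (toK x ((Polynomial.derivative P).eval₂ (φ.stalk x) v) *
        hφ.up D (toK x v)) := by
      have h3 := hDP.sub hx (((og_iff hx).2 h1).mono (by linarith))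
      have e : hφ.up D (toK x (P.eval₂ (φ.stalk x) v)) -
        (hφ.up D (toK x (P.eval₂ (φ.stalk x) v)) -
          toK x ((Polynomial.derivative P).eval₂ (φ.stalk x) v) * hφ.up D (toK x v)) =
          toK x ((Polynomial.derivative P).eval₂ (φ.stalk x) v) * hφ.up D (toK x v) := by ring
      rwa [e] at h3
    have h3 := h2.of_mul (toK_ne_zero hP2.ne_zero)
    rwa [ord_toK_of_isUnit hP2, sub_zero] at h3
  -- the uniformizer
  obtain ⟨p, hp0, hp⟩ := exists_unif hx
  obtain ⟨τ, hτ0, hτ⟩ := exists_unif hy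
  obtain ⟨e, he, hmult⟩ := φ.exists_mult x hx hy
  have hpe : Scheme.ord (φ.pull τ) x = e := by rw [hmult τ hτ0, hτ, mul_one]
  have hp' : og x (1 - N) (hφ.up D p) := by
    obtain ⟨u, hu0, hu, hτu⟩ := exists_decomp hp0 hp (φ.pull_ne_zero hτ0)
    rw [hpe] at hτu
    have h1 : og x e (φ.pull (D τ)) := by
      intro hne
      have hne' : D τ ≠ 0 := fun h0 => hne (by rw [h0, map_zero])
      rw [hmult _ hne']
      have h2 := hlog 1 τ (fun _ => hτ.ge) hne'
      nlinarith
    rw [← hφ.up_pull, hτu, der_mul_zpow _ hp0] at h1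
    have h2 : og x (e - N) (((e : X.K) * u * p ^ (e - 1)) * hφ.up D p) := by
      have h3 := (h1.mono (by linarith : e - N ≤ e)).sub hx
        (((og_pow_unif hp0 hp e).mul (hunit u hu0 hu)).mono (by linarith : e - N ≤ e + -N))
      have e2 : p ^ e * hφ.up D u + (e : X.K) * u * (p ^ (e - 1) * hφ.up D p) -
          p ^ e * hφ.up D u = ((e : X.K) * u * p ^ (e - 1)) * hφ.up D p := by ring
      rwa [e2] at h3
    have he0 : (e : X.K) ≠ 0 := by
      have hchar : CharZero X.K := charZero_of_injective_algebraMap (algebraMap ℂ X.K).injective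
      have : e ≠ 0 := by omega
      exact_mod_cast this
    have hne : (e : X.K) * u * p ^ (e - 1) ≠ 0 :=
      mul_ne_zero (mul_ne_zero he0 hu0) (zpow_ne_zero _ hp0)
    have h3 := h2.of_mul hne
    have h4 : Scheme.ord ((e : X.K) * u * p ^ (e - 1)) x = e - 1 := by
      rw [Scheme.ord_mul (mul_ne_zero he0 hu0) (zpow_ne_zero _ hp0), Scheme.ord_mul he0 hu0, hu,
        ord_zpow hp0, hp]
      have h5 : Scheme.ord (e : X.K) x = 0 := by
        have h6 : (e : X.K) = (e : ℂ) • (1 : X.K) := by
          rw [Algebra.smul_def, mul_one, map_intCast]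
        have h7 : (e : ℂ) ≠ 0 := by
          have : e ≠ 0 := by omega
          exact_mod_cast this
        rw [h6, ord_smul _ h7, ord_one]
      rw [h5]
      ring
    rw [h4] at h3
    exact h3.mono (by linarith)
  obtain ⟨u, hu0, hu, hfu⟩ := exists_decomp hp0 hp hf
  have hu' : og x 0 u := fun _ => hu.ge
  have h5 : hφ.up D f = p ^ Scheme.ord f x * hφ.up D u + (Scheme.ord f x : X.K) * u *
      (p ^ (Scheme.ord f x - 1) * hφ.up D p) := by
    conv_lhs => rw [hfu]
    exact der_mul_zpow _ hp0 _
  rw [h5]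
  refine og.add hx (((og_pow_unif hp0 hp _).mul (hunit u hu0 hu)).mono (by linarith)) ?_
  exact (((og_intCast hx _).mul hu').mul ((og_pow_unif hp0 hp _).mul hp')).mono (by linarith)

/-- Logarithmic vector fields extend to logarithmic vector fields. -/
theorem log_up {φ : DomHom X Y} (hφ : φ.Alg) {x : X.X} (hx : coheight x = 1)
    (hy : coheight (φ.f x) = 1) {D : Y.Der}
    (hlog : ∀ (a : ℤ) (f : Y.K), og (φ.f x) a f → og (φ.f x) a (D f))
    {n : ℕ} {s : Fin n → Y.K} {w : Fin n → Y.Der} {u : Fin n → X.K} {δ : Fin n → X.Der}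
    (hsw : Fr (φ.f x) s w) (huδ : Fr x u δ) (h0 : (jac φ s δ).det ≠ 0) {a : ℤ} {f : X.K}
    (hf : og x a f) : og x a (hφ.up D f) := by
  have hreg : RegDer (φ.f x) D := by
    rw [regDer_iff_locRing]
    intro f hf
    exact (og_iff hy).1 (hlog 0 f ((og_iff hy).2 hf))
  have hR : 0 ≤ Scheme.ord (jac φ s δ).det x :=
    ord_nonneg_of_locRing (det_mem_locRing (jac_mem hsw huδ))
  have key : ∀ N : ℕ, (∀ f : X.K, f ≠ 0 → og x (Scheme.ord f x - N) (hφ.up D f)) →
      ∀ f : X.K, f ≠ 0 → og x (Scheme.ord f x) (hφ.up D f) := by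
    intro N
    induction N with
    | zero =>
      intro h f hf
      have := h f hf
      simpa using this
    | succ N ih =>
      intro h
      refine ih fun f hf => log_step hφ hx hy hlog (Int.natCast_nonneg N) ?_ f hf
      intro f hf
      have := h f hf
      push_cast at this
      exact this
  by_cases hf0 : f = 0
  · rw [hf0, map_zero]
    exact og_zero x a
  refine (key (Scheme.ord (jac φ s δ).det x + 1).toNat (fun f hf => ?_) f hf0).mono (hf hf0)
  rw [Int.toNat_of_nonneg (by linarith)]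
  exact og_up hφ hx hsw huδ hreg hf h0

/-- The entries of the matrix expressing logarithmic vector fields. -/
theorem ramification_le {φ : DomHom X Y} (hφ : φ.Alg) {x : X.X} (hx : coheight x = 1)
    (hy : coheight (φ.f x) = 1) {n : ℕ} {s : Fin n → Y.K} {w : Fin n → Y.Der}
    {u : Fin n → X.K} {δ : Fin n → X.Der} (hsw : Fr (φ.f x) s w) (huδ : Fr x u δ)
    (h0 : (jac φ s δ).det ≠ 0) {τ : Y.K} (hτ0 : τ ≠ 0) (hτ : Scheme.ord τ (φ.f x) = 1) :
    Scheme.ord (jac φ s δ).det x + 1 ≤ Scheme.ord (φ.pull τ) x := by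
  obtain ⟨i₀, hi0, hi⟩ := hsw.exists_unit hy hτ0 hτ
  obtain ⟨p, hp0, hp⟩ := exists_unif hx
  obtain ⟨j₀, hj0, hj⟩ := huδ.exists_unit hx hp0 hp
  have hτO : τ ∈ locRing Y (φ.f x) := (og_iff hy).1 (fun _ => by rw [hτ]; norm_num)
  -- the coefficients of the logarithmic frame
  let c : Fin n → Y.K := fun i => if i = i₀ then τ else -(w i τ / w i₀ τ)
  let P : Matrix (Fin n) (Fin n) Y.K := (1 : Matrix (Fin n) (Fin n) Y.K).updateCol i₀ c
  let v : Fin n → Y.Der := fun i => ∑ j, P i j • w j
  have hPdet : P.det = τ := by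
    have h1 := Matrix.cramer_one (n := Fin n) (α := Y.K)
    have h2 := congrArg (fun g => g c i₀) h1
    simp only [Matrix.cramer_apply] at h2
    refine h2.trans ?_
    change c i₀ = τ
    simp [c]
  have hPmem : ∀ i j, P i j ∈ locRing Y (φ.f x) := by
    intro i j
    change (1 : Matrix (Fin n) (Fin n) Y.K).updateCol i₀ c i j ∈ _
    rw [Matrix.updateCol_apply]
    split_ifs with h
    · change (if i = i₀ then τ else -(w i τ / w i₀ τ)) ∈ _
      split_ifs
      · exact hτO
      · refine neg_mem ((og_iff hy).1 ?_)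
        intro hne
        have h1 : w i τ ≠ 0 := fun h => hne (by rw [h, zero_div])
        rw [ord_div h1 hi0, hi, sub_zero]
        exact ord_nonneg_of_locRing (regDer_iff_locRing.1 (hsw.reg i) _ hτO)
    · rw [Matrix.one_apply]
      split_ifs
      · exact one_mem _
      · exact zero_mem _
  have hvreg : ∀ i, RegDer (φ.f x) (v i) := by
    intro i
    rw [regDer_iff_locRing]
    intro f hf
    rw [sum_smul_apply]
    exact sum_mem fun j _ => mul_mem (hPmem i j) (regDer_iff_locRing.1 (hsw.reg j) _ hf)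
  have hvτ : ∀ i, og (φ.f x) 1 (v i τ) := by
    intro i
    have h1 : v i τ = if i = i₀ then τ * w i₀ τ else 0 := by
      change (∑ j, P i j • w j) τ = _
      rw [sum_smul_apply]
      have h2 : ∀ j, P i j * w j τ = (if j = i then (if i = i₀ then 0 else w i τ) else 0) +
          (if j = i₀ then c i * w i₀ τ else 0) := by
        intro j
        change (1 : Matrix (Fin n) (Fin n) Y.K).updateCol i₀ c i j * w j τ = _
        rw [Matrix.updateCol_apply, Matrix.one_apply]
        by_cases hj : j = i₀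
        · subst hj
          rw [if_pos rfl, if_pos rfl]
          by_cases hij : j = i
          · subst hij
            simp
          · rw [if_neg hij, zero_add]
        · rw [if_neg hj, if_neg hj, add_zero]
          by_cases hij : j = i
          · subst hij
            rw [if_pos rfl, if_pos rfl, if_neg hj, one_mul]
          · rw [if_neg hij, if_neg (Ne.symm hij), zero_mul]
      rw [Finset.sum_congr rfl fun j _ => h2 j, Finset.sum_add_distrib]
      simp only [Finset.sum_ite_eq', Finset.mem_univ, if_true]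
      change (if i = i₀ then 0 else w i τ) + (if i = i₀ then τ else -(w i τ / w i₀ τ)) * w i₀ τ = _
      split_ifs
      · rw [zero_add]
      · field_simp
        ring
    rw [h1]
    split_ifs
    · have h2 : og (φ.f x) 1 τ := fun _ => hτ.ge
      have h3 : og (φ.f x) 0 (w i₀ τ) := fun _ => hi.ge
      exact (h2.mul h3).mono (by norm_num)
    · exact og_zero _ _
  have hvlog : ∀ i (a : ℤ) (f : X.K), og x a f → og x a (hφ.up (v i) f) := fun i a f hf =>
    log_up hφ hx hy (fun a f hf => og_log hy (hvreg i) hτ0 hτ (hvτ i) hf) hsw huδ h0 hf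
  -- the matrix of the logarithmic frame
  let C : Matrix (Fin n) (Fin n) X.K := Matrix.of fun j i => hφ.up (v i) (u j)
  have hC : ∀ j i, C j i ∈ locRing X x := fun j i =>
    (og_iff hx).1 (hvlog i 0 _ ((og_iff hx).2 (huδ.mem j)))
  have hupv : ∀ i (f : X.K), hφ.up (v i) f = ∑ k, φ.pull (P i k) * hφ.up (w k) f := by
    intro i f
    rw [hφ.up_eq hsw.dual hsw.expand (v i), sum_smul_apply]
    refine Finset.sum_congr rfl fun k _ => ?_
    congr 2
    change (∑ j, P i j • w j) (s k) = P i k
    rw [sum_smul_apply]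
    simp [hsw.dual]
  have hCfac : C = Matrix.of (fun j k => hφ.up (w k) (u j)) * (P.map φ.pull).transpose := by
    ext j i
    rw [Matrix.mul_apply]
    change hφ.up (v i) (u j) = _
    rw [hupv]
    refine Finset.sum_congr rfl fun k _ => ?_
    rw [Matrix.of_apply, Matrix.transpose_apply, Matrix.map_apply, mul_comm]
  have hdet : (jac φ s δ).det * C.det = φ.pull τ := by
    rw [← Matrix.det_mul, hCfac, ← Matrix.mul_assoc, jac_mul hφ hsw huδ, Matrix.one_mul,
      Matrix.det_transpose, ← hPdet, RingHom.map_det]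
    rfl
  have hCdet : og x 1 C.det := by
    have hb : Matrix.vecMul (fun j => δ j p) C = fun i => hφ.up (v i) p := by
      funext i
      rw [huδ.expand (hφ.up (v i)), sum_smul_apply]
      change ∑ j, δ j p * C j i = _
      refine Finset.sum_congr rfl fun j _ => ?_
      rw [mul_comm]
      rfl
    have h1 : Matrix.vecMul (fun i => hφ.up (v i) p) C.adjugate j₀ = C.det * δ j₀ p := by
      rw [← hb, Matrix.vecMul_vecMul, Matrix.mul_adjugate, Matrix.vecMul_smul, Matrix.vecMul_one]
      rfl
    have h2 : og x 1 (δ j₀ p * C.det) := by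
      rw [mul_comm, ← h1]
      change og x 1 (∑ i, hφ.up (v i) p * C.adjugate i j₀)
      refine og_sum hx _ _ fun i _ => ?_
      have h3 := (hvlog i 1 p (fun _ => hp.ge)).mul ((og_iff hx).2 (adjugate_mem hC i j₀))
      rwa [add_zero] at h3
    have h3 := h2.of_mul hj0
    rwa [hj, sub_zero] at h3
  have hC0 : C.det ≠ 0 := by
    intro h
    rw [h, mul_zero] at hdet
    exact φ.pull_ne_zero hτ0 hdet.symm
  have h1 := hCdet hC0
  rw [← hdet, Scheme.ord_mul h0 hC0]
  linarith

end Vale.Agent.P299.Q
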