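import Mathlib.AlgebraicGeometry.ValuativeCriterion
import Mathlib.RingTheory.Valuation.LocalSubring
import Vale.Agent.P299.Q.Ramify
import Vale.Agent.P299.Q.Norm

/-!
# Integrality over the local ring of a prime divisor
-/

open CategoryTheory TopologicalSpace Opposite TopCat AlgebraicGeometry Order

namespace Vale.Agent.P299.Q

open Vale.Agent.P299.G

variable {X Y : Var}

/-- The valuative criterion of properness for a morphism of varieties: a valuation ring of the
function field of `X` which contains the local ring of `Y` at `y` contains the local ring of `X` at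
some point `x` such that `φ(x)` is a generization of `y`. -/
theorem exists_center_over (φ : DomHom X Y) (y : Y.X) (V : ValuationSubring X.K)
    (hV : ∀ a : Y.X.presheaf.stalk y, φ.pull (toK y a) ∈ V) :
    ∃ x : X.X, φ.f x ⤳ y ∧ ∀ a : X.X.presheaf.stalk x, algebraMap _ X.K a ∈ V := by
  have hex : ValuativeCriterion.Existence φ.f := by
    have h1 : UniversallyClosed φ.f := inferInstance
    rw [UniversallyClosed.eq_valuativeCriterion] at h1
    exact h1.1
  let cV : Y.X.presheaf.stalk y →+* V := (φ.pull.comp (toK y)).codRestrict V.toSubring hV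
  let j : CommRingCat.of V ⟶ CommRingCat.of X.K := CommRingCat.ofHom (algebraMap V X.K)
  let i₁ : Spec (CommRingCat.of X.K) ⟶ X.X := X.X.fromSpecStalk (genericPoint X.X)
  let i₂ : Spec (CommRingCat.of V) ⟶ Y.X := Spec.map (CommRingCat.ofHom cV) ≫
    Y.X.fromSpecStalk y
  have hgy : φ.f (genericPoint X.X) ⤳ y := by
    rw [φ.dominant]
    exact genericPoint_specializes y
  have hj : CommRingCat.ofHom cV ≫ j = Y.X.presheaf.stalkSpecializes hgy ≫
      φ.f.stalkMap (genericPoint X.X) := by
    have h1 : Y.X.presheaf.stalkSpecializes (genericPoint_specializes y) ≫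
        Y.X.presheaf.stalkSpecializes (specializes_of_eq φ.dominant) =
        Y.X.presheaf.stalkSpecializes hgy := TopCat.Presheaf.stalkSpecializes_comp _ _ _
    rw [← h1, Category.assoc]
    ext a
    rfl
  have hsq : i₁ ≫ φ.f = Spec.map j ≫ i₂ := by
    change X.X.fromSpecStalk (genericPoint X.X) ≫ φ.f = Spec.map j ≫
      Spec.map (CommRingCat.ofHom cV) ≫ Y.X.fromSpecStalk y
    rw [← Spec.map_comp_assoc, hj, Spec.map_comp, Category.assoc,
      Scheme.SpecMap_stalkSpecializes_fromSpecStalk, Scheme.SpecMap_stalkMap_fromSpecStalk]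
  let S : ValuativeCommSq φ.f :=
    { R := V
      K := X.K
      i₁ := i₁
      i₂ := i₂
      commSq := ⟨hsq⟩ }
  have hl : ∃ l : Spec (CommRingCat.of V) ⟶ X.X, Spec.map j ≫ l = i₁ ∧ l ≫ φ.f = i₂ := by
    obtain ⟨⟨⟨l, hl1, hl2⟩⟩⟩ := hex S
    exact ⟨l, hl1, hl2⟩
  obtain ⟨l, hl1, hl2⟩ := hl
  have h1 : Spec.map (Scheme.stalkClosedPointTo l) ≫
      X.X.fromSpecStalk (l (IsLocalRing.closedPoint V)) = l :=
    Scheme.Spec_stalkClosedPointTo_fromSpecStalk l
  have h2 : Spec.map (X.X.presheaf.stalkSpecializes ((genericPoint_spec X.X).specializes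
      (Set.mem_univ (l (IsLocalRing.closedPoint V))))) ≫
      X.X.fromSpecStalk (l (IsLocalRing.closedPoint V)) = i₁ :=
    Scheme.SpecMap_stalkSpecializes_fromSpecStalk _
  rw [← h2] at hl1
  have h3 : Spec.map (Scheme.stalkClosedPointTo l ≫ j) ≫
      X.X.fromSpecStalk (l (IsLocalRing.closedPoint V)) =
      Spec.map (X.X.presheaf.stalkSpecializes ((genericPoint_spec X.X).specializes
      (Set.mem_univ (l (IsLocalRing.closedPoint V))))) ≫
      X.X.fromSpecStalk (l (IsLocalRing.closedPoint V)) := by
    rw [Spec.map_comp, Category.assoc, h1]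
    exact hl1
  have h4 := Spec.map_injective ((cancel_mono _).1 h3)
  refine ⟨l (IsLocalRing.closedPoint V), ?_, fun a => ?_⟩
  · have h5 : φ.f (l (IsLocalRing.closedPoint V)) =
        Y.X.fromSpecStalk y (Spec.map (CommRingCat.ofHom cV) (IsLocalRing.closedPoint V)) := by
      have h6 := congrArg (fun f => f (IsLocalRing.closedPoint V)) hl2
      exact h6
    have h6 : φ.f (l (IsLocalRing.closedPoint V)) ∈ Set.range (Y.X.fromSpecStalk y) :=
      ⟨_, h5.symm⟩
    rw [Scheme.range_fromSpecStalk] at h6
    exact h6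
  · have h5 := congrArg (fun f => f.hom a) h4
    change (algebraMap V X.K ((Scheme.stalkClosedPointTo l).hom a)) = _ at h5
    have h6 : algebraMap (X.X.presheaf.stalk (l (IsLocalRing.closedPoint V))) X.K a =
        (X.X.presheaf.stalkSpecializes ((genericPoint_spec X.X).specializes
        (Set.mem_univ (l (IsLocalRing.closedPoint V))))).hom a :=
      rfl
    rw [h6, ← h5]
    exact ((Scheme.stalkClosedPointTo l).hom a).2

/-- A prime divisor of `X` does not dominate `Y`, if `X → Y` is generically finite. -/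
theorem ne_generic_of_alg {φ : DomHom X Y} (hφ : φ.Alg) {z : X.X} (hz : coheight z = 1) :
    φ.f z ≠ genericPoint Y.X := by
  intro h0
  obtain ⟨p, hp0, hp⟩ := exists_unif hz
  let _ : Algebra Y.K X.K := φ.pull.toAlgebra
  have halg : Algebra.IsAlgebraic Y.K X.K := hφ
  -- `p⁻¹` is integral over the functions on `Y`, which are units at `z`
  obtain ⟨q, hq0, hq⟩ := (halg.isAlgebraic p).exists_nonzero_coeff_and_aeval_eq_zero
    (mem_nonZeroDivisors_of_ne_zero hp0)
  have hpull : ∀ a : Y.K, og z 0 (φ.pull a) := fun a ha => by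
    have ha' : a ≠ 0 := fun h => ha (by rw [h, map_zero])
    rw [φ.ord_pull_of_generic z h0 ha']
  have h1 : og z 0 (Polynomial.aeval p q.divX) := by
    rw [Polynomial.aeval_eq_sum_range]
    refine og_sum hz _ _ fun i _ => ?_
    rw [Algebra.smul_def]
    have h2 : og z 0 (p ^ i) := by
      have := og_pow_unif hp0 hp (i : ℤ)
      rw [zpow_natCast] at this
      exact this.mono (by positivity)
    have h3 := (hpull (q.divX.coeff i)).mul h2
    rwa [add_zero] at h3
  have h4 := congrArg (Polynomial.aeval p) (Polynomial.divX_mul_X_add q)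
  rw [hq, map_add, map_mul, Polynomial.aeval_X, Polynomial.aeval_C] at h4
  have h5 : φ.pull (q.coeff 0) = -(Polynomial.aeval p q.divX) * p := by
    change algebraMap Y.K X.K (q.coeff 0) = _
    linear_combination h4
  have h6 : og z 1 (φ.pull (q.coeff 0)) := by
    rw [h5]
    have h7 : og z 1 p := fun _ => hp.ge
    have h8 := h1.neg.mul h7
    rwa [zero_add] at h8
  have h7 := h6 (φ.pull_ne_zero hq0)
  rw [φ.ord_pull_of_generic z h0 hq0] at h7
  norm_num at h7

/-- A rational function on `X` without poles at the primes over the prime divisor `y` is integral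
over the local ring of `y`. -/
theorem isIntegral_of_ord_over' (hFS : FactorialStalks) {φ : DomHom X Y} (hφ : φ.Alg) {y : Y.X}
    (hy : coheight y = 1) {w : X.K}
    (hw : ∀ z : X.X, coheight z = 1 → φ.f z = y → og z 0 w) :
    (φ.pull.comp (toK y)).IsIntegralElem w := by
  let _ : Algebra (Y.X.presheaf.stalk y) X.K := (φ.pull.comp (toK y)).toAlgebra
  change IsIntegral (Y.X.presheaf.stalk y) w
  by_contra hcon
  have hcl : IsIntegrallyClosedIn (integralClosure (Y.X.presheaf.stalk y) X.K).toSubring X.K :=
    inferInstanceAs (IsIntegrallyClosedIn (integralClosure (Y.X.presheaf.stalk y) X.K) X.K)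
  obtain ⟨V, hV, hwV⟩ := Subring.exists_le_valuationSubring_of_isIntegrallyClosedIn
    (R := (integralClosure (Y.X.presheaf.stalk y) X.K).toSubring) (x := w) hcon
  obtain ⟨x, hxy, hx⟩ := exists_center_over φ y V fun a =>
    hV ((integralClosure (Y.X.presheaf.stalk y) X.K).algebraMap_mem a)
  apply hwV
  have := hFS X x
  obtain ⟨a, ha⟩ := exists_of_forall_ord_nonneg X.dvr x w fun z hz hzx => by
    by_cases hw0 : w = 0
    · rw [hw0, Scheme.ord_zero]
      exact le_rfl
    refine hw z hz ?_ hw0
    exact (eq_or_eq_generic hy ((hzx.map φ.f.continuous).trans hxy)).resolve_right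
      (ne_generic_of_alg hφ hz)
  rw [← ha]
  exact hx a

end Vale.Agent.P299.Q
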