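import Mathlib.Topology.Sheaves.Abelian
import Mathlib.Topology.Sheaves.LocallySurjective
import Mathlib.Algebra.Homology.ShortComplex.ModuleCat
import Mathlib.Algebra.Homology.DerivedCategory.Ext.ExactSequences
import Vale.Agent.P299.Q.CohZero

/-!
# Short exact sequences of subsheaves of constant sheaves
-/

open CategoryTheory TopologicalSpace Opposite TopCat

namespace Vale.Agent.P299.Q

section Map

variable {T : TopCat.{0}} {K₁ K₂ K₃ : Type} [AddCommGroup K₁] [Module ℂ K₁]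
  [AddCommGroup K₂] [Module ℂ K₂] [AddCommGroup K₃] [Module ℂ K₃]

/-- The map on sections induced by a linear map. -/
def constSecMap (L : K₁ →ₗ[ℂ] K₂) (M₁ : T → Submodule ℂ K₁) (M₂ : T → Submodule ℂ K₂)
    (h : ∀ x, ∀ f ∈ M₁ x, L f ∈ M₂ x) (U : Opens T) : constSec M₁ U →ₗ[ℂ] constSec M₂ U where
  toFun s := ⟨fun x => L (s.1 x), fun x y => congrArg L (s.2.1 x y), fun x => h _ _ (s.2.2 x)⟩
  map_add' s t := Subtype.ext (funext fun x => L.map_add _ _)
  map_smul' c s := Subtype.ext (funext fun x => L.map_smul _ _)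

variable [PreirreducibleSpace T]

/-- The morphism of sheaves induced by a linear map. -/
def constMap (L : K₁ →ₗ[ℂ] K₂) (M₁ : T → Submodule ℂ K₁) (M₂ : T → Submodule ℂ K₂)
    (h : ∀ x, ∀ f ∈ M₁ x, L f ∈ M₂ x) : constSheaf M₁ ⟶ constSheaf M₂ :=
  ⟨{ app := fun U => ModuleCat.ofHom (constSecMap L M₁ M₂ h U.unop)
     naturality := fun _ _ _ => rfl }⟩

variable {M₁ : T → Submodule ℂ K₁} {M₂ : T → Submodule ℂ K₂} {M₃ : T → Submodule ℂ K₃}
  {i : K₁ →ₗ[ℂ] K₂} {q : K₂ →ₗ[ℂ] K₃}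
  (hi : ∀ x, ∀ f ∈ M₁ x, i f ∈ M₂ x) (hq : ∀ x, ∀ f ∈ M₂ x, q f ∈ M₃ x)
  (hqi : ∀ f, q (i f) = 0)

/-- The complex of sheaves given by a complex of linear maps. -/
def constComplex : ShortComplex (Sheaf (Opens.grothendieckTopology T) (ModuleCat.{0} ℂ)) :=
  ShortComplex.mk (constMap i M₁ M₂ hi) (constMap q M₂ M₃ hq) (by
    apply CategoryTheory.Sheaf.hom_ext
    apply NatTrans.ext
    funext U
    apply ModuleCat.hom_ext
    apply LinearMap.ext
    intro s
    exact Subtype.ext (funext fun x => hqi _))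

include hi hq hqi in
theorem constComplex_shortExact (hinj : Function.Injective i)
    (hex : ∀ f, q f = 0 → ∃ g, i g = f ∧ ∀ x, f ∈ M₂ x → g ∈ M₁ x)
    (hloc : ∀ (U : Opens T), ∀ x₀ ∈ U, ∀ f, (∀ x ∈ U, f ∈ M₃ x) →
      ∃ V ≤ U, x₀ ∈ V ∧ ∃ g, q g = f ∧ ∀ x ∈ V, g ∈ M₂ x) :
    (constComplex hi hq hqi).ShortExact where
  mono_f := by
    have h1 : ∀ U, Mono ((constComplex hi hq hqi).f.hom.app U) := fun U => by
      rw [ModuleCat.mono_iff_injective]
      intro s t hst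
      apply Subtype.ext
      funext x
      exact hinj (congrFun (congrArg Subtype.val hst) x)
    have h2 : Mono (constComplex hi hq hqi).f.hom := NatTrans.mono_of_mono_app _
    exact (sheafToPresheaf _ _).mono_of_mono_map h2
  epi_g := by
    refine (CategoryTheory.Sheaf.isLocallySurjective_iff_epi' (A := ModuleCat.{0} ℂ)
      (φ := (constComplex hi hq hqi).g)).1 ?_
    refine (TopCat.Presheaf.isLocallySurjective_iff (constComplex hi hq hqi).g.hom).2 ?_
    intro U t x₀ hx₀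
    obtain ⟨V, hVU, hxV, g, hg, hgV⟩ := hloc U x₀ hx₀ (t.1 ⟨x₀, hx₀⟩) (fun x hx => by
      rw [t.2.1 ⟨x₀, hx₀⟩ ⟨x, hx⟩]
      exact t.2.2 ⟨x, hx⟩)
    refine ⟨V, hVU, ⟨⟨fun _ => g, fun _ _ => rfl, fun x => hgV x.1 x.2⟩, ?_⟩, hxV⟩
    apply Subtype.ext
    funext x
    exact hg.trans (t.2.1 _ _)
  exact := by
    refine (TopCat.Sheaf.exact_iff_stalkFunctor_map_exact (X := T) (constComplex hi hq hqi)).2 ?_
    intro x₀
    rw [ShortComplex.moduleCat_exact_iff]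
    intro s hs
    obtain ⟨U, hU, t, rfl⟩ := TopCat.Presheaf.exists_germ_eq (constComplex hi hq hqi).X₂.obj s
    have h1 : TopCat.Presheaf.germ (constComplex hi hq hqi).X₃.obj U x₀ hU
        ((constComplex hi hq hqi).g.hom.app (op U) t) =
        TopCat.Presheaf.germ (constComplex hi hq hqi).X₃.obj U x₀ hU 0 := by
      rw [map_zero]
      refine Eq.trans ?_ hs
      exact (TopCat.Presheaf.stalkFunctor_map_germ_apply U x₀ hU
        (constComplex hi hq hqi).g.hom t).symm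
    obtain ⟨W, hxW, iWU, iWU', hW⟩ := TopCat.Presheaf.germ_eq _ x₀ hU hU _ _ h1
    have h2 : q (t.1 ⟨x₀, hU⟩) = 0 :=
      congrArg (fun s : constSec M₃ W => s.1 ⟨x₀, hxW⟩) hW
    obtain ⟨g, hg, hgM⟩ := hex _ h2
    let u : constSec M₁ U := ⟨fun _ => g, fun _ _ => rfl, fun x => hgM x.1 (by
      rw [t.2.1 ⟨x₀, hU⟩ x]
      exact t.2.2 x)⟩
    refine ⟨TopCat.Presheaf.germ (constComplex hi hq hqi).X₁.obj U x₀ hU u, ?_⟩
    refine (TopCat.Presheaf.stalkFunctor_map_germ_apply U x₀ hU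
        (constComplex hi hq hqi).f.hom u).trans ?_
    congr 1
    apply Subtype.ext
    funext x
    exact hg.trans (t.2.1 _ _)

end Map

section Long

variable {T : TopCat.{0}} {S : ShortComplex (Sheaf (Opens.grothendieckTopology T) (ModuleCat.{0} ℂ))}

/-- Dimension shifting: if `H^n(F₂) = 0` and `H^{n+1}(F₁) = 0` then `H^n(F₃) = 0`. -/
theorem subsingleton_coh_of_shortExact (hS : S.ShortExact) {n : ℕ}
    (h2 : Subsingleton (Coh S.X₂ n)) (h1 : Subsingleton (Coh S.X₁ (n + 1))) :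
    Subsingleton (Coh S.X₃ n) := by
  have h : ∀ x : Coh S.X₃ n, x = 0 := by
    intro x
    obtain ⟨y, hy⟩ := Abelian.Ext.covariant_sequence_exact₃ _ hS x rfl
      (Subsingleton.elim (α := Coh S.X₁ (n + 1)) _ _)
    rw [← hy, Subsingleton.elim (α := Coh S.X₂ n) y 0, Abelian.Ext.zero_comp]
  exact ⟨fun x y => (h x).trans (h y).symm⟩

/-- If `H^1(F₁) = 0` then `F₂(T) → F₃(T)` is surjective. -/
theorem exists_global_of_shortExact (hS : S.ShortExact) (h1 : Subsingleton (Coh S.X₁ 1))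
    (t : S.X₃.obj.obj (op (⊤ : Opens T))) :
    ∃ s : S.X₂.obj.obj (op (⊤ : Opens T)), (S.g.hom.app (op ⊤)).hom s = t := by
  obtain ⟨φ, rfl⟩ := (evalTop_bijective S.X₃).2 t
  obtain ⟨y, hy⟩ := Abelian.Ext.covariant_sequence_exact₃ _ hS (Abelian.Ext.mk₀ φ) rfl
      (Subsingleton.elim (α := Coh S.X₁ 1) _ _)
  obtain ⟨ψ, rfl⟩ := Abelian.Ext.homEquiv₀.symm.surjective y
  rw [Abelian.Ext.homEquiv₀_symm_apply, Abelian.Ext.mk₀_comp_mk₀] at hy
  have h2 : ψ ≫ S.g = φ := Abelian.Ext.homEquiv₀.symm.injective (by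
    rw [Abelian.Ext.homEquiv₀_symm_apply, Abelian.Ext.homEquiv₀_symm_apply, hy])
  refine ⟨evalTop S.X₂ ψ, ?_⟩
  rw [← h2]
  rfl

end Long

end Vale.Agent.P299.Q
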