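import Vale.Agent.P299.Q.Base
import Vale.Agent.P299.Q.BB
import Vale.Agent.P299.Q.Pull

/-!
# A criterion for nefness
-/

open CategoryTheory TopologicalSpace Opposite TopCat AlgebraicGeometry Order

namespace Vale.Agent.P299.Q

/-- If for a fixed effective divisor `B` the sheaf `O_Y(jM + A)` is, for all `j`, contained in the
subsheaf of `O_Y(jM + A + B)` generated by the global sections, then `M` is nef. -/
def NefCriterion : Prop :=
  ∀ (Y : Var) (M A B : Div Y.X), 0 ≤ B →
    (∀ (j : ℕ) (y : Y.X) (g : Y.K), GenAt (j • M + A) g y →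
      ∃ (n : ℕ) (c : Fin n → Y.X.presheaf.stalk y) (t : Fin n → Y.K),
        (∀ i, t i ∈ H0 (coef (j • M + (A + B)))) ∧ g = ∑ i, algebraMap _ Y.K (c i) * t i) →
    IsNef M

end Vale.Agent.P299.Q
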