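import Vale.Agent.P299.Q.Strict
import Vale.Agent.P299.Q.Ample
import Vale.Agent.P299.Q.CohZero
import Vale.Agent.P299.Q.Const
import Vale.Agent.P299.Q.CM
import Vale.Agent.P299.Q.NefDef
import Vale.Agent.P299.G.E1

/-!
# Steps (8) and (9) of the proof: sections of the direct images, nefness of `M`

`φ : X → Y` is the model `Z' → Y`, `E = K_{Z'/Z}`, `L` the pull back of `-K_Z`, `σ` a rational
section of `m₀ L - φ^*M`.
-/

open CategoryTheory TopologicalSpace Opposite TopCat AlgebraicGeometry Order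

namespace Vale.Agent.P299.Q

open Vale.Agent.P299.G

/-- The Euler characteristic of the twists of `(φ_* O_X(K_X + S))^T` by the multiples of a divisor is
a polynomial, for `S` pseudo-effective with a semipositive metric. -/
def SnapperSemiAt (r : ℕ) : Prop :=
  ∀ (X Y : Var) (τ : TAct r X) (φ : DomHom X Y), τ.InvHom φ →
    ∀ (κ S : Div X.X) (M : Div Y.X) (M' : Div X.X), τ.IsCanonical κ → τ.InvDiv κ → τ.InvDiv S →
    SemiPos S → IsPsef S → IsPullback φ M M' →
    ∃ p : Polynomial ℚ, ∀ k : ℕ,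
      ∑ i ∈ Finset.range (Y.dim + 1), (-1 : ℚ) ^ i * τ.hY φ (κ + S + k • M') i =
        p.eval (k : ℚ)

theorem SnapperTheoremAt.semi {r : ℕ} (h : SnapperTheoremAt r) : SnapperSemiAt r :=
  fun X Y τ φ hφ κ S M M' _ hκi hS _ _ hM =>
    h X Y τ φ hφ (κ + S) M M' (TAct.InvDiv.add τ hκi hS) hM

section Algebra

/-- A nonzero finite sum has a nonzero term whose order is at most that of the sum. -/
theorem exists_term_ord_le {L ι : Type*} [Field L] (v : L → ℤ)
    (v_add : ∀ {f g : L}, f ≠ 0 → g ≠ 0 → f + g ≠ 0 → min (v f) (v g) ≤ v (f + g))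
    (s : Finset ι) (a : ι → L) (h : ∑ i ∈ s, a i ≠ 0) :
    ∃ i ∈ s, a i ≠ 0 ∧ v (a i) ≤ v (∑ i ∈ s, a i) := by
  classical
  induction s using Finset.induction_on with
  | empty => simp at h
  | insert i s hi ih =>
    rw [Finset.sum_insert hi] at h ⊢
    by_cases h0 : a i = 0
    · rw [h0, zero_add] at h ⊢
      obtain ⟨j, hj, hj0, hle⟩ := ih h
      exact ⟨j, Finset.mem_insert_of_mem hj, hj0, hle⟩
    by_cases h1 : ∑ j ∈ s, a j = 0
    · rw [h1, add_zero]
      exact ⟨i, Finset.mem_insert_self _ _, h0, le_rfl⟩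
    rcases min_le_iff.1 (v_add h0 h1 h) with h2 | h2
    · exact ⟨i, Finset.mem_insert_self _ _, h0, h2⟩
    · obtain ⟨j, hj, hj0, hle⟩ := ih h1
      exact ⟨j, Finset.mem_insert_of_mem hj, hj0, hle.trans h2⟩

/-- If `g₀ τ = ∑ cᵢ sᵢ` with `cᵢ ∈ L` of nonnegative order and `sᵢ ∈ L τ`, then some `sᵢ / τ` has
order at most that of `g₀`. -/
theorem exists_ord_le_of_sum {L K I : Type*} [Field L] [Field K] (p : L →+* K) (v : L → ℤ)
    (v_mul : ∀ {f g : L}, f ≠ 0 → g ≠ 0 → v (f * g) = v f + v g)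
    (v_add : ∀ {f g : L}, f ≠ 0 → g ≠ 0 → f + g ≠ 0 → min (v f) (v g) ≤ v (f + g))
    (I' : Finset I) (c : I → L) (hc : ∀ i ∈ I', c i ≠ 0 → 0 ≤ v (c i)) (s : I → K) {τ : K}
    (hτ : τ ≠ 0) (hs : ∀ i ∈ I', s i ≠ 0 → ∃ t, p t = s i / τ) {g₀ : L} (hg₀ : g₀ ≠ 0)
    (hu : p g₀ * τ = ∑ i ∈ I', p (c i) * s i) :
    ∃ i ∈ I', s i ≠ 0 ∧ ∃ t, p t = s i / τ ∧ v t ≤ v g₀ := by
  classical
  have ht : ∀ i, ∃ t : L, i ∈ I' → p t = s i / τ := by
    intro i
    by_cases hi : i ∈ I'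
    · by_cases h0 : s i = 0
      · exact ⟨0, fun _ => by rw [h0]; simp⟩
      · obtain ⟨t, ht⟩ := hs i hi h0
        exact ⟨t, fun _ => ht⟩
    · exact ⟨0, fun h => absurd h hi⟩
  choose t ht using ht
  have hsum : ∑ i ∈ I', c i * t i = g₀ := by
    apply p.injective
    apply mul_right_cancel₀ hτ
    rw [hu, map_sum, Finset.sum_mul]
    refine Finset.sum_congr rfl fun i hi => ?_
    rw [map_mul, ht i hi, mul_assoc, div_mul_cancel₀ _ hτ]
  obtain ⟨i, hi, hi0, hle⟩ := exists_term_ord_le v v_add I' (fun i => c i * t i)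
    (by rw [hsum]; exact hg₀)
  have hci : c i ≠ 0 := left_ne_zero_of_mul hi0
  have hti : t i ≠ 0 := right_ne_zero_of_mul hi0
  refine ⟨i, hi, ?_, t i, ht i hi, ?_⟩
  · intro h0
    apply hti
    apply p.injective
    rw [ht i hi, h0, zero_div, map_zero]
  · rw [hsum, v_mul hci hti] at hle
    have := hc i hi hci
    linarith

end Algebra

section Main

variable {r : ℕ} {X Y : Var}

/-- The data obtained in steps (5)–(7): the model `φ`, the divisors `E = K_{Z'/Z}`, `L` and `M`, and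
the invariant rational section `σ` of `m₀ L - φ^*M`. -/
structure EData (τ : TAct r X) (φ : DomHom X Y) (E L : Div X.X) (M : Div Y.X)
    (M' : Div X.X) (m0 : ℕ) (σ : X.K) : Prop where
  m0_pos : 0 < m0
  E_nonneg : 0 ≤ E
  invHom : τ.InvHom φ
  isPullback : IsPullback φ M M'
  mem : σ ∈ τ.inv
  ne_zero : σ ≠ 0
  nonneg : ∀ x : X.X, coheight x = 1 → 0 ≤ Scheme.ord σ x + (m0 * coef L x - coef M' x)
  exists_eq : ∀ q : Y.X, coheight q = 1 → ∃ w : X.X, coheight w = 1 ∧ φ.f w = q ∧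
    Scheme.ord σ w + (m0 * coef L w - coef M' w) = 0
  rank : ∀ (j : ℕ) (f : X.K), f ∈ τ.inv → f ≠ 0 →
    (∀ x, coheight x = 1 → φ.f x = genericPoint Y.X →
      0 ≤ Scheme.ord f x + (coef E x + j * (m0 * coef L x))) →
    ∃ s : Y.K, φ.pull s = f / σ ^ j

namespace EData

variable {τ : TAct r X} {φ : DomHom X Y} {E L : Div X.X} {M : Div Y.X} {M' : Div X.X} {m0 : ℕ}
  {σ : X.K}

/-- The prime `W_q` over `q`, its multiplicity. -/
theorem exists_W (h : EData τ φ E L M M' m0 σ) (q : Y.X) (hq : coheight q = 1) :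
    ∃ (w : X.X) (m : ℤ), coheight w = 1 ∧ φ.f w = q ∧ 1 ≤ m ∧
      (∀ g : Y.K, g ≠ 0 → Scheme.ord (φ.pull g) w = m * Scheme.ord g q) ∧
      Scheme.ord σ w + (m0 * coef L w - coef M' w) = 0 := by
  obtain ⟨w, hw, hwq, hσ⟩ := h.exists_eq q hq
  subst hwq
  obtain ⟨m, hm, hm'⟩ := φ.exists_mult w hw hq
  exact ⟨w, m, hw, rfl, hm, hm', hσ⟩

/-- The divisor `X` of step (8): `X_q = ⌊E_{W_q} / m_{W_q}⌋`. -/
theorem exists_bound (h : EData τ φ E L M M' m0 σ) :
    ∃ B : Div Y.X, ∀ q : Y.X, coheight q = 1 → ∃ (w : X.X) (m : ℤ), coheight w = 1 ∧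
      φ.f w = q ∧ 1 ≤ m ∧
      (∀ g : Y.K, g ≠ 0 → Scheme.ord (φ.pull g) w = m * Scheme.ord g q) ∧
      Scheme.ord σ w + (m0 * coef L w - coef M' w) = 0 ∧ coef B q = coef E w / m := by
  classical
  choose w m hw hwq hm hm' hσ using h.exists_W
  let c : Y.X → ℤ := fun q => if hq : coheight q = 1 then coef E (w q hq) / m q hq else 0
  have hc : {q : Y.X | coheight q = 1 ∧ c q ≠ 0}.Finite := by
    refine ((finite_coef E).image φ.f).subset fun q hq => ?_
    refine ⟨w q hq.1, ?_, hwq q hq.1⟩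
    intro h0
    apply hq.2
    simp only [c, dif_pos hq.1, h0, Int.zero_ediv]
  refine ⟨mkDiv c hc, fun q hq => ⟨w q hq, m q hq, hw q hq, hwq q hq, hm q hq, hm' q hq,
    hσ q hq, ?_⟩⟩
  rw [coef_mkDiv c hc hq]
  simp only [c, dif_pos hq]

/-- Step (8), upper bound: a section of `φ_*O(E + j m₀ L + φ^*A)` is `s σ^j` with `s` a section of
`j M + A + B`. -/
theorem mem_of_section (hAB : FactorialStalks) (h : EData τ φ E L M M' m0 σ) {B : Div Y.X}
    (hB : ∀ q : Y.X, coheight q = 1 → ∃ (w : X.X) (m : ℤ), coheight w = 1 ∧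
      φ.f w = q ∧ 1 ≤ m ∧
      (∀ g : Y.K, g ≠ 0 → Scheme.ord (φ.pull g) w = m * Scheme.ord g q) ∧
      Scheme.ord σ w + (m0 * coef L w - coef M' w) = 0 ∧ coef B q = coef E w / m)
    {A : Div Y.X} {A' : Div X.X} (hA : IsPullback φ A A') (j : ℕ) {f : X.K}
    (hf : f ∈ H0 (coef (E + j • m0 • L + A'))) {s : Y.K} (hs0 : s ≠ 0)
    (hs : φ.pull s = f / σ ^ j) : s ∈ H0 (coef (j • M + (A + B))) := by
  have hf0 : f ≠ 0 := by
    rintro rfl
    rw [zero_div] at hs
    exact φ.pull_ne_zero hs0 hs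
  rw [mem_H0]
  intro q hq _
  obtain ⟨w, m, hw, hwq, hm, hm', hσ, hBq⟩ := hB q hq
  have hm0 : (0 : ℤ) < m := by linarith
  have h1 := (mem_H0.1 hf) w hw hf0
  have h2 := hm' s hs0
  rw [hs, Q.ord_div hf0 (pow_ne_zero j h.ne_zero), Q.ord_pow h.ne_zero] at h2
  subst hwq
  have h3 := h.isPullback.coef_eq_mult hAB hw hq hm'
  have h4 := hA.coef_eq_mult hAB hw hq hm'
  simp only [coef_add, coef_nsmul] at h1 ⊢
  rw [hBq]
  rw [h4] at h1
  rw [h3] at hσ
  have h5 : 0 ≤ m * (Scheme.ord s (φ.f w) + j * coef M (φ.f w) + coef A (φ.f w)) + coef E w := by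
    have e : Scheme.ord σ w = m * coef M (φ.f w) - m0 * coef L w := by linarith
    have e2 : Scheme.ord f w =
        m * Scheme.ord s (φ.f w) + j * (m * coef M (φ.f w) - m0 * coef L w) := by
      rw [e] at h2; linarith
    rw [e2] at h1
    have e3 : m * Scheme.ord s (φ.f w) + j * (m * coef M (φ.f w) - m0 * coef L w) +
        (coef E w + j * (m0 * coef L w) + m * coef A (φ.f w)) =
        m * (Scheme.ord s (φ.f w) + j * coef M (φ.f w) + coef A (φ.f w)) + coef E w := by ring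
    rwa [e3] at h1
  have h6 : -(Scheme.ord s (φ.f w) + j * coef M (φ.f w) + coef A (φ.f w)) ≤ coef E w / m := by
    rw [Int.le_ediv_iff_mul_le hm0]
    linarith
  linarith

/-- Step (8), lower bound: `g σ^j` is a section of `φ_*O(E + j m₀ L + φ^*A)` near every point where
`g` generates `j M + A`. -/
theorem section_of_gen (hAB : FactorialStalks) (h : EData τ φ E L M M' m0 σ)
    {A : Div Y.X} {A' : Div X.X} (hA : IsPullback φ A A') (j : ℕ)
    {g : Y.K} {x : X.X} (hx : coheight x = 1) (hg : GenAt (j • M + A) g (φ.f x)) :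
    0 ≤ Scheme.ord (φ.pull g * σ ^ j) x + coef (E + j • m0 • L + A') x := by
  rw [Scheme.ord_mul (φ.pull_ne_zero hg.1) (pow_ne_zero j h.ne_zero), Q.ord_pow h.ne_zero]
  have hD' : IsPullback φ (j • M + A) (j • M' + A') := (h.isPullback.nsmul j).add hA
  have h1 := hD'.ord_pull hAB hx hg
  have h2 : 0 ≤ (j : ℤ) * (Scheme.ord σ x + (m0 * coef L x - coef M' x)) :=
    mul_nonneg (by positivity) (h.nonneg x hx)
  have h3 : 0 ≤ coef E x := by
    rw [coef_mk hx]
    exact h.E_nonneg ⟨x, hx⟩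
  simp only [coef_add, coef_nsmul] at h1 ⊢
  linarith

/-- The divisor `B` is effective. -/
theorem bound_nonneg (h : EData τ φ E L M M' m0 σ) {B : Div Y.X}
    (hB : ∀ q : Y.X, coheight q = 1 → ∃ (w : X.X) (m : ℤ), coheight w = 1 ∧
      φ.f w = q ∧ 1 ≤ m ∧
      (∀ g : Y.K, g ≠ 0 → Scheme.ord (φ.pull g) w = m * Scheme.ord g q) ∧
      Scheme.ord σ w + (m0 * coef L w - coef M' w) = 0 ∧ coef B q = coef E w / m) : 0 ≤ B := by
  intro q
  obtain ⟨w, m, hw, -, hm, -, -, hBq⟩ := hB q.1 q.2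
  rw [coef_mk q.2] at hBq
  change (0 : ℤ) ≤ B q
  rw [hBq, coef_mk hw]
  exact Int.ediv_nonneg (h.E_nonneg ⟨w, hw⟩) (by linarith)

/-- Step (9): if the sheaves `(φ_*O(E + j m₀ L + φ^*A))^T` are globally generated for all `j`, then
`O(j M + A)` is contained in the subsheaf of `O(j M + A + B)` generated by the global sections, for
a fixed effective divisor `B`. -/
theorem exists_generation (hAB : FactorialStalks) (h : EData τ φ E L M M' m0 σ)
    {A : Div Y.X} {A' : Div X.X} (hA : IsPullback φ A A')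
    (hgen : ∀ (j : ℕ) (y : Y.X) (U : Y.X.Opens), y ∈ U → ∀ u ∈ τ.inv,
      (∀ x : X.X, φ.f x ∈ U → u ∈ polar (coef (E + j • m0 • L + A')) x) →
      ∃ (n : ℕ) (c : Fin n → Y.X.presheaf.stalk y) (s : Fin n → X.K),
        (∀ i, s i ∈ τ.inv ∧ s i ∈ H0 (coef (E + j • m0 • L + A'))) ∧
        u = ∑ i, φ.pull (algebraMap _ Y.K (c i)) * s i) :
    ∃ B : Div Y.X, 0 ≤ B ∧ ∀ (j : ℕ) (y : Y.X) (g : Y.K), GenAt (j • M + A) g y →
      ∃ (n : ℕ) (c : Fin n → Y.X.presheaf.stalk y) (t : Fin n → Y.K),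
        (∀ i, t i ∈ H0 (coef (j • M + (A + B)))) ∧ g = ∑ i, algebraMap _ Y.K (c i) * t i := by
  obtain ⟨B, hB⟩ := h.exists_bound
  refine ⟨B, h.bound_nonneg hB, fun j y g₀ hg₀ => ?_⟩
  obtain ⟨U, hU, hUg⟩ := exists_genAt_nhds (j • M + A) y hg₀
  obtain ⟨n, c, s, hs, hsum⟩ := hgen j y U hU (φ.pull g₀ * σ ^ j)
    (τ.mul_mem (τ.pull_mem h.invHom _) (τ.pow_mem h.mem j))
    (fun x hx hx1 _ => h.section_of_gen hAB hA j hx1 (hUg _ hx))
  have hσ : σ ^ j ≠ 0 := pow_ne_zero j h.ne_zero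
  have ht : ∀ i, ∃ t : Y.K, φ.pull t = s i / σ ^ j ∧ t ∈ H0 (coef (j • M + (A + B))) := by
    intro i
    by_cases hi : s i = 0
    · exact ⟨0, by rw [hi, zero_div, map_zero], Submodule.zero_mem _⟩
    · obtain ⟨t, ht⟩ := h.rank j (s i) (hs i).1 hi fun x hx hgx => by
        have h1 := (mem_H0.1 (hs i).2) x hx hi
        have h2 := hA.coef_eq_zero hx hgx
        simp only [coef_add, coef_nsmul, h2, add_zero] at h1
        exact h1
      have ht0 : t ≠ 0 := by
        rintro rfl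
        rw [map_zero] at ht
        exact (div_ne_zero hi hσ) ht.symm
      exact ⟨t, ht, h.mem_of_section hAB hB hA j (hs i).2 ht0 ht⟩
  choose t ht htmem using ht
  refine ⟨n, c, t, htmem, ?_⟩
  apply φ.pull_injective
  apply mul_right_cancel₀ hσ
  rw [hsum, map_sum, Finset.sum_mul]
  refine Finset.sum_congr rfl fun i _ => ?_
  rw [map_mul, ht i, mul_assoc, div_mul_cancel₀ _ hσ]

theorem _root_.Vale.Agent.P299.Q.IsNef.isPsef {X : Var} {D : Div X.X} (h : IsNef D) : IsPsef D :=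
  fun A hA m => (h A hA m).exists_section

theorem _root_.Vale.Agent.P299.Q.IsPsef.add_nef {X : Var} {P N : Div X.X} (hP : IsPsef P)
    (hN : IsNef N) : IsPsef (P + N) := by
  intro A hA m
  have h := hP (m • N + A) (hN A hA m) m
  have e : m • (P + N) + A = m • P + (m • N + A) := by
    rw [smul_add, add_assoc]
  rw [e]
  exact h

theorem finrank_zero_of_subsingleton' {V : Type} [AddCommGroup V] [Module ℂ V]
    (h : Subsingleton V) : Module.finrank ℂ V = 0 :=
  Module.finrank_zero_of_subsingleton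

/-- Step (9): `M` is nef. -/
theorem isNef (hAB : FactorialStalks) (hKN : KollarNadelVanishingAt r)
    (hNC : NefCriterion) (hNP : NefPullback) (h : EData τ φ E L M M' m0 σ)
    {κ : Div X.X} (hκ : τ.IsCanonical κ) (hκi : τ.InvDiv κ) (hL : κ + L = E) (hLi : τ.InvDiv L)
    (hSP : ∀ n : ℕ, SemiPos ((n + 1) • L)) (hLnef : IsNef L) : IsNef M := by
  -- an ample generated divisor on `Y`
  obtain ⟨H, hH⟩ := Y.ample
  obtain ⟨C, _, hA1, hA2⟩ := hH.exists_add (hAB Y) 0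
  rw [zero_add] at hA1 hA2
  set A : Div Y.X := C • H with hAdef
  obtain ⟨A', hA'⟩ := exists_isPullback hAB φ A
  have hA'nef : IsNef A' := hNP X Y φ A A' hA' hA1.isNef
  obtain ⟨b, s, hs, hgen⟩ := exists_generators hA2
  obtain ⟨B, hB0, hB⟩ := h.exists_generation hAB (A := (b + 1) • A) (A' := (b + 1) • A')
    (hA'.nsmul (b + 1)) (fun j => castelnuovo_mumford hAB τ φ h.invHom
      (E + j • m0 • L + (b + 1) • A') hA' s hs hgen (fun k i hi hib => by
        obtain ⟨c, rfl⟩ := Nat.exists_eq_add_of_le hib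
        have e : E + j • m0 • L + (i + c + 1) • A' + k • A' - i • A' =
            κ + (j * m0 + 1) • L + (c + k + 1) • A' := by
          rw [← hL, add_smul (i + c) 1, add_smul i c, add_smul (c + k) 1, add_smul c k,
            add_smul (j * m0) 1, mul_smul, one_smul, one_smul]
          abel
        rw [e]
        refine hKN X Y τ φ h.invHom κ ((j * m0 + 1) • L)
          ((c + k + 1) • A) A ((c + k + 1) • A') A' hκ hκi
          (TAct.InvDiv.nsmul τ hLi _) (hSP _) (hA1.isNef.nsmul _) hA1 (hA'.nsmul _) hA'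
          ⟨1, one_pos, ?_⟩ i hi
        have e2 : 1 • ((j * m0 + 1) • L + (c + k + 1) • A') - A' =
            (j * m0 + 1) • L + (c + k) • A' := by
          rw [one_smul, add_smul (c + k) 1, one_smul]
          abel
        rw [e2]
        exact ((hLnef.nsmul _).add (hA'nef.nsmul _)).isPsef) hA1)
  exact hNC Y M ((b + 1) • A) B hB0 hB

/-- Step (11): if `h⁰(E)^T = 1` then some `E + j m₀ L`, `j ≥ 1`, has a nonzero section. -/
theorem exists_section (hAB : FactorialStalks) (hKN : KollarNadelVanishingAt r)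
    (hNC : NefCriterion) (hNP : NefPullback) (hSn : SnapperSemiAt r)
    (h : EData τ φ E L M M' m0 σ)
    {κ : Div X.X} (hκ : τ.IsCanonical κ) (hκi : τ.InvDiv κ) (hL : κ + L = E) (hLi : τ.InvDiv L)
    (hSP : ∀ n : ℕ, SemiPos ((n + 1) • L)) (hLnef : IsNef L)
    (hpsef : ∀ (A : Div Y.X) (A' : Div X.X), IsAmple A → IsPullback φ A A' →
      ∃ q : ℕ, 0 < q ∧ IsPsef (q • L - A'))
    (hE : Module.finrank ℂ (τ.inv ⊓ H0 (coef E) : Submodule ℂ X.K) = 1) :
    ∃ j : ℕ, 0 < j ∧ ∃ f ∈ τ.inv, f ≠ 0 ∧ f ∈ H0 (coef (E + j • m0 • L)) := by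
  have hMnef := h.isNef hAB hKN hNC hNP hκ hκi hL hLi hSP hLnef
  have hM'nef : IsNef M' := hNP X Y φ M M' h.isPullback hMnef
  obtain ⟨H, hH⟩ := Y.ample
  obtain ⟨H', hH'⟩ := exists_isPullback hAB φ H
  obtain ⟨q, hq, hqL⟩ := hpsef H H' hH hH'
  -- vanishing
  have hvan : ∀ j : ℕ, ∀ i > 0, τ.hY φ (E + j • M') i = 0 := by
    intro j i hi
    have e : E + j • M' = κ + L + j • M' := by rw [hL]
    rw [e]
    refine finrank_zero_of_subsingleton' (hKN X Y τ φ h.invHom κ L (j • M) H (j • M') H' hκ hκi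
      hLi (by simpa using hSP 0) (hMnef.nsmul j) hH (h.isPullback.nsmul j) hH' ⟨q, hq, ?_⟩ i hi)
    have e2 : q • (L + j • M') - H' = (q • L - H') + q • j • M' := by
      rw [smul_add]; abel
    rw [e2]
    exact hqL.add_nef ((hM'nef.nsmul j).nsmul q)
  obtain ⟨p, hp⟩ := hSn X Y τ φ h.invHom κ L M M' hκ hκi hLi (by simpa using hSP 0) hLnef.isPsef
    h.isPullback
  rw [hL] at hp
  have hp' : ∀ j : ℕ,
      (Module.finrank ℂ (τ.inv ⊓ H0 (coef (E + j • M')) : Submodule ℂ X.K) : ℚ) =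
        p.eval (j : ℚ) := by
    intro j
    rw [← hp j, Finset.sum_eq_single 0]
    · rw [pow_zero, one_mul]
      unfold TAct.hY
      rw [hh_zero]
    · intro i _ hi
      rw [hvan j i (Nat.pos_of_ne_zero hi)]
      simp
    · intro h0
      exact absurd (Finset.mem_range.2 (Nat.succ_pos _)) h0
  have hp0 : p.eval 0 = 1 := by
    have h0 := hp' 0
    rw [zero_smul, add_zero, hE] at h0
    simpa using h0.symm
  obtain ⟨j, hj1, hj⟩ := G2.exists_eval_ne_zero p (by rw [hp0]; exact one_ne_zero)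
  have hne : (τ.inv ⊓ H0 (coef (E + j • M')) : Submodule ℂ X.K) ≠ ⊥ := by
    intro hbot
    apply hj
    rw [← hp' j, hbot]
    simp
  obtain ⟨f, hf, hf0⟩ := Submodule.exists_mem_ne_zero_of_ne_bot hne
  refine ⟨j, hj1, f * σ ^ j, τ.mul_mem hf.1 (τ.pow_mem h.mem j),
    mul_ne_zero hf0 (pow_ne_zero j h.ne_zero), ?_⟩
  rw [mem_H0]
  intro x hx _
  rw [Scheme.ord_mul hf0 (pow_ne_zero j h.ne_zero), Q.ord_pow h.ne_zero]
  have h1 := (mem_H0.1 hf.2) x hx hf0
  have h2 : 0 ≤ (j : ℤ) * (Scheme.ord σ x + (m0 * coef L x - coef M' x)) :=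
    mul_nonneg (by positivity) (h.nonneg x hx)
  simp only [coef_add, coef_nsmul] at h1 ⊢
  linarith

end EData

end Main

end Vale.Agent.P299.Q
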