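import Vale.Agent.P299.Q.SemiPos
import Vale.Agent.P299.Q.StepE

/-!
# Step (7): the model, and the final theorem of the steps (6)–(11)
-/

open CategoryTheory TopologicalSpace Opposite TopCat AlgebraicGeometry Order

namespace Vale.Agent.P299.Q

open Vale.Agent.P299.G

theorem eq_genericPoint_of_coheight {X : Scheme.{0}} [IsIntegral X] {x : X}
    (hx : coheight x = 0) : x = genericPoint X := by
  rw [coheight_eq_zero] at hx
  have h1 : genericPoint X ⤳ x := genericPoint_specializes x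
  have h2 : x ≤ genericPoint X := h1
  have h3 : genericPoint X ≤ x := hx h2
  have h4 : x ⤳ genericPoint X := h3
  exact (h4.antisymm h1).eq

variable {r : ℕ} {X Y : Var}

/-- Step (7): the divisor `M` on the base. -/
theorem exists_M (hAB : FactorialStalks) (φ : DomHom X Y) (W : Set X.X)
    (hW : ∀ x ∈ W, coheight x = 1 ∧ coheight (φ.f x) ≤ 1)
    (hWs : ∀ y : Y.X, coheight y = 1 → ∃ x ∈ W, φ.f x = y) (s : Div X.X)
    (hhor : ∀ x ∈ W, φ.f x = genericPoint Y.X → 0 ≤ coef s x) :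
    ∃ c : ℕ, 0 < c ∧ ∃ M : Div Y.X, ∀ M' : Div X.X, IsPullback φ M M' →
      (∀ x ∈ W, coef M' x ≤ coef (c • s) x) ∧
      ∀ q : Y.X, coheight q = 1 → ∃ w : X.X, coheight w = 1 ∧ φ.f w = q ∧
        c * coef s w - coef M' w = 0 := by
  set rel : X.X → {q : Y.X // coheight q = 1} → ℤ → Prop := fun x q m =>
    coheight x = 1 ∧ φ.f x = q.1 ∧ 1 ≤ m ∧
      ∀ g : Y.K, g ≠ 0 → Scheme.ord (φ.pull g) x = m * Scheme.ord g q.1 with hrel
  have hunif : ∀ q : {q : Y.X // coheight q = 1}, ∃ g : Y.K, g ≠ 0 ∧ Scheme.ord g q.1 = 1 := by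
    intro q
    obtain ⟨t, ht0, ht⟩ := exists_uniformizer (fun y hy => Y.dvr y hy) q.2
    exact ⟨toK q.1 t, toK_ne_zero ht0, ht⟩
  obtain ⟨c, hc, R, hRf, hge, heq⟩ := G2.exists_min_base rel (fun x q m h => h.2.2.1)
    (fun x q q' m m' h h' => by
      have hqq : q = q' := Subtype.ext (h.2.1.symm.trans h'.2.1)
      subst hqq
      refine ⟨rfl, ?_⟩
      obtain ⟨g, hg0, hg⟩ := hunif q
      have h1 := h.2.2.2 g hg0
      have h2 := h'.2.2.2 g hg0
      rw [hg, mul_one] at h1 h2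
      rw [← h1, h2]) W
    (fun q => by
      obtain ⟨g, hg0, hg⟩ := hunif q
      refine (finite_ord_ne_zero (φ.pull g) (φ.pull_ne_zero hg0)).subset ?_
      rintro x ⟨_, m, hm⟩
      rw [Set.mem_ofPred_eq, hm.2.2.2 g hg0, hg, mul_one]
      have := hm.2.2.1
      omega)
    (fun q => by
      obtain ⟨x, hxW, hxq⟩ := hWs q.1 q.2
      have hq : coheight (φ.f x) = 1 := by rw [hxq]; exact q.2
      obtain ⟨m, hm, hm'⟩ := φ.exists_mult x (hW x hxW).1 hq
      exact ⟨x, hxW, m, (hW x hxW).1, hxq, hm, by rw [← hxq]; exact hm'⟩)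
    (coef s) ((finite_coef s).subset fun x hx => hx.2)
  set M : Div Y.X := Finsupp.ofSupportFinite R hRf with hM
  have hMR : ∀ q : {q : Y.X // coheight q = 1}, coef M q.1 = R q := fun q => coef_mk q.2
  refine ⟨c, hc, M, fun M' hM' => ⟨fun x hx => ?_, fun q hq => ?_⟩⟩
  · rw [coef_nsmul]
    obtain ⟨hx1, hx2⟩ := hW x hx
    by_cases hx0 : coheight (φ.f x) = 0
    · have hg := eq_genericPoint_of_coheight hx0
      rw [hM'.coef_eq_zero hx1 hg]
      exact mul_nonneg (by positivity) (hhor x hx hg)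
    · have hx3 : coheight (φ.f x) = 1 := le_antisymm hx2 (Order.one_le_iff_ne_zero.2 hx0)
      obtain ⟨m, hm, hm'⟩ := φ.exists_mult x hx1 hx3
      have h1 := hge x hx ⟨φ.f x, hx3⟩ m ⟨hx1, rfl, hm, hm'⟩
      rw [hM'.coef_eq_mult hAB hx1 hx3 hm', hMR ⟨φ.f x, hx3⟩]
      linarith
  · obtain ⟨x, hx, m, ⟨hx1, hxq, hm, hm'⟩, h⟩ := heq ⟨q, hq⟩
    simp only at hxq
    subst hxq
    refine ⟨x, hx1, rfl, ?_⟩
    rw [hM'.coef_eq_mult hAB hx1 hq hm', hMR ⟨φ.f x, hq⟩]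
    exact h

/-- The divisor of a rational function. -/
theorem exists_isDivOf {Z : Var} {g : Z.K} (hg : g ≠ 0) : ∃ D : Div Z.X, IsDivOf g D := by
  refine ⟨mkDiv (fun x => Scheme.ord g x) ((finite_ord_ne_zero g hg).subset fun x hx => hx.2),
    hg, fun y hy => ?_⟩
  rw [coef_mkDiv _ _ hy]

/-- **Steps (7)–(11).** From the field `k = K_Y`, the function `σ₀` and `m > 0` such that
`div σ₀ + m L` is supported on the null primes `V`, one gets an invariant section of a positive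
multiple of `L = -K_Z`. -/
theorem stepE (hAB : FactorialStalks) (hKN : KollarNadelVanishingAt r)
    (hNC : NefCriterion) (hNP : NefPullback) (hSn : SnapperSemiAt r) (hFM : FlatModelsAt r)
    (hSN : SemiPosNef)
    {Z : Var} (τ : TAct r Z) {κ : Div Z.X} (hκ : τ.IsCanonical κ) (hκi : τ.InvDiv κ)
    (hS : SemiPos (-κ)) (k : IntermediateField ℂ Z.K) (hk : ∀ f ∈ k, f ∈ τ.inv) (V : Set Z.X)
    (hkV : ∀ g ∈ k, g ≠ 0 → ∀ x ∉ V, coheight x = 1 → Scheme.ord g x = 0)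
    {σ₀ : Z.K} (hσi : σ₀ ∈ τ.inv) (hσ0 : σ₀ ≠ 0) {m : ℕ} (hm : 0 < m)
    (hrank : ∀ j : ℕ, ∀ f ∈ τ.inv, f ≠ 0 →
      (∀ x ∉ V, coheight x = 1 → 0 ≤ Scheme.ord f x + j * (m * coef (-κ) x)) → f / σ₀ ^ j ∈ k)
    (hhor : ∀ (Z' : Var) (μ : DomHom Z' Z), μ.Birational → ∀ L' : Div Z'.X,
      IsPullback μ (-κ) L' → ∀ x : Z'.X, coheight x = 1 →
      (∀ g ∈ k, g ≠ 0 → Scheme.ord (μ.pull g) x = 0) →
      0 ≤ Scheme.ord (μ.pull σ₀) x + m * coef L' x)
    (hpsef : ∀ (Y Z' : Var) (μ : DomHom Z' Z) (φ : DomHom Z' Y), μ.Birational →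
      (∀ g : Z.K, g ∈ k ↔ ∃ h : Y.K, φ.pull h = μ.pull g) →
      ∀ (A : Div Y.X) (A' L' : Div Z'.X), IsAmple A → IsPullback φ A A' →
      IsPullback μ (-κ) L' → ∃ q : ℕ, 0 < q ∧ IsPsef (q • L' - A')) :
    ∃ j : ℕ, 0 < j ∧ ∃ f ∈ τ.inv, f ≠ 0 ∧ f ∈ H0 (coef (j • -κ)) := by
  obtain ⟨Y, Z', τ', μ, φ, W, κ', κ₀, E, hμ, heq, hφ, hk', hW, hWs, star, hκ', hκ'i, hκ₀, hκE,
    hE0, hEx⟩ := hFM Z τ κ hκ hκi k hk
  set L' : Div Z'.X := -κ₀ with hL'def
  have hL' : IsPullback μ (-κ) L' := hκ₀.neg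
  have hL'i : τ'.InvDiv L' := TAct.InvDiv.pull τ hAB heq (TAct.InvDiv.neg τ hκi) hL'
  have hL'S : SemiPos L' := semiPos_pull hAB μ hL' hS
  have hL'nS : ∀ n : ℕ, SemiPos ((n + 1) • L') := fun n => semiPos_nsmul hAB hL'S (n + 1)
  -- functions of `Y` are functions of `k`
  have hYk : ∀ h : Y.K, ∃ g ∈ k, μ.pull g = φ.pull h := by
    intro h
    obtain ⟨g, hg⟩ := hμ.2 (φ.pull h)
    exact ⟨g, (hk' g).2 ⟨h, hg.symm⟩, hg⟩
  -- the divisor `s = div σ₀ + m L`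
  obtain ⟨D₀, hD₀⟩ := exists_isDivOf hσ0
  obtain ⟨D₀', hD₀'⟩ := exists_isPullback hAB μ D₀
  have hD₀d := hD₀'.isDivOf hAB hD₀
  set s : Div Z.X := D₀ + m • (-κ) with hs
  set s' : Div Z'.X := D₀' + m • L' with hs'
  have hss' : IsPullback μ s s' := hD₀'.add (hL'.nsmul m)
  have hs'c : ∀ x, coheight x = 1 → coef s' x = Scheme.ord (μ.pull σ₀) x + m * coef L' x := by
    intro x hx
    rw [hs', coef_add, coef_nsmul, hD₀d.2 x hx]
  obtain ⟨c, hc, M, hM⟩ := exists_M hAB φ W hW hWs s' (fun x hx hgx => by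
    have hx1 := (hW x hx).1
    rw [hs'c x hx1]
    refine hhor Z' μ hμ L' hL' x hx1 fun g hg hg0 => ?_
    obtain ⟨h, hh⟩ := (hk' g).1 hg
    rw [← hh]
    refine φ.ord_pull_of_generic x hgx ?_
    rintro rfl
    rw [map_zero] at hh
    exact μ.pull_ne_zero hg0 hh.symm)
  obtain ⟨M', hM'⟩ := exists_isPullback hAB φ M
  obtain ⟨hMW, hMq⟩ := hM M' hM'
  have hM's : M' ≤ c • s' := star (c • s) (c • s') M M' (hss'.nsmul c) hM' hMW
  have hσ0' : μ.pull σ₀ ≠ 0 := μ.pull_ne_zero hσ0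
  have hord : ∀ x, coheight x = 1 →
      Scheme.ord (μ.pull σ₀ ^ c) x + (((c * m : ℕ) : ℤ) * coef L' x - coef M' x) =
        c * coef s' x - coef M' x := by
    intro x hx
    rw [Q.ord_pow hσ0', hs'c x hx]
    push_cast
    ring
  -- strict transforms of the primes outside `V` are horizontal
  have hstrict : ∀ z : Z.X, coheight z = 1 → ∃ x : Z'.X, coheight x = 1 ∧ μ.f x = z ∧
      (∀ g : Z.K, Scheme.ord (μ.pull g) x = Scheme.ord g z) ∧ coef E x = 0 ∧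
      coef L' x = coef (-κ) z := by
    intro z hz
    obtain ⟨x, hx, hxz, ho⟩ := exists_strict μ hμ z hz
    subst hxz
    exact ⟨x, hx, rfl, ho, hEx x hz, hL'.coef_strict hx hz ho⟩
  have hED : EData τ' φ E L' M M' (c * m) (μ.pull σ₀ ^ c) := by
    refine ⟨Nat.mul_pos hc hm, hE0, hφ, hM', τ'.pow_mem ((mem_inv_pull τ heq _).2 hσi) c,
      pow_ne_zero c hσ0', fun x hx => ?_, fun q hq => ?_, fun j f hf hf0 hfx => ?_⟩
    · rw [hord x hx]
      have h1 := hM's ⟨x, hx⟩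
      have h2 : coef M' x ≤ coef (c • s') x := by
        rw [coef_mk hx, coef_mk hx]; exact h1
      rw [coef_nsmul] at h2
      linarith
    · obtain ⟨w, hw, hwq, h⟩ := hMq q hq
      exact ⟨w, hw, hwq, by rw [hord w hw]; exact h⟩
    · obtain ⟨f₀, rfl⟩ := hμ.2 f
      have hf₀i : f₀ ∈ τ.inv := (mem_inv_pull τ heq _).1 hf
      have hf₀0 : f₀ ≠ 0 := by
        rintro rfl
        exact hf0 (map_zero _)
      have h1 := hrank (j * c) f₀ hf₀i hf₀0 (fun z hz hz1 => by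
        obtain ⟨x, hx, hxz, ho, hE, hL⟩ := hstrict z hz1
        have hgen : φ.f x = genericPoint Y.X := by
          refine φ.generic_of_ord_eq_zero x hx fun h hh => ?_
          obtain ⟨g, hg, hgh⟩ := hYk h
          rw [← hgh, ho]
          refine hkV g hg ?_ z hz hz1
          rintro rfl
          rw [map_zero] at hgh
          exact φ.pull_ne_zero hh hgh.symm
        have h2 := hfx x hx hgen
        rw [hE, hL, ho] at h2
        push_cast at h2 ⊢
        linarith)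
      obtain ⟨h, hh⟩ := (hk' _).1 h1
      refine ⟨h, ?_⟩
      rw [hh, map_div₀, map_pow, mul_comm j c, pow_mul]
  -- `h⁰(E)^T = 1`
  have hfin : Module.finrank ℂ (τ'.inv ⊓ H0 (coef E) : Submodule ℂ Z'.K) = 1 := by
    have h1 : (τ'.inv ⊓ H0 (coef E) : Submodule ℂ Z'.K) = Submodule.span ℂ {(1 : Z'.K)} := by
      apply le_antisymm
      · rintro f ⟨-, hf⟩
        obtain ⟨f₀, rfl⟩ := hμ.2 f
        obtain ⟨a, ha⟩ := exists_constant_of_ord_nonneg Z (hAB Z) f₀ fun z hz => by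
          by_cases hf₀ : f₀ = 0
          · subst hf₀; simp
          obtain ⟨x, hx, hxz, ho, hE, hL⟩ := hstrict z hz
          have h2 := (mem_H0.1 hf) x hx (μ.pull_ne_zero hf₀)
          rwa [ho, hE, add_zero] at h2
        rw [Submodule.mem_span_singleton]
        exact ⟨a, by rw [← ha, μ.pull_constant, Algebra.algebraMap_eq_smul_one]⟩
      · rw [Submodule.span_singleton_le_iff_mem]
        refine ⟨fun t => map_one _, ?_⟩
        change (1 : Z'.K) ∈ H0 (coef E)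
        rw [mem_H0]
        intro x hx _
        rw [Q.ord_one, zero_add, coef_mk hx]
        exact hE0 ⟨x, hx⟩
    rw [h1]
    exact finrank_span_singleton one_ne_zero
  obtain ⟨j, hj, f, hfi, hf0, hf⟩ := hED.exists_section hAB hKN hNC hNP hSn hκ' hκ'i
    (by rw [hκE, hL'def]; abel) hL'i hL'nS (hSN _ _ hL'S)
    (fun A A' hA hA' => hpsef Y Z' μ φ hμ hk' A A' L' hA hA' hL') hfin
  obtain ⟨f₁, rfl⟩ := hμ.2 f
  refine ⟨j * (c * m), Nat.mul_pos hj (Nat.mul_pos hc hm), f₁, (mem_inv_pull τ heq _).1 hfi, ?_, ?_⟩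
  · rintro rfl
    exact hf0 (map_zero _)
  · rw [mem_H0]
    intro z hz _
    obtain ⟨x, hx, hxz, ho, hE, hL⟩ := hstrict z hz
    have h2 := (mem_H0.1 hf) x hx hf0
    rw [coef_add, coef_nsmul, coef_nsmul, ho, hE, hL, zero_add] at h2
    rw [coef_nsmul]
    push_cast at h2 ⊢
    linarith

end Vale.Agent.P299.Q
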