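import Vale.Agent.P299.Q.StepE

/-!
# The criterion for nefness follows from Nakayama's criterion
-/

open CategoryTheory TopologicalSpace Opposite TopCat AlgebraicGeometry Order

namespace Vale.Agent.P299.Q

open Vale.Agent.P299.G

theorem nefCriterion_of_nakayama (hAB : FactorialStalks) (hNak : NakayamaCriterion) :
    NefCriterion := by
  intro Y M A B _ hgen
  refine hNak Y M (A + B) fun Y' p _ G hG => ?_
  have hUFD := hAB Y (p.f G)
  obtain ⟨b, hb⟩ := exists_genAt B (p.f G)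
  refine ⟨- Scheme.ord (p.pull b) G, fun j => ?_⟩
  obtain ⟨g₀, hg₀⟩ := exists_genAt (j • M + A) (p.f G)
  obtain ⟨n, c, t, ht, hsum⟩ := hgen j (p.f G) g₀ hg₀
  have hv_add : ∀ {f g : Y.K}, f ≠ 0 → g ≠ 0 → f + g ≠ 0 →
      min (Scheme.ord (p.pull f) G) (Scheme.ord (p.pull g) G) ≤ Scheme.ord (p.pull (f + g)) G := by
    intro f g _ _ hfg
    have := Y'.dvr G hG
    rw [map_add]
    apply Scheme.ord_add
    rw [← map_add]
    exact p.pull_ne_zero hfg
  obtain ⟨i, -, hi0, hle⟩ := exists_term_ord_le (fun f : Y.K => Scheme.ord (p.pull f) G) hv_add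
    Finset.univ (fun i => algebraMap (Y.X.presheaf.stalk (p.f G)) Y.K (c i) * t i)
    (by rw [← hsum]; exact hg₀.1)
  have hci := left_ne_zero_of_mul hi0
  have hti := right_ne_zero_of_mul hi0
  rw [← hsum, map_mul, Scheme.ord_mul (p.pull_ne_zero hci) (p.pull_ne_zero hti)] at hle
  have hc0 := p.ord_pull_nonneg G (c i)
  refine ⟨t i, ht i, hti, fun D hD => ?_⟩
  have hgb : GenAt (j • M + (A + B)) (g₀ * b) (p.f G) := by
    have := hg₀.mul hb
    rwa [add_assoc] at this
  have h1 := hD.ord_pull hAB hG hgb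
  rw [map_mul, Scheme.ord_mul (p.pull_ne_zero hg₀.1) (p.pull_ne_zero hb.1)] at h1
  linarith

end Vale.Agent.P299.Q
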