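import Vale.Agent.P299.Q.StepD
import Vale.Agent.P299.G.Inter
import Vale.Agent.P299.G.Hor
import Vale.Agent.P299.G.Inst

/-!
# Step (B): numerical dimension and the field `K_Y`
-/

open CategoryTheory TopologicalSpace Opposite TopCat AlgebraicGeometry Order

namespace Vale.Agent.P299.Q

open G (mix Symm DivData)

/-! ### The field of invariants -/

/-- The field of the `T`-invariant rational functions. -/
noncomputable def TAct.field {r : ℕ} {X : Var} (τ : TAct r X) : IntermediateField ℂ X.K where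
  carrier := {f | ∀ t, (τ.act t).pull f = f}
  mul_mem' := fun {f g} hf hg t => by rw [map_mul, hf t, hg t]
  add_mem' := fun {f g} hf hg t => by rw [map_add, hf t, hg t]
  algebraMap_mem' := fun c t => (τ.act t).pull_constant c
  inv_mem' := fun f hf t => by rw [map_inv₀, hf t]

lemma TAct.mem_field {r : ℕ} {X : Var} (τ : TAct r X) {f : X.K} :
    f ∈ τ.field ↔ f ∈ τ.inv := Iff.rfl

/-! ### Intersection numbers -/

lemma cast_zero_eq {n m : ℕ} (hm : n = m + 1) (i : Fin n) :
    Fin.cast hm i = 0 ↔ i = Fin.cast hm.symm 0 := by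
  constructor
  · intro h
    rw [← h]
    ext
    simp
  · rintro rfl
    ext
    simp

lemma form_cons_update (hInt : IntersectionTheory) {X : Var} {m : ℕ} (hm : X.dim = m + 1)
    (D H : Div X.X) :
    form hInt hm (Fin.cons D (fun _ => H)) =
      inter (Function.update (fun _ => H) (Fin.cast hm.symm 0) D) := by
  rw [form_apply]
  congr 1
  funext i
  by_cases hi : i = Fin.cast hm.symm 0
  · subst hi
    simp
  · rw [Function.update_of_ne hi]
    have h1 : Fin.cast hm i ≠ 0 := fun h => hi ((cast_zero_eq hm i).1 h)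
    obtain ⟨j, hj⟩ := Fin.exists_succ_eq.2 h1
    rw [← hj, Fin.cons_succ]

/-- The degree `D ↦ D · v` is additive. -/
lemma form_cons_eq (hInt : IntersectionTheory) {X : Var} {m : ℕ} (hm : X.dim = m + 1)
    (v : Fin m → Div X.X) (D : Div X.X) :
    ((form hInt hm (Fin.cons D v) : ℤ) : ℝ) =
      ∑ᶠ x : {x : X.X // coheight x = 1}, (D x : ℝ) *
        (form hInt hm (Fin.cons (pd x.1 x.2) v) : ℤ) := by
  rw [form_cons_sum hInt hm, finsum_eq_sum_of_support_subset (s := D.support)]
  · push_cast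
    rfl
  · intro x hx
    rw [Finset.mem_coe, Finsupp.mem_support_iff]
    intro h0
    apply hx
    simp [h0]

/-! ### The divisorial data of a variety -/

/-- The restriction of divisorial data to a subfield. -/
noncomputable def restrictData {k K : Type*} [Field k] [Field K] [Algebra k K] {P : Type*}
    (D : DivData k K P) (F : IntermediateField k K) : DivData k F P where
  v x := (D.v x).comap (algebraMap F K)
  v_const x c hc := by
    rw [Valuation.comap_apply, ← IsScalarTower.algebraMap_apply]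
    exact D.v_const x c hc
  supp_finite f hf := D.supp_finite _ (by simpa using hf)
  delta := D.delta
  delta_nonneg := D.delta_nonneg
  sum_delta f hf := D.sum_delta _ (by simpa using hf)

lemma restrictData_ord {k K : Type*} [Field k] [Field K] [Algebra k K] {P : Type*}
    (D : DivData k K P) (F : IntermediateField k K) (x : P) (f : F) :
    (restrictData D F).ord x f = D.ord x (f : K) := rfl

/-- The divisorial data of a variety with the degree `x ↦ x · v`. -/
lemma exists_data (hInt : IntersectionTheory) {X : Var} {m : ℕ} (hm : X.dim = m + 1)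
    (v : Fin m → Div X.X) (hv : ∀ i, IsNef (v i)) :
    ∃ D : DivData ℂ X.K {x : X.X // coheight x = 1},
      (∀ x f, f ≠ 0 → D.ord x f = Scheme.ord f x.1) ∧
      ∀ x, D.delta x = (form hInt hm (Fin.cons (pd x.1 x.2) v) : ℤ) := by
  refine ⟨G.ofScheme X.X ℂ (constants X.X) (fun c => algebraMap_eq X.X c) (fun x hx => X.dvr x hx)
    (fun x => ((form hInt hm (Fin.cons (pd x.1 x.2) v) : ℤ) : ℝ)) (fun x => ?_)
    (fun f hf => ?_), fun x f hf => G.ofScheme_ord _ _ _ _ _ _ _ _ x hf, fun x => rfl⟩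
  · have : 0 ≤ form hInt hm (Fin.cons (pd x.1 x.2) v) := by
      refine form_effective hInt hm _ 0 ?_ ?_
      · rw [Fin.cons_zero]
        exact pd_nonneg x.2
      · intro j hj
        obtain ⟨i, rfl⟩ := Fin.exists_succ_eq.2 hj
        rw [Fin.cons_succ]
        exact hv i
    exact_mod_cast this
  · obtain ⟨E, hE⟩ := exists_isDivOf hf
    have h1 := form_cons_eq hInt hm v E
    have h2 : form hInt hm (Fin.cons E v) = 0 :=
      form_principal hInt hm _ 0 (g := f) (by rw [Fin.cons_zero]; exact hE)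
    rw [h2] at h1
    have h3 : ∀ x : {x : X.X // coheight x = 1}, E x = Scheme.ord f x.1 := by
      intro x
      rw [← coef_val, hE.2 x.1 x.2]
    simp only [h3] at h1
    rw [← h1]
    simp

/-- The null primes of the degree `x ↦ x · v`. -/
def nullPrimes (hInt : IntersectionTheory) {X : Var} {m : ℕ} (hm : X.dim = m + 1)
    (v : Fin m → Div X.X) : Set X.X :=
  {x | ∃ hx : coheight x = 1, form hInt hm (Fin.cons (pd x hx) v) = 0}

/-- **Step (B)**: the numerical dimension, the field `K_Y`, the function `s₀` and the sign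
argument. -/
theorem stepB (hFS : FactorialStalks) (hInt : IntersectionTheory) {r : ℕ}
    {Z : Var} (τ : TAct r Z) {L P : Div Z.X} (hL : IsNef L)
    (hbig : ¬ 0 < inter (fun _ : Fin Z.dim => L))
    (hP : ∀ H, IsAmple H → ∀ i : Fin Z.dim, inter (Function.update (fun _ => H) i P) ≤ 0)
    (hgood : ∀ M₀ : ℕ, ∃ M ≥ M₀, ∃ f ∈ τ.inv, f ≠ 0 ∧ f ∈ H0 (coef (P + M • L))) :
    ∃ (m ν : ℕ) (hm : Z.dim = m + 1) (H : Div Z.X) (k : IntermediateField ℂ Z.K) (s₀ : Z.K)
      (M : ℕ), IsAmple H ∧ ν ≤ m ∧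
      0 < form hInt hm (mix L H ν) ∧
      (∀ j, ν < j → j ≤ m + 1 → form hInt hm (mix L H j) = 0) ∧
      (∀ f ∈ k, f ∈ τ.inv) ∧ s₀ ∈ τ.inv ∧ s₀ ≠ 0 ∧ 0 < M ∧
      (∀ g ∈ k, g ≠ 0 → ∀ x ∉ nullPrimes hInt hm (mix L H ν), coheight x = 1 →
        Scheme.ord g x = 0) ∧
      (∀ j : ℕ, ∀ f ∈ τ.inv, f ≠ 0 → (∀ x ∉ nullPrimes hInt hm (mix L H ν), coheight x = 1 →
        0 ≤ Scheme.ord f x + j * (M * coef L x)) → f / s₀ ^ j ∈ k) ∧
      (∀ (Z' : Var) (μ : DomHom Z' Z) (L' : Div Z'.X), IsPullback μ L L' → ∀ x : Z'.X,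
        coheight x = 1 → (∀ g ∈ k, g ≠ 0 → Scheme.ord (μ.pull g) x = 0) →
        0 ≤ Scheme.ord (μ.pull s₀) x + M * coef L' x) := by
  obtain ⟨H, hH⟩ := Z.ample
  -- the dimension is positive
  obtain ⟨m, hm⟩ : ∃ m, Z.dim = m + 1 := by
    rcases Nat.eq_zero_or_pos Z.dim with h0 | h0
    · exfalso
      apply hbig
      have h1 : (fun _ : Fin Z.dim => L) = fun _ => H := by
        funext i
        exact absurd i.2 (by omega)
      rw [h1]
      exact hInt.2.2.2.2.1 Z H hH
    · exact ⟨Z.dim - 1, by omega⟩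
  have hsymm := form_symm hInt hm
  have hHn : IsNef H := hH.isNef
  have hmixnef : ∀ j i, IsNef ((mix L H j : Fin (m + 1) → Div Z.X) i) := by
    intro j i
    unfold G.mix
    split_ifs
    · exact hL
    · exact hHn
  have hmixnef' : ∀ j i, IsNef ((mix L H j : Fin m → Div Z.X) i) := by
    intro j i
    unfold G.mix
    split_ifs
    · exact hL
    · exact hHn
  obtain ⟨ν, hν1, hνpos, hνz⟩ := G.exists_nu (I := form hInt hm) (L := L) (H := H)
    (fun j _ => form_nef hInt hm _ (hmixnef j)) (by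
      have : (mix L H 0 : Fin (m + 1) → Div Z.X) = fun _ => H := by
        funext i
        simp [G.mix]
      rw [this]
      exact form_ample hInt hm hH)
  have hν : ν ≤ m := by
    by_contra hcon
    have hν2 : ν = m + 1 := by omega
    apply hbig
    have h1 : (mix L H ν : Fin (m + 1) → Div Z.X) = fun _ => L := by
      funext i
      unfold G.mix
      rw [if_pos (by omega)]
    rw [h1, form_apply] at hνpos
    exact hνpos
  obtain ⟨D, hD, hDδ⟩ := exists_data hInt hm (mix L H ν) (hmixnef' ν)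
  let F := τ.field
  let DF := restrictData D F
  have hDF : ∀ x (f : F), f ≠ 0 → DF.ord x f = Scheme.ord (f : Z.K) x.1 := by
    intro x f hf
    exact hD x _ (by simpa using hf)
  have hdeg : ∀ N : Div Z.X, DF.deg (fun x => N x) = (form hInt hm (Fin.cons N (mix L H ν)) : ℤ) := by
    intro N
    rw [form_cons_eq]
    unfold G.DivData.deg
    refine finsum_congr fun x => ?_
    change (N x : ℝ) * D.delta x = _
    rw [hDδ]
  have hVmem : ∀ (x : Z.X) (hx : coheight x = 1), x ∉ nullPrimes hInt hm (mix L H ν) →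
      (⟨x, hx⟩ : {x : Z.X // coheight x = 1}) ∉ DF.V := by
    intro x hx hxV hcon
    apply hxV
    refine ⟨hx, ?_⟩
    have h1 : D.delta ⟨x, hx⟩ = 0 := hcon
    rw [hDδ] at h1
    exact_mod_cast h1
  have hVmem' : ∀ x : {x : Z.X // coheight x = 1}, x ∉ DF.V →
      x.1 ∉ nullPrimes hInt hm (mix L H ν) := by
    rintro ⟨x, hx⟩ hxV ⟨hx', h0⟩
    apply hxV
    change D.delta ⟨x, hx⟩ = 0
    rw [hDδ, h0]
    simp
  have hPf : {x : {x : Z.X // coheight x = 1} | P x ≠ 0}.Finite := P.hasFiniteSupport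
  have hLf : {x : {x : Z.X // coheight x = 1} | L x ≠ 0}.Finite := L.hasFiniteSupport
  have hPdeg : DF.deg (fun x => P x) ≤ 0 := by
    rw [hdeg]
    have h1 : form hInt hm (Fin.cons P (mix L H ν)) ≤ 0 := by
      refine G.delta_nonpos hsymm hL hHn (fun v hv => form_nef hInt hm v hv)
        (exists_dom hFS hH) hνz hν fun t => ?_
      rw [form_cons_update]
      refine hP _ ?_ _
      have := hL H hH t
      rwa [natCast_zsmul, add_comm]
    exact_mod_cast h1
  have hLdeg : DF.deg (fun x => L x) = 0 := by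
    rw [hdeg, G.delta_self hνz hν]
    simp
  -- good sections
  have hgd : ∀ (M : ℕ) (f : Z.K) (hf : f ∈ τ.inv), f ≠ 0 → f ∈ H0 (coef (P + M • L)) →
      DF.Good (fun x => P x) (fun x => L x) M (⟨f, hf⟩ : F) := by
    intro M f hf hf0 hfs
    have hne : (⟨f, hf⟩ : F) ≠ 0 := by
      intro h0
      exact hf0 (congrArg Subtype.val h0)
    refine ⟨hne, fun x => ?_⟩
    rw [hDF x _ hne]
    have h1 := (mem_H0.1 hfs) x.1 x.2 hf0
    rw [coef_add, coef_nsmul, coef_val, coef_val] at h1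
    exact h1
  have hinf : ∀ n : ℕ, ∃ M ≥ n, ∃ e, DF.Good (fun x => P x) (fun x => L x) M e := by
    intro n
    obtain ⟨M, hM, f, hf, hf0, hfs⟩ := hgood n
    exact ⟨M, hM, ⟨f, hf⟩, hgd M f hf hf0 hfs⟩
  obtain ⟨M₁, -, e₁, h₁⟩ := hinf 0
  obtain ⟨M₂, hM₂, e₂, h₂⟩ := hinf (M₁ + 1)
  obtain ⟨M, rfl⟩ := Nat.exists_eq_add_of_le (show M₁ ≤ M₂ by omega)
  have hM : 0 < M := by omega
  have hs0 : e₂ / e₁ ≠ 0 := div_ne_zero h₂.1 h₁.1
  have hs0K : ((e₂ / e₁ : F) : Z.K) ≠ 0 := by simpa using hs0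
  have hs0V : ∀ x ∉ DF.V, DF.ord x (e₂ / e₁) + M * L x = 0 := fun x hx =>
    G.DivData.Good.div DF hPf hLf hPdeg hLdeg.le rfl h₁ h₂ x hx
  refine ⟨m, ν, hm, H, IntermediateField.lift DF.KY, ((e₂ / e₁ : F) : Z.K), M, hH,
    hν, hνpos, hνz, ?_, (e₂ / e₁ : F).2, hs0K, hM, ?_, ?_, ?_⟩
  · intro f hf
    obtain ⟨g, -, rfl⟩ := hf
    exact g.2
  · intro g hg hg0 x hxV hx
    obtain ⟨g', hg', rfl⟩ := hg
    have hg'0 : g' ≠ 0 := by
      rintro rfl
      exact hg0 (map_zero _)
    have h1 := (DF.mem_KY_iff_ord hg'0).1 hg' ⟨x, hx⟩ (hVmem x hx hxV)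
    rw [hDF _ _ hg'0] at h1
    exact h1
  · intro j f hf hf0 hfs
    let f' : F := ⟨f, hf⟩
    have hf'0 : f' ≠ 0 := by
      intro h0
      exact hf0 (congrArg Subtype.val h0)
    have hq0 : f' / (e₂ / e₁) ^ j ≠ 0 := div_ne_zero hf'0 (pow_ne_zero _ hs0)
    refine ⟨f' / (e₂ / e₁) ^ j, ?_, rfl⟩
    change f' / (e₂ / e₁) ^ j ∈ DF.KY
    rw [DF.mem_KY]
    intro x hxV
    refine (DF.ord_nonneg_iff x hq0).1 ?_
    rw [DF.ord_div x hf'0 (pow_ne_zero _ hs0), DF.ord_pow, hDF x _ hf'0]
    have h1 := hfs x.1 (hVmem' x hxV) x.2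
    have h2 := hs0V x hxV
    rw [coef_val] at h1
    have h3 : DF.ord x (e₂ / e₁) = -(M * L x) := by linarith
    rw [h3]
    linarith
  · intro Z' μ L' hL' x hx hk
    obtain ⟨P', hP'⟩ := exists_isPullback hFS μ P
    refine DF.hor_nonneg hPf hLf hPdeg hLdeg (fun f => Scheme.ord (μ.pull (f : Z.K)) x) ?_ ?_
      (coef P' x) (coef L' x) ?_ hinf h₁ h₂
    · intro f g hf hg
      change Scheme.ord (μ.pull ((f : Z.K) * (g : Z.K))) x = _
      rw [map_mul, Scheme.ord_mul (μ.pull_ne_zero (by simpa using hf))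
        (μ.pull_ne_zero (by simpa using hg))]
    · intro f hf hf0
      exact hk _ ⟨f, hf, rfl⟩ (by simpa using hf0)
    · intro M e he
      have he0 : (e : Z.K) ≠ 0 := by simpa using he.1
      have h1 : (e : Z.K) ∈ H0 (coef (P + M • L)) := by
        rw [mem_H0]
        intro y hy _
        have h2 := he.2 ⟨y, hy⟩
        rw [hDF _ _ he.1] at h2
        rw [coef_add, coef_nsmul, coef_mk hy, coef_mk hy]
        exact h2
      have h2 := ((hP'.add (hL'.nsmul M)).pull_mem_H0 hFS h1)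
      have h3 := (mem_H0.1 h2) x hx (μ.pull_ne_zero he0)
      rw [coef_add, coef_nsmul] at h3
      exact h3

end Vale.Agent.P299.Q
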