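import Vale.Agent.P299.Q.StepA
import Vale.Agent.P299.Q.StepB
import Vale.Agent.P299.Q.StepDet
import Vale.Agent.P299.Q.PullPos
import Vale.Agent.P299.Q.Model
import Vale.Agent.P299.Q.NefNak

/-!
# The core of the proof: sections of `-mK_Z` from the index theorem
-/

open CategoryTheory TopologicalSpace Opposite TopCat AlgebraicGeometry Order

namespace Vale.Agent.P299.Q

/-- The case of a big anticanonical divisor: Kawamata–Viehweg vanishing. -/
theorem section_of_big' {r : ℕ} {X : Var} (τ : TAct r X) {κ : Div X.X}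
    (hKV : ∀ k : ℕ, 0 < k → ∀ i > 0, τ.h (κ + k • (-κ)) i = 0)
    (hcoh : ∀ M₀ : ℕ, ∃ k ≥ M₀, ∃ i, τ.h (k • (-κ)) i ≠ 0) :
    ∃ k : ℕ, 0 < k ∧ ∃ f ∈ τ.inv, f ≠ 0 ∧ f ∈ H0 (coef (k • (-κ))) := by
  obtain ⟨k, hk, i, hi⟩ := hcoh 1
  rcases Nat.eq_zero_or_pos i with rfl | hi0
  · obtain ⟨f, hf, hf0, hfs⟩ := exists_section_of_hh_ne_zero _ _ _ hi
    exact ⟨k, hk, f, hf, hf0, hfs⟩
  · refine absurd ?_ hi
    have heq : κ + (k + 1) • (-κ) = k • (-κ) := by
      rw [add_smul, one_smul]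
      abel
    have := hKV (k + 1) (by omega) i hi0
    rwa [heq] at this

/-- The case of a big anticanonical divisor: Kawamata–Viehweg vanishing. -/
theorem section_of_big {r : ℕ} (hKV : KawamataViehwegAt r) {X : Var} (τ : TAct r X) {κ : Div X.X}
    (hκ : τ.IsCanonical κ) (hκi : τ.InvDiv κ) (hnef : ∀ m : ℕ, IsNef (m • (-κ)))
    (hbig : ∀ m : ℕ, 0 < m → 0 < inter (fun _ : Fin X.dim => m • (-κ)))
    (hcoh : ∀ M₀ : ℕ, ∃ k ≥ M₀, ∃ i, τ.h (k • (-κ)) i ≠ 0) :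
    ∃ k : ℕ, 0 < k ∧ ∃ f ∈ τ.inv, f ≠ 0 ∧ f ∈ H0 (coef (k • (-κ))) :=
  section_of_big' τ (fun k hk i hi => hKV X τ κ (k • (-κ)) hκ hκi
    (τ.invDiv_nsmul (τ.invDiv_neg hκi) _) (hnef _) (hbig _ hk) i hi) hcoh

/-- Homogeneity of the self-intersection number. -/
lemma inter_nsmul (hInt : IntersectionTheory) {X : Var} (L : Div X.X) (m : ℕ) :
    inter (fun _ : Fin X.dim => m • L) = (m : ℤ) ^ X.dim * inter (fun _ : Fin X.dim => L) := by
  obtain ⟨I, hI⟩ := hInt.1 X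
  rw [← hI, ← hI]
  have h1 : (fun _ : Fin X.dim => m • L) = fun _ : Fin X.dim => (m : ℤ) • L := by
    funext _
    rw [natCast_zsmul]
  have h2 := I.map_smul_univ (fun _ : Fin X.dim => (m : ℤ)) (fun _ => L)
  rw [h1, h2]
  simp

/-- The trivial action of the trivial torus. -/
noncomputable def TAct.trivial (X : Var) : TAct 0 X where
  act _ := DomHom.id X
  act_one := rfl
  act_mul _ _ := (Category.comp_id _).symm
  algebraic := ⟨Limits.pullback.snd _ _, fun _ _ _ h => h⟩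

lemma TAct.trivial_isCanonical {r : ℕ} {X : Var} {τ : TAct r X} {κ : Div X.X}
    (h : τ.IsCanonical κ) : (TAct.trivial X).IsCanonical κ := by
  obtain ⟨ω, hω, halt, -, hdiv⟩ := h
  refine ⟨ω, hω, halt, fun t v v' hv => ?_, hdiv⟩
  have h1 : v' = v := by
    funext i
    ext f
    have h2 := hv i f
    have h3 : ∀ g : X.K, ((TAct.trivial X).act t).pull g = g := fun g => DomHom.pull_id g
    rw [h3, h3] at h2
    exact h2
  rw [h1]
  exact (DomHom.pull_id _).symm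

/-- **The core theorem**: if `-kK_Z` has nonzero invariant cohomology for arbitrarily large `k`,
then some positive multiple of `-K_Z` has an invariant section. -/
theorem core_of_coh' {r : ℕ} (hFS : FactorialStalks) (hInt : IntersectionTheory)
    (hSiu : SiuCriterion) (hLef : HardLefschetzAt r) (hSPN : SemiPosNef)
    (hGN : GenericNefness) (hKN : KollarNadelVanishingAt r)
    (hNak : NakayamaCriterion) (hSn : SnapperTheoremAt r) (hFM : FlatModelsAt r)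
    {Z : Var} (τ : TAct r Z) {κ : Div Z.X} (hκ : τ.IsCanonical κ)
    (hκi : τ.InvDiv κ) (hSP : SemiPos (-κ))
    (hKV : 0 < inter (fun _ : Fin Z.dim => -κ) →
      ∀ k : ℕ, 0 < k → ∀ i > 0, τ.h (κ + k • (-κ)) i = 0)
    (hcoh : ∀ M₀ : ℕ, ∃ k ≥ M₀, ∃ i, τ.h (k • (-κ)) i ≠ 0) :
    ∃ m : ℕ, 0 < m ∧ ∃ f ∈ τ.inv, f ≠ 0 ∧ f ∈ H0 (coef (m • -κ)) := by
  have hnef : IsNef (-κ) := hSPN Z _ hSP
  by_cases hbig : 0 < inter (fun _ : Fin Z.dim => -κ)
  · -- the case of a big anticanonical divisor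
    exact section_of_big' τ (hKV hbig) hcoh
  rcases stepA_forms τ hLef hκ hκi (fun m => semiPos_nsmul hFS hSP (m + 1)) hcoh with
    h | ⟨q, i, hqi, hi, hforms⟩
  · exact h
  -- the determinant trick
  obtain ⟨N', ω, P, hω0, hωinv, hωdiv, hωtw, hgood⟩ := stepDet τ (-κ) q fun M₀ => by
    obtain ⟨M, hM, e, he0, -, heinv, hetw⟩ := hforms M₀
    exact ⟨M, hM, e, he0, heinv, hetw⟩
  -- the numerical part
  have hP : ∀ H, IsAmple H → ∀ i : Fin Z.dim, inter (Function.update (fun _ => H) i P) ≤ 0 := by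
    intro H hH i
    exact hGN Z (TAct.trivial Z) κ (TAct.trivial_isCanonical hκ) hnef N' ω P H hω0 hωtw hH i
  obtain ⟨m, ν, hm, H, k, s₀, M, hH, hν, hνpos, hνz, hkinv, hs₀, hs₀0, hM, hkV, hrank, hhor⟩ :=
    stepB hFS hInt τ hnef hbig hP hgood
  refine stepE hFS hKN (nefCriterion_of_nakayama hFS hNak) (nefPullback hFS) hSn.semi hFM hSPN τ hκ hκi hSP k hkinv
    (nullPrimes hInt hm (G.mix (-κ) H ν)) hkV hs₀ hs₀0 hM hrank
    (fun Z' μ _ L' hL' x hx hk => hhor Z' μ L' hL' x hx hk) ?_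
  intro Y Z' μ φ hμ hkφ A A' L' hA hA' hL'
  obtain ⟨H₁, hH₁⟩ := exists_isPullback hFS μ H
  refine stepD hFS (nefPullback hFS) hInt hm hμ hnef hH hL' hH₁ hSiu hν hνpos hνz
    (k := (k : Set Z.K)) (V := nullPrimes hInt hm (G.mix (-κ) H ν))
    (fun g hg hg0 x hx hx1 => hkV g hg hg0 x hx hx1) (fun x hx hx1 => by
      obtain ⟨_, h⟩ := hx
      exact h) φ (fun h => ?_) hA hA'
  obtain ⟨g, hg⟩ := hμ.2 (φ.pull h)
  exact ⟨g, (hkφ g).2 ⟨h, hg.symm⟩, hg.symm⟩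

/-- **The core theorem**: if `-kK_Z` has nonzero invariant cohomology for arbitrarily large `k`,
then some positive multiple of `-K_Z` has an invariant section. -/
theorem core_of_coh {r : ℕ} (hFS : FactorialStalks) (hInt : IntersectionTheory)
    (hSiu : SiuCriterion) (hLef : HardLefschetzAt r) (hKV : KawamataViehwegAt r) (hSPN : SemiPosNef)
    (hGN : GenericNefness) (hKN : KollarNadelVanishingAt r)
    (hNak : NakayamaCriterion) (hSn : SnapperTheoremAt r) (hFM : FlatModelsAt r)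
    {Z : Var} (τ : TAct r Z) {κ : Div Z.X} (hκ : τ.IsCanonical κ)
    (hκi : τ.InvDiv κ) (hSP : SemiPos (-κ))
    (hcoh : ∀ M₀ : ℕ, ∃ k ≥ M₀, ∃ i, τ.h (k • (-κ)) i ≠ 0) :
    ∃ m : ℕ, 0 < m ∧ ∃ f ∈ τ.inv, f ≠ 0 ∧ f ∈ H0 (coef (m • -κ)) :=
  core_of_coh' hFS hInt hSiu hLef hSPN hGN hKN hNak hSn hFM τ hκ hκi hSP
    (fun hbig k hk i hi => hKV Z τ κ (k • (-κ)) hκ hκi (τ.invDiv_nsmul (τ.invDiv_neg hκi) _)
      ((hSPN Z _ hSP).nsmul k) (by
        rw [inter_nsmul hInt]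
        have : (0 : ℤ) < k := by exact_mod_cast hk
        positivity) i hi) hcoh

/-- The same with the hypothesis given by the index theorem. -/
theorem core {r : ℕ} (hFS : FactorialStalks) (hInt : IntersectionTheory)
    (hSiu : SiuCriterion) (hLef : HardLefschetzAt r) (hKV : KawamataViehwegAt r) (hSPN : SemiPosNef)
    (hGN : GenericNefness) (hKN : KollarNadelVanishingAt r)
    (hNak : NakayamaCriterion) (hSn : SnapperTheoremAt r) (hFM : FlatModelsAt r)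
    {Z : Var} (τ : TAct r Z) {κ : Div Z.X} (hκ : τ.IsCanonical κ)
    (hκi : τ.InvDiv κ) (hSP : SemiPos (-κ)) {N : ℕ} (hN : 0 < N) {p : Polynomial ℚ}
    (hp0 : p.eval 0 ≠ 0)
    (hp : ∀ k : ℕ, ∑ i ∈ Finset.range (Z.dim + 1),
      (-1 : ℚ) ^ i * τ.h (k • (N • (-κ))) i = p.eval (k : ℚ)) :
    ∃ m : ℕ, 0 < m ∧ ∃ f ∈ τ.inv, f ≠ 0 ∧ f ∈ H0 (coef (m • -κ)) :=
  core_of_coh hFS hInt hSiu hLef hKV hSPN hGN hKN hNak hSn hFM τ hκ hκi hSP
    (coh_of_index (fun k i => τ.h (k • (-κ)) i) hN hp0 fun k => by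
      rw [← hp k]
      exact Finset.sum_congr rfl fun i _ => by rw [mul_smul])

end Vale.Agent.P299.Q
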