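import Mathlib.RingTheory.Smooth.Field
import Mathlib.RingTheory.Derivation.Basic
import Mathlib.Algebra.TrivSqZeroExt.Basic
import Vale.Agent.P299.Q.Jacob

/-!
# Extension of derivations to arbitrary dominating varieties
-/

open CategoryTheory TopologicalSpace Opposite TopCat AlgebraicGeometry Order

namespace Vale.Agent.P299.Q

section Algebra

variable {k K L : Type*} [Field k] [Field K] [Field L] [Algebra k K] [Algebra k L] [Algebra K L]
  [IsScalarTower k K L]

/-- The ring homomorphism `a ↦ a + D(a) ε`. -/
noncomputable def dualMap (D : Derivation k K K) : K →+* TrivSqZeroExt L L where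
  toFun a := TrivSqZeroExt.inl (algebraMap K L a) + TrivSqZeroExt.inr (algebraMap K L (D a))
  map_one' := by
    rw [D.map_one_eq_zero, map_zero, map_one, TrivSqZeroExt.inr_zero, add_zero,
      TrivSqZeroExt.inl_one]
  map_zero' := by simp
  map_mul' a b := by
    ext
    · simp
    · simp [Derivation.leibniz]
      ring
  map_add' a b := by
    ext
    · simp
    · simp

/-- Derivations extend to formally smooth extensions. -/
theorem exists_der_lift [Algebra.FormallySmooth K L] (D : Derivation k K K) :
    ∃ D' : Derivation k L L, ∀ a, D' (algebraMap K L a) = algebraMap K L (D a) := by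
  let _ : Algebra K (TrivSqZeroExt L L) := (dualMap (L := L) D).toAlgebra
  let g : TrivSqZeroExt L L →ₐ[K] L :=
    { toRingHom := (TrivSqZeroExt.fstHom L L L).toRingHom
      commutes' := fun a => by
        change (TrivSqZeroExt.inl (algebraMap K L a) +
          TrivSqZeroExt.inr (algebraMap K L (D a))).fst = _
        simp }
  have hg : Function.Surjective g := fun l => ⟨TrivSqZeroExt.inl l, rfl⟩
  have hker : IsNilpotent (RingHom.ker (g : TrivSqZeroExt L L →+* L)) := by
    have h1 : ∀ I : Ideal (TrivSqZeroExt L L), (∀ r ∈ I, r.fst = 0) → I ^ 2 = ⊥ := by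
      intro I hI
      rw [pow_two, eq_bot_iff, Ideal.mul_le]
      intro r hr s hs
      have hr' := hI r hr
      have hs' := hI s hs
      rw [Ideal.mem_bot]
      ext
      · simp [hr']
      · simp [hr', hs']
    exact ⟨2, h1 _ fun r hr => hr⟩
  let f := Algebra.FormallySmooth.liftOfSurjective (AlgHom.id K L) g hg hker
  have hf : ∀ l : L, (f l).fst = l := fun l =>
    Algebra.FormallySmooth.liftOfSurjective_apply (AlgHom.id K L) g hg hker l
  have hfa : ∀ a : K, (f (algebraMap K L a)).snd = algebraMap K L (D a) := by
    intro a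
    rw [AlgHom.commutes]
    change (TrivSqZeroExt.inl (algebraMap K L a) +
      TrivSqZeroExt.inr (algebraMap K L (D a)) : TrivSqZeroExt L L).snd = _
    simp
  have hmul : ∀ l m : L, (f (l * m)).snd = l * (f m).snd + m * (f l).snd := by
    intro l m
    rw [map_mul, TrivSqZeroExt.snd_mul, hf, hf]
    simp [mul_comm]
  refine ⟨Derivation.mk'
    { toFun := fun l => (f l).snd
      map_add' := fun l m => by rw [map_add, TrivSqZeroExt.snd_add]
      map_smul' := fun c l => by
        have h1 : c • l = algebraMap K L (algebraMap k K c) * l := by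
          rw [Algebra.smul_def, IsScalarTower.algebraMap_apply k K L]
        rw [h1, hmul, hfa, D.map_algebraMap, map_zero, mul_zero, add_zero,
          ← IsScalarTower.algebraMap_apply, RingHom.id_apply, Algebra.smul_def] }
    (fun l m => by
      change (f (l * m)).snd = _
      rw [hmul]
      rfl), fun a => hfa a⟩

end Algebra

variable {X Y : Var}

/-- Rational vector fields of `Y` lift to `X`. -/
theorem DomHom.exists_lift (φ : DomHom X Y) (D : Y.Der) :
    ∃ D' : X.Der, ∀ a, D' (φ.pull a) = φ.pull (D a) := by
  let _ := φ.pull.toAlgebra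
  have h2 : IsScalarTower ℂ Y.K X.K :=
    IsScalarTower.of_algebraMap_eq fun c => (φ.pull_constant c).symm
  have hchar : CharZero Y.K := charZero_of_injective_algebraMap (algebraMap ℂ Y.K).injective
  have h0 := essFiniteType X
  have h1 : Algebra.EssFiniteType Y.K X.K := Algebra.EssFiniteType.of_comp ℂ Y.K X.K
  have h3 : Algebra.FormallySmooth Y.K X.K := inferInstance
  exact exists_der_lift D

/-- The restriction of a vector field of `X` to the functions of `Y`, in terms of a frame. -/
theorem DomHom.der_pull (φ : DomHom X Y) {n : ℕ} {s : Fin n → Y.K} {u : Fin n → Y.Der}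
    (h2 : ∀ v : Y.Der, v = ∑ i, v (s i) • u i) (v : X.Der) (a : Y.K) :
    v (φ.pull a) = ∑ j, v (φ.pull (s j)) * φ.pull (u j a) := by
  let _ := φ.pull.toAlgebra
  have ht : IsScalarTower ℂ Y.K X.K :=
    IsScalarTower.of_algebraMap_eq fun c => (φ.pull_constant c).symm
  rw [← sub_eq_zero]
  refine (Module.forall_dual_apply_eq_zero_iff Y.K _).1 fun l => ?_
  let D : Y.Der := l.compDer (v.compAlgebraMap Y.K)
  have hD : ∀ b, D b = l (v (φ.pull b)) := fun b => rfl
  have h3 := congrArg (fun E : Y.Der => E a) (h2 D)
  simp only [sum_smul_apply, hD] at h3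
  rw [map_sub, map_sum, h3, sub_eq_zero]
  refine Finset.sum_congr rfl fun j _ => ?_
  have h4 : v (φ.pull (s j)) * φ.pull (u j a) = (u j a) • v (φ.pull (s j)) := by
    rw [mul_comm]
    rfl
  rw [h4, map_smul, smul_eq_mul, mul_comm]

end Vale.Agent.P299.Q
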