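import Vale.Agent.P299.Q.Canon

/-!
# Invariance of the relative canonical divisor
-/

open CategoryTheory TopologicalSpace Opposite TopCat AlgebraicGeometry Order

namespace Vale.Agent.P299.Q

section

variable {r : ℕ} {X Y : Var}

/-- The transport of an invariant top form under an equivariant birational morphism. -/
theorem TAct.InvTensor.upTop {τ' : TAct r X} {τ : TAct r Y} {μ : DomHom X Y}
    (hμ : μ.Birational) (heq : ∀ t, (τ'.act t).f ≫ μ.f = μ.f ≫ (τ.act t).f)
    {ω : Y.Ten Y.dim} (hω : τ.InvTensor ω) : τ'.InvTensor (hμ.upTop ω) := by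
  intro t v v' h
  have h1 := hω t (fun k => hμ.down (v (Fin.cast hμ.dim_eq.symm k)))
    (fun k => hμ.down (v' (Fin.cast hμ.dim_eq.symm k))) fun k f => by
      rw [hμ.down_apply, hμ.down_apply, hμ.equiv_apply, hμ.equiv_apply,
        ← pull_comm τ (heq t), h, RingEquiv.symm_apply_eq, hμ.equiv_apply,
        ← pull_comm τ (heq t), ← hμ.equiv_apply (hμ.equiv.symm _),
        RingEquiv.apply_symm_apply]
  rw [hμ.upTop_apply, h1, hμ.upTop_apply, hμ.equiv_apply, hμ.equiv_apply, pull_comm τ (heq t)]

/-- The divisor of an invariant tensor is invariant. -/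
theorem TAct.InvTensor.invDiv {τ : TAct r X} {N : ℕ} {e : X.Ten N} (he : τ.InvTensor e)
    {D : Div X.X} (hD : IsDivTensor e D) : τ.InvDiv D := by
  have key : ∀ (t : Fin r → ℂˣ) (x : X.X), coheight x = 1 →
      coef D x ≤ coef D ((τ.act t).f x) := by
    intro t x hx
    have hy : coheight ((τ.act t).f x) = 1 := by rw [τ.coheight_act, hx]
    obtain ⟨v, hv, hv0, hv1⟩ := (hD _ hy).1
    have hb := τ.act_birational t
    have hbij := stalkMap_bijective_of_birational (τ.act t) hb x hy
    have hup : ∀ i, RegDer x (hb.up (v i)) := by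
      intro i
      rw [regDer_iff_locRing]
      rintro _ ⟨b, rfl⟩
      obtain ⟨a, ha⟩ := hbij.2 b
      have h4 := (τ.act t).pull_stalk x a
      have h5 : hb.equiv.symm (algebraMap (X.X.presheaf.stalk x) X.K b) =
          algebraMap (X.X.presheaf.stalk ((τ.act t).f x)) X.K a := by
        rw [RingEquiv.symm_apply_eq, hb.equiv_apply, h4]
        exact congrArg _ ha.symm
      rw [hb.up_apply, h5]
      exact pull_mem_locRing (τ.act t) (regDer_iff_locRing.1 (hv i) _ ⟨a, rfl⟩)
    have h1 : e (fun i => hb.up (v i)) = (τ.act t).pull (e v) :=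
      he t v _ fun i f => by
        rw [hb.up_apply, hb.equiv_apply, ← hb.equiv_apply f, RingEquiv.symm_apply_apply]
    rw [← hv1, ← τ.ord_act, ← h1]
    exact (hD x hx).2 ⟨_, hup, by rw [h1]; exact (τ.act t).pull_ne_zero hv0, rfl⟩
  intro t x
  by_cases hx : coheight x = 1
  · refine le_antisymm ?_ (key t x hx)
    have h1 := key t⁻¹ ((τ.act t).f x) (by rw [τ.coheight_act, hx])
    rwa [τ.act_inv_act] at h1
  · have hx' : coheight ((τ.act t).f x) ≠ 1 := by rwa [τ.coheight_act]
    rw [coef_of_ne hx, coef_of_ne hx']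

end

end Vale.Agent.P299.Q
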