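import Vale.Agent.P299.Q.EqfHor
import Vale.Agent.P299.Q.TorCanon

/-!
# Rational quotients by a torus: the horizontal and the vertical prime divisors
-/

open CategoryTheory TopologicalSpace Opposite TopCat AlgebraicGeometry Order

namespace Vale.Agent.P299.Q

open Vale.Agent.P299.G

theorem ne_generic_of_coheight {X : Var} {y : X.X} (hy : coheight y = 1) :
    y ≠ genericPoint X.X := by
  rintro rfl
  have h : IsMax (genericPoint X.X) := fun z _ => genericPoint_specializes z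
  rw [Order.coheight_eq_zero.2 h] at hy
  exact absurd hy (by norm_num)

section

variable {r : ℕ} {Z X Y : Var} (τ : TAct r Z) {μ : DomHom X Z} (hμ : μ.Birational)
  {φ : DomHom X Y} (hk : ∀ g : Z.K, g ∈ τ.inv ↔ ∃ h : Y.K, φ.pull h = μ.pull g)
  {s : ℕ} {t : Fin s → Z.K} {w : Fin s → Fin r → ℤ} (hc : τ.ratAct.Coords s t w)
  (hmono : ∀ v f, f ≠ 0 → τ.ratAct.Semi v f → ∃ (c : Z.K) (a : Fin s → ℤ),
    (∀ σ, τ.ratAct.ρ σ c = c) ∧ c ≠ 0 ∧ f = c * ∏ i, t i ^ a i)

/-- The monomial valuation attached to a prime divisor. -/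
theorem exists_mono_at {x : X.X} (hx : coheight x = 1) (h : TransCoord φ fun i => μ.pull (t i)) :
    ∃ W : IVal X.K, ∀ p : MvPolynomial (Fin s) Y.K, p ≠ 0 →
      W.v (MvPolynomial.eval₂ φ.pull (fun i => μ.pull (t i)) p) =
        mw φ.pull (fun i => μ.pull (t i)) (ordVal hx) p :=
  exists_monomial_val (ordVal hx) h.inj (fun f => by
    obtain ⟨p, q, hq, hpq⟩ := h.hsurj' f
    exact ⟨p, q, hq, hpq⟩) h.ne

/-- The logarithmic frame is logarithmic for the monomial valuation. -/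
theorem logfr_ge (h : TransCoord φ fun i => μ.pull (t i)) {x : X.X} (hx : coheight x = 1)
    {W : IVal X.K} (hW : ∀ p : MvPolynomial (Fin s) Y.K, p ≠ 0 →
      W.v (MvPolynomial.eval₂ φ.pull (fun i => μ.pull (t i)) p) =
        mw φ.pull (fun i => μ.pull (t i)) (ordVal hx) p) {n : ℕ} {δ : Fin n → Y.Der}
    (hδ : ∀ l a, a ≠ 0 → og x (Scheme.ord (φ.pull a) x) (φ.pull (δ l a))) (j : Fin (s + n))
    (k : ℤ) (f : X.K) (hf : W.ge k f) : W.ge k (h.logfr δ j f) := by
  have hsurj : ∀ f : X.K, ∃ p q : MvPolynomial (Fin s) Y.K,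
      MvPolynomial.eval₂ φ.pull (fun i => μ.pull (t i)) q ≠ 0 ∧
      f = MvPolynomial.eval₂ φ.pull (fun i => μ.pull (t i)) p /
        MvPolynomial.eval₂ φ.pull (fun i => μ.pull (t i)) q := fun f => by
    obtain ⟨p, q, hq, hpq⟩ := h.hsurj' f
    exact ⟨p, q, hq, hpq⟩
  have hV0 : ∀ c : ℂ, (ordVal hx).ge 0 (algebraMap ℂ X.K c) := fun c =>
    ordVal_ge hx (const_mem_locRing x c)
  refine Fin.addCases (fun i => ?_) (fun l => ?_) j
  · simp only [TransCoord.logfr, Fin.append_left]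
    exact mono_log hsurj h.ne hW hV0 (δ := fun a => (0 : Y.Der) a) (fun c => φ.pull_scalar c)
      (h.L_pull i) (h.L_t' i) (fun a _ => by
        rw [Derivation.zero_apply, map_zero]
        exact (ordVal hx).ge_zero _) k f hf
  · simp only [TransCoord.logfr, Fin.append_right]
    exact mono_log hsurj h.ne hW hV0 (δ := fun a => δ l a) (fun c => φ.pull_scalar c)
      (h.lift_pull (δ l)) (c := 0) (fun i => by
        rw [h.lift_t, Pi.zero_apply, map_zero, zero_mul]) (fun a ha => hδ l a ha) k f hf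

include hk hc hmono in
/-- The horizontal prime divisors along which the coordinates are units. -/
theorem ord_semi_eq_zero {x : X.X} (hgx : φ.f x = genericPoint Y.X)
    (ht : ∀ i, Scheme.ord (μ.pull (t i)) x = 0) {v : Fin r → ℤ} {f : Z.K} (hf0 : f ≠ 0)
    (hf : τ.ratAct.Semi v f) (hx : coheight x = 1) : Scheme.ord (μ.pull f) x = 0 := by
  obtain ⟨g, a, hg0, h⟩ := semi_eq_mono τ hk hmono hf0 hf
  have h1 : ∀ i ∈ Finset.univ, μ.pull (t i) ^ a i ≠ 0 := fun i _ =>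
    zpow_ne_zero _ (μ.pull_ne_zero (hc.ne i))
  rw [h, Scheme.ord_mul (φ.pull_ne_zero hg0) (Finset.prod_ne_zero_iff.2 h1),
    φ.ord_pull_of_generic x hgx hg0, zero_add]
  have h2 := v_prod (V := ordVal hx) Finset.univ (fun i => μ.pull (t i) ^ a i) h1
  change Scheme.ord (∏ i, μ.pull (t i) ^ a i) x = ∑ i, Scheme.ord (μ.pull (t i) ^ a i) x at h2
  rw [h2]
  refine Finset.sum_eq_zero fun i _ => ?_
  have h3 := v_zpow (V := ordVal hx) (μ.pull_ne_zero (hc.ne i)) (a i)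
  change Scheme.ord (μ.pull (t i) ^ a i) x = a i * Scheme.ord (μ.pull (t i)) x at h3
  rw [h3, ht, mul_zero]

variable {ω : Z.Ten Z.dim} (hω0 : ω ≠ 0) (hω : IsAlt ω) {κ : Div Z.X} (hdiv : IsDivTensor ω κ)
  {κ₀ : Div X.X} (hκ₀ : IsPullback μ κ κ₀) (hκi : τ.InvDiv κ)
  (h : TransCoord φ fun i => μ.pull (t i)) {η : Y.Ten Y.dim} (hη0 : η ≠ 0) (hηa : IsAlt η)
  (hη : ∀ δ : Fin Y.dim → Y.Der, topVal h.dim_eq (hμ.upTop ω) (h.logfr δ) = φ.pull (η δ))

/-- The values of `ω` on the projected logarithmic frame. -/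
theorem topVal_down {N : ℕ} (hN : X.dim = N) (hN' : Z.dim = N) (D : Fin N → X.Der) :
    μ.pull (topVal hN' ω fun j => hμ.down (D j)) = topVal hN (hμ.upTop ω) D := by
  unfold topVal
  rw [hμ.upTop_apply, hμ.equiv_apply]
  rfl

include hk hc hmono hω0 hω hdiv hκ₀ hκi hη0 hηa hη in
/-- **The horizontal prime divisors.** -/
theorem horizontal {H : Div Z.X} {H' : Div X.X} (hH : τ.InvDiv H) (hH' : IsPullback μ H H')
    {x : X.X} (hx : coheight x = 1) (hgx : φ.f x = genericPoint Y.X) :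
    0 ≤ coef (-κ₀) x ∧ (coef H' x ≠ 0 → 1 ≤ coef (-κ₀) x) := by
  have hκn : τ.InvDiv (-κ) := TAct.InvDiv.neg τ hκi
  obtain ⟨v, f, hf, hfx⟩ := τ.exists_semi_gen hκn (μ.f x)
  have hκf := hκ₀.neg.ord_pull factorialStalks hx hfx
  by_cases ht : ∀ i, Scheme.ord (μ.pull (t i)) x = 0
  · -- the coordinates are units
    have h1 := ord_semi_eq_zero τ hk hc hmono hgx ht hfx.1 hf hx
    refine ⟨by linarith, fun hne => ?_⟩
    obtain ⟨v', g, hg, hgx'⟩ := τ.exists_semi_gen hH (μ.f x)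
    have h2 := hH'.ord_pull factorialStalks hx hgx'
    have h3 := ord_semi_eq_zero τ hk hc hmono hgx ht hgx'.1 hg hx
    exact absurd (by linarith) hne
  · suffices h1 : 1 ≤ coef (-κ₀) x from ⟨by linarith, fun _ => h1⟩
    push Not at ht
    obtain ⟨i₀, hi₀⟩ := ht
    obtain ⟨W, hW⟩ := exists_mono_at hx h
    have hWc : ∀ c : ℂ, W.ge 0 (algebraMap ℂ X.K c) := by
      intro c hc0
      have h1 : algebraMap ℂ Y.K c ≠ 0 := by
        intro h0
        rw [← φ.pull_scalar, h0, map_zero] at hc0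
        exact hc0 rfl
      have h2 := mono_base hW h1
      rw [φ.pull_scalar] at h2
      rw [h2]
      exact ordVal_ge hx (const_mem_locRing x c) hc0
    have hV : ∀ g ∈ locRing Z (μ.f x), (ordVal hx).ge 0 (μ.pull g) := fun g hg =>
      ordVal_ge hx (pull_mem_locRing μ hg)
    obtain ⟨z, hz⟩ := exists_isCenter Z (W.comap μ.pull).ring fun c => by
      rw [IVal.mem_ring, IVal.comap_ge, μ.pull_scalar]
      exact hWc c
    have hzg : z ≠ genericPoint Z.X := by
      rintro rfl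
      have h1 : ∀ g : Z.K, (W.comap μ.pull).ge 0 g := fun g => hz.ge (by
        refine mem_locRing_of_ord fun _ y hy hyz => ?_
        exact absurd (hyz.antisymm (genericPoint_specializes y)).eq
          (ne_generic_of_coheight hy))
      have h2 := IVal.comap_ge.1 (h1 (t i₀)) (μ.pull_ne_zero (hc.ne i₀))
      have h3 := IVal.comap_ge.1 (h1 (t i₀)⁻¹) (μ.pull_ne_zero (inv_ne_zero (hc.ne i₀)))
      rw [map_inv₀, IVal.v_inv _ (μ.pull_ne_zero (hc.ne i₀))] at h3
      have h4 := mono_coord hW i₀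
      change W.v (μ.pull (t i₀)) = Scheme.ord (μ.pull (t i₀)) x at h4
      apply hi₀
      rw [← h4]
      omega
    have hzx : z ⤳ μ.f x := by
      have h1 := hz.specializes (φ := DomHom.id Z) (y := μ.f x) fun a => by
        rw [DomHom.pull_id, IVal.mem_ring, IVal.comap_ge]
        exact mono_ge_Z τ hk hc hmono hW hV ⟨a, rfl⟩
      exact h1
    have hN' : Z.dim = s + Y.dim := hμ.dim_eq.symm.trans h.dim_eq
    obtain ⟨u, D, huD⟩ := exists_fr hN' z
    obtain ⟨uY, vY, huv⟩ := exists_fr (X := Y) rfl (genericPoint Y.X)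
    have h0 : η vY ≠ 0 := value_frame_ne_zero hη0 hηa huv.dual huv.expand
    have hfz := hfx.of_specializes hzx
    have hgen := huD.genAt hN' hω0 hω hdiv
    have hlog := log_order hN' hz hzg hω huD (g := f⁻¹) (mem_locRing_of_ord fun _ y hy hyz => by
        have h1 := hgen.2 y hy hyz
        have h2 := hfz.2 y hy hyz
        change 0 ≤ Scheme.ord (f⁻¹ * topVal hN' ω D) y
        change Scheme.ord (topVal hN' ω D) y + coef (-κ) y = 0 at h1
        have h3 : topVal hN' ω D ≠ 0 := hgen.1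
        rw [Scheme.ord_mul (inv_ne_zero hfx.1) h3, Q.ord_inv hfx.1]
        linarith) (D := fun j => hμ.down (h.logfr vY j)) fun j k g hg => by
      rw [IVal.comap_ge] at hg ⊢
      have h1 : μ.pull (hμ.down (h.logfr vY j) g) = h.logfr vY j (μ.pull g) := by
        rw [hμ.down_apply]
        exact hμ.equiv.apply_symm_apply _
      rw [h1]
      refine logfr_ge h hx hW (fun l a ha hne => ?_) j k _ hg
      have ha' : vY l a ≠ 0 := fun h0 => hne (by rw [h0, map_zero])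
      rw [φ.ord_pull_of_generic x hgx ha, φ.ord_pull_of_generic x hgx ha']
    rw [IVal.comap_ge, map_mul, map_inv₀, topVal_down hμ h.dim_eq hN', hη] at hlog
    have hf0 := μ.pull_ne_zero hfx.1
    have hη0' := φ.pull_ne_zero h0
    have h1 := hlog (mul_ne_zero (inv_ne_zero hf0) hη0')
    rw [W.map_mul _ _ (inv_ne_zero hf0) hη0', IVal.v_inv _ hf0, mono_base hW h0,
      semi_val τ hk hc hmono hW hfx.1 hf, ordVal_v, ordVal_v,
      φ.ord_pull_of_generic x hgx h0] at h1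
    linarith

include hk hc hmono hω0 hω hκ₀ hκi hη0 hηa hη in
/-- **The prime divisors over the prime divisors of `Y`.** -/
theorem vertical {κ' : Div X.X} (hκ' : IsDivTensor (hμ.upTop ω) κ') {κY : Div Y.X}
    (hκY : IsDivTensor η κY) {x : X.X} (hx : coheight x = 1) (hy : coheight (φ.f x) = 1) {e : ℤ}
    (he : 1 ≤ e) (hmult : ∀ g : Y.K, g ≠ 0 → Scheme.ord (φ.pull g) x = e * Scheme.ord g (φ.f x))
    (n : ℕ) {B : Div Y.X} {B' : Div X.X} (hB : IsPullback φ B B') {f : Y.K} (hf : f ≠ 0)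
    (hreg : ∀ x' : X.X, coheight x' = 1 → φ.f x' ⤳ φ.f x →
      0 ≤ Scheme.ord (φ.pull f) x' + coef (κ' + n • -κ₀ + B') x') :
    1 ≤ e * (Scheme.ord f (φ.f x) + coef B (φ.f x) + coef κY (φ.f x) + 1) +
      n * coef (-κ₀) x := by
  have hκn : τ.InvDiv (-κ) := TAct.InvDiv.neg τ hκi
  obtain ⟨v, l, hl, hlx⟩ := τ.exists_semi_gen hκn (μ.f x)
  have hκl := hκ₀.neg.ord_pull factorialStalks hx hlx
  have hUFD := factorialStalks Y (φ.f x)
  obtain ⟨b, hb⟩ := exists_genAt B (φ.f x)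
  obtain ⟨W, hW⟩ := exists_mono_at hx h
  have hWφ : ∀ c : Y.K, c ≠ 0 → W.v (φ.pull c) = e * Scheme.ord c (φ.f x) := fun c hc0 => by
    rw [mono_base hW hc0, ordVal_v, hmult c hc0]
  have hWc : ∀ c : ℂ, W.ge 0 (algebraMap ℂ X.K c) := by
    intro c hc0
    have h1 : algebraMap ℂ Y.K c ≠ 0 := by
      intro h0
      rw [← φ.pull_scalar, h0, map_zero] at hc0
      exact hc0 rfl
    have h2 := mono_base hW h1
    rw [φ.pull_scalar] at h2
    rw [h2]
    exact ordVal_ge hx (const_mem_locRing x c) hc0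
  have hV : ∀ g ∈ locRing Z (μ.f x), (ordVal hx).ge 0 (μ.pull g) := fun g hg =>
    ordVal_ge hx (pull_mem_locRing μ hg)
  obtain ⟨z, hz⟩ := exists_isCenter X W.ring hWc
  have hzμ : μ.f z ⤳ μ.f x := hz.specializes (φ := μ) fun a => by
    rw [IVal.mem_ring]
    exact mono_ge_Z τ hk hc hmono hW hV ⟨a, rfl⟩
  have hzφ : φ.f z ⤳ φ.f x := hz.specializes (φ := φ) fun a => by
    rw [IVal.mem_ring]
    intro hne
    have h1 : toK (φ.f x) a ≠ 0 := (map_ne_zero φ.pull).1 hne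
    rw [mono_base hW h1]
    exact ordVal_ge hx (pull_mem_locRing φ ⟨a, rfl⟩) hne
  have hzg : z ≠ genericPoint X.X := by
    rintro rfl
    have h1 : ∀ g : X.K, W.ge 0 g := fun g => hz.ge (by
      refine mem_locRing_of_ord fun _ y hy hyz => ?_
      exact absurd (hyz.antisymm (genericPoint_specializes y)).eq
        (ne_generic_of_coheight hy))
    obtain ⟨p, hp0, hp⟩ := exists_unif hy
    have h2 := h1 (φ.pull p⁻¹) (φ.pull_ne_zero (inv_ne_zero hp0))
    rw [hWφ _ (inv_ne_zero hp0), Q.ord_inv hp0, hp] at h2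
    linarith
  obtain ⟨u, D, huD⟩ := exists_fr h.dim_eq z
  obtain ⟨δ, hδ, hδ0, hδ1⟩ := exists_log rfl hη0 hηa hκY hy
  have h0 : η δ ≠ 0 := hδ0
  have hgen := huD.genAt h.dim_eq (hμ.upTop_ne_zero hω0) (hμ.upTop_isAlt hω) hκ'
  have hl0 := μ.pull_ne_zero hlx.1
  have hb0 := φ.pull_ne_zero hb.1
  have hf0 := φ.pull_ne_zero hf
  have hden : μ.pull l ^ n * φ.pull b ≠ 0 := mul_ne_zero (pow_ne_zero _ hl0) hb0
  have hlog := log_order h.dim_eq hz hzg (hμ.upTop_isAlt hω) huD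
    (g := φ.pull f * (μ.pull l ^ n * φ.pull b)⁻¹)
    (mem_locRing_of_ord fun _ y hy hyz => by
      have h1 := hgen.2 y hy hyz
      change Scheme.ord (topVal h.dim_eq (hμ.upTop ω) D) y + coef (-κ') y = 0 at h1
      have h3 : topVal h.dim_eq (hμ.upTop ω) D ≠ 0 := hgen.1
      have h4 := hκ₀.neg.ord_pull factorialStalks hy
        (hlx.of_specializes ((hyz.map μ.f.continuous).trans hzμ))
      have h5 := hB.ord_pull factorialStalks hy
        (hb.of_specializes ((hyz.map φ.f.continuous).trans hzφ))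
      have h6 := hreg y hy ((hyz.map φ.f.continuous).trans hzφ)
      rw [coef_add, coef_add, coef_nsmul] at h6
      rw [coef_neg] at h1
      rw [Scheme.ord_mul (mul_ne_zero hf0 (inv_ne_zero hden)) h3,
        Scheme.ord_mul hf0 (inv_ne_zero hden), Q.ord_inv hden,
        Scheme.ord_mul (pow_ne_zero _ hl0) hb0, Q.ord_pow hl0, h4, h5]
      nlinarith)
    (D := h.logfr δ) fun j k g hg => by
      refine logfr_ge h hx hW (fun l a ha hne => ?_) j k g hg
      have ha' : δ l a ≠ 0 := fun h0 => hne (by rw [h0, map_zero])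
      rw [hmult _ ha, hmult _ ha']
      have h3 := hδ l _ a (og_self a) ha'
      nlinarith
  rw [hη] at hlog
  have hη0' := φ.pull_ne_zero h0
  have h1 := hlog (mul_ne_zero (mul_ne_zero hf0 (inv_ne_zero hden)) hη0')
  have h2 : W.v (μ.pull l) = -coef (-κ₀) x := by
    rw [semi_val τ hk hc hmono hW hlx.1 hl, ordVal_v, hκl]
  have h3 : W.v (μ.pull l ^ n) = n * W.v (μ.pull l) := by
    have := v_zpow (V := W) hl0 (n : ℤ)
    rwa [zpow_natCast] at this
  have h4 : Scheme.ord b (φ.f x) = -coef B (φ.f x) := by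
    have := hb.2 (φ.f x) hy specializes_rfl
    linarith
  have h5 : Scheme.ord (η δ) (φ.f x) = coef κY (φ.f x) + 1 := hδ1
  rw [W.map_mul _ _ (mul_ne_zero hf0 (inv_ne_zero hden)) hη0',
    W.map_mul _ _ hf0 (inv_ne_zero hden), IVal.v_inv _ hden,
    W.map_mul _ _ (pow_ne_zero _ hl0) hb0, h3, h2, hWφ f hf, hWφ b hb.1, hWφ _ h0, h4, h5] at h1
  linarith

end

/-- **The data of the rational quotient by a torus.** -/
theorem exists_eqf_data {r : ℕ} {Z X Y : Var} (τ : TAct r Z) {μ : DomHom X Z}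
    (hμ : μ.Birational) {φ : DomHom X Y}
    (hk : ∀ g : Z.K, g ∈ τ.inv ↔ ∃ h : Y.K, φ.pull h = μ.pull g)
    {ω : Z.Ten Z.dim} (hω0 : ω ≠ 0) (hω : IsAlt ω) (hT : τ.InvTensor ω) {κ : Div Z.X}
    (hdiv : IsDivTensor ω κ) {κ' κ₀ : Div X.X} (hκ' : IsDivTensor (hμ.upTop ω) κ')
    (hκ₀ : IsPullback μ κ κ₀) :
    ∃ (s : ℕ) (t : Fin s → X.K) (h : TransCoord φ t) (η : Y.Ten Y.dim), η ≠ 0 ∧ IsAlt η ∧
      (∀ δ : Fin Y.dim → Y.Der, topVal h.dim_eq (hμ.upTop ω) (h.logfr δ) = φ.pull (η δ)) ∧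
      (∀ (H : Div Z.X) (H' : Div X.X), τ.InvDiv H → IsPullback μ H H' → ∀ x : X.X,
        coheight x = 1 → φ.f x = genericPoint Y.X →
        0 ≤ coef (-κ₀) x ∧ (coef H' x ≠ 0 → 1 ≤ coef (-κ₀) x)) ∧
      ∀ κY : Div Y.X, IsDivTensor η κY → ∀ x : X.X, coheight x = 1 → coheight (φ.f x) = 1 →
        ∀ e : ℤ, 1 ≤ e →
        (∀ g : Y.K, g ≠ 0 → Scheme.ord (φ.pull g) x = e * Scheme.ord g (φ.f x)) →
        ∀ (n : ℕ) (B : Div Y.X) (B' : Div X.X), IsPullback φ B B' → ∀ f : Y.K, f ≠ 0 →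
        (∀ x' : X.X, coheight x' = 1 → φ.f x' ⤳ φ.f x →
          0 ≤ Scheme.ord (φ.pull f) x' + coef (κ' + n • -κ₀ + B') x') →
        1 ≤ e * (Scheme.ord f (φ.f x) + coef B (φ.f x) + coef κY (φ.f x) + 1) +
          n * coef (-κ₀) x := by
  obtain ⟨s, t, w, hc, hmono⟩ := τ.ratAct.exists_coords_mono
  have h := transCoord τ hμ hk hc
  have hκi : τ.InvDiv κ := TAct.InvTensor.invDiv hT hdiv
  obtain ⟨η, hη0, hηa, hη⟩ := exists_base_form' τ hμ hk hc hω0 hω hT
  exact ⟨s, fun i => μ.pull (t i), h, η, hη0, hηa, hη,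
    fun H H' hH hH' x hx hgx => horizontal τ hμ hk hc hmono hω0 hω hdiv hκ₀ hκi h hη0 hηa hη
      hH hH' hx hgx,
    fun κY hκY x hx hy e he hmult n B B' hB f hf hreg => vertical τ hμ hk hc hmono hω0 hω hκ₀
      hκi h hη0 hηa hη hκ' hκY hx hy he hmult n hB hf hreg⟩

end Vale.Agent.P299.Q
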