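import Mathlib.Algebra.MvPolynomial.Eval
import Mathlib.Algebra.MvPolynomial.CommRing
import Mathlib.Data.Finsupp.Lex
import Mathlib.RingTheory.Derivation.Basic
import Mathlib.RingTheory.Valuation.ValuationSubring
import Mathlib.Data.Complex.Basic

/-!
# Monomial valuations
-/

open MvPolynomial

namespace Vale.Agent.P299.Q

/-- An integer valued valuation of the field `K`. -/
structure IVal (K : Type) [Field K] where
  /-- the values (the value of `0` is irrelevant) -/
  v : K → ℤ
  map_mul : ∀ f g, f ≠ 0 → g ≠ 0 → v (f * g) = v f + v g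
  map_add : ∀ f g, f ≠ 0 → g ≠ 0 → f + g ≠ 0 → min (v f) (v g) ≤ v (f + g)

namespace IVal

variable {K : Type} [Field K] (V : IVal K)

/-- `f` has value at least `k`. -/
def ge (k : ℤ) (f : K) : Prop := f ≠ 0 → k ≤ V.v f

theorem ge_zero (k : ℤ) : V.ge k 0 := fun h => absurd rfl h

theorem ge_self (f : K) : V.ge (V.v f) f := fun _ => le_rfl

variable {V}

theorem ge.mono {k l : ℤ} {f : K} (h : V.ge k f) (hl : l ≤ k) : V.ge l f := fun hf =>
  hl.trans (h hf)

theorem ge.mul {k l : ℤ} {f g : K} (hf : V.ge k f) (hg : V.ge l g) : V.ge (k + l) (f * g) := by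
  intro h
  have h1 := left_ne_zero_of_mul h
  have h2 := right_ne_zero_of_mul h
  rw [V.map_mul f g h1 h2]
  exact add_le_add (hf h1) (hg h2)

theorem ge.add {k : ℤ} {f g : K} (hf : V.ge k f) (hg : V.ge k g) : V.ge k (f + g) := by
  intro h
  by_cases h1 : f = 0
  · rw [h1, zero_add] at h ⊢
    exact hg h
  by_cases h2 : g = 0
  · rw [h2, add_zero] at h ⊢
    exact hf h
  exact (le_min (hf h1) (hg h2)).trans (V.map_add f g h1 h2 h)

theorem ge.sum {k : ℤ} {ι : Type*} (S : Finset ι) (f : ι → K) (h : ∀ i ∈ S, V.ge k (f i)) :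
    V.ge k (∑ i ∈ S, f i) := by
  classical
  induction S using Finset.induction_on with
  | empty => rw [Finset.sum_empty]; exact V.ge_zero k
  | insert a S ha ih =>
    rw [Finset.sum_insert ha]
    exact (h a (Finset.mem_insert_self a S)).add
      (ih fun i hi => h i (Finset.mem_insert_of_mem hi))

theorem v_one : V.v 1 = 0 := by
  have h := V.map_mul 1 1 one_ne_zero one_ne_zero
  rw [one_mul] at h
  linarith

theorem v_neg_one : V.v (-1) = 0 := by
  have h := V.map_mul (-1) (-1) (neg_ne_zero.2 one_ne_zero) (neg_ne_zero.2 one_ne_zero)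
  rw [neg_mul_neg, one_mul, v_one] at h
  linarith

theorem v_neg (f : K) (hf : f ≠ 0) : V.v (-f) = V.v f := by
  have h := V.map_mul (-1) f (neg_ne_zero.2 one_ne_zero) hf
  rwa [neg_one_mul, v_neg_one, zero_add] at h

theorem v_inv (f : K) (hf : f ≠ 0) : V.v f⁻¹ = -V.v f := by
  have h := V.map_mul f f⁻¹ hf (inv_ne_zero hf)
  rw [mul_inv_cancel₀ hf, v_one] at h
  linarith

theorem ge.neg {k : ℤ} {f : K} (hf : V.ge k f) : V.ge k (-f) := by
  intro h
  have h1 := neg_ne_zero.1 h
  rw [v_neg f h1]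
  exact hf h1

theorem ge.sub {k : ℤ} {f g : K} (hf : V.ge k f) (hg : V.ge k g) : V.ge k (f - g) := by
  rw [sub_eq_add_neg]
  exact hf.add hg.neg

theorem ge.of_mul {k : ℤ} {f g : K} (hf : f ≠ 0) (h : V.ge k (f * g)) : V.ge (k - V.v f) g := by
  intro hg
  have h1 := h (mul_ne_zero hf hg)
  rw [V.map_mul f g hf hg] at h1
  linarith

/-- The value of a sum with one dominant term. -/
theorem v_add_eq {k : ℤ} {f g : K} (hf : f ≠ 0) (hfk : V.v f = k) (hg : V.ge (k + 1) g) :
    f + g ≠ 0 ∧ V.v (f + g) = k := by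
  have h0 : f + g ≠ 0 := by
    intro h
    have h1 : f = -g := eq_neg_of_add_eq_zero_left h
    have hg0 : g ≠ 0 := by
      rintro rfl
      rw [neg_zero] at h1
      exact hf h1
    have h2 := hg hg0
    rw [h1, v_neg g hg0] at hfk
    omega
  refine ⟨h0, le_antisymm ?_ ?_⟩
  · by_contra hlt
    push Not at hlt
    have h1 : V.ge (k + 1) ((f + g) - g) := ge.sub (fun _ => by omega) hg
    rw [add_sub_cancel_right] at h1
    have h2 := h1 hf
    omega
  · exact (ge.add (V := V) (fun _ => hfk.ge) (hg.mono (by omega))) h0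

/-- The valuation ring. -/
def ring (V : IVal K) : ValuationSubring K where
  carrier := {f | V.ge 0 f}
  mul_mem' := fun {a b} ha hb => by
    have h := ge.mul (V := V) ha hb
    rwa [add_zero] at h
  one_mem' := fun _ => v_one.ge
  add_mem' := fun {a b} ha hb => ge.add (V := V) ha hb
  zero_mem' := V.ge_zero 0
  neg_mem' := fun {a} ha => ge.neg (V := V) ha
  mem_or_inv_mem' := fun f => by
    by_cases hf : f = 0
    · left
      rw [hf]
      exact V.ge_zero 0
    rcases le_total 0 (V.v f) with h | h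
    · left
      exact fun _ => h
    · right
      intro _
      rw [v_inv f hf]
      linarith

theorem mem_ring {f : K} : f ∈ V.ring ↔ V.ge 0 f := Iff.rfl

end IVal

theorem v_zpow {K : Type} [Field K] {V : IVal K} {f : K} (hf : f ≠ 0) (n : ℤ) : V.v (f ^ n) = n * V.v f := by
  have h1 : ∀ n : ℕ, V.v (f ^ n) = n * V.v f := by
    intro n
    induction n with
    | zero => rw [pow_zero, IVal.v_one]; simp
    | succ n ih =>
      rw [pow_succ, V.map_mul _ _ (pow_ne_zero _ hf) hf, ih]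
      push_cast
      ring
  obtain ⟨m, rfl | rfl⟩ := n.eq_nat_or_neg
  · rw [zpow_natCast, h1]
  · rw [zpow_neg, zpow_natCast, IVal.v_inv _ (pow_ne_zero _ hf), h1]
    ring

theorem v_prod {K : Type} [Field K] {V : IVal K} {J : Type*} (S : Finset J) (f : J → K) (hf : ∀ i ∈ S, f i ≠ 0) :
    V.v (∏ i ∈ S, f i) = ∑ i ∈ S, V.v (f i) := by
  classical
  induction S using Finset.induction_on with
  | empty => rw [Finset.prod_empty, Finset.sum_empty, IVal.v_one]
  | insert a S ha ih =>
    rw [Finset.prod_insert ha, Finset.sum_insert ha,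
      V.map_mul _ _ (hf a (Finset.mem_insert_self a S)) (Finset.prod_ne_zero_iff.2
        fun i hi => hf i (Finset.mem_insert_of_mem hi)),
      ih fun i hi => hf i (Finset.mem_insert_of_mem hi)]

section Monomial

variable {k K : Type} [Field k] [Field K] {ι : k →+* K} {s : ℕ} {t : Fin s → K} (V : IVal K)

/-- A term of a polynomial. -/
def tm (ι : k →+* K) (t : Fin s → K) (p : MvPolynomial (Fin s) k) (a : Fin s →₀ ℕ) : K :=
  ι (p.coeff a) * ∏ i, t i ^ a i

theorem eval_eq_sum_tm (p : MvPolynomial (Fin s) k) :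
    eval₂ ι t p = ∑ a ∈ p.support, tm ι t p a := by
  rw [eval₂_eq']
  rfl

theorem tm_mul (p q : MvPolynomial (Fin s) k) (c : Fin s →₀ ℕ) :
    tm ι t (p * q) c = ∑ x ∈ Finset.antidiagonal c, tm ι t p x.1 * tm ι t q x.2 := by
  classical
  unfold tm
  rw [coeff_mul, map_sum, Finset.sum_mul]
  refine Finset.sum_congr rfl fun x hx => ?_
  rw [Finset.mem_antidiagonal] at hx
  have h : ∏ i, t i ^ c i = (∏ i, t i ^ x.1 i) * ∏ i, t i ^ x.2 i := by
    rw [← Finset.prod_mul_distrib]
    refine Finset.prod_congr rfl fun i _ => ?_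
    rw [← pow_add, ← hx, Finsupp.add_apply]
  rw [h, map_mul]
  ring

theorem tm_add (p q : MvPolynomial (Fin s) k) (c : Fin s →₀ ℕ) :
    tm ι t (p + q) c = tm ι t p c + tm ι t q c := by
  unfold tm
  rw [coeff_add, map_add, add_mul]

variable (ht : ∀ i, t i ≠ 0)

include ht in
theorem tm_ne_zero {p : MvPolynomial (Fin s) k} {a : Fin s →₀ ℕ} : tm ι t p a ≠ 0 ↔
    a ∈ p.support := by
  rw [mem_support_iff, tm, Ne, mul_eq_zero, not_or, map_eq_zero]
  exact and_iff_left (Finset.prod_ne_zero_iff.2 fun i _ => pow_ne_zero _ (ht i))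

open Classical in
/-- The smallest value of the terms of a polynomial. -/
noncomputable def mw (ι : k →+* K) (t : Fin s → K) (V : IVal K) (p : MvPolynomial (Fin s) k) : ℤ :=
  if h : p.support.Nonempty then p.support.inf' h fun a => V.v (tm ι t p a) else 0

theorem mw_le {p : MvPolynomial (Fin s) k} {a : Fin s →₀ ℕ} (ha : a ∈ p.support) :
    mw ι t V p ≤ V.v (tm ι t p a) := by
  rw [mw, dif_pos ⟨a, ha⟩]
  exact Finset.inf'_le (fun a => V.v (tm ι t p a)) ha

include ht in
theorem ge_tm (p : MvPolynomial (Fin s) k) (a : Fin s →₀ ℕ) : V.ge (mw ι t V p) (tm ι t p a) :=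
  fun h => mw_le V ((tm_ne_zero ht).1 h)

theorem exists_mw {p : MvPolynomial (Fin s) k} (hp : p ≠ 0) :
    ∃ a ∈ p.support, V.v (tm ι t p a) = mw ι t V p := by
  have h : p.support.Nonempty := support_nonempty.2 hp
  obtain ⟨a, ha, hav⟩ := Finset.exists_mem_eq_inf' h fun a => V.v (tm ι t p a)
  refine ⟨a, ha, ?_⟩
  rw [mw, dif_pos h, hav]

theorem le_mw {p : MvPolynomial (Fin s) k} (hp : p ≠ 0) {m : ℤ}
    (h : ∀ a ∈ p.support, m ≤ V.v (tm ι t p a)) : m ≤ mw ι t V p := by
  obtain ⟨a, ha, hav⟩ := exists_mw (ι := ι) (t := t) V hp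
  rw [← hav]
  exact h a ha

include ht in
theorem mw_add {p q : MvPolynomial (Fin s) k} (hpq : p + q ≠ 0) :
    min (mw ι t V p) (mw ι t V q) ≤ mw ι t V (p + q) := by
  refine le_mw V hpq fun a ha => ?_
  have h1 : V.ge (min (mw ι t V p) (mw ι t V q)) (tm ι t (p + q) a) := by
    rw [tm_add]
    exact ((ge_tm V ht p a).mono (min_le_left _ _)).add ((ge_tm V ht q a).mono (min_le_right _ _))
  exact h1 ((tm_ne_zero ht).2 ha)

include ht in
theorem mw_mul {p q : MvPolynomial (Fin s) k} (hp : p ≠ 0) (hq : q ≠ 0) :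
    mw ι t V (p * q) = mw ι t V p + mw ι t V q := by
  classical
  refine le_antisymm ?_ ?_
  · -- the lexicographically largest terms of minimal value
    have hmax : ∀ p : MvPolynomial (Fin s) k, p ≠ 0 → ∃ a ∈ p.support,
        V.v (tm ι t p a) = mw ι t V p ∧ ∀ b, (b ∈ p.support → V.v (tm ι t p b) = mw ι t V p →
          toLex b ≤ toLex a) := by
      intro p hp
      obtain ⟨a₀, ha₀, hav₀⟩ := exists_mw (ι := ι) (t := t) V hp
      obtain ⟨a, ha, hmax⟩ := Finset.exists_max_image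
        (p.support.filter fun a => V.v (tm ι t p a) = mw ι t V p) (fun a => toLex a)
        ⟨a₀, Finset.mem_filter.2 ⟨ha₀, hav₀⟩⟩
      rw [Finset.mem_filter] at ha
      exact ⟨a, ha.1, ha.2, fun b hb hbv => hmax b (Finset.mem_filter.2 ⟨hb, hbv⟩)⟩
    obtain ⟨a, ha, hav, hamax⟩ := hmax p hp
    obtain ⟨b, hb, hbv, hbmax⟩ := hmax q hq
    have h1 : tm ι t (p * q) (a + b) = tm ι t p a * tm ι t q b +
        ∑ x ∈ (Finset.antidiagonal (a + b)).erase (a, b), tm ι t p x.1 * tm ι t q x.2 := by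
      rw [tm_mul]
      exact (Finset.add_sum_erase (Finset.antidiagonal (a + b))
        (fun x => tm ι t p x.1 * tm ι t q x.2)
        (show (a, b) ∈ Finset.antidiagonal (a + b) from Finset.mem_antidiagonal.2 rfl)).symm
    have h2 : tm ι t p a * tm ι t q b ≠ 0 :=
      mul_ne_zero ((tm_ne_zero ht).2 ha) ((tm_ne_zero ht).2 hb)
    have h3 : V.v (tm ι t p a * tm ι t q b) = mw ι t V p + mw ι t V q := by
      rw [V.map_mul _ _ (left_ne_zero_of_mul h2) (right_ne_zero_of_mul h2), hav, hbv]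
    have h4 : V.ge (mw ι t V p + mw ι t V q + 1)
        (∑ x ∈ (Finset.antidiagonal (a + b)).erase (a, b), tm ι t p x.1 * tm ι t q x.2) := by
      refine IVal.ge.sum _ _ fun x hx hne => ?_
      rw [Finset.mem_erase, Finset.mem_antidiagonal] at hx
      have hx1 := left_ne_zero_of_mul hne
      have hx2 := right_ne_zero_of_mul hne
      rw [V.map_mul _ _ hx1 hx2]
      have h5 := mw_le (ι := ι) (t := t) V ((tm_ne_zero ht).1 hx1)
      have h6 := mw_le (ι := ι) (t := t) V ((tm_ne_zero ht).1 hx2)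
      by_contra hlt
      push Not at hlt
      have h7 : V.v (tm ι t p x.1) = mw ι t V p := by omega
      have h8 : V.v (tm ι t q x.2) = mw ι t V q := by omega
      have h9 := hamax x.1 ((tm_ne_zero ht).1 hx1) h7
      have h10 := hbmax x.2 ((tm_ne_zero ht).1 hx2) h8
      have h11 : toLex x.1 + toLex x.2 = toLex a + toLex b := by
        rw [← toLex_add, ← toLex_add, hx.2]
      have h12 : toLex x.1 = toLex a := by
        refine le_antisymm h9 ?_
        by_contra h13
        rw [not_le] at h13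
        exact absurd h11 (ne_of_lt (add_lt_add_of_lt_of_le h13 h10))
      have h13 : x.1 = a := toLex.injective h12
      have h14 : x.2 = b := by
        have h15 := hx.2
        rw [h13] at h15
        exact add_left_cancel h15
      exact hx.1 (Prod.ext h13 h14)
    obtain ⟨h5, h6⟩ := IVal.v_add_eq h2 h3 h4
    rw [← h1] at h5 h6
    rw [← h6]
    exact mw_le V ((tm_ne_zero ht).1 h5)
  · refine le_mw V (mul_ne_zero hp hq) fun c hc => ?_
    have h1 : V.ge (mw ι t V p + mw ι t V q) (tm ι t (p * q) c) := by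
      rw [tm_mul]
      exact IVal.ge.sum _ _ fun x _ => (ge_tm V ht p x.1).mul (ge_tm V ht q x.2)
    exact h1 ((tm_ne_zero ht).2 hc)

/-- **Monomial valuations.** -/
theorem exists_monomial_val (hinj : ∀ p : MvPolynomial (Fin s) k, eval₂ ι t p = 0 → p = 0)
    (hsurj : ∀ f : K, ∃ p q : MvPolynomial (Fin s) k, eval₂ ι t q ≠ 0 ∧
      f = eval₂ ι t p / eval₂ ι t q) (ht : ∀ i, t i ≠ 0) :
    ∃ W : IVal K, ∀ p, p ≠ 0 → W.v (eval₂ ι t p) = mw ι t V p := by
  classical
  choose num den hden hnd using hsurj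
  have hden0 : ∀ f, den f ≠ 0 := fun f h => hden f (by rw [h, eval₂_zero])
  have hnum0 : ∀ f, f ≠ 0 → num f ≠ 0 := fun f hf h => hf (by rw [hnd f, h, eval₂_zero, zero_div])
  let v : K → ℤ := fun f => mw ι t V (num f) - mw ι t V (den f)
  have hfd : ∀ f, f * eval₂ ι t (den f) = eval₂ ι t (num f) := by
    intro f
    have h1 := hnd f
    rw [eq_div_iff (hden f)] at h1
    exact h1
  have key : ∀ f, f ≠ 0 → ∀ p q, q ≠ 0 → f * eval₂ ι t q = eval₂ ι t p → p ≠ 0 →
      v f = mw ι t V p - mw ι t V q := by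
    intro f hf p q hq hfq hp
    have h1 : num f * q = p * den f := by
      have h2 : eval₂ ι t (num f * q - p * den f) = 0 := by
        rw [eval₂_sub, eval₂_mul, eval₂_mul, ← hfq, ← hfd f]
        ring
      exact sub_eq_zero.1 (hinj _ h2)
    have h2 := congrArg (mw ι t V) h1
    rw [mw_mul V ht (hnum0 f hf) hq, mw_mul V ht hp (hden0 f)] at h2
    change mw ι t V (num f) - mw ι t V (den f) = _
    linarith
  refine ⟨⟨v, fun f g hf hg => ?_, fun f g hf hg hfg => ?_⟩, fun p hp => ?_⟩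
  · rw [key (f * g) (mul_ne_zero hf hg) (num f * num g) (den f * den g)
      (mul_ne_zero (hden0 f) (hden0 g)) ?_ (mul_ne_zero (hnum0 f hf) (hnum0 g hg)),
      mw_mul V ht (hnum0 f hf) (hnum0 g hg), mw_mul V ht (hden0 f) (hden0 g)]
    · change _ = mw ι t V (num f) - mw ι t V (den f) + (mw ι t V (num g) - mw ι t V (den g))
      ring
    · rw [eval₂_mul, eval₂_mul, ← hfd f, ← hfd g]
      ring
  · have h1 : (f + g) * eval₂ ι t (den f * den g) =
        eval₂ ι t (num f * den g + num g * den f) := by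
      rw [eval₂_mul, eval₂_add, eval₂_mul, eval₂_mul, ← hfd f, ← hfd g]
      ring
    have h2 : num f * den g + num g * den f ≠ 0 := by
      intro h
      rw [h, eval₂_zero, mul_eq_zero, eval₂_mul, mul_eq_zero] at h1
      rcases h1 with h1 | h1 | h1
      · exact hfg h1
      · exact hden f h1
      · exact hden g h1
    rw [key (f + g) hfg _ _ (mul_ne_zero (hden0 f) (hden0 g)) h1 h2,
      mw_mul V ht (hden0 f) (hden0 g)]
    have h3 := mw_add (ι := ι) V ht h2
    rw [mw_mul V ht (hnum0 f hf) (hden0 g), mw_mul V ht (hnum0 g hg) (hden0 f)] at h3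
    change min (mw ι t V (num f) - mw ι t V (den f)) (mw ι t V (num g) - mw ι t V (den g)) ≤ _
    rcases min_choice (mw ι t V (num f) + mw ι t V (den g))
      (mw ι t V (num g) + mw ι t V (den f)) with h4 | h4
    · rw [h4] at h3
      exact (min_le_left _ _).trans (by linarith)
    · rw [h4] at h3
      exact (min_le_right _ _).trans (by linarith)
  · have h1 : eval₂ ι t p ≠ 0 := fun h => hp (hinj p h)
    have h2 := key (eval₂ ι t p) h1 p 1 one_ne_zero (by rw [eval₂_one, mul_one]) hp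
    have h3 := mw_mul (ι := ι) (t := t) V ht (one_ne_zero (α := MvPolynomial (Fin s) k))
      (one_ne_zero (α := MvPolynomial (Fin s) k))
    rw [one_mul] at h3
    have h4 : mw ι t V (1 : MvPolynomial (Fin s) k) = 0 := by linarith
    rw [h4, sub_zero] at h2
    exact h2

variable {V} {W : IVal K} (hW : ∀ p : MvPolynomial (Fin s) k, p ≠ 0 →
  W.v (eval₂ ι t p) = mw ι t V p)

include hW

theorem mono_base {c : k} (hc : c ≠ 0) : W.v (ι c) = V.v (ι c) := by
  have h1 : (C c : MvPolynomial (Fin s) k) ≠ 0 := fun h => hc (by rwa [C_eq_zero] at h)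
  have h2 := hW _ h1
  rw [eval₂_C] at h2
  obtain ⟨a, ha, hav⟩ := exists_mw (ι := ι) (t := t) V h1
  have h3 : a = 0 := by
    rw [mem_support_iff, coeff_C] at ha
    by_contra h
    exact ha (if_neg (Ne.symm h))
  rw [h2, ← hav, h3, tm, coeff_C, if_pos rfl]
  simp

theorem mono_coord (i : Fin s) : W.v (t i) = V.v (t i) := by
  classical
  have h1 : (X i : MvPolynomial (Fin s) k) ≠ 0 := X_ne_zero i
  have h2 := hW _ h1
  rw [eval₂_X] at h2
  obtain ⟨a, ha, hav⟩ := exists_mw (ι := ι) (t := t) V h1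
  have h3 : Finsupp.single i 1 = a := by
    rw [mem_support_iff, coeff_X] at ha
    by_contra h
    exact ha (if_neg h)
  rw [h2, ← hav, ← h3, tm, coeff_X, if_pos rfl, map_one, one_mul, Finset.prod_eq_single i]
  · rw [Finsupp.single_eq_same, pow_one]
  · intro j _ hj
    rw [Finsupp.single_eq_of_ne hj, pow_zero]
  · intro h
    exact absurd (Finset.mem_univ i) h

include ht in
/-- The two valuations agree on the monomials. -/
theorem mono_mono {c : k} (hc : c ≠ 0) (a : Fin s → ℤ) :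
    W.v (ι c * ∏ i, t i ^ a i) = V.v (ι c * ∏ i, t i ^ a i) := by
  have hc' : ι c ≠ 0 := (map_ne_zero ι).2 hc
  have h1 : ∀ i ∈ Finset.univ, t i ^ a i ≠ 0 := fun i _ => zpow_ne_zero _ (ht i)
  have h2 : ∏ i, t i ^ a i ≠ 0 := Finset.prod_ne_zero_iff.2 h1
  rw [W.map_mul _ _ hc' h2, V.map_mul _ _ hc' h2, mono_base hW hc,
    v_prod (V := W) Finset.univ (fun i => t i ^ a i) h1,
    v_prod (V := V) Finset.univ (fun i => t i ^ a i) h1]
  congr 1
  refine Finset.sum_congr rfl fun i _ => ?_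
  rw [v_zpow (V := W) (ht i), v_zpow (V := V) (ht i), mono_coord hW]

include ht in
theorem mono_le_poly {p : MvPolynomial (Fin s) k} (hp : eval₂ ι t p ≠ 0) :
    W.v (eval₂ ι t p) ≤ V.v (eval₂ ι t p) := by
  have hp0 : p ≠ 0 := by
    rintro rfl
    exact hp (eval₂_zero _ _)
  rw [hW p hp0]
  have h1 : V.ge (mw ι t V p) (eval₂ ι t p) := by
    rw [eval_eq_sum_tm]
    exact IVal.ge.sum _ _ fun a _ => ge_tm V ht p a
  exact h1 hp

include ht in
/-- The monomial valuation is smaller on sums of monomials. -/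
theorem mono_le_sum {J : Type*} (S : Finset J) (c : J → k) (a : J → Fin s → ℤ)
    (h : ∑ j ∈ S, ι (c j) * ∏ i, t i ^ a j i ≠ 0) :
    W.v (∑ j ∈ S, ι (c j) * ∏ i, t i ^ a j i) ≤ V.v (∑ j ∈ S, ι (c j) * ∏ i, t i ^ a j i) := by
  classical
  obtain ⟨N, hN⟩ : ∃ N : ℕ, ∀ j ∈ S, ∀ i, 0 ≤ a j i + N := by
    refine ⟨∑ j ∈ S, ∑ i, (a j i).natAbs, fun j hj i => ?_⟩
    have h1 : (a j i).natAbs ≤ ∑ j ∈ S, ∑ i, (a j i).natAbs :=
      (Finset.single_le_sum (f := fun i => (a j i).natAbs) (fun _ _ => Nat.zero_le _)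
        (Finset.mem_univ i)).trans
        (Finset.single_le_sum (f := fun j => ∑ i, (a j i).natAbs) (fun _ _ => Nat.zero_le _) hj)
    omega
  let m : K := ∏ i, t i ^ (N : ℤ)
  have hm : m ≠ 0 := Finset.prod_ne_zero_iff.2 fun i _ => zpow_ne_zero _ (ht i)
  let b : J → Fin s →₀ ℕ := fun j => Finsupp.equivFunOnFinite.symm fun i => (a j i + N).toNat
  let p : MvPolynomial (Fin s) k := ∑ j ∈ S, monomial (b j) (c j)
  have hp : eval₂ ι t p = (∑ j ∈ S, ι (c j) * ∏ i, t i ^ a j i) * m := by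
    rw [eval₂_sum, Finset.sum_mul]
    refine Finset.sum_congr rfl fun j hj => ?_
    rw [eval₂_monomial, Finsupp.prod_fintype _ _ (by simp), mul_assoc, ← Finset.prod_mul_distrib]
    congr 1
    refine Finset.prod_congr rfl fun i _ => ?_
    rw [← zpow_add₀ (ht i)]
    have h1 : ((b j i : ℕ) : ℤ) = a j i + N := by
      change (((a j i + N).toNat : ℕ) : ℤ) = _
      exact Int.toNat_of_nonneg (hN j hj i)
    rw [← h1, zpow_natCast]
  have h1 : eval₂ ι t p ≠ 0 := by
    rw [hp]
    exact mul_ne_zero h hm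
  have h2 := mono_le_poly ht hW h1
  rw [hp, W.map_mul _ _ h hm, V.map_mul _ _ h hm] at h2
  have h3 := mono_mono ht hW (one_ne_zero (α := k)) fun _ => (N : ℤ)
  rw [map_one, one_mul] at h3
  change W.v _ + W.v m ≤ V.v _ + V.v m at h2
  have h4 : W.v m = V.v m := h3
  linarith

end Monomial

section Log

variable {k K : Type} [Field k] [Field K] [Algebra ℂ k] [Algebra ℂ K] {ι : k →+* K} {s : ℕ}
  {t : Fin s → K} {V W : IVal K}

/-- The action of a logarithmic vector field on the monomials. -/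
theorem log_prod {D : Derivation ℂ K K} {c : Fin s → ℂ}
    (hc : ∀ i, D (t i) = algebraMap ℂ K (c i) * t i) (a : Fin s → ℕ) (S : Finset (Fin s)) :
    ∃ e : ℂ, D (∏ i ∈ S, t i ^ a i) = algebraMap ℂ K e * ∏ i ∈ S, t i ^ a i := by
  classical
  have h1 : ∀ i, D (t i ^ a i) = algebraMap ℂ K (a i * c i) * t i ^ a i := by
    intro i
    rw [D.leibniz_pow, nsmul_eq_mul, smul_eq_mul, hc, map_mul, map_natCast]
    rcases Nat.eq_zero_or_pos (a i) with h0 | h0
    · rw [h0]
      simp
    · obtain ⟨n, hn⟩ := Nat.exists_eq_succ_of_ne_zero h0.ne'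
      rw [hn, Nat.succ_sub_one, pow_succ]
      ring
  induction S using Finset.induction_on with
  | empty =>
    refine ⟨0, ?_⟩
    rw [Finset.prod_empty, D.map_one_eq_zero, map_zero, zero_mul]
  | insert j S hj ih =>
    obtain ⟨e, he⟩ := ih
    refine ⟨a j * c j + e, ?_⟩
    rw [Finset.prod_insert hj, D.leibniz, smul_eq_mul, smul_eq_mul, h1, he, map_add]
    ring

/-- Logarithmic vector fields preserve the monomial valuation. -/
theorem mono_log (hsurj : ∀ f : K, ∃ p q : MvPolynomial (Fin s) k, eval₂ ι t q ≠ 0 ∧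
      f = eval₂ ι t p / eval₂ ι t q) (ht : ∀ i, t i ≠ 0)
    (hW : ∀ p : MvPolynomial (Fin s) k, p ≠ 0 → W.v (eval₂ ι t p) = mw ι t V p)
    (hV0 : ∀ c : ℂ, V.ge 0 (algebraMap ℂ K c)) {δ : k → k} {D : Derivation ℂ K K}
    (hι : ∀ c : ℂ, ι (algebraMap ℂ k c) = algebraMap ℂ K c)
    (hD : ∀ a, D (ι a) = ι (δ a)) {c : Fin s → ℂ} (hc : ∀ i, D (t i) = algebraMap ℂ K (c i) * t i)
    (hδ : ∀ a, a ≠ 0 → V.ge (V.v (ι a)) (ι (δ a))) (m : ℤ) (f : K) (hf : W.ge m f) :
    W.ge m (D f) := by
  have hW0 : ∀ c : ℂ, W.ge 0 (algebraMap ℂ K c) := by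
    intro c hc0
    have h1 : algebraMap ℂ k c ≠ 0 := by
      intro h
      rw [← hι, h, map_zero] at hc0
      exact hc0 rfl
    have h2 := mono_base hW h1
    rw [hι] at h2
    rw [h2]
    exact hV0 c hc0
  have hpoly : ∀ p : MvPolynomial (Fin s) k, W.ge (W.v (eval₂ ι t p)) (D (eval₂ ι t p)) := by
    intro p
    by_cases hp : p = 0
    · rw [hp, eval₂_zero, map_zero]
      exact W.ge_zero _
    rw [hW p hp, eval_eq_sum_tm, map_sum]
    refine IVal.ge.sum _ _ fun a ha => ?_
    have ha0 : p.coeff a ≠ 0 := mem_support_iff.1 ha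
    have hιa : ι (p.coeff a) ≠ 0 := (map_ne_zero ι).2 ha0
    obtain ⟨e, he⟩ := log_prod hc a Finset.univ
    have hpr : ∏ i, t i ^ a i ≠ 0 := Finset.prod_ne_zero_iff.2 fun i _ => pow_ne_zero _ (ht i)
    have h1 : ∏ i, t i ^ a i = ∏ i, t i ^ ((a i : ℕ) : ℤ) :=
      Finset.prod_congr rfl fun i _ => (zpow_natCast _ _).symm
    have h2 : W.v (tm ι t p a) = V.v (tm ι t p a) := by
      unfold tm
      rw [h1]
      exact mono_mono ht hW ha0 _
    have h3 : mw ι t V p ≤ W.v (tm ι t p a) := by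
      rw [h2]
      exact mw_le V ha
    have h4 : W.v (∏ i, t i ^ a i) = V.v (∏ i, t i ^ a i) := by
      have h5 := mono_mono ht hW (one_ne_zero (α := k)) fun i => ((a i : ℕ) : ℤ)
      rw [map_one, one_mul] at h5
      rw [h1]
      exact h5
    have h5 : W.v (tm ι t p a) = W.v (ι (p.coeff a)) + W.v (∏ i, t i ^ a i) :=
      W.map_mul _ _ hιa hpr
    change W.ge _ (D (ι (p.coeff a) * ∏ i, t i ^ a i))
    rw [D.leibniz, smul_eq_mul, smul_eq_mul, he, hD]
    refine IVal.ge.add ?_ ?_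
    · have h6 := (hW0 e).mul (W.ge_self (tm ι t p a))
      rw [zero_add] at h6
      have e1 : ι (p.coeff a) * (algebraMap ℂ K e * ∏ i, t i ^ a i) =
          algebraMap ℂ K e * tm ι t p a := by
        unfold tm
        ring
      rw [e1]
      exact h6.mono h3
    · have h6 : W.ge (W.v (ι (p.coeff a))) (ι (δ (p.coeff a))) := by
        intro h0
        have h7 : δ (p.coeff a) ≠ 0 := (map_ne_zero ι).1 h0
        rw [mono_base hW ha0, mono_base hW h7]
        exact hδ _ ha0 h0
      refine ((W.ge_self (∏ i, t i ^ a i)).mul h6).mono ?_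
      rw [h5] at h3
      linarith
  by_cases hf0 : f = 0
  · rw [hf0, map_zero]
    exact W.ge_zero _
  refine IVal.ge.mono ?_ (hf hf0)
  obtain ⟨p, q, hq, hpq⟩ := hsurj f
  have hmul : eval₂ ι t q * f = eval₂ ι t p := by rw [hpq, mul_div_cancel₀ _ hq]
  have h1 := congrArg D hmul
  rw [D.leibniz, smul_eq_mul, smul_eq_mul] at h1
  have h2 : eval₂ ι t q * D f = D (eval₂ ι t p) - f * D (eval₂ ι t q) := eq_sub_of_add_eq h1
  have h3 : W.ge (W.v (eval₂ ι t q) + W.v f) (eval₂ ι t q * D f) := by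
    rw [h2]
    refine IVal.ge.sub ?_ ?_
    · have h4 := hpoly p
      rwa [← hmul, W.map_mul _ _ hq hf0, hmul] at h4
    · have h4 := (W.ge_self f).mul (hpoly q)
      rwa [add_comm] at h4
  refine (h3.of_mul hq).mono ?_
  linarith

end Log

end Vale.Agent.P299.Q
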