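import Vale.Agent.P299.Q.TorOrd
import Vale.Agent.P299.Q.EqfVal

/-!
# Coordinates of a purely transcendental extension of function fields
-/

open CategoryTheory TopologicalSpace Opposite TopCat AlgebraicGeometry Order

namespace Vale.Agent.P299.Q

open Vale.Agent.P299.G

/-- The function field of `X` is the field of rational functions in `t_1, …, t_s` over that
of `Y`. -/
structure TransCoord {s : ℕ} {X Y : Var} (φ : DomHom X Y) (t : Fin s → X.K) : Prop where
  ne : ∀ i, t i ≠ 0
  inj : ∀ p : MvPolynomial (Fin s) Y.K, MvPolynomial.eval₂ φ.pull t p = 0 → p = 0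
  gen : ∀ F : Subfield X.K, (∀ a, φ.pull a ∈ F) → (∀ i, t i ∈ F) → F = ⊤

namespace TransCoord

variable {s : ℕ} {X Y : Var} {φ : DomHom X Y} {t : Fin s → X.K}

section

variable (h : TransCoord φ t)

include h in
theorem hsurj' (f : X.K) : ∃ p q : MvPolynomial (Fin s) Y.K, MvPolynomial.eval₂ φ.pull t q ≠ 0 ∧
    f = MvPolynomial.eval₂ φ.pull t p / MvPolynomial.eval₂ φ.pull t q := by
  let ev : MvPolynomial (Fin s) Y.K →+* X.K := MvPolynomial.eval₂Hom φ.pull t
  let F : Subfield X.K :=
    { carrier := {f | ∃ p q, ev q ≠ 0 ∧ f = ev p / ev q}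
      mul_mem' := by
        rintro _ _ ⟨p, q, hq, rfl⟩ ⟨p', q', hq', rfl⟩
        refine ⟨p * p', q * q', by rw [map_mul]; exact mul_ne_zero hq hq', ?_⟩
        rw [map_mul, map_mul, div_mul_div_comm]
      one_mem' := ⟨1, 1, by rw [map_one]; exact one_ne_zero, by rw [map_one, div_one]⟩
      add_mem' := by
        rintro _ _ ⟨p, q, hq, rfl⟩ ⟨p', q', hq', rfl⟩
        refine ⟨p * q' + q * p', q * q', by rw [map_mul]; exact mul_ne_zero hq hq', ?_⟩
        rw [map_add, map_mul, map_mul, map_mul, div_add_div _ _ hq hq']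
      zero_mem' := ⟨0, 1, by rw [map_one]; exact one_ne_zero, by rw [map_zero, zero_div]⟩
      neg_mem' := by
        rintro _ ⟨p, q, hq, rfl⟩
        exact ⟨-p, q, hq, by rw [map_neg, neg_div]⟩
      inv_mem' := by
        rintro _ ⟨p, q, hq, rfl⟩
        by_cases hp : ev p = 0
        · exact ⟨0, 1, by rw [map_one]; exact one_ne_zero, by rw [hp, map_zero]; simp⟩
        · exact ⟨q, p, hp, by rw [inv_div]⟩ }
  have h1 : F = ⊤ := h.gen F
    (fun a => ⟨MvPolynomial.C a, 1, by rw [map_one]; exact one_ne_zero, by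
      change _ = MvPolynomial.eval₂ φ.pull t (MvPolynomial.C a) / ev 1
      rw [MvPolynomial.eval₂_C, map_one, div_one]⟩)
    (fun i => ⟨MvPolynomial.X i, 1, by rw [map_one]; exact one_ne_zero, by
      change _ = MvPolynomial.eval₂ φ.pull t (MvPolynomial.X i) / ev 1
      rw [MvPolynomial.eval₂_X, map_one, div_one]⟩)
  have h2 : f ∈ F := by
    rw [h1]
    exact Subfield.mem_top f
  exact h2

include h in
/-- The vector fields with given values. -/
theorem exists_vf (δ : Y.Der) (c : Fin s → X.K) :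
    ∃ D : X.Der, (∀ a, D (φ.pull a) = φ.pull (δ a)) ∧ ∀ i, D (t i) = c i :=
  exists_der (C := ℂ) (fun c => φ.pull_scalar c) h.inj
    (fun f => by
      obtain ⟨p, q, -, hpq⟩ := h.hsurj' f
      exact ⟨p, q, hpq⟩) δ c

include h in
/-- Twisted derivations are determined by their values on `k` and on the `t_i`. -/
theorem ext_gen (ψ : X.K →+* X.K) (D D' : X.K →+ X.K)
    (hD : ∀ f g, D (f * g) = ψ f * D g + ψ g * D f)
    (hD' : ∀ f g, D' (f * g) = ψ f * D' g + ψ g * D' f)
    (h1 : ∀ a, D (φ.pull a) = D' (φ.pull a)) (h2 : ∀ i, D (t i) = D' (t i)) (f : X.K) :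
    D f = D' f := by
  have hone : ∀ E : X.K →+ X.K, (∀ f g, E (f * g) = ψ f * E g + ψ g * E f) → E 1 = 0 := by
    intro E hE
    have h3 := hE 1 1
    rw [map_one, one_mul, one_mul] at h3
    exact left_eq_add.1 h3
  have hinv : ∀ E : X.K →+ X.K, (∀ f g, E (f * g) = ψ f * E g + ψ g * E f) → ∀ f : X.K, f ≠ 0 →
      ψ f * E f⁻¹ = -(ψ f⁻¹ * E f) := by
    intro E hE f hf
    have h3 := hE f f⁻¹
    rw [mul_inv_cancel₀ hf, hone E hE] at h3
    exact eq_neg_of_add_eq_zero_left h3.symm
  let F : Subfield X.K :=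
    { carrier := {f | D f = D' f}
      mul_mem' := fun {a b} ha hb => by
        change D (a * b) = D' (a * b)
        rw [hD, hD', show D a = D' a from ha, show D b = D' b from hb]
      one_mem' := by
        change D 1 = D' 1
        rw [hone D hD, hone D' hD']
      add_mem' := fun {a b} ha hb => by
        change D (a + b) = D' (a + b)
        rw [map_add, map_add, show D a = D' a from ha, show D b = D' b from hb]
      zero_mem' := by
        change D 0 = D' 0
        rw [map_zero, map_zero]
      neg_mem' := fun {a} ha => by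
        change D (-a) = D' (-a)
        rw [map_neg, map_neg, show D a = D' a from ha]
      inv_mem' := fun a ha => by
        change D a⁻¹ = D' a⁻¹
        by_cases ha0 : a = 0
        · rw [ha0, inv_zero, map_zero, map_zero]
        · have h3 := hinv D hD a ha0
          rw [show D a = D' a from ha, ← hinv D' hD' a ha0] at h3
          exact mul_left_cancel₀ ((map_ne_zero ψ).2 ha0) h3 }
  have hF : F = ⊤ := h.gen F h1 h2
  have h3 : f ∈ F := by
    rw [hF]
    exact Subfield.mem_top f
  exact h3

include h in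
/-- Vector fields are determined by their values on `k` and on the `t_i`. -/
theorem vf_ext {D D' : X.Der} (h1 : ∀ a, D (φ.pull a) = D' (φ.pull a))
    (h2 : ∀ i, D (t i) = D' (t i)) : D = D' := by
  ext f
  exact h.ext_gen (RingHom.id _) D.toAddMonoidHom D'.toAddMonoidHom (fun f g => D.leibniz f g)
    (fun f g => D'.leibniz f g) h1 h2 f

/-- The logarithmic vector field `t_i ∂/∂t_i`. -/
noncomputable def L (i : Fin s) : X.Der :=
  (h.exists_vf 0 fun j => algebraMap ℂ X.K (if i = j then 1 else 0) * t j).choose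

theorem L_pull (i : Fin s) (a : Y.K) : h.L i (φ.pull a) = φ.pull ((0 : Y.Der) a) :=
  (h.exists_vf 0 fun j => algebraMap ℂ X.K (if i = j then 1 else 0) * t j).choose_spec.1 a

theorem L_t' (i j : Fin s) : h.L i (t j) = algebraMap ℂ X.K (if i = j then 1 else 0) * t j :=
  (h.exists_vf 0 fun j => algebraMap ℂ X.K (if i = j then 1 else 0) * t j).choose_spec.2 j

theorem L_t (i j : Fin s) : h.L i (t j) = if i = j then t j else 0 := by
  rw [h.L_t']
  split_ifs
  · rw [map_one, one_mul]
  · rw [map_zero, zero_mul]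

theorem L_pull' (i : Fin s) (a : Y.K) : h.L i (φ.pull a) = 0 := by
  rw [h.L_pull, Derivation.zero_apply, map_zero]

/-- The lift of a vector field with constant `t_i`. -/
noncomputable def lift (δ : Y.Der) : X.Der := (h.exists_vf δ 0).choose

theorem lift_pull (δ : Y.Der) (a : Y.K) : h.lift δ (φ.pull a) = φ.pull (δ a) :=
  (h.exists_vf δ 0).choose_spec.1 a

theorem lift_t (δ : Y.Der) (i : Fin s) : h.lift δ (t i) = 0 :=
  (h.exists_vf δ 0).choose_spec.2 i

/-- The logarithmic vector fields together with the lifts. -/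
noncomputable def logfr {n : ℕ} (δ : Fin n → Y.Der) : Fin (s + n) → X.Der :=
  Fin.append h.L fun l => h.lift (δ l)

/-- The frame `∂/∂t_i`, `∂/∂u_l`. -/
noncomputable def frm {n : ℕ} (δ : Fin n → Y.Der) : Fin (s + n) → X.Der :=
  Fin.append (fun i => (t i)⁻¹ • h.L i) fun l => h.lift (δ l)

theorem frm_dual {n : ℕ} {u : Fin n → Y.K} {v : Fin n → Y.Der}
    (h1 : ∀ i j, v i (u j) = if i = j then 1 else 0) (i j : Fin (s + n)) :
    h.frm v i (TorusCoord.crd t φ u j) = if i = j then 1 else 0 := by
  refine Fin.addCases (fun i => ?_) (fun l => ?_) i <;>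
    refine Fin.addCases (fun j => ?_) (fun m => ?_) j
  · simp only [frm, TorusCoord.crd, Fin.append_left, Derivation.smul_apply, smul_eq_mul]
    rw [h.L_t]
    by_cases hij : i = j
    · subst hij
      rw [if_pos rfl, if_pos rfl, inv_mul_cancel₀ (h.ne i)]
    · rw [if_neg hij, if_neg (fun h => hij (Fin.castAdd_injective _ _ h)), mul_zero]
  · simp only [frm, TorusCoord.crd, Fin.append_left, Fin.append_right, Derivation.smul_apply, smul_eq_mul]
    rw [h.L_pull', mul_zero, if_neg]
    intro he
    have := congrArg Fin.val he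
    simp at this
    omega
  · simp only [frm, TorusCoord.crd, Fin.append_left, Fin.append_right]
    rw [h.lift_t, if_neg]
    intro he
    have := congrArg Fin.val he
    simp at this
    omega
  · simp only [frm, TorusCoord.crd, Fin.append_right]
    rw [h.lift_pull, h1]
    by_cases hlm : l = m
    · subst hlm
      rw [if_pos rfl, if_pos rfl, map_one]
    · rw [if_neg hlm, if_neg (fun h => hlm (Fin.natAdd_injective _ _ h)), map_zero]

theorem frm_expand {n : ℕ} {u : Fin n → Y.K} {v : Fin n → Y.Der}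
    (h1 : ∀ i j, v i (u j) = if i = j then 1 else 0) (h2 : ∀ δ : Y.Der, δ = ∑ i, δ (u i) • v i)
    (V : X.Der) : V = ∑ i, V (TorusCoord.crd t φ u i) • h.frm v i := by
  refine h.vf_ext (fun a => ?_) fun i => ?_
  · rw [sum_smul_apply, Fin.sum_univ_add, φ.chain h1 h2 V a]
    simp only [frm, TorusCoord.crd, Fin.append_left, Fin.append_right, Derivation.smul_apply, smul_eq_mul]
    have h5 : ∑ i, V (t i) * ((t i)⁻¹ * h.L i (φ.pull a)) = 0 :=
      Finset.sum_eq_zero fun i _ => by rw [h.L_pull', mul_zero, mul_zero]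
    rw [h5, zero_add]
    exact Finset.sum_congr rfl fun l _ => by rw [h.lift_pull]
  · rw [sum_smul_apply]
    have h3 := h.frm_dual h1
    have h4 : t i = TorusCoord.crd t φ u (Fin.castAdd n i) := by rw [TorusCoord.crd, Fin.append_left]
    rw [h4, Finset.sum_eq_single (Fin.castAdd n i)]
    · rw [h3, if_pos rfl, mul_one]
    · intro j _ hj
      rw [h3, if_neg hj, mul_zero]
    · intro hj
      exact absurd (Finset.mem_univ _) hj

include h in
theorem dim_eq : X.dim = s + Y.dim := by
  obtain ⟨u, v, huv⟩ := exists_fr (X := Y) rfl (genericPoint Y.X)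
  obtain ⟨b, -, -⟩ := exists_basis (h.frm_dual huv.dual) (h.frm_expand huv.dual huv.expand)
  have := Module.finrank_eq_card_basis b
  rwa [Fintype.card_fin] at this

/-- The Jacobian matrix of the logarithmic frame. -/
theorem det_logfr {n : ℕ} (u : Fin n → Y.K) (δ : Fin n → Y.Der) :
    (Matrix.of fun i j => h.logfr δ j (TorusCoord.crd t φ u i)).det =
      (∏ i, t i) * φ.pull (Matrix.of fun i j => δ j (u i)).det := by
  have h1 : (Matrix.of fun i j => h.logfr δ j (TorusCoord.crd t φ u i)) =
      (Matrix.fromBlocks (Matrix.diagonal t) 0 0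
        ((Matrix.of fun i j => δ j (u i)).map φ.pull)).submatrix
        finSumFinEquiv.symm finSumFinEquiv.symm := by
    ext i j
    refine Fin.addCases (fun i => ?_) (fun l => ?_) i <;>
      refine Fin.addCases (fun j => ?_) (fun m => ?_) j
    · simp only [logfr, TorusCoord.crd, Fin.append_left, Matrix.of_apply, Matrix.submatrix_apply,
        finSumFinEquiv_symm_apply_castAdd, Matrix.fromBlocks_apply₁₁, Matrix.diagonal_apply]
      rw [h.L_t]
      by_cases hij : i = j
      · subst hij
        rfl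
      · rw [if_neg hij, if_neg (Ne.symm hij)]
    · simp only [logfr, TorusCoord.crd, Fin.append_left, Fin.append_right, Matrix.of_apply,
        Matrix.submatrix_apply, finSumFinEquiv_symm_apply_castAdd,
        finSumFinEquiv_symm_apply_natAdd, Matrix.fromBlocks_apply₁₂, Matrix.zero_apply]
      rw [h.lift_t]
    · simp only [logfr, TorusCoord.crd, Fin.append_left, Fin.append_right, Matrix.of_apply,
        Matrix.submatrix_apply, finSumFinEquiv_symm_apply_castAdd,
        finSumFinEquiv_symm_apply_natAdd, Matrix.fromBlocks_apply₂₁, Matrix.zero_apply]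
      rw [h.L_pull']
    · simp only [logfr, TorusCoord.crd, Fin.append_right, Matrix.of_apply, Matrix.submatrix_apply,
        finSumFinEquiv_symm_apply_natAdd, Matrix.fromBlocks_apply₂₂, Matrix.map_apply]
      rw [h.lift_pull]
  rw [h1, Matrix.det_submatrix_equiv_self, Matrix.det_fromBlocks_zero₂₁, Matrix.det_diagonal,
    RingHom.map_det, RingHom.mapMatrix_apply]

/-- The values of the invariant form. -/
theorem topVal_eq {ω : X.Ten X.dim} (hω : IsAlt ω) {η : Y.Ten Y.dim}
    (hη : ∀ δ : Fin Y.dim → Y.Der, topVal h.dim_eq ω (h.logfr δ) = φ.pull (η δ))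
    {u : Fin Y.dim → Y.K} {v : Fin Y.dim → Y.Der}
    (h1 : ∀ i j, v i (u j) = if i = j then 1 else 0)
    (h2 : ∀ δ : Y.Der, δ = ∑ i, δ (u i) • v i) (V : Fin (s + Y.dim) → X.Der) :
    topVal h.dim_eq ω V * ∏ i, t i =
      φ.pull (η v) * (Matrix.of fun i j => V j (TorusCoord.crd t φ u i)).det := by
  have hval := topVal_det h.dim_eq hω (h.frm_dual h1) (h.frm_expand h1 h2)
  have hdet1 : (Matrix.of fun i j => v j (u i)).det = 1 := by
    have h4 : (Matrix.of fun i j => v j (u i)) = (1 : Matrix (Fin Y.dim) (Fin Y.dim) Y.K) := by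
      ext i j
      rw [Matrix.of_apply, h1, Matrix.one_apply]
      by_cases h : i = j
      · rw [if_pos h, if_pos h.symm]
      · rw [if_neg h, if_neg (Ne.symm h)]
    rw [h4, Matrix.det_one]
  have h3 := hη v
  rw [hval (h.logfr v), h.det_logfr u v, hdet1, map_one, mul_one] at h3
  rw [hval V, ← h3]
  ring

variable {ω : X.Ten X.dim} (hω0 : ω ≠ 0) (hω : IsAlt ω) {κ' : Div X.X} (hκ' : IsDivTensor ω κ')
  {η : Y.Ten Y.dim}
  (hη : ∀ δ : Fin Y.dim → Y.Der, topVal h.dim_eq ω (h.logfr δ) = φ.pull (η δ))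

include hω0 hω hκ' hη

/-- The pull back of a regular form is regular. -/
theorem nonneg_of_regular {x : X.X} (hx : coheight x = 1) (hgen : φ.f x ≠ genericPoint Y.X)
    {u : Fin Y.dim → Y.K} {v : Fin Y.dim → Y.Der} (huv : Fr (φ.f x) u v) {f : Y.K}
    (hf : f ≠ 0) (hreg : f * η v ∈ locRing Y (φ.f x)) :
    0 ≤ Scheme.ord (φ.pull f) x + coef κ' x := by
  obtain ⟨V, hV, hV0, hV1⟩ := exists_log h.dim_eq hω0 hω hκ' hx
  obtain ⟨c, l, b, hc, hb, hcb⟩ := exists_unit_der hgen huv
  have hpr : ∏ i, t i ≠ 0 := Finset.prod_ne_zero_iff.2 fun i _ => h.ne i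
  -- the matrix
  let a : Fin (s + Y.dim) → X.K := Fin.append t⁻¹ 1
  let M : Matrix (Fin (s + Y.dim)) (Fin (s + Y.dim)) X.K :=
    Matrix.of fun i j => a i * V j (TorusCoord.crd t φ u i)
  have hM : (Matrix.of fun i j => V j (TorusCoord.crd t φ u i)).det = (∏ i, t i) * M.det := by
    have h1 : M.det = (∏ i, a i) * (Matrix.of fun i j => V j (TorusCoord.crd t φ u i)).det :=
      Matrix.det_mul_column a _
    have h2 : ∏ i, a i = (∏ i, t i)⁻¹ := by
      rw [Fin.prod_univ_add]
      simp only [a, Fin.append_left, Fin.append_right, Pi.inv_apply, Pi.one_apply,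
        Finset.prod_const_one, mul_one, Finset.prod_inv_distrib]
    rw [h1, h2, ← mul_assoc, mul_inv_cancel₀ hpr, one_mul]
  have hMmem : ∀ i j, M i j ∈ locRing X x := by
    intro i j
    refine Fin.addCases (fun i => ?_) (fun m => ?_) i
    · simp only [M, a, TorusCoord.crd, Matrix.of_apply, Fin.append_left, Pi.inv_apply]
      rw [← og_iff hx]
      intro hne
      have h1 : V j (t i) ≠ 0 := right_ne_zero_of_mul hne
      rw [Scheme.ord_mul (inv_ne_zero (h.ne i)) h1, Q.ord_inv (h.ne i)]
      have := hV j _ _ (og_self (t i)) h1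
      linarith
    · simp only [M, a, TorusCoord.crd, Matrix.of_apply, Fin.append_right, Pi.one_apply, one_mul]
      rw [← og_iff hx]
      exact hV j _ _ ((og_iff hx).2 (pull_mem_locRing φ (huv.mem m)))
  -- the determinant vanishes at `x`
  have hcx : og x 1 (φ.pull (toK (φ.f x) c)) := by
    intro hne
    have h1 : φ.pull (toK (φ.f x) c) = toK x (φ.f.stalkMap x c) := φ.pull_stalk x c
    rw [h1] at hne ⊢
    have h2 : φ.f.stalkMap x c ≠ 0 := fun h0 => hne (by rw [h0, map_zero])
    have h3 := ord_toK_nonneg (y := x) (φ.f.stalkMap x c)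
    have h4 : Scheme.ord (toK x (φ.f.stalkMap x c)) x ≠ 0 := fun h0 =>
      hc (isUnit_of_map_unit (φ.f.stalkMap x).hom c
        (Vale.Agent.P299.G.isUnit_of_ord_eq_zero X.dvr hx h2 h0))
    omega
  have hdet : og x 1 M.det := by
    let e : Fin (s + Y.dim) → X.K := Fin.append 0 fun m => φ.pull (v m (toK (φ.f x) c))
    have he : Matrix.vecMul e M = fun j => V j (φ.pull (toK (φ.f x) c)) := by
      funext j
      rw [φ.chain huv.dual huv.expand (V j)]
      change ∑ i, e i * M i j = _
      rw [Fin.sum_univ_add]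
      simp only [e, M, a, TorusCoord.crd, Matrix.of_apply, Fin.append_left, Fin.append_right, Pi.zero_apply,
        zero_mul, Finset.sum_const_zero, zero_add, Pi.one_apply, one_mul]
      exact Finset.sum_congr rfl fun m _ => mul_comm _ _
    have h1 : Matrix.vecMul (fun j => V j (φ.pull (toK (φ.f x) c))) M.adjugate
        (Fin.natAdd s l) = M.det * e (Fin.natAdd s l) := by
      rw [← he, Matrix.vecMul_vecMul, Matrix.mul_adjugate, Matrix.vecMul_smul, Matrix.vecMul_one]
      rfl
    have hel : e (Fin.natAdd s l) = φ.pull (toK (φ.f x) b) := by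
      simp only [e, Fin.append_right]
      rw [hcb]
    have h2 : og x 1 (φ.pull (toK (φ.f x) b) * M.det) := by
      rw [mul_comm, ← hel, ← h1]
      change og x 1 (∑ i, V i (φ.pull (toK (φ.f x) c)) * M.adjugate i (Fin.natAdd s l))
      refine og_sum hx _ _ fun i _ => ?_
      have h3 := (hV i 1 _ hcx).mul ((og_iff hx).2 (adjugate_mem hMmem i (Fin.natAdd s l)))
      rwa [add_zero] at h3
    have h3 : φ.pull (toK (φ.f x) b) ≠ 0 := φ.pull_ne_zero (toK_ne_zero hb.ne_zero)
    have h4 := h2.of_mul h3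
    rwa [show Scheme.ord (φ.pull (toK (φ.f x) b)) x = 0 from φ.ord_pull_of_isUnit x hb,
      sub_zero] at h4
  -- conclusion
  have hK := h.topVal_eq hω hη huv.dual huv.expand V
  rw [hM] at hK
  have hK2 : topVal h.dim_eq ω V = φ.pull (η v) * M.det := by
    have h1 : topVal h.dim_eq ω V * ∏ i, t i = (φ.pull (η v) * M.det) * ∏ i, t i := by
      rw [hK]
      ring
    exact mul_right_cancel₀ hpr h1
  have h5 : og x 0 (φ.pull (f * η v)) := (og_iff hx).2 (pull_mem_locRing φ hreg)
  have h6 := h5.mul hdet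
  have h7 : φ.pull (f * η v) * M.det = φ.pull f * topVal h.dim_eq ω V := by
    rw [hK2, map_mul]
    ring
  rw [h7] at h6
  have h8 := h6 (mul_ne_zero (φ.pull_ne_zero hf) hV0)
  rw [Scheme.ord_mul (φ.pull_ne_zero hf) hV0, hV1] at h8
  linarith

end

end TransCoord

end Vale.Agent.P299.Q
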