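import Vale.Agent.P299.Q.TorMain
import Vale.Agent.P299.Q.EqfCoord

/-!
# The direct image of the relative canonical bundle, without an action on the total space
-/

open CategoryTheory TopologicalSpace Opposite TopCat AlgebraicGeometry Order

namespace Vale.Agent.P299.Q

open Vale.Agent.P299.G

/-- **The global sections** of `O_X(κ' + cjL' + φ^*B)` which come from the base, where `κ' + L'`
is effective. -/
theorem exists_direct_image_eqf (hFS : FactorialStalks) {s : ℕ} {X Y : Var} {φ : DomHom X Y}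
    {t : Fin s → X.K} (h : TransCoord φ t) {ω : X.Ten X.dim} (h0 : ω ≠ 0) (ha : IsAlt ω)
    {κ' : Div X.X} (hκ' : IsDivTensor ω κ') {η : Y.Ten Y.dim} (e0 : η ≠ 0) (ea : IsAlt η)
    (hη : ∀ δ : Fin Y.dim → Y.Der, topVal h.dim_eq ω (h.logfr δ) = φ.pull (η δ))
    {κY : Div Y.X} (hκY : IsDivTensor η κY) {E L' : Div X.X} (hE : 0 ≤ E) (hL : L' = E - κ')
    (hor : ∀ x : X.X, coheight x = 1 → φ.f x = genericPoint Y.X → 0 ≤ coef L' x)
    (hver : ∀ x : X.X, coheight x = 1 → coheight (φ.f x) = 1 → ∀ e : ℤ, 1 ≤ e →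
      (∀ g : Y.K, g ≠ 0 → Scheme.ord (φ.pull g) x = e * Scheme.ord g (φ.f x)) →
      ∀ (n : ℕ) (B : Div Y.X) (B' : Div X.X), IsPullback φ B B' → ∀ f : Y.K, f ≠ 0 →
      (∀ x' : X.X, coheight x' = 1 → φ.f x' ⤳ φ.f x →
        0 ≤ Scheme.ord (φ.pull f) x' + coef (κ' + n • L' + B') x') →
      1 ≤ e * (Scheme.ord f (φ.f x) + coef B (φ.f x) + coef κY (φ.f x) + 1) + n * coef L' x)
    (W : Set X.X) (hW : ∀ x ∈ W, coheight x = 1 ∧ coheight (φ.f x) ≤ 1)
    (hWs : ∀ y : Y.X, coheight y = 1 → ∃ x ∈ W, φ.f x = y)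
    (star : ∀ (c : ℕ) (R : Div Y.X) (R' : Div X.X), IsPullback φ R R' →
      (∀ x ∈ W, coef R' x ≤ coef (c • L') x) → R' ≤ c • L') :
    ∃ (M : Div Y.X) (c : ℕ), 0 < c ∧ ∀ j : ℕ, 0 < j → ∀ (B : Div Y.X) (B' : Div X.X),
      IsPullback φ B B' → ∀ f : X.K,
        (∃ g ∈ H0 (coef (κY + j • M + B)), φ.pull g = f) ↔
          (∃ g : Y.K, φ.pull g = f) ∧ f ∈ H0 (coef (κ' + (c * j) • L' + B')) := by
  have hE' : ∀ x, 0 ≤ coef E x := by
    intro x
    by_cases hx : coheight x = 1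
    · rw [coef_mk hx]
      exact hE ⟨x, hx⟩
    · rw [coef_of_ne hx]
  obtain ⟨c, hc, M, hM⟩ := exists_M hFS φ W hW hWs L' fun x hx hgx =>
    hor x (hW x hx).1 hgx
  obtain ⟨M', hM'⟩ := exists_isPullback hFS φ M
  obtain ⟨hMW, hMq⟩ := hM M' hM'
  have hM'L : ∀ x, coheight x = 1 → coef M' x ≤ c * coef L' x := by
    intro x hx
    have h1 := star c M M' hM' hMW ⟨x, hx⟩
    have h2 : coef M' x ≤ coef (c • L') x := by
      rw [coef_mk hx, coef_mk hx]
      exact h1
    rwa [coef_nsmul] at h2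
  refine ⟨M, c, hc, fun j hj B B' hB f' => ?_⟩
  have hj1 : (1 : ℤ) ≤ j := by exact_mod_cast hj
  have hc1 : (1 : ℤ) ≤ c := by exact_mod_cast hc
  have hcoef : ∀ x, coef (κ' + (c * j) • L' + B') x =
      coef κ' x + j * (c * coef L' x) + coef B' x := by
    intro x
    rw [coef_add, coef_add, coef_nsmul]
    push_cast
    ring
  have hcoefY : ∀ y, coef (κY + j • M + B) y = coef κY y + j * coef M y + coef B y := by
    intro y
    rw [coef_add, coef_add, coef_nsmul]
  -- from `Y` to `X`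
  have hfwd : ∀ f : Y.K, f ≠ 0 →
      (∀ y : Y.X, coheight y = 1 → 0 ≤ Scheme.ord f y + coef (κY + j • M + B) y) →
      ∀ x : X.X, coheight x = 1 →
        0 ≤ Scheme.ord (φ.pull f) x + coef (κ' + (c * j) • L' + B') x := by
    intro f hf hfU x hx
    rw [hcoef]
    by_cases hgx : φ.f x = genericPoint Y.X
    · rw [φ.ord_pull_of_generic x hgx hf, zero_add, hB.coef_eq_zero hx hgx, add_zero]
      have h1 := hor x hx hgx
      have h2 : coef L' x = coef E x - coef κ' x := by rw [hL, coef_sub]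
      have h3 := hE' x
      have h4 : 0 ≤ ((j : ℤ) * c - 1) * coef L' x := by
        refine mul_nonneg ?_ h1
        nlinarith
      nlinarith
    · have hUFD := hFS Y (φ.f x)
      obtain ⟨m, hm⟩ := exists_genAt M (φ.f x)
      obtain ⟨b, hb⟩ := exists_genAt B (φ.f x)
      obtain ⟨u, v, huv⟩ := exists_fr (X := Y) rfl (φ.f x)
      have hηv := huv.genAt rfl e0 ea hκY
      have hηv0 : η v ≠ 0 := hηv.1
      have hmj : (m ^ j * b)⁻¹ ≠ 0 := inv_ne_zero (mul_ne_zero (pow_ne_zero _ hm.1) hb.1)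
      have hreg : (f * (m ^ j * b)⁻¹) * η v ∈ locRing Y (φ.f x) := by
        obtain ⟨a, ha⟩ := exists_of_forall_ord_nonneg Y.dvr (φ.f x) ((f * (m ^ j * b)⁻¹) * η v)
          fun q hq hqx => by
            rw [Scheme.ord_mul (mul_ne_zero hf hmj) hηv0, Scheme.ord_mul hf hmj,
              Q.ord_inv (mul_ne_zero (pow_ne_zero _ hm.1) hb.1),
              Scheme.ord_mul (pow_ne_zero _ hm.1) hb.1, Q.ord_pow hm.1]
            have h1 := hm.2 q hq hqx
            have h1' := hb.2 q hq hqx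
            have h2 : Scheme.ord (η v) q + coef (-κY) q = 0 := hηv.2 q hq hqx
            rw [coef_neg] at h2
            have h4 := hfU q hq
            rw [hcoefY] at h4
            have h5 : Scheme.ord m q = -coef M q := by linarith
            have h5' : Scheme.ord b q = -coef B q := by linarith
            rw [h5, h5']
            linarith
        exact ⟨a, ha⟩
      have h1 := h.nonneg_of_regular h0 ha hκ' hη hx hgx huv (mul_ne_zero hf hmj) hreg
      have h5 := hM'.ord_pull hFS hx hm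
      have h5' := hB.ord_pull hFS hx hb
      have hm0 := φ.pull_ne_zero hm.1
      have hb0 := φ.pull_ne_zero hb.1
      rw [map_mul, map_inv₀, map_mul, map_pow, Scheme.ord_mul (φ.pull_ne_zero hf)
        (inv_ne_zero (mul_ne_zero (pow_ne_zero _ hm0) hb0)),
        Q.ord_inv (mul_ne_zero (pow_ne_zero _ hm0) hb0),
        Scheme.ord_mul (pow_ne_zero _ hm0) hb0, Q.ord_pow hm0] at h1
      have h3 := hM'L x hx
      have h4 : (j : ℤ) * coef M' x ≤ j * (c * coef L' x) :=
        mul_le_mul_of_nonneg_left h3 (by linarith)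
      rw [h5, h5'] at h1
      linarith
  -- from `X` to `Y`
  have hbwd : ∀ f : Y.K, f ≠ 0 →
      (∀ x : X.X, coheight x = 1 →
        0 ≤ Scheme.ord (φ.pull f) x + coef (κ' + (c * j) • L' + B') x) →
      ∀ y : Y.X, coheight y = 1 → 0 ≤ Scheme.ord f y + coef (κY + j • M + B) y := by
    intro f hf hfU y hy
    obtain ⟨x, hx, rfl, hxM⟩ := hMq y hy
    obtain ⟨e, he, hmult⟩ := φ.exists_mult x hx hy
    have h1 := hver x hx hy e he hmult (c * j) B B' hB f hf fun x' hx' _ => hfU x' hx'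
    have h3 : (c : ℤ) * coef L' x = e * coef M (φ.f x) := by
      have h4 := hM'.coef_eq_mult hFS hx hy hmult
      linarith
    have h4 : (((c * j : ℕ) : ℤ)) * coef L' x = j * (e * coef M (φ.f x)) := by
      rw [← h3]
      push_cast
      ring
    rw [h4] at h1
    rw [hcoefY]
    have h5 : 1 ≤ e * (Scheme.ord f (φ.f x) + (coef κY (φ.f x) + j * coef M (φ.f x) +
        coef B (φ.f x)) + 1) := by
      linarith
    by_contra hneg
    push Not at hneg
    have h6 : Scheme.ord f (φ.f x) + (coef κY (φ.f x) + j * coef M (φ.f x) +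
        coef B (φ.f x)) + 1 ≤ 0 := by omega
    have h7 := mul_nonpos_of_nonneg_of_nonpos (show (0 : ℤ) ≤ e by linarith) h6
    linarith
  -- conclusion
  constructor
  · rintro ⟨g, hg, rfl⟩
    refine ⟨⟨g, rfl⟩, ?_⟩
    rw [mem_H0] at hg ⊢
    intro x hx hne
    have hg0 : g ≠ 0 := by
      rintro rfl
      exact hne (map_zero φ.pull)
    exact hfwd g hg0 (fun y hyc => hg y hyc hg0) x hx
  · rintro ⟨⟨g, rfl⟩, hf⟩
    refine ⟨g, ?_, rfl⟩
    rw [mem_H0] at hf ⊢
    intro y hyc hg0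
    exact hbwd g hg0 (fun x hx => hf x hx (φ.pull_ne_zero hg0)) y hyc

end Vale.Agent.P299.Q
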