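import Vale.Agent.P299.Q.FlFlat
import Vale.Agent.P299.Q.TorRat
import Vale.Agent.P299.Q.TorCanon
import Vale.Agent.P299.Q.StepDet
import Vale.Agent.P299.Q.AsymPull

/-!
# Stability of spaces of sections on a resolution which is not equivariant
-/

open CategoryTheory TopologicalSpace Opposite TopCat AlgebraicGeometry Order

namespace Vale.Agent.P299.Q

open Vale.Agent.P299.G

variable {r : ℕ} {Z Z' Y W : Var}

/-- An invariant divisor is its own pull back. -/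
theorem TAct.InvDiv.isPullback_act {τ : TAct r Z} {S : Div Z.X} (hS : τ.InvDiv S)
    (σ : Fin r → ℂˣ) : IsPullback (τ.act σ) S S := by
  intro x hx
  have := factorialStalks Z ((τ.act σ).f x)
  obtain ⟨g, hg⟩ := exists_genAt (-S) ((τ.act σ).f x)
  refine ⟨g, hg, ?_⟩
  have h1 := hg.2 ((τ.act σ).f x) (by rw [τ.coheight_act]; exact hx) specializes_rfl
  rw [coef_neg, hS] at h1
  rw [τ.ord_act]
  omega

/-- The transport of an invariant form. -/
theorem upTop_upTop_eq {τ : TAct r Z} {μ : DomHom Z' Z} (hμ : μ.Birational) {π₁ π₂ : DomHom W Z'}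
    (h₁ : π₁.Birational) (h₂ : π₂.Birational) {σ : Fin r → ℂˣ}
    (h : ∀ a : Z.K, π₂.pull (μ.pull a) = π₁.pull (μ.pull ((τ.act σ).pull a)))
    {ω : Z.Ten Z.dim} (hω : τ.InvTensor ω) :
    h₂.upTop (hμ.upTop ω) = h₁.upTop (hμ.upTop ω) := by
  ext v
  rw [h₂.upTop_apply, hμ.upTop_apply, h₁.upTop_apply, hμ.upTop_apply]
  have key := hω σ
    (fun k => hμ.down (h₂.down (v (Fin.cast h₂.dim_eq.symm (Fin.cast hμ.dim_eq.symm k)))))
    (fun k => hμ.down (h₁.down (v (Fin.cast h₁.dim_eq.symm (Fin.cast hμ.dim_eq.symm k)))))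
    (fun i f => by
      rw [hμ.down_apply, h₁.down_apply]
      apply μ.pull_injective
      apply π₁.pull_injective
      rw [← h]
      have e1 : ∀ b : Z'.K, μ.pull (hμ.equiv.symm b) = b := fun b => hμ.equiv.apply_symm_apply b
      have e2 : ∀ b : W.K, π₁.pull (h₁.equiv.symm b) = b := fun b => h₁.equiv.apply_symm_apply b
      have e3 : ∀ b : W.K, π₂.pull (h₂.equiv.symm b) = b := fun b => h₂.equiv.apply_symm_apply b
      rw [e1, e2, hμ.down_apply, e1, h₂.down_apply, e3, h₁.equiv_apply, hμ.equiv_apply,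
        h₂.equiv_apply, hμ.equiv_apply, h])
  have key' : h₁.equiv (hμ.equiv (ω fun k =>
      hμ.down (h₁.down (v (Fin.cast h₁.dim_eq.symm (Fin.cast hμ.dim_eq.symm k)))))) =
      h₂.equiv (hμ.equiv (ω fun k =>
      hμ.down (h₂.down (v (Fin.cast h₂.dim_eq.symm (Fin.cast hμ.dim_eq.symm k)))))) := by
    rw [key]
    exact (h _).symm
  exact key'.symm

/-- **Stability** of the space of sections. -/
theorem H0_stable (hR : Resolution) (τ : TAct r Z) {μ : DomHom Z' Z} (hμ : μ.Birational)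
    {φ : DomHom Z' Y} (hφ : ∀ a, ∃ g ∈ τ.inv, μ.pull g = φ.pull a) {ω : Z.Ten Z.dim}
    (hω0 : ω ≠ 0) (hω : IsAlt ω) (hinv : τ.InvTensor ω) {κ' : Div Z'.X}
    (hκ' : IsDivTensor (hμ.upTop ω) κ') {S : Div Z.X} (hS : τ.InvDiv S) {S' : Div Z'.X}
    (hS' : IsPullback μ S S') {A : Div Y.X} {A' : Div Z'.X} (hA' : IsPullback φ A A') (f : Z.K)
    (hf : μ.pull f ∈ H0 (coef (κ' + S' + A'))) (σ : Fin r → ℂˣ) :
    μ.pull ((τ.act σ).pull f) ∈ H0 (coef (κ' + S' + A')) := by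
  have hFS := factorialStalks
  let ψ : Z'.K →ₐ[ℂ] Z'.K :=
    { (hμ.equiv.toRingHom.comp ((τ.act σ).pull.comp hμ.equiv.symm.toRingHom)) with
      commutes' := fun c => by
        change hμ.equiv ((τ.act σ).pull (hμ.equiv.symm (algebraMap ℂ Z'.K c))) = _
        have h1 : hμ.equiv.symm (algebraMap ℂ Z'.K c) = algebraMap ℂ Z.K c := by
          rw [RingEquiv.symm_apply_eq, hμ.equiv_apply, μ.pull_constant]
        rw [h1, (τ.act σ).pull_constant, hμ.equiv_apply, μ.pull_constant] }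
  have hψ : ∀ a : Z.K, ψ (μ.pull a) = μ.pull ((τ.act σ).pull a) := by
    intro a
    change hμ.equiv ((τ.act σ).pull (hμ.equiv.symm (μ.pull a))) = _
    rw [← hμ.equiv_apply a, RingEquiv.symm_apply_apply]
    rfl
  obtain ⟨W, π₁, π₂, h₁, h12⟩ := exists_join hR Z' Z' ψ
  have h : ∀ a : Z.K, π₂.pull (μ.pull a) = π₁.pull (μ.pull ((τ.act σ).pull a)) := by
    intro a
    rw [h12, hψ]
  have h₂ : π₂.Birational := by
    refine ⟨π₂.pull_injective, fun b => ?_⟩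
    obtain ⟨c, rfl⟩ := h₁.2 b
    obtain ⟨a, rfl⟩ := hμ.2 c
    obtain ⟨a', rfl⟩ := (τ.act_birational σ).2 a
    exact ⟨μ.pull a', h a'⟩
  -- the canonical divisors
  have hω0' := hμ.upTop_ne_zero hω0
  have hω' := hμ.upTop_isAlt hω
  obtain ⟨κ₁, κ₁₀, E₁, hκ₁, hpb₁, he₁, hE₁, hEx₁⟩ :=
    exists_relative_canonical_form hFS h₁ hω0' hω' hκ'
  obtain ⟨κ₂, κ₂₀, E₂, hκ₂, hpb₂, he₂, hE₂, hEx₂⟩ :=
    exists_relative_canonical_form hFS h₂ hω0' hω' hκ'
  have hκ12 : κ₂ = κ₁ := by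
    rw [upTop_upTop_eq hμ h₁ h₂ h hinv] at hκ₂
    exact hκ₂.unique hκ₁
  have hrel₁ : RelCanonical π₁ κ' κ₁ :=
    ⟨h₁, ⟨hμ.upTop ω, hω0', hω', hκ'⟩, ⟨_, h₁.upTop_ne_zero hω0', h₁.upTop_isAlt hω', hκ₁⟩,
      κ₁₀, E₁, hpb₁, he₁, hE₁, hEx₁⟩
  have hrel₂ : RelCanonical π₂ κ' κ₂ :=
    ⟨h₂, ⟨hμ.upTop ω, hω0', hω', hκ'⟩, ⟨_, h₂.upTop_ne_zero hω0', h₂.upTop_isAlt hω', hκ₂⟩,
      κ₂₀, E₂, hpb₂, he₂, hE₂, hEx₂⟩
  -- the divisors
  obtain ⟨S₁, hS₁⟩ := exists_isPullback hFS π₁ S'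
  obtain ⟨S₂, hS₂⟩ := exists_isPullback hFS π₂ S'
  obtain ⟨A₁, hA₁⟩ := exists_isPullback hFS π₁ A'
  obtain ⟨A₂, hA₂⟩ := exists_isPullback hFS π₂ A'
  have hS12 : S₂ = S₁ := by
    have e1 : (π₁.comp μ).comp (τ.act σ) = π₂.comp μ := by
      apply DomHom.ext'
      apply DomHom.f_eq_of_pull_eq
      ext a
      rw [DomHom.pull_comp, DomHom.pull_comp, DomHom.pull_comp, h]
    have e2 := (hS.isPullback_act σ).comp hFS (hS'.comp hFS hS₁)
    rw [e1] at e2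
    exact (hS'.comp hFS hS₂).unique hFS e2
  have hA12 : A₂ = A₁ := by
    have e1 : π₁.comp φ = π₂.comp φ := by
      apply DomHom.ext'
      apply DomHom.f_eq_of_pull_eq
      ext a
      obtain ⟨g, hg, hga⟩ := hφ a
      rw [DomHom.pull_comp, DomHom.pull_comp, ← hga, h, hg σ]
    have e2 := hA'.comp hFS hA₁
    rw [e1] at e2
    exact (hA'.comp hFS hA₂).unique hFS e2
  rw [add_assoc] at hf ⊢
  have h3 := (hrel₂.pull_mem_iff hFS (hS₂.add hA₂) (μ.pull f)).2 hf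
  rw [hκ12, hS12, hA12, h] at h3
  exact (hrel₁.pull_mem_iff hFS (hS₁.add hA₁) _).1 h3

end Vale.Agent.P299.Q
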