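import Vale.Agent.P299.Q.Stage2

/-!
# Anticanonical nonvanishing from the invariant cohomology of the fibre
-/

open CategoryTheory TopologicalSpace Opposite TopCat AlgebraicGeometry Order

namespace Vale.Agent.P299.Q

/-- `Z` has no nonzero regular differential forms of positive degree. -/
def NoForms (Z : Var) : Prop :=
  ∀ (p : ℕ) (e : Z.Ten p), 0 < p → IsAlt e → IsTwTensor e 0 → e = 0

/-- The invariant cohomology of the multiples of the anticanonical divisor does not vanish. -/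
def InvariantCoh : Prop :=
  ∀ (r : ℕ) (Z : Var) (τ : TAct r Z) (κ : Div Z.X), τ.IsCanonical κ → τ.InvDiv κ →
    SemiPos (-κ) → NoForms Z → ∀ M₀ : ℕ, ∃ k ≥ M₀, ∃ i, τ.h (k • -κ) i ≠ 0

/-- The structure theorem, in the form used here. -/
def StructureTheoremF : Prop :=
  ∀ (X : Var) (κ : Div X.X), IsCanonicalDivisor κ → SemiPos (-κ) →
    ∃ (Xc : Var) (π : DomHom Xc X) (κc : Div Xc.X) (Z : Var) (r : ℕ) (τ : TAct r Z)
      (κZ : Div Z.X),
      IsFinite π.f ∧ Etale π.f ∧ IsPullback π κ κc ∧ IsCanonicalDivisor κc ∧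
      τ.IsCanonical κZ ∧ τ.InvDiv κZ ∧ SemiPos (-κZ) ∧ NoForms Z ∧
      ∀ m i : ℕ, τ.h (m • -κZ) i ≤ hh (S := (Xc.X : TopCat.{0})) id ⊤ (m • -κc) i

/-- **Q1** from the core theorem, the structure theorem and the invariant cohomology. -/
theorem anticanonicalNonvanishing_of_coh (hcore : CoreStatement) (hFS : FactorialStalks)
    (hST : StructureTheoremF) (hIC : InvariantCoh) : AnticanonicalNonvanishing := by
  intro X κ hκ hSP
  obtain ⟨Xc, π, κc, Z, r, τ, κZ, hfin, -, hpb, hcanc, hcan, hinv, hSPZ, hNF, hle⟩ :=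
    hST X κ hκ hSP
  have hcoh := hIC r Z τ κZ hcan hinv hSPZ hNF
  obtain ⟨m, hm, hsec⟩ := hcore Xc κc hcanc (semiPos_pull hFS π hpb.neg hSP) fun M₀ => by
    obtain ⟨k, hk, i, hi⟩ := hcoh M₀
    exact ⟨k, hk, i, fun h0 => hi (Nat.le_zero.1 ((hle k i).trans h0.le))⟩
  obtain ⟨f, hf, hf0⟩ := H0_ne_bot_iff.1 hsec
  obtain ⟨d, hd, hnorm⟩ := exists_norm π hFS
  obtain ⟨s, hs, hs0⟩ := hnorm (m • -κ) (m • -κc) (hpb.neg.nsmul m) _ hf hf0
  refine ⟨d * m, Nat.mul_pos hd hm, H0_ne_bot_iff.2 ⟨s, ?_, hs0⟩⟩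
  rwa [mul_smul]

end Vale.Agent.P299.Q
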