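import Vale.Agent.P299.Q.TorForms
import Vale.Agent.P299.Q.TorFinal

/-!
# Pull back of regular differential forms
-/

open CategoryTheory TopologicalSpace Opposite TopCat AlgebraicGeometry Order

namespace Vale.Agent.P299.Q

open Vale.Agent.P299.G

variable {X Y Z : Var}

/-- The pull back of a form is a form. -/
theorem pullTen_isAlt (φ : DomHom X Y) {n p : ℕ} (t : Fin n → Y.K) (w : Fin n → Y.Der)
    {e : Y.Ten p} (he : IsAlt e) : IsAlt (pullTen φ t w e) := by
  classical
  intro v i j hv hij
  rw [pullTen_apply]
  let g : Y.Der [⋀^Fin p]→ₗ[Y.K] Y.K := { e with map_eq_zero_of_eq' := fun v i j h hij => he v i j h hij }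
  have hswap : ∀ r : Fin p → Fin n, e (fun k => w (r (Equiv.swap i j k))) =
      -e (fun k => w (r k)) := by
    intro r
    exact g.map_swap (fun k => w (r k)) hij
  have hprod : ∀ r : Fin p → Fin n, ∏ k, v k (φ.pull (t (r (Equiv.swap i j k)))) =
      ∏ k, v k (φ.pull (t (r k))) := by
    intro r
    have h1 : ∀ k, v (Equiv.swap i j k) = v k := by
      intro k
      by_cases hki : k = i
      · rw [hki, Equiv.swap_apply_left, hv]
      · by_cases hkj : k = j
        · rw [hkj, Equiv.swap_apply_right, hv]
        · rw [Equiv.swap_apply_of_ne_of_ne hki hkj]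
    refine Fintype.prod_equiv (Equiv.swap i j) _ _ fun k => ?_
    rw [h1]
  refine Finset.sum_involution (fun r _ => fun k => r (Equiv.swap i j k)) ?_ ?_ ?_ ?_
  · intro r _
    rw [hswap, hprod, map_neg]
    ring
  · intro r _ hne heq
    apply hne
    have h1 : r i = r j := by
      have := congrFun heq j
      rwa [Equiv.swap_apply_right] at this
    rw [he (fun k => w (r k)) i j (by rw [h1]) hij, map_zero, zero_mul]
  · intro r _
    exact Finset.mem_univ _
  · intro r _
    funext k
    simp

/-- Regular forms on `Y` give regular forms on `Z`. -/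
theorem noForms_of (φ : DomHom X Y) {μ : DomHom X Z} (hμ : μ.Birational) (h : NoForms Z) :
    NoForms Y := by
  intro p e hp hea he
  by_contra he0
  obtain ⟨t, w, hfr⟩ := exists_fr (X := Y) rfl (genericPoint Y.X)
  have he₁ : ∀ (x : X.X) (v : Fin p → X.Der), (∀ k, RegDer x (v k)) →
      pullTen φ t w e v ∈ locRing X x := fun x v hv =>
    pullTen_mem factorialStalks φ hfr.expand he hv
  have he₁0 : pullTen φ t w e ≠ 0 := by
    intro h0
    apply he0
    ext u
    choose v hv using fun k => φ.exists_lift (u k)
    have h1 := pullTen_lift φ hfr.expand e v u hv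
    rw [h0] at h1
    exact (map_eq_zero φ.pull).1 h1.symm
  have he₁a := pullTen_isAlt φ t w hea
  set e₁ := pullTen φ t w e with he₁def
  apply he₁0
  have hd := h p (hμ.downTen e₁) hp (fun v i j hv hij => by
    rw [hμ.downTen_apply, he₁a (fun k => hμ.up (v k)) i j (by rw [hv]) hij, map_zero])
    fun z hz v hv hne => by
      obtain ⟨x, rfl⟩ := μ.surjective z
      obtain ⟨hx, hord⟩ := ord_pull_of_birational μ hμ x hz
      have h1 : μ.pull (hμ.downTen e₁ v) = e₁ fun k => hμ.up (v k) := by
        rw [hμ.downTen_apply]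
        exact hμ.equiv.apply_symm_apply _
      have h2 := ord_nonneg_of_locRing (he₁ x (fun k => hμ.up (v k))
        fun k => hμ.regDer_up hz (hv k))
      rw [← h1, hord] at h2
      rwa [coef_zero, add_zero]
  ext v
  have h1 := hμ.downTen_apply e₁ (fun k => hμ.down (v k))
  rw [hd] at h1
  have h2 : (fun k => hμ.up (hμ.down (v k))) = v := by
    funext k
    exact hμ.up_down _
  rw [h2] at h1
  have h3 : hμ.equiv.symm (e₁ v) = 0 := h1.symm
  exact (map_eq_zero hμ.equiv.symm).1 h3

/-- If `X` has no regular forms of positive degree, then the Euler characteristic of the canonical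
bundle is nonzero. -/
theorem chi_canonical_ne_zero' (hLef : HardLefschetz) (hSD : SerreDuality) {κ : Div X.X}
    (hκ : IsCanonicalDivisor κ) (h : NoForms X) : chi κ ≠ 0 := by
  have hFS : FactorialStalks := factorialStalks
  have h0 : ∀ i, i ≠ X.dim → hX κ i = 0 := by
    intro i hi
    by_contra hne
    obtain ⟨p, hp, e, he, hea, htw⟩ := hLef X κ 0 hκ (isGenerated_zero.semiPos hFS) i
      (by rwa [add_zero])
    rcases Nat.eq_zero_or_pos p with hp0 | hp0
    · omega
    · exact he (h p e hp0 hea htw)
  have h1 : hX κ X.dim = 1 := by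
    rw [hSD X κ κ X.dim 0 hκ (add_zero _), sub_self]
    exact hh_zero_zero X (hFS X) _ _ trivial
  have h2 : chi κ = (-1) ^ X.dim * (hX κ X.dim : ℤ) := by
    unfold chi
    rw [Finset.sum_eq_single X.dim]
    · rfl
    · intro i _ hi
      have h3 : hh (S := (X.X : TopCat.{0})) id ⊤ κ i = 0 := h0 i hi
      rw [h3]
      simp
    · intro hni
      exact absurd (Finset.mem_range.2 (Nat.lt_succ_self _)) hni
  rw [h2, h1]
  simp

end Vale.Agent.P299.Q
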