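import Mathlib.Algebra.TrivSqZeroExt.Basic
import Mathlib.RingTheory.Localization.FractionRing
import Mathlib.RingTheory.Derivation.Basic
import Mathlib.Algebra.MvPolynomial.Eval
import Mathlib.Algebra.MvPolynomial.CommRing

/-!
# Derivations of purely transcendental extensions
-/

open MvPolynomial TrivSqZeroExt

namespace Vale.Agent.P299.Q

section

variable {C k K : Type*} [Field C] [Field k] [Field K] [Algebra C k] [Algebra C K] {ι : k →+* K}
  {r : ℕ} {t : Fin r → K}

/-- The homomorphism `a ↦ a + ε δ(a)`. -/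
noncomputable def dualHom (ι : k →+* K) (δ : Derivation C k k) : k →+* TrivSqZeroExt K K where
  toFun a := inl (ι a) + inr (ι (δ a))
  map_one' := by
    rw [Derivation.map_one_eq_zero, map_zero, inr_zero, map_one, add_zero, inl_one]
  map_mul' a b := by
    refine TrivSqZeroExt.ext ?_ ?_
    · simp
    · simp only [snd_add, snd_inl, snd_inr, zero_add, snd_mul, fst_add, fst_inl, fst_inr, add_zero,
        Derivation.leibniz, smul_eq_mul, map_add, map_mul, MulOpposite.smul_eq_mul_unop,
        MulOpposite.unop_op]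
      ring
  map_zero' := by
    rw [map_zero, map_zero, map_zero, inr_zero, inl_zero, add_zero]
  map_add' a b := by
    rw [map_add, map_add, map_add, inl_add, inr_add]
    abel

/-- Derivations of `K = k(t_1, …, t_r)` with given restriction to `k` and given values at
the `t_i`. -/
theorem exists_der (hι : ∀ c : C, ι (algebraMap C k c) = algebraMap C K c)
    (hinj : ∀ p : MvPolynomial (Fin r) k, eval₂ ι t p = 0 → p = 0)
    (hsurj : ∀ f : K, ∃ p q : MvPolynomial (Fin r) k, f = eval₂ ι t p / eval₂ ι t q)
    (δ : Derivation C k k) (c : Fin r → K) :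
    ∃ D : Derivation C K K, (∀ a, D (ι a) = ι (δ a)) ∧ ∀ i, D (t i) = c i := by
  let ev : MvPolynomial (Fin r) k →+* K := eval₂Hom ι t
  let _ : Algebra (MvPolynomial (Fin r) k) K := ev.toAlgebra
  have hf : FaithfulSMul (MvPolynomial (Fin r) k) K := by
    rw [faithfulSMul_iff_algebraMap_injective]
    exact (injective_iff_map_eq_zero ev).2 hinj
  have hfr : IsFractionRing (MvPolynomial (Fin r) k) K := IsFractionRing.of_field _ _ hsurj
  let Φ : MvPolynomial (Fin r) k →+* TrivSqZeroExt K K :=
    eval₂Hom (dualHom ι δ) (fun i => inl (t i) + inr (c i))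
  have hfst : (fstHom K K K).toRingHom.comp Φ = ev := by
    refine MvPolynomial.ringHom_ext (fun a => ?_) fun i => ?_
    · change fst (eval₂ (dualHom ι δ) _ (MvPolynomial.C a)) = eval₂ ι t (MvPolynomial.C a)
      rw [eval₂_C, eval₂_C]
      simp [dualHom]
    · change fst (eval₂ (dualHom ι δ) _ (X i)) = eval₂ ι t (X i)
      rw [eval₂_X, eval₂_X]
      simp
  have hunit : ∀ y : nonZeroDivisors (MvPolynomial (Fin r) k), IsUnit (Φ y) := by
    intro y
    rw [isUnit_iff_isUnit_fst]
    have h1 : fst (Φ y) = ev y := congrArg (fun F => F (y : MvPolynomial (Fin r) k)) hfst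
    rw [h1, isUnit_iff_ne_zero]
    intro h2
    exact nonZeroDivisors.ne_zero y.2 (hinj _ h2)
  let Ψ : K →+* TrivSqZeroExt K K :=
    IsLocalization.lift (M := nonZeroDivisors (MvPolynomial (Fin r) k)) (g := Φ) hunit
  have hΨ : ∀ p : MvPolynomial (Fin r) k, Ψ (eval₂ ι t p) = Φ p := fun p =>
    IsLocalization.lift_eq hunit p
  have hΨfst : ∀ f, fst (Ψ f) = f := by
    have h1 : (fstHom K K K).toRingHom.comp Ψ = RingHom.id K := by
      refine IsLocalization.ringHom_ext (nonZeroDivisors (MvPolynomial (Fin r) k)) ?_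
      refine RingHom.ext fun p => ?_
      change fst (Ψ (ev p)) = ev p
      rw [show Ψ (ev p) = Φ p from hΨ p]
      exact congrArg (fun F => F p) hfst
    exact fun f => congrArg (fun F => F f) h1
  have hΨι : ∀ a, Ψ (ι a) = inl (ι a) + inr (ι (δ a)) := by
    intro a
    have h1 := hΨ (MvPolynomial.C a)
    rw [eval₂_C] at h1
    rw [h1]
    change eval₂ (dualHom ι δ) _ (MvPolynomial.C a) = _
    rw [eval₂_C]
    rfl
  have hmul : ∀ f g, snd (Ψ (f * g)) = f * snd (Ψ g) + g * snd (Ψ f) := by
    intro f g
    rw [map_mul, snd_mul, hΨfst, hΨfst]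
    simp only [smul_eq_mul, MulOpposite.smul_eq_mul_unop, MulOpposite.unop_op]
    ring
  refine ⟨Derivation.mk' { toFun := fun f => snd (Ψ f)
                           map_add' := fun f g => by rw [map_add, snd_add]
                           map_smul' := fun a f => ?_ } fun f g => hmul f g, fun a => ?_,
    fun i => ?_⟩
  · rw [Algebra.smul_def, hmul, ← hι, hΨι, Derivation.map_algebraMap, map_zero, inr_zero,
      add_zero, snd_inl, mul_zero, add_zero, hι, RingHom.id_apply, Algebra.smul_def]
  · change snd (Ψ (ι a)) = _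
    rw [hΨι]
    simp
  · change snd (Ψ (t i)) = _
    have h1 := hΨ (X i)
    rw [eval₂_X] at h1
    rw [h1]
    change snd (eval₂ (dualHom ι δ) _ (X i)) = _
    rw [eval₂_X]
    simp

end

end Vale.Agent.P299.Q
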