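import Mathlib.Analysis.Complex.Polynomial.Basic
import Vale.Agent.P299.Q.TorDer
import Vale.Agent.P299.Q.Ramify
import Vale.Agent.P299.Q.Strict

/-!
# Semi-invariant coordinates of a torus action, and logarithmic vector fields
-/

open CategoryTheory TopologicalSpace Opposite TopCat AlgebraicGeometry Order

namespace Vale.Agent.P299.Q

/-- The character of weight `w`. -/
noncomputable def chr {r : ℕ} (w : Fin r → ℤ) (σ : Fin r → ℂˣ) : ℂ := ∏ j, ((σ j : ℂ)) ^ (w j)

theorem chr_ne_zero {r : ℕ} (w : Fin r → ℤ) (σ : Fin r → ℂˣ) : chr w σ ≠ 0 :=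
  Finset.prod_ne_zero_iff.2 fun _ _ => zpow_ne_zero _ (Units.ne_zero _)

theorem chr_zero {r : ℕ} (σ : Fin r → ℂˣ) : chr 0 σ = 1 := by
  simp [chr]

theorem chr_add {r : ℕ} (u v : Fin r → ℤ) (σ : Fin r → ℂˣ) :
    chr (u + v) σ = chr u σ * chr v σ := by
  unfold chr
  rw [← Finset.prod_mul_distrib]
  exact Finset.prod_congr rfl fun j _ => zpow_add₀ (Units.ne_zero _) _ _

theorem chr_sum {r : ℕ} {ι : Type*} (s : Finset ι) (u : ι → Fin r → ℤ) (σ : Fin r → ℂˣ) :
    chr (∑ i ∈ s, u i) σ = ∏ i ∈ s, chr (u i) σ := by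
  classical
  induction s using Finset.induction_on with
  | empty => simp [chr_zero]
  | insert a s ha ih => rw [Finset.sum_insert ha, Finset.prod_insert ha, chr_add, ih]

theorem chr_nsmul {r : ℕ} (n : ℕ) (u : Fin r → ℤ) (σ : Fin r → ℂˣ) :
    chr (n • u) σ = chr u σ ^ n := by
  induction n with
  | zero => rw [zero_smul, chr_zero, pow_zero]
  | succ n ih => rw [succ_nsmul, chr_add, ih, pow_succ]

/-- Different weights are separated by some element of the torus. -/
theorem exists_chr_ne {r : ℕ} {u v : Fin r → ℤ} (h : u ≠ v) : ∃ σ, chr u σ ≠ chr v σ := by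
  obtain ⟨j, hj⟩ := Function.ne_iff.1 h
  have h2 : (2 : ℂ) ≠ 0 := two_ne_zero
  refine ⟨Function.update 1 j (Units.mk0 2 h2), fun he => hj ?_⟩
  have key : ∀ w : Fin r → ℤ, chr w (Function.update 1 j (Units.mk0 2 h2)) = (2 : ℂ) ^ w j := by
    intro w
    unfold chr
    rw [Finset.prod_eq_single j]
    · rw [Function.update_self, Units.val_mk0]
    · intro i _ hi
      rw [Function.update_of_ne hi, Pi.one_apply, Units.val_one, one_zpow]
    · intro hj'
      exact absurd (Finset.mem_univ j) hj'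
  rw [key, key] at he
  have h3 := congrArg norm he
  rw [norm_zpow, norm_zpow, Complex.norm_ofNat] at h3
  exact zpow_right_injective₀ (by norm_num) (by norm_num) h3

/-- **Separation of weights.** -/
theorem TAct.weight_sep {r : ℕ} {X : Var} (τ : TAct r X) {N : Submodule ℂ X.K}
    (hN : ∀ σ, ∀ f ∈ N, (τ.act σ).pull f ∈ N) {ι : Type*} (W : ι → Fin r → ℤ) (S : Finset ι) :
    Set.InjOn W S → ∀ f : ι → X.K,
      (∀ i ∈ S, ∀ σ, (τ.act σ).pull (f i) = algebraMap ℂ X.K (chr (W i) σ) * f i) →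
      ∑ i ∈ S, f i ∈ N → ∀ i ∈ S, f i ∈ N := by
  classical
  induction S using Finset.induction_on with
  | empty => exact fun _ f _ _ i hi => absurd hi (Finset.notMem_empty i)
  | insert a S ha ih =>
    intro hW f hf hs
    rw [Finset.sum_insert ha] at hs
    have hS : ∀ i ∈ S, f i ∈ N := by
      intro i hi
      have hne : W i ≠ W a := by
        intro h
        have := hW (Finset.mem_coe.2 (Finset.mem_insert_of_mem hi))
          (Finset.mem_coe.2 (Finset.mem_insert_self a S)) h
        rw [this] at hi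
        exact ha hi
      obtain ⟨σ, hσ⟩ := exists_chr_ne hne
      have h1 : (τ.act σ).pull (f a + ∑ i ∈ S, f i) - chr (W a) σ • (f a + ∑ i ∈ S, f i) ∈ N :=
        N.sub_mem (hN σ _ hs) (N.smul_mem _ hs)
      have h2 : (τ.act σ).pull (f a + ∑ i ∈ S, f i) - chr (W a) σ • (f a + ∑ i ∈ S, f i) =
          ∑ i ∈ S, (chr (W i) σ - chr (W a) σ) • f i := by
        rw [map_add, map_sum, hf a (Finset.mem_insert_self a S), smul_add, Finset.smul_sum,
          Algebra.smul_def, add_sub_add_left_eq_sub, ← Finset.sum_sub_distrib]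
        refine Finset.sum_congr rfl fun i hi => ?_
        rw [hf i (Finset.mem_insert_of_mem hi), sub_smul, Algebra.smul_def, Algebra.smul_def]
      rw [h2] at h1
      have h3 := ih (hW.mono (by
          rw [Finset.coe_insert]
          exact Set.subset_insert _ _)) (fun i => (chr (W i) σ - chr (W a) σ) • f i)
        (fun i hi σ' => by
          rw [Algebra.smul_def, map_mul, (τ.act σ').pull_scalar,
            hf i (Finset.mem_insert_of_mem hi)]
          ring) h1 i hi
      have h4 := N.smul_mem (chr (W i) σ - chr (W a) σ)⁻¹ h3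
      rwa [smul_smul, inv_mul_cancel₀ (sub_ne_zero.2 hσ), one_smul] at h4
    intro i hi
    rcases Finset.mem_insert.1 hi with rfl | hi
    · have h1 := N.sub_mem hs (N.sum_mem hS)
      rwa [add_sub_cancel_right] at h1
    · exact hS i hi

/-- Points with finite orbits are fixed. -/
theorem TAct.fixed_of_finite {r : ℕ} {X : Var} (τ : TAct r X) {x : X.X} {S : Set X.X}
    (hS : S.Finite) (h : ∀ σ, (τ.act σ).f x ∈ S) (σ : Fin r → ℂˣ) : (τ.act σ).f x = x := by
  classical
  have hmul : ∀ a b : Fin r → ℂˣ, (τ.act (a * b)).f x = (τ.act b).f ((τ.act a).f x) := by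
    intro a b
    rw [τ.act_mul]
    simp
  have hone : (τ.act 1).f x = x := by
    rw [τ.act_one]
    simp
  have hinj : ∀ a : Fin r → ℂˣ, Function.Injective (τ.act a).f := fun a =>
    (τ.orderIso a).injective
  -- some bounded power fixes `x`
  have hper : ∀ ρ : Fin r → ℂˣ, ∃ n, 0 < n ∧ n ≤ hS.toFinset.card ∧ (τ.act (ρ ^ n)).f x = x := by
    intro ρ
    obtain ⟨i, hi, j, hj, hij, he⟩ := Finset.exists_ne_map_eq_of_card_lt_of_maps_to
      (s := Finset.range (hS.toFinset.card + 1)) (t := hS.toFinset)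
      (f := fun k => (τ.act (ρ ^ k)).f x) (by rw [Finset.card_range]; omega)
      (fun k _ => by simpa using h (ρ ^ k))
    wlog hlt : i < j generalizing i j
    · exact this j hj i hi hij.symm he.symm (by omega)
    rw [Finset.mem_range] at hi hj
    refine ⟨j - i, by omega, by omega, ?_⟩
    have h1 : ρ ^ j = ρ ^ (j - i) * ρ ^ i := by rw [← pow_add]; congr 1; omega
    simp only at he
    rw [h1, hmul] at he
    exact (hinj _ he).symm
  obtain ⟨ρ, hρ⟩ : ∃ ρ : Fin r → ℂˣ, ρ ^ (hS.toFinset.card.factorial) = σ := by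
    have h1 : ∀ i, ∃ z : ℂˣ, z ^ (hS.toFinset.card.factorial) = σ i := by
      intro i
      obtain ⟨z, hz⟩ := IsAlgClosed.exists_pow_nat_eq (σ i : ℂ)
        (Nat.factorial_pos hS.toFinset.card)
      have hz0 : z ≠ 0 := by
        rintro rfl
        rw [zero_pow (Nat.factorial_ne_zero _)] at hz
        exact (σ i).ne_zero hz.symm
      exact ⟨Units.mk0 z hz0, Units.ext (by rw [Units.val_pow_eq_pow_val, Units.val_mk0, hz])⟩
    choose z hz using h1
    exact ⟨z, funext fun i => hz i⟩
  obtain ⟨n, hn, hn', hfix⟩ := hper ρ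
  obtain ⟨m, hm⟩ := Nat.dvd_factorial hn hn'
  have h2 : ∀ k : ℕ, (τ.act ((ρ ^ n) ^ k)).f x = x := by
    intro k
    induction k with
    | zero => rw [pow_zero, hone]
    | succ k ih => rw [pow_succ, hmul, ih, hfix]
  rw [← hρ, hm, pow_mul]
  exact h2 m

/-- A prime divisor which occurs in an invariant divisor is invariant. -/
theorem TAct.InvDiv.fixed {r : ℕ} {X : Var} {τ : TAct r X} {D : Div X.X} (hD : τ.InvDiv D)
    {x : X.X} (hx : coef D x ≠ 0) (σ : Fin r → ℂˣ) : (τ.act σ).f x = x :=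
  τ.fixed_of_finite (finite_coef D) (fun σ => by
    change coef D ((τ.act σ).f x) ≠ 0
    rwa [hD]) σ

/-- Semi-invariant coordinates `t_1, …, t_s` of `X` over the quotient `Y`. -/
structure TorusCoord {r s : ℕ} {X Y : Var} (τ : TAct r X) (φ : DomHom X Y) (t : Fin s → X.K)
    (w : Fin s → Fin r → ℤ) : Prop where
  ne : ∀ i, t i ≠ 0
  li : LinearIndependent ℤ w
  semi : ∀ (σ : Fin r → ℂˣ) i, (τ.act σ).pull (t i) = algebraMap ℂ X.K (chr (w i) σ) * t i
  inv : ∀ a : Y.K, φ.pull a ∈ τ.inv
  base : ∀ f ∈ τ.inv, ∃ a, φ.pull a = f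
  gen : ∀ F : Subfield X.K, (∀ a, φ.pull a ∈ F) → (∀ i, t i ∈ F) → F = ⊤

namespace TorusCoord

variable {r s : ℕ} {X Y : Var} {τ : TAct r X} {φ : DomHom X Y} {t : Fin s → X.K}
  {w : Fin s → Fin r → ℤ}

section

variable (h : TorusCoord τ φ t w)

include h

/-- The weights of the monomials. -/
theorem weight_injective :
    Function.Injective fun a : Fin s →₀ ℕ => ∑ i, (a i : ℤ) • w i := by
  intro a b hab
  have h1 : ∑ i, ((a i : ℤ) - b i) • w i = 0 := by
    simp only [sub_smul, Finset.sum_sub_distrib]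
    exact sub_eq_zero.2 hab
  have h2 := Fintype.linearIndependent_iff.1 h.li _ h1
  ext i
  have := h2 i
  omega

theorem pull_term (a : Fin s →₀ ℕ) (c : Y.K) (σ : Fin r → ℂˣ) :
    (τ.act σ).pull (φ.pull c * ∏ i, t i ^ a i) =
      algebraMap ℂ X.K (chr (∑ i, (a i : ℤ) • w i) σ) * (φ.pull c * ∏ i, t i ^ a i) := by
  have h1 : (τ.act σ).pull (φ.pull c) = φ.pull c := h.inv c σ
  have h2 : ∏ i, (τ.act σ).pull (t i ^ a i) =
      algebraMap ℂ X.K (chr (∑ i, (a i : ℤ) • w i) σ) * ∏ i, t i ^ a i := by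
    rw [chr_sum, map_prod, ← Finset.prod_mul_distrib]
    refine Finset.prod_congr rfl fun i _ => ?_
    rw [map_pow, h.semi, mul_pow, natCast_zsmul, chr_nsmul, map_pow]
  rw [map_mul, h1, map_prod, h2]
  ring

/-- The terms of a polynomial which lies in an invariant subspace lie in this subspace. -/
theorem term_mem {N : Submodule ℂ X.K} (hN : ∀ σ, ∀ f ∈ N, (τ.act σ).pull f ∈ N)
    {p : MvPolynomial (Fin s) Y.K} (hp : MvPolynomial.eval₂ φ.pull t p ∈ N) (a : Fin s →₀ ℕ) :
    φ.pull (p.coeff a) * ∏ i, t i ^ a i ∈ N := by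
  by_cases ha : a ∈ p.support
  · rw [MvPolynomial.eval₂_eq'] at hp
    exact τ.weight_sep hN (fun a : Fin s →₀ ℕ => ∑ i, (a i : ℤ) • w i) p.support
      h.weight_injective.injOn _ (fun a _ σ => h.pull_term a _ σ) hp a ha
  · rw [MvPolynomial.notMem_support_iff.1 ha, map_zero, zero_mul]
    exact N.zero_mem

theorem hinj (p : MvPolynomial (Fin s) Y.K) (hp : MvPolynomial.eval₂ φ.pull t p = 0) : p = 0 := by
  ext a
  have h1 := h.term_mem (N := ⊥) (fun σ f hf => by
    rw [Submodule.mem_bot] at hf ⊢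
    rw [hf, map_zero]) (p := p) (by rw [hp]; exact Submodule.zero_mem _) a
  rw [Submodule.mem_bot, mul_eq_zero] at h1
  rcases h1 with h1 | h1
  · rw [MvPolynomial.coeff_zero]
    exact (map_eq_zero _).1 h1
  · exact absurd h1 (Finset.prod_ne_zero_iff.2 fun i _ => pow_ne_zero _ (h.ne i))

theorem hsurj' (f : X.K) : ∃ p q : MvPolynomial (Fin s) Y.K, MvPolynomial.eval₂ φ.pull t q ≠ 0 ∧
    f = MvPolynomial.eval₂ φ.pull t p / MvPolynomial.eval₂ φ.pull t q := by
  let ev : MvPolynomial (Fin s) Y.K →+* X.K := MvPolynomial.eval₂Hom φ.pull t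
  let F : Subfield X.K :=
    { carrier := {f | ∃ p q, ev q ≠ 0 ∧ f = ev p / ev q}
      mul_mem' := by
        rintro _ _ ⟨p, q, hq, rfl⟩ ⟨p', q', hq', rfl⟩
        refine ⟨p * p', q * q', by rw [map_mul]; exact mul_ne_zero hq hq', ?_⟩
        rw [map_mul, map_mul, div_mul_div_comm]
      one_mem' := ⟨1, 1, by rw [map_one]; exact one_ne_zero, by rw [map_one, div_one]⟩
      add_mem' := by
        rintro _ _ ⟨p, q, hq, rfl⟩ ⟨p', q', hq', rfl⟩
        refine ⟨p * q' + q * p', q * q', by rw [map_mul]; exact mul_ne_zero hq hq', ?_⟩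
        rw [map_add, map_mul, map_mul, map_mul, div_add_div _ _ hq hq']
      zero_mem' := ⟨0, 1, by rw [map_one]; exact one_ne_zero, by rw [map_zero, zero_div]⟩
      neg_mem' := by
        rintro _ ⟨p, q, hq, rfl⟩
        exact ⟨-p, q, hq, by rw [map_neg, neg_div]⟩
      inv_mem' := by
        rintro _ ⟨p, q, hq, rfl⟩
        by_cases hp : ev p = 0
        · exact ⟨0, 1, by rw [map_one]; exact one_ne_zero, by rw [hp, map_zero]; simp⟩
        · exact ⟨q, p, hp, by rw [inv_div]⟩ }
  have h1 : F = ⊤ := h.gen F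
    (fun a => ⟨MvPolynomial.C a, 1, by rw [map_one]; exact one_ne_zero, by
      change _ = MvPolynomial.eval₂ φ.pull t (MvPolynomial.C a) / ev 1
      rw [MvPolynomial.eval₂_C, map_one, div_one]⟩)
    (fun i => ⟨MvPolynomial.X i, 1, by rw [map_one]; exact one_ne_zero, by
      change _ = MvPolynomial.eval₂ φ.pull t (MvPolynomial.X i) / ev 1
      rw [MvPolynomial.eval₂_X, map_one, div_one]⟩)
  have h2 : f ∈ F := by
    rw [h1]
    exact Subfield.mem_top f
  exact h2

/-- The vector fields with given values. -/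
theorem exists_vf (δ : Y.Der) (c : Fin s → X.K) :
    ∃ D : X.Der, (∀ a, D (φ.pull a) = φ.pull (δ a)) ∧ ∀ i, D (t i) = c i :=
  exists_der (C := ℂ) (fun c => φ.pull_scalar c) h.hinj
    (fun f => by
      obtain ⟨p, q, -, hpq⟩ := h.hsurj' f
      exact ⟨p, q, hpq⟩) δ c

/-- Twisted derivations are determined by their values on `k` and on the `t_i`. -/
theorem ext_gen (ψ : X.K →+* X.K) (D D' : X.K →+ X.K)
    (hD : ∀ f g, D (f * g) = ψ f * D g + ψ g * D f)
    (hD' : ∀ f g, D' (f * g) = ψ f * D' g + ψ g * D' f)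
    (h1 : ∀ a, D (φ.pull a) = D' (φ.pull a)) (h2 : ∀ i, D (t i) = D' (t i)) (f : X.K) :
    D f = D' f := by
  have hone : ∀ E : X.K →+ X.K, (∀ f g, E (f * g) = ψ f * E g + ψ g * E f) → E 1 = 0 := by
    intro E hE
    have h3 := hE 1 1
    rw [map_one, one_mul, one_mul] at h3
    exact left_eq_add.1 h3
  have hinv : ∀ E : X.K →+ X.K, (∀ f g, E (f * g) = ψ f * E g + ψ g * E f) → ∀ f : X.K, f ≠ 0 →
      ψ f * E f⁻¹ = -(ψ f⁻¹ * E f) := by
    intro E hE f hf
    have h3 := hE f f⁻¹
    rw [mul_inv_cancel₀ hf, hone E hE] at h3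
    exact eq_neg_of_add_eq_zero_left h3.symm
  let F : Subfield X.K :=
    { carrier := {f | D f = D' f}
      mul_mem' := fun {a b} ha hb => by
        change D (a * b) = D' (a * b)
        rw [hD, hD', show D a = D' a from ha, show D b = D' b from hb]
      one_mem' := by
        change D 1 = D' 1
        rw [hone D hD, hone D' hD']
      add_mem' := fun {a b} ha hb => by
        change D (a + b) = D' (a + b)
        rw [map_add, map_add, show D a = D' a from ha, show D b = D' b from hb]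
      zero_mem' := by
        change D 0 = D' 0
        rw [map_zero, map_zero]
      neg_mem' := fun {a} ha => by
        change D (-a) = D' (-a)
        rw [map_neg, map_neg, show D a = D' a from ha]
      inv_mem' := fun a ha => by
        change D a⁻¹ = D' a⁻¹
        by_cases ha0 : a = 0
        · rw [ha0, inv_zero, map_zero, map_zero]
        · have h3 := hinv D hD a ha0
          rw [show D a = D' a from ha, ← hinv D' hD' a ha0] at h3
          exact mul_left_cancel₀ ((map_ne_zero ψ).2 ha0) h3 }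
  have hF : F = ⊤ := h.gen F h1 h2
  have h3 : f ∈ F := by
    rw [hF]
    exact Subfield.mem_top f
  exact h3

/-- Vector fields are determined by their values on `k` and on the `t_i`. -/
theorem vf_ext {D D' : X.Der} (h1 : ∀ a, D (φ.pull a) = D' (φ.pull a))
    (h2 : ∀ i, D (t i) = D' (t i)) : D = D' := by
  ext f
  exact h.ext_gen (RingHom.id _) D.toAddMonoidHom D'.toAddMonoidHom (fun f g => D.leibniz f g)
    (fun f g => D'.leibniz f g) h1 h2 f

/-- The logarithmic vector fields are invariant. -/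
theorem vf_inv {D : X.Der} {δ : Y.Der} (hD : ∀ a, D (φ.pull a) = φ.pull (δ a)) {c : Fin s → ℂ}
    (hc : ∀ i, D (t i) = algebraMap ℂ X.K (c i) * t i) (σ : Fin r → ℂˣ) (f : X.K) :
    D ((τ.act σ).pull f) = (τ.act σ).pull (D f) := by
  have h3 : ∀ c : ℂ, D (algebraMap ℂ X.K c) = 0 := fun c => D.map_algebraMap c
  refine h.ext_gen (τ.act σ).pull (D.toAddMonoidHom.comp (τ.act σ).pull.toAddMonoidHom)
    ((τ.act σ).pull.toAddMonoidHom.comp D.toAddMonoidHom) (fun f g => ?_) (fun f g => ?_)
    (fun a => ?_) (fun i => ?_) f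
  · change D ((τ.act σ).pull (f * g)) = (τ.act σ).pull f * D ((τ.act σ).pull g) +
      (τ.act σ).pull g * D ((τ.act σ).pull f)
    rw [map_mul, D.leibniz, smul_eq_mul, smul_eq_mul]
  · change (τ.act σ).pull (D (f * g)) = (τ.act σ).pull f * (τ.act σ).pull (D g) +
      (τ.act σ).pull g * (τ.act σ).pull (D f)
    rw [D.leibniz, smul_eq_mul, smul_eq_mul, map_add, map_mul, map_mul]
  · change D ((τ.act σ).pull (φ.pull a)) = (τ.act σ).pull (D (φ.pull a))
    rw [hD, show (τ.act σ).pull (φ.pull a) = φ.pull a from h.inv a σ,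
      show (τ.act σ).pull (φ.pull (δ a)) = φ.pull (δ a) from h.inv _ σ, hD]
  · change D ((τ.act σ).pull (t i)) = (τ.act σ).pull (D (t i))
    rw [hc, map_mul, (τ.act σ).pull_scalar, h.semi, D.leibniz, h3, smul_zero, add_zero,
      smul_eq_mul, hc]
    ring

omit h in
/-- The action of a logarithmic vector field on the monomials. -/
theorem vf_prod {D : X.Der} {c : Fin s → ℂ} (hc : ∀ i, D (t i) = algebraMap ℂ X.K (c i) * t i)
    (a : Fin s → ℕ) (S : Finset (Fin s)) :
    ∃ e : ℂ, D (∏ i ∈ S, t i ^ a i) = algebraMap ℂ X.K e * ∏ i ∈ S, t i ^ a i := by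
  classical
  have h1 : ∀ i, D (t i ^ a i) = algebraMap ℂ X.K (a i * c i) * t i ^ a i := by
    intro i
    rw [D.leibniz_pow, nsmul_eq_mul, smul_eq_mul, hc, map_mul, map_natCast]
    rcases Nat.eq_zero_or_pos (a i) with h0 | h0
    · rw [h0]
      simp
    · obtain ⟨n, hn⟩ := Nat.exists_eq_succ_of_ne_zero h0.ne'
      rw [hn, Nat.succ_sub_one, pow_succ]
      ring
  induction S using Finset.induction_on with
  | empty =>
    refine ⟨0, ?_⟩
    rw [Finset.prod_empty, D.map_one_eq_zero, map_zero, zero_mul]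
  | insert j S hj ih =>
    obtain ⟨e, he⟩ := ih
    refine ⟨a j * c j + e, ?_⟩
    rw [Finset.prod_insert hj, D.leibniz, smul_eq_mul, smul_eq_mul, h1, he, map_add]
    ring

/-- **Lifts of vector fields with constant logarithmic derivatives of the `t_i` are
logarithmic** along the invariant prime divisors. -/
theorem log_of_fixed {x : X.X} (hx : coheight x = 1) (hfix : ∀ σ, (τ.act σ).f x = x) {D : X.Der}
    {δ : Y.Der} (hD : ∀ a, D (φ.pull a) = φ.pull (δ a)) {c : Fin s → ℂ}
    (hc : ∀ i, D (t i) = algebraMap ℂ X.K (c i) * t i)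
    (hδ : ∀ a, a ≠ 0 → og x (Scheme.ord (φ.pull a) x) (φ.pull (δ a))) (k : ℤ) (f : X.K)
    (hf : og x k f) : og x k (D f) := by
  have hcst : ∀ c : ℂ, og x 0 (algebraMap ℂ X.K c) := fun c =>
    (og_iff hx).2 (const_mem_locRing x c)
  -- polynomials
  have hpoly : ∀ (k : ℤ) (p : MvPolynomial (Fin s) Y.K),
      og x k (MvPolynomial.eval₂ φ.pull t p) → og x k (D (MvPolynomial.eval₂ φ.pull t p)) := by
    intro k p hp
    let N : Submodule ℂ X.K :=
      { carrier := {f | og x k f}
        add_mem' := fun {a b} ha hb => og.add hx ha hb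
        zero_mem' := og_zero x k
        smul_mem' := fun c f hf => by
          rw [Set.mem_ofPred_eq, Algebra.smul_def]
          have := (hcst c).mul (show og x k f from hf)
          rwa [zero_add] at this }
    have hN : ∀ σ, ∀ f ∈ N, (τ.act σ).pull f ∈ N := by
      intro σ f hf h0
      rw [τ.ord_act, hfix]
      exact hf fun h1 => h0 (by rw [h1, map_zero])
    have hterm : ∀ a, og x k (φ.pull (p.coeff a) * ∏ i, t i ^ a i) := fun a => h.term_mem hN hp a
    rw [MvPolynomial.eval₂_eq', map_sum]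
    refine og_sum hx _ _ fun a ha => ?_
    have ha0 : p.coeff a ≠ 0 := MvPolynomial.mem_support_iff.1 ha
    obtain ⟨e, he⟩ := vf_prod hc a Finset.univ
    have hpr : ∏ i, t i ^ a i ≠ 0 := Finset.prod_ne_zero_iff.2 fun i _ => pow_ne_zero _ (h.ne i)
    have h1 := hterm a
    have h2 : k ≤ Scheme.ord (φ.pull (p.coeff a)) x + Scheme.ord (∏ i, t i ^ a i) x := by
      rw [← Scheme.ord_mul (φ.pull_ne_zero ha0) hpr]
      exact h1 (mul_ne_zero (φ.pull_ne_zero ha0) hpr)
    rw [D.leibniz, smul_eq_mul, smul_eq_mul, he, hD]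
    refine og.add hx ?_ ?_
    · have h3 := (hcst e).mul h1
      rw [zero_add] at h3
      have e1 : φ.pull (p.coeff a) * (algebraMap ℂ X.K e * ∏ i, t i ^ a i) =
          algebraMap ℂ X.K e * (φ.pull (p.coeff a) * ∏ i, t i ^ a i) := by ring
      rw [e1]
      exact h3
    · exact ((og_self _).mul (hδ _ ha0)).mono (by linarith)
  by_cases hf0 : f = 0
  · rw [hf0, map_zero]
    exact og_zero x k
  refine og.mono ?_ (hf hf0)
  obtain ⟨p, q, hq, hpq⟩ := h.hsurj' f
  have hmul : MvPolynomial.eval₂ φ.pull t q * f = MvPolynomial.eval₂ φ.pull t p := by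
    rw [hpq, mul_div_cancel₀ _ hq]
  have h1 := congrArg D hmul
  rw [D.leibniz, smul_eq_mul, smul_eq_mul] at h1
  have h2 : MvPolynomial.eval₂ φ.pull t q * D f =
      D (MvPolynomial.eval₂ φ.pull t p) - f * D (MvPolynomial.eval₂ φ.pull t q) :=
    eq_sub_of_add_eq h1
  have h3 : og x (Scheme.ord (MvPolynomial.eval₂ φ.pull t q) x + Scheme.ord f x)
      (MvPolynomial.eval₂ φ.pull t q * D f) := by
    rw [h2]
    refine og.sub hx ?_ ?_
    · rw [← Scheme.ord_mul hq hf0, hmul]
      exact hpoly _ _ (og_self _)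
    · refine ((og_self f).mul (hpoly _ _ (og_self _))).mono (by linarith)
  exact (h3.of_mul hq).mono (by linarith)

end

end TorusCoord

end Vale.Agent.P299.Q
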