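import Mathlib.AlgebraicGeometry.Morphisms.Separated
import Mathlib.RingTheory.Polynomial.UniqueFactorization
import Vale.Agent.P299.Q.TorVal
import Vale.Agent.P299.Q.TorCoords
import Vale.Agent.P299.Q.TorFin
import Vale.Agent.P299.Q.Model
import Vale.Agent.P299.Q.TBB

/-!
# Every divisor is linearly equivalent to an invariant divisor
-/

open CategoryTheory TopologicalSpace Opposite TopCat AlgebraicGeometry Order

namespace Vale.Agent.P299.Q

open Vale.Agent.P299.G

section Separated

variable {X : Var}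

/-- Points with the same local ring agree. -/
theorem eq_of_locRing_eq {x y : X.X} (h : locRing X x = locRing X y) : x = y := by
  have hdom : ∀ a : X.X.presheaf.stalk y, ∃ b : X.X.presheaf.stalk x, toK x b = toK y a := by
    intro a
    have h1 : toK y a ∈ locRing X x := by rw [h]; exact ⟨a, rfl⟩
    obtain ⟨b, hb⟩ := h1
    exact ⟨b, hb⟩
  choose e he using hdom
  let E : X.X.presheaf.stalk y →+* X.X.presheaf.stalk x :=
    { toFun := e
      map_one' := toK_injective x (by rw [he, map_one, map_one])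
      map_mul' := fun a b => toK_injective x (by rw [he, map_mul, map_mul, he, he])
      map_zero' := toK_injective x (by rw [he, map_zero, map_zero])
      map_add' := fun a b => toK_injective x (by rw [he, map_add, map_add, he, he]) }
  have hE : ∀ a, toK x (E a) = toK y a := he
  have hloc : IsLocalHom E := by
    refine ⟨fun a ha => ?_⟩
    obtain ⟨b, hb⟩ := ha.exists_right_inv
    obtain ⟨c, hc⟩ : ∃ c, toK y c = toK x b := by
      have h1 : toK x b ∈ locRing X y := by rw [← h]; exact ⟨b, rfl⟩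
      obtain ⟨c, hc⟩ := h1
      exact ⟨c, hc⟩
    refine IsUnit.of_mul_eq_one c (toK_injective y ?_)
    rw [map_mul, map_one, hc, ← hE, ← map_mul, hb, map_one]
  obtain ⟨E', hE'⟩ : ∃ E' : X.X.presheaf.stalk y ⟶ X.X.presheaf.stalk x, E'.hom = E :=
    ⟨CommRingCat.ofHom E, rfl⟩
  let l : Spec (X.X.presheaf.stalk x) ⟶ X.X := X.X.fromSpecStalk x
  let l' : Spec (X.X.presheaf.stalk x) ⟶ X.X := Spec.map E' ≫ X.X.fromSpecStalk y
  let ι : Spec (X.X.presheaf.stalk (genericPoint X.X)) ⟶ Spec (X.X.presheaf.stalk x) :=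
    Spec.map (X.X.presheaf.stalkSpecializes (genericPoint_specializes x))
  have hι : ι ≫ l = ι ≫ l' := by
    have h1 : E' ≫ X.X.presheaf.stalkSpecializes (genericPoint_specializes x) =
        X.X.presheaf.stalkSpecializes (genericPoint_specializes y) := by
      ext a
      have h2 := hE a
      rw [← hE'] at h2
      exact h2
    have h3 : ι ≫ Spec.map E' =
        Spec.map (X.X.presheaf.stalkSpecializes (genericPoint_specializes y)) := by
      rw [← h1, Spec.map_comp]
    have h4 : ι ≫ l' = (ι ≫ Spec.map E') ≫ X.X.fromSpecStalk y :=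
      (Category.assoc _ _ _).symm
    have h5 := Scheme.SpecMap_stalkSpecializes_fromSpecStalk (X := X.X)
      (genericPoint_specializes x)
    have h6 := Scheme.SpecMap_stalkSpecializes_fromSpecStalk (X := X.X)
      (genericPoint_specializes y)
    exact h5.trans (h6.symm.trans ((congrArg (fun u => u ≫ X.X.fromSpecStalk y) h3.symm).trans
      h4.symm))
  have hdom : IsDominant ι := by
    refine ⟨?_⟩
    have h1 : DenseRange (PrimeSpectrum.comap
        (X.X.presheaf.stalkSpecializes (genericPoint_specializes x)).hom) := by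
      rw [PrimeSpectrum.denseRange_comap_iff_ker_le_nilRadical]
      have h2 : RingHom.ker (X.X.presheaf.stalkSpecializes (genericPoint_specializes x)).hom = ⊥ := by
        rw [RingHom.ker_eq_bot_iff_eq_zero]
        intro a ha
        exact toK_injective x (by rw [map_zero]; exact ha)
      rw [h2]
      exact bot_le
    exact h1
  have hsep : X.X.IsSeparated := by
    rw [Scheme.isSeparated_iff, ← Limits.terminal.comp_from (X.X ↘ SpecC)]
    infer_instance
  have hll : l = l' := ext_of_isDominant ι hι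
  have h1 := congrArg (fun f : Spec (X.X.presheaf.stalk x) ⟶ X.X =>
    f (IsLocalRing.closedPoint (X.X.presheaf.stalk x))) hll
  simp only at h1
  have h2 : l (IsLocalRing.closedPoint (X.X.presheaf.stalk x)) = x :=
    Scheme.fromSpecStalk_closedPoint
  have h3 : l' (IsLocalRing.closedPoint (X.X.presheaf.stalk x)) = y := by
    have hloc' : IsLocalHom E'.hom := by rw [hE']; exact hloc
    have h4 : (Spec.map E') (IsLocalRing.closedPoint (X.X.presheaf.stalk x)) =
        IsLocalRing.closedPoint (X.X.presheaf.stalk y) := IsLocalRing.comap_closedPoint E'.hom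
    have h5 : l' (IsLocalRing.closedPoint (X.X.presheaf.stalk x)) = X.X.fromSpecStalk y
        ((Spec.map E') (IsLocalRing.closedPoint (X.X.presheaf.stalk x))) :=
      Scheme.Hom.comp_apply _ _ _
    rw [h5, h4]
    exact Scheme.fromSpecStalk_closedPoint
  rw [h2, h3] at h1
  exact h1

end Separated

section Lin

variable {r : ℕ} {X : Var} (τ : TAct r X)

/-- The point `x` is not invariant. -/
def TAct.NonInv (x : X.X) : Prop := ∃ σ, (τ.act σ).f x ≠ x

variable {τ}

theorem TAct.NonInv.exists_notMem {x : X.X} (hx : τ.NonInv x) {S : Set X.X} (hS : S.Finite) :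
    ∃ σ, (τ.act σ).f x ∉ S := by
  by_contra hcon
  push Not at hcon
  obtain ⟨σ, hσ⟩ := hx
  exact hσ (τ.fixed_of_finite hS hcon σ)

/-- Semi-invariants have neither zeros nor poles along the prime divisors which are not
invariant. -/
theorem TAct.NonInv.ord_eq_zero {x : X.X} (hx : τ.NonInv x) {f : X.K} (hf : f ≠ 0)
    (h : ∀ σ, ∃ c : ℂ, (τ.act σ).pull f = algebraMap ℂ X.K c * f) : Scheme.ord f x = 0 := by
  obtain ⟨σ, hσ⟩ := hx.exists_notMem (finite_ord_ne_zero f hf)
  rw [Set.mem_ofPred_eq, not_not] at hσ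
  obtain ⟨c, hc⟩ := h σ
  have hc0 : c ≠ 0 := by
    rintro rfl
    rw [map_zero, zero_mul] at hc
    exact (τ.act σ).pull_ne_zero hf hc
  rw [← τ.ord_act, hc, ← Algebra.smul_def, ord_smul c hc0] at hσ
  exact hσ

theorem TAct.NonInv.act {x : X.X} (hx : τ.NonInv x) (σ : Fin r → ℂˣ) :
    τ.NonInv ((τ.act σ).f x) := by
  obtain ⟨ρ, hρ⟩ := hx
  refine ⟨ρ, fun h => hρ ?_⟩
  have hmul : ∀ a b : Fin r → ℂˣ, (τ.act (a * b)).f x = (τ.act b).f ((τ.act a).f x) := by
    intro a b
    rw [τ.act_mul]
    simp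
  have h1 : (τ.act σ).f ((τ.act ρ).f x) = (τ.act σ).f x := by
    rw [← hmul, mul_comm, hmul, h]
  exact (τ.orderIso σ).injective h1

variable {n : ℕ} {t : Fin n → X.K} {w : Fin n → Fin r → ℤ} (hc : τ.ratAct.Coords n t w)

include hc

/-- The polynomials in the semi-invariants are regular along the prime divisors which are not
invariant. -/
theorem aeval_mem_locRing_inv {x : X.X} (hx : coheight x = 1) (hn : τ.NonInv x)
    (P : MvPolynomial (Fin n) τ.ratAct.fixed) : MvPolynomial.aeval t P ∈ locRing X x := by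
  induction P using MvPolynomial.induction_on with
  | C a =>
    rw [MvPolynomial.aeval_C, ← og_iff hx]
    intro h0
    refine (hn.ord_eq_zero h0 fun σ => ⟨1, ?_⟩).ge
    rw [map_one, one_mul]
    exact a.2 σ
  | add p q hp hq =>
    rw [map_add]
    exact add_mem hp hq
  | mul_X p i hp =>
    rw [map_mul, MvPolynomial.aeval_X]
    refine mul_mem hp ?_
    rw [← og_iff hx]
    intro h0
    exact (hn.ord_eq_zero h0 fun σ => ⟨((∏ j, σ j ^ w i j : ℂˣ) : ℂ), hc.semi i σ⟩).ge

omit hc in
/-- The local ring at `y` is a localization of the ring of polynomials in the semi-invariants. -/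
def GoodPt (τ : TAct r X) (t : Fin n → X.K) (y : X.X) : Prop :=
  ∀ g ∈ locRing X y, ∃ c d : MvPolynomial (Fin n) τ.ratAct.fixed,
    MvPolynomial.aeval t d ≠ 0 ∧ Scheme.ord (MvPolynomial.aeval t d) y = 0 ∧
      g * MvPolynomial.aeval t d = MvPolynomial.aeval t c

/-- Almost all prime divisors have this property. -/
theorem exists_finite_good : ∃ B : Set X.X, B.Finite ∧ ∀ y : X.X, coheight y = 1 → y ∉ B →
    GoodPt τ t y := by
  classical
  obtain ⟨W, hW, hne⟩ := exists_affine_nonempty X
  obtain ⟨s, hs⟩ := exists_gens W hW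
  choose P Qf hQ _ hPQ using fun f : Γ(X.X, W) =>
    TS.RatAct.exists_fraction hc (X.X.germToFunctionField W f)
  let b : MvPolynomial (Fin n) τ.ratAct.fixed := ∏ f ∈ s, Qf f
  have hinj := TS.RatAct.aeval_injective hc
  have hb0 : b ≠ 0 := Finset.prod_ne_zero_iff.2 fun f _ => hQ f
  have hev : ∀ p : MvPolynomial (Fin n) τ.ratAct.fixed, p ≠ 0 → MvPolynomial.aeval t p ≠ 0 :=
    fun p hp h0 => hp (hinj (h0.trans (map_zero _).symm))
  have hall : ∀ u : Γ(X.X, W), ∃ (N : ℕ) (p : MvPolynomial (Fin n) τ.ratAct.fixed),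
      X.X.germToFunctionField W u * MvPolynomial.aeval t b ^ N = MvPolynomial.aeval t p := by
    let S : Subring Γ(X.X, W) :=
      { carrier := {u | ∃ (N : ℕ) (p : MvPolynomial (Fin n) τ.ratAct.fixed),
          X.X.germToFunctionField W u * MvPolynomial.aeval t b ^ N = MvPolynomial.aeval t p}
        mul_mem' := by
          rintro u v ⟨N, p, hp⟩ ⟨M, q, hq⟩
          refine ⟨N + M, p * q, ?_⟩
          rw [map_mul, map_mul, ← hp, ← hq, pow_add]
          ring
        one_mem' := ⟨0, 1, by rw [map_one, map_one, pow_zero, mul_one]⟩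
        add_mem' := by
          rintro u v ⟨N, p, hp⟩ ⟨M, q, hq⟩
          refine ⟨N + M, p * b ^ M + q * b ^ N, ?_⟩
          rw [map_add, map_add, map_mul, map_mul, ← hp, ← hq, map_pow, map_pow, pow_add]
          ring
        zero_mem' := ⟨0, 0, by rw [map_zero, map_zero, zero_mul]⟩
        neg_mem' := by
          rintro u ⟨N, p, hp⟩
          exact ⟨N, -p, by rw [map_neg, map_neg, ← hp, neg_mul]⟩ }
    have hS : S = ⊤ := by
      refine hs S (fun c => ?_) fun f hf => ?_
      · refine ⟨0, MvPolynomial.C (algebraMap ℂ τ.ratAct.fixed c), ?_⟩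
        rw [pow_zero, mul_one, MvPolynomial.aeval_C]
        exact germ_cst W c
      · obtain ⟨b', hb'⟩ := Finset.dvd_prod_of_mem Qf hf
        refine ⟨1, P f * b', ?_⟩
        have h1 : b = Qf f * b' := hb'
        rw [pow_one, h1, map_mul, map_mul, ← hPQ]
        ring
    intro u
    have h1 : u ∈ S := by
      rw [hS]
      exact Subring.mem_top u
    exact h1
  refine ⟨{x | x ∈ ((W : Set X.X)ᶜ) ∧ coheight x = 1} ∪
    {x | Scheme.ord (MvPolynomial.aeval t b) x ≠ 0}, ?_, ?_⟩
  · refine Set.Finite.union (finite_codim_one _ W.2.isClosed_compl ?_)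
      (finite_ord_ne_zero _ (hev b hb0))
    intro hmem
    apply hmem
    obtain ⟨z, hz⟩ := hne
    exact (genericPoint_specializes z).mem_open W.2 hz
  · intro y hy hyB
    rw [Set.mem_union, not_or] at hyB
    have hyW : y ∈ W := by
      by_contra h
      exact hyB.1 ⟨h, hy⟩
    have hyb : Scheme.ord (MvPolynomial.aeval t b) y = 0 := not_not.1 hyB.2
    rintro g ⟨a, rfl⟩
    let _ := TopCat.Presheaf.algebra_section_stalk X.X.presheaf (U := W) ⟨y, hyW⟩
    have hloc := hW.isLocalization_stalk ⟨y, hyW⟩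
    obtain ⟨⟨u, v⟩, huv⟩ := IsLocalization.surj (hW.primeIdealOf ⟨y, hyW⟩).asIdeal.primeCompl a
    have hvu : IsUnit (X.X.presheaf.germ W y hyW (v : Γ(X.X, W))) :=
      IsLocalization.map_units (X.X.presheaf.stalk y) v
    have huv' : a * X.X.presheaf.germ W y hyW (v : Γ(X.X, W)) = X.X.presheaf.germ W y hyW u := huv
    have h1 := congrArg (toK y) huv'
    have h2 : ∀ u : Γ(X.X, W), toK y (X.X.presheaf.germ W y hyW u) =
        X.X.germToFunctionField W u := fun u =>
      Scheme.algebraMap_germ_eq_germToFunctionField X.X hyW u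
    rw [map_mul, h2, h2] at h1
    have hv0 : X.X.germToFunctionField W (v : Γ(X.X, W)) ≠ 0 := by
      rw [← h2]
      exact toK_ne_zero hvu.ne_zero
    have hv1 : Scheme.ord (X.X.germToFunctionField W (v : Γ(X.X, W))) y = 0 := by
      rw [← h2]
      exact ord_toK_of_isUnit hvu
    obtain ⟨N, p, hp⟩ := hall v
    obtain ⟨M, q, hq⟩ := hall u
    have hbK := hev b hb0
    have hd : MvPolynomial.aeval t (p * b ^ M) = X.X.germToFunctionField W (v : Γ(X.X, W)) *
        (MvPolynomial.aeval t b ^ N * MvPolynomial.aeval t b ^ M) := by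
      rw [map_mul, map_pow, ← hp]
      ring
    refine ⟨q * b ^ N, p * b ^ M, ?_, ?_, ?_⟩
    · rw [hd]
      exact mul_ne_zero hv0 (mul_ne_zero (pow_ne_zero _ hbK) (pow_ne_zero _ hbK))
    · rw [hd, Scheme.ord_mul hv0 (mul_ne_zero (pow_ne_zero _ hbK) (pow_ne_zero _ hbK)),
        Scheme.ord_mul (pow_ne_zero _ hbK) (pow_ne_zero _ hbK), Q.ord_pow hbK, Q.ord_pow hbK, hyb,
        hv1]
      ring
    · change toK y a * _ = _
      rw [hd, ← mul_assoc, h1, map_mul, map_pow, ← hq]
      ring

/-- All prime divisors which are not invariant have this property. -/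
theorem goodPt_of_nonInv {x : X.X} (hx : coheight x = 1) (hn : τ.NonInv x) : GoodPt τ t x := by
  obtain ⟨B, hB, hgood⟩ := exists_finite_good hc
  obtain ⟨σ, hσ⟩ := hn.exists_notMem hB
  have hσx : coheight ((τ.act σ).f x) = 1 := by rw [τ.coheight_act, hx]
  have hg := hgood _ hσx hσ
  intro g hgx
  have h0 : (τ.act σ).pull ((τ.act σ⁻¹).pull g) = g := by
    have h1 := τ.pull_act_inv σ⁻¹ g
    rwa [inv_inv] at h1
  have h1 : (τ.act σ⁻¹).pull g ∈ locRing X ((τ.act σ).f x) := by
    rw [← og_iff hσx]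
    intro hne
    rw [← τ.ord_act, h0]
    refine (og_iff hx).2 hgx fun hg0 => hne ?_
    rw [hg0, map_zero]
  obtain ⟨c, d, hd0, hd, hcd⟩ := hg _ h1
  have hrho : ∀ P : MvPolynomial (Fin n) τ.ratAct.fixed, (τ.act σ).pull (MvPolynomial.aeval t P) =
      MvPolynomial.aeval t (TS.scale (K := τ.ratAct.fixed) (TS.RatAct.sw w σ) P) := fun P =>
    TS.RatAct.rho_aeval hc σ P
  refine ⟨TS.scale (K := τ.ratAct.fixed) (TS.RatAct.sw w σ) c,
    TS.scale (K := τ.ratAct.fixed) (TS.RatAct.sw w σ) d, ?_, ?_, ?_⟩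
  · rw [← hrho]
    exact (τ.act σ).pull_ne_zero hd0
  · rw [← hrho, τ.ord_act]
    exact hd
  · rw [← hrho, ← hrho, ← hcd, map_mul, h0]

/-- **Local equations**: every prime divisor `x` which is not invariant is the only such prime
divisor of some polynomial in the semi-invariants. -/
theorem exists_prime {x : X.X} (hx : coheight x = 1) (hn : τ.NonInv x) :
    ∃ f : MvPolynomial (Fin n) τ.ratAct.fixed, Prime f ∧
      Scheme.ord (MvPolynomial.aeval t f) x = 1 ∧
      ∀ p : MvPolynomial (Fin n) τ.ratAct.fixed, p ≠ 0 →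
        Scheme.ord (MvPolynomial.aeval t p) x ≠ 0 → f ∣ p := by
  have hinj := TS.RatAct.aeval_injective hc
  have hev : ∀ p : MvPolynomial (Fin n) τ.ratAct.fixed, p ≠ 0 → MvPolynomial.aeval t p ≠ 0 :=
    fun p hp h0 => hp (hinj (h0.trans (map_zero _).symm))
  have hnn : ∀ p : MvPolynomial (Fin n) τ.ratAct.fixed,
      0 ≤ Scheme.ord (MvPolynomial.aeval t p) x := fun p =>
    ord_nonneg_of_locRing (aeval_mem_locRing_inv hc hx hn p)
  have hgood := goodPt_of_nonInv hc hx hn
  -- an element of order one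
  obtain ⟨u, hu0, hu⟩ := exists_unif hx
  obtain ⟨c, d, hd0, hd, hcd⟩ := hgood u ((og_iff hx).1 fun _ => by rw [hu]; norm_num)
  have hc1 : Scheme.ord (MvPolynomial.aeval t c) x = 1 := by
    rw [← hcd, Scheme.ord_mul hu0 hd0, hu, hd, add_zero]
  have hc0 : c ≠ 0 := by
    rintro rfl
    rw [map_zero] at hcd
    exact mul_ne_zero hu0 hd0 hcd
  -- a prime factor of order one
  have key : ∀ c : MvPolynomial (Fin n) τ.ratAct.fixed, c ≠ 0 →
      Scheme.ord (MvPolynomial.aeval t c) x = 1 → ∃ f : MvPolynomial (Fin n) τ.ratAct.fixed,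
        Prime f ∧ Scheme.ord (MvPolynomial.aeval t f) x = 1 := by
    intro c
    induction c using UniqueFactorizationMonoid.induction_on_prime with
    | h₁ => exact fun h => absurd rfl h
    | h₂ a ha =>
      intro _ h1
      obtain ⟨b, hb⟩ := ha.exists_right_inv
      have h2 := congrArg (fun p => Scheme.ord (MvPolynomial.aeval t p) x) hb
      have ha0 : a ≠ 0 := left_ne_zero_of_mul (hb.trans_ne one_ne_zero)
      have hb0 : b ≠ 0 := right_ne_zero_of_mul (hb.trans_ne one_ne_zero)
      simp only [map_mul, map_one] at h2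
      rw [Scheme.ord_mul (hev a ha0) (hev b hb0), h1, ord_one] at h2
      have := hnn b
      omega
    | h₃ a p ha0 hp ih =>
      intro _ h1
      rw [map_mul, Scheme.ord_mul (hev p hp.ne_zero) (hev a ha0)] at h1
      have h2 := hnn p
      have h3 := hnn a
      by_cases h4 : Scheme.ord (MvPolynomial.aeval t p) x = 1
      · exact ⟨p, hp, h4⟩
      · exact ih ha0 (by omega)
  obtain ⟨f, hf, hf1⟩ := key c hc0 hc1
  refine ⟨f, hf, hf1, fun p hp0 hp => ?_⟩
  have hfK := hev f hf.ne_zero
  have hpK := hev p hp0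
  have h1 : MvPolynomial.aeval t p / MvPolynomial.aeval t f ∈ locRing X x := by
    rw [← og_iff hx]
    intro _
    rw [ord_div hpK hfK, hf1]
    have := hnn p
    omega
  obtain ⟨c, d, hd0, hd, hcd⟩ := hgood _ h1
  have h2 : p * d = f * c := by
    apply hinj
    rw [map_mul, map_mul, ← hcd]
    field_simp
  have h3 : f ∣ p * d := ⟨c, h2⟩
  rcases hf.dvd_or_dvd h3 with h4 | ⟨e, he⟩
  · exact h4
  · exfalso
    have he0 : e ≠ 0 := by
      rintro rfl
      rw [mul_zero] at he
      rw [he, map_zero] at hd0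
      exact hd0 rfl
    rw [he, map_mul, Scheme.ord_mul hfK (hev e he0), hf1] at hd
    have := hnn e
    omega

/-- The local equation of `x` is a unit at the other prime divisors which are not invariant. -/
theorem exists_eq {x : X.X} (hx : coheight x = 1) (hn : τ.NonInv x) :
    ∃ g : X.K, g ≠ 0 ∧ Scheme.ord g x = 1 ∧
      ∀ y : X.X, coheight y = 1 → τ.NonInv y → y ≠ x → Scheme.ord g y = 0 := by
  have hinj := TS.RatAct.aeval_injective hc
  have hev : ∀ p : MvPolynomial (Fin n) τ.ratAct.fixed, p ≠ 0 → MvPolynomial.aeval t p ≠ 0 :=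
    fun p hp h0 => hp (hinj (h0.trans (map_zero _).symm))
  obtain ⟨f, hf, hf1, hfd⟩ := exists_prime hc hx hn
  refine ⟨MvPolynomial.aeval t f, hev f hf.ne_zero, hf1, fun y hy hny hyx => ?_⟩
  by_contra h0
  apply hyx
  obtain ⟨f', hf', hf1', hfd'⟩ := exists_prime hc hy hny
  obtain ⟨e, he⟩ := hfd' f hf.ne_zero h0
  have hass : Associated f' f := hf'.irreducible.associated_of_dvd hf.irreducible ⟨e, he⟩
  -- the local rings agree
  have key : ∀ (x y : X.X) (f f' : MvPolynomial (Fin n) τ.ratAct.fixed), coheight x = 1 →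
      coheight y = 1 → τ.NonInv x → τ.NonInv y → Prime f' →
      Scheme.ord (MvPolynomial.aeval t f) x ≠ 0 →
      (∀ p : MvPolynomial (Fin n) τ.ratAct.fixed, p ≠ 0 →
        Scheme.ord (MvPolynomial.aeval t p) y ≠ 0 → f' ∣ p) → Associated f f' →
      locRing X x ≤ locRing X y := by
    intro x y f f' hx hy hnx hny hf' hfx hd' hff g hg
    obtain ⟨c, d, hd0, hd, hcd⟩ := goodPt_of_nonInv hc hx hnx g hg
    have hdne : d ≠ 0 := by
      rintro rfl
      exact hd0 (map_zero _)
    have h1 : Scheme.ord (MvPolynomial.aeval t d) y = 0 := by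
      by_contra h2
      obtain ⟨e, he⟩ := (hff.dvd.trans (hd' d hdne h2))
      have he0 : e ≠ 0 := by
        rintro rfl
        rw [mul_zero] at he
        exact hdne he
      have hf0 : f ≠ 0 := by
        rintro rfl
        rw [zero_mul] at he
        exact hdne he
      rw [he, map_mul, Scheme.ord_mul (hev f hf0) (hev e he0)] at hd
      have h3 := ord_nonneg_of_locRing (aeval_mem_locRing_inv hc hx hnx f)
      have h4 := ord_nonneg_of_locRing (aeval_mem_locRing_inv hc hx hnx e)
      omega
    rw [← og_iff hy]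
    intro hg0
    have h2 : Scheme.ord g y = Scheme.ord (MvPolynomial.aeval t c) y := by
      rw [← hcd, Scheme.ord_mul hg0 hd0, h1, add_zero]
    rw [h2]
    exact ord_nonneg_of_locRing (aeval_mem_locRing_inv hc hy hny c)
  refine eq_of_locRing_eq (le_antisymm ?_ ?_)
  · exact key y x f' f hy hx hny hn hf (by rw [hf1']; norm_num) hfd hass
  · exact key x y f f' hx hy hn hny hf' (by rw [hf1]; norm_num) hfd' hass.symm

end Lin

section Main

variable {r : ℕ} {X : Var} (τ : TAct r X)

/-- **Every divisor is linearly equivalent to an invariant divisor.** -/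
theorem TAct.exists_invDiv (D : Div X.X) :
    ∃ (g : X.K) (P : Div X.X), IsDivOf g P ∧ τ.InvDiv (D + P) := by
  classical
  obtain ⟨n, t, w, h1, h2, h3, h4⟩ := τ.exists_semi
  have hc : τ.ratAct.Coords n t w := by
    refine ⟨h1, h2, fun i σ => ?_, h4⟩
    change (τ.act σ).pull (t i) = algebraMap ℂ X.K ((∏ j, σ j ^ w i j : ℂˣ) : ℂ) * t i
    rw [h3, Units.coe_prod]
    simp only [Units.val_zpow_eq_zpow_val]
  -- induction on the number of the non-invariant components
  suffices h : ∀ (S : Finset X.X) (D : Div X.X),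
      (∀ x, coheight x = 1 → τ.NonInv x → coef D x ≠ 0 → x ∈ S) →
      ∃ (g : X.K) (P : Div X.X), IsDivOf g P ∧
        ∀ x, coheight x = 1 → τ.NonInv x → coef (D + P) x = 0 by
    obtain ⟨g, P, hP, hD⟩ := h (finite_coef D).toFinset D fun x hx _ h0 => by
      rw [Set.Finite.mem_toFinset]
      exact h0
    refine ⟨g, P, hP, fun σ x => ?_⟩
    by_cases hx : coheight x = 1
    · by_cases hn : τ.NonInv x
      · rw [hD x hx hn, hD _ (by rw [τ.coheight_act, hx]) (hn.act σ)]
      · unfold TAct.NonInv at hn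
        push Not at hn
        rw [hn σ]
    · rw [coef_of_ne hx, coef_of_ne (by rwa [τ.coheight_act])]
  intro S
  induction S using Finset.induction_on with
  | empty =>
    intro D hD
    refine ⟨1, 0, ⟨one_ne_zero, fun y _ => by rw [ord_one, coef_zero]⟩, fun x hx hn => ?_⟩
    rw [add_zero]
    by_contra h0
    exact Finset.notMem_empty x (hD x hx hn h0)
  | insert a S ha ih =>
    intro D hD
    by_cases hD0 : coheight a = 1 ∧ τ.NonInv a
    · obtain ⟨hac, hna⟩ := hD0
      obtain ⟨g, hg0, hga, hgy⟩ := exists_eq hc hac hna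
      obtain ⟨P, hP⟩ := exists_isDivOf (zpow_ne_zero (-coef D a) hg0)
      have hPc : ∀ y, coheight y = 1 → coef P y = -coef D a * Scheme.ord g y := fun y hy => by
        rw [← hP.2 y hy, ord_zpow hg0]
      obtain ⟨g', P', hP', hD'⟩ := ih (D + P) fun x hx hn h0 => by
        by_cases hxa : x = a
        · subst hxa
          exfalso
          apply h0
          rw [coef_add, hPc x hx, hga]
          ring
        · have h5 : coef D x ≠ 0 := by
            intro h6
            apply h0
            rw [coef_add, hPc x hx, hgy x hx hn hxa, h6]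
            ring
          exact (Finset.mem_insert.1 (hD x hx hn h5)).resolve_left hxa
      refine ⟨g ^ (-coef D a) * g', P + P', ⟨mul_ne_zero hP.1 hP'.1, fun y hy => ?_⟩, ?_⟩
      · rw [Scheme.ord_mul hP.1 hP'.1, hP.2 y hy, hP'.2 y hy, coef_add]
      · intro x hx hn
        rw [← add_assoc]
        exact hD' x hx hn
    · refine ih D fun x hx hn h0 => (Finset.mem_insert.1 (hD x hx hn h0)).resolve_left ?_
      rintro rfl
      exact hD0 ⟨hx, hn⟩

/-- Ampleness depends only on the class of the divisor. -/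
theorem IsAmple.add_principal {X : Var} {A P : Div X.X} {g : X.K} (hA : IsAmple A)
    (hP : IsDivOf g P) : IsAmple (A + P) := by
  intro x
  obtain ⟨m, hm, s, hs, U, hU, hxU, hUs⟩ := hA x
  have hgm : (g ^ m)⁻¹ ≠ 0 := inv_ne_zero (pow_ne_zero _ hP.1)
  have hord : ∀ (f : X.K) (y : X.X), f ≠ 0 → coheight y = 1 →
      Scheme.ord (f * (g ^ m)⁻¹) y + coef (m • (A + P)) y =
        Scheme.ord f y + coef (m • A) y := by
    intro f y hf hy
    rw [Scheme.ord_mul hf hgm, ord_inv (pow_ne_zero _ hP.1), ord_pow hP.1, hP.2 y hy, coef_nsmul,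
      coef_nsmul, coef_add]
    ring
  refine ⟨m, hm, s * (g ^ m)⁻¹, ?_, U, hU, hxU, fun y => ?_⟩
  · rw [mem_H0] at hs ⊢
    intro y hy h0
    have hs0 := left_ne_zero_of_mul h0
    rw [hord s y hs0 hy]
    exact hs y hy hs0
  · rw [hUs]
    constructor
    · rintro ⟨hs0, h⟩
      exact ⟨mul_ne_zero hs0 hgm, fun q hq hqy => by rw [hord s q hs0 hq]; exact h q hq hqy⟩
    · rintro ⟨h0, h⟩
      have hs0 := left_ne_zero_of_mul h0
      exact ⟨hs0, fun q hq hqy => by rw [← hord s q hs0 hq]; exact h q hq hqy⟩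

/-- **There is an invariant ample divisor.** -/
theorem linearization : Linearization := by
  intro r X τ
  obtain ⟨A, hA⟩ := X.ample
  obtain ⟨g, P, hP, hinv⟩ := τ.exists_invDiv A
  exact ⟨A + P, hinv, hA.add_principal hP⟩

end Main

end Vale.Agent.P299.Q
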