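import Vale.Agent.P299.Q.TorP4
import Vale.Agent.P299.Q.TorEx
import Vale.Agent.P299.Q.TorLin
import Vale.Agent.P299.Q.TorAlt

/-!
# The invariant cohomology of the multiples of the anticanonical divisor
-/

open CategoryTheory TopologicalSpace Opposite TopCat AlgebraicGeometry Order

namespace Vale.Agent.P299.Q

/-- A canonical divisor has negative coefficients along the invariant horizontal prime
divisors. -/
theorem TorusCoord.coef_horizontal {r s : ℕ} {X Y : Var} {τ : TAct r X} {φ : DomHom X Y}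
    {t : Fin s → X.K} {w : Fin s → Fin r → ℤ} (h : TorusCoord τ φ t w) {κ : Div X.X}
    (hκ : τ.IsCanonical κ) {x : X.X} (hx : coheight x = 1) (hfix : ∀ σ, (τ.act σ).f x = x)
    (hgen : φ.f x = genericPoint Y.X) : coef κ x ≤ -1 := by
  obtain ⟨ω, hω0, hω, hinv, hdiv⟩ := hκ
  obtain ⟨η, hη0, hηa, hη⟩ := h.exists_base_form hω0 hω hinv
  exact h.coef_le_of_generic hω0 hω hdiv hη0 hηa hη hx hfix hgen

theorem TAct.IsCanonical.isCanonicalDivisor {r : ℕ} {X : Var} {τ : TAct r X} {κ : Div X.X}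
    (h : τ.IsCanonical κ) : IsCanonicalDivisor κ := by
  obtain ⟨ω, h1, h2, -, h3⟩ := h
  exact ⟨ω, h1, h2, h3⟩

/-- **The invariant cohomology of the multiples of the anticanonical divisor does not vanish.** -/
theorem invariantCoh (hKN : KollarNadelVanishing) (hSPN : SemiPosNef) (hInv : InvariantPart)
    (hFM : ∀ r, FlatModelsAt r)
    (hTop : ∀ (Y : Var) (κ : Div Y.X), IsCanonicalDivisor κ → NoForms Y → chi κ ≠ 0) :
    InvariantCoh := by
  intro r Z τ κ hκ hκi hSP hNF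
  obtain ⟨Y, Z', τ', μ, φ, κ', κ₀, E, κY, M, c, hμ, heq, hφ, hk, hκ', hκ'i, hpb, hκE, hE, hEx,
    hc, hκY, hsec⟩ := exists_quotient_model factorialStalks (hFM r) τ hκ hκi
  refine exists_coh_of_chi hKN (M := M) τ hc (hTop Y κY hκY (noForms_of φ hμ hNF)) fun j hj hχ => ?_
  obtain ⟨s, t, w, h⟩ := τ'.exists_torusCoord hφ fun f hf => by
    obtain ⟨g, rfl⟩ := hμ.2 f
    obtain ⟨a, ha⟩ := (hk g).1 ((mem_inv_pull τ heq g).1 hf)
    exact ⟨a, ha⟩
  have hcj : 0 < c * j := Nat.mul_pos hc hj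
  refine exists_h_ne_zero hKN hSPN linearization hInv τ τ' hμ heq hκ.isCanonicalDivisor hκi
    hκ'.isCanonicalDivisor hκ'i hpb hκE hE hEx (semiPos_nsmul factorialStalks hSP (c * j))
    (TAct.InvDiv.nsmul τ (TAct.InvDiv.neg τ hκi) _) (hpb.neg.nsmul (c * j)) hφ (hsec j hj)
    (fun x hx hgx => ?_) hχ
  have hE' : 0 ≤ coef E x := by
    rw [coef_mk hx]
    exact hE ⟨x, hx⟩
  have h1 : coef κ₀ x = coef κ' x - coef E x := by
    rw [hκE, coef_add]
    ring
  have h2 : (1 : ℤ) ≤ ((c * j : ℕ) : ℤ) := by exact_mod_cast hcj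
  rw [coef_nsmul, coef_neg, h1]
  by_cases h0 : coef κ' x = 0
  · rw [h0]
    refine ⟨by nlinarith, fun hfix => ?_⟩
    have h3 := h.coef_horizontal hκ' hx hfix hgx
    rw [h0] at h3
    omega
  · have h3 := h.coef_horizontal hκ' hx (hκ'i.fixed h0) hgx
    exact ⟨by nlinarith, fun _ => by nlinarith⟩

end Vale.Agent.P299.Q
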