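import Vale.Agent.P299.Q.EqfMain
import Vale.Agent.P299.Q.EqfStable
import Vale.Agent.P299.Q.EqfImage
import Vale.Agent.P299.Q.EqfData
import Vale.Agent.P299.Q.TorAsm

/-!
# The invariant cohomology of the multiples of the anticanonical divisor

Without equivariant resolution.
-/

open CategoryTheory TopologicalSpace Opposite TopCat AlgebraicGeometry Order

namespace Vale.Agent.P299.Q

open Vale.Agent.P299.G

/-- **The invariant cohomology of the multiples of the anticanonical divisor does not vanish.** -/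
theorem invariantCoh_of_resolution (hR : Resolution) (hKN : KollarNadelVanishing)
    (hSPN : SemiPosNef) (hInv : InvariantPart)
    (hTop : ∀ (Y : Var) (κ : Div Y.X), IsCanonicalDivisor κ → NoForms Y → chi κ ≠ 0) :
    InvariantCoh := by
  intro r Z τ κ hκ hκi hSP hNF
  have hFS := factorialStalks
  obtain ⟨ω, hω0, hω, hωT, hdiv⟩ := hκ
  obtain ⟨Y, ψ, hψ, hY⟩ := exists_base hR Z τ.invField
  obtain ⟨Z', μ, φ, hμ, hφ⟩ := exists_join hR Z Y ψ
  obtain ⟨κ', κ₀, E, hκ', hpb, hκE, hE, hEx⟩ :=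
    exists_relative_canonical_form hFS hμ hω0 hω hdiv
  have hk : ∀ g : Z.K, g ∈ τ.inv ↔ ∃ h : Y.K, φ.pull h = μ.pull g := by
    intro g
    rw [← τ.mem_invField, hψ]
    refine exists_congr fun h => ?_
    rw [hφ]
    exact ⟨fun h1 => by rw [h1], fun h1 => μ.pull_injective h1⟩
  have hφi : ∀ a, ∃ g ∈ τ.inv, μ.pull g = φ.pull a := by
    intro a
    obtain ⟨g, hg⟩ := hμ.2 (φ.pull a)
    exact ⟨g, (hk g).2 ⟨a, hg.symm⟩, hg⟩
  have hω'0 := hμ.upTop_ne_zero hω0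
  have hω'a := hμ.upTop_isAlt hω
  obtain ⟨s, t, h, η, hη0, hηa, hη, hhor, hver⟩ :=
    exists_eqf_data τ hμ hk hω0 hω hωT hdiv hκ' hpb
  obtain ⟨κY, hκY⟩ := exists_isDivTensor hη0
  obtain ⟨M, c, hc, hsec⟩ := exists_direct_image_eqf hFS h hω'0 hω'a hκ' hη0 hηa hη hκY hE
    (L' := -κ₀) (by rw [hκE]; abel)
    (fun x hx hg => (hhor 0 0 (fun σ x => by rw [coef_zero, coef_zero]) (isPullback_zero μ)
      x hx hg).1) (hver κY hκY) {x | coheight x = 1 ∧ coheight (φ.f x) ≤ 1} (fun x hx => hx)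
    (fun y hy => by
      obtain ⟨x, hx, rfl⟩ := exists_prime_over φ hy
      exact ⟨x, ⟨hx, hy.le⟩, rfl⟩)
    (fun c R R' hRR' hle => star_of_base hFS (hY Z' μ φ hμ hφ) (c • -κ) (c • -κ₀) R R'
      (hpb.neg.nsmul c) hRR' hle)
  refine exists_coh_of_chi hKN (M := M) τ hc
    (hTop Y κY ⟨η, hη0, hηa, hκY⟩ (noForms_of φ hμ hNF)) fun j hj hχ => ?_
  have hcj : 0 < c * j := Nat.mul_pos hc hj
  have h1cj : (1 : ℤ) ≤ ((c * j : ℕ) : ℤ) := by exact_mod_cast hcj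
  refine exists_h_ne_zero_of_stable hKN hSPN hInv τ hμ ⟨ω, hω0, hω, hdiv⟩ hκi
    ⟨_, hω'0, hω'a, hκ'⟩ hpb hκE hE hEx (semiPos_nsmul factorialStalks hSP (c * j))
    (TAct.InvDiv.nsmul τ (TAct.InvDiv.neg τ hκi) _) (hpb.neg.nsmul (c * j))
    (fun B B' A A' hB hB' hA' f hf σ =>
      H0_stable hR τ hμ hφi hω0 hω hωT hκ' hB hB' hA' f hf σ)
    (D' := κY + j • M) (fun A A' hA' f => ?_) (fun H H' hH hH' x hx hgx => ?_) hχ
  · rw [hsec j hj A A' hA' f]
    refine and_congr_left fun _ => ?_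
    constructor
    · rintro ⟨a, rfl⟩
      exact hφi a
    · rintro ⟨g, hg, rfl⟩
      exact (hk g).1 hg
  · obtain ⟨h1, h2⟩ := hhor H H' hH hH' x hx hgx
    rw [coef_nsmul]
    exact ⟨by nlinarith, fun h3 => by nlinarith [h2 h3]⟩

end Vale.Agent.P299.Q
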