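import Mathlib.RingTheory.AlgebraicIndependent.TranscendenceBasis
import Mathlib.RingTheory.Ideal.Height
import Mathlib.RingTheory.Ideal.KrullsHeightTheorem
import Mathlib.RingTheory.IntegralClosure.GoingDown
import Mathlib.RingTheory.NoetherNormalization
import Mathlib.RingTheory.DedekindDomain.IntegralClosure
import Mathlib.RingTheory.Polynomial.UniqueFactorization
import Mathlib.RingTheory.EssentialFiniteness
import Mathlib.FieldTheory.FinTrdeg
import Mathlib.Algebra.MvPolynomial.NoZeroDivisors
import Mathlib.RingTheory.MvPolynomial.Homogeneous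
import Mathlib.FieldTheory.Separable

/-!
# Transcendence degrees of residue fields
-/

namespace Vale.Agent.P299.Q

/-- The elements `x_i` are algebraically independent modulo the ideal `q`. -/
def IndMod (k : Type*) {B ι : Type*} [CommRing k] [CommRing B] [Algebra k B] (q : Ideal B)
    (x : ι → B) : Prop :=
  ∀ F : MvPolynomial ι k, MvPolynomial.aeval x F ∈ q → F = 0

theorem indMod_cons {k B : Type*} [CommRing k] [Nontrivial k] [CommRing B] [Algebra k B]
    {q q₁ : Ideal B} [hq₁ : q₁.IsPrime] (hle : q₁ ≤ q) {e : ℕ} {x : Fin e → B} (hx : IndMod k q x) {b : B}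
    (hb : b ∈ q) (hb₁ : b ∉ q₁) : IndMod k q₁ (Fin.cons b x : Fin (e + 1) → B) := by
  intro F hF
  by_contra hF0
  -- the polynomial in the first variable
  have key : ∀ P : Polynomial (MvPolynomial (Fin e) k), P ≠ 0 →
      Polynomial.eval₂ (MvPolynomial.aeval x).toRingHom b P ∉ q₁ := by
    intro P
    induction hn : P.natDegree using Nat.strong_induction_on generalizing P with
    | _ n ih =>
      intro hP0 hPq
      by_cases h0 : P.coeff 0 = 0
      · obtain ⟨P', rfl⟩ := Polynomial.X_dvd_iff.2 h0
        have hP'0 : P' ≠ 0 := right_ne_zero_of_mul hP0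
        rw [Polynomial.eval₂_mul, Polynomial.eval₂_X] at hPq
        rcases hq₁.mem_or_mem hPq with h | h
        · exact hb₁ h
        · rw [mul_comm, Polynomial.natDegree_mul_X hP'0] at hn
          exact ih P'.natDegree (by omega) P' rfl hP'0 h
      · apply h0
        apply hx
        have h1 : Polynomial.eval₂ (MvPolynomial.aeval x).toRingHom b P ∈ q := hle hPq
        have h2 := congrArg (Polynomial.eval₂ (MvPolynomial.aeval x).toRingHom b)
          (Polynomial.divX_mul_X_add P)
        rw [Polynomial.eval₂_add, Polynomial.eval₂_mul, Polynomial.eval₂_X,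
          Polynomial.eval₂_C] at h2
        have h3 : (MvPolynomial.aeval x).toRingHom (P.coeff 0) =
            Polynomial.eval₂ (MvPolynomial.aeval x).toRingHom b P -
            Polynomial.eval₂ (MvPolynomial.aeval x).toRingHom b P.divX * b := by
          rw [← h2]; ring
        change (MvPolynomial.aeval x).toRingHom (P.coeff 0) ∈ q
        rw [h3]
        exact q.sub_mem h1 (q.mul_mem_left _ hb)
  have h1 : MvPolynomial.finSuccEquiv k e F ≠ 0 := by
    rwa [Ne, EmbeddingLike.map_eq_zero_iff]
  apply key _ h1
  have h2 : Polynomial.eval₂ (MvPolynomial.aeval x).toRingHom b (MvPolynomial.finSuccEquiv k e F) =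
      MvPolynomial.aeval (Fin.cons b x : Fin (e + 1) → B) F := by
    let φ : MvPolynomial (Fin (e + 1)) k →+* B :=
      (Polynomial.eval₂RingHom (MvPolynomial.aeval x).toRingHom b).comp
        (MvPolynomial.finSuccEquiv k e : MvPolynomial (Fin (e + 1)) k →+*
          Polynomial (MvPolynomial (Fin e) k))
    have h3 : φ = (MvPolynomial.aeval (R := k) (Fin.cons b x : Fin (e + 1) → B)).toRingHom := by
      refine MvPolynomial.ringHom_ext (fun c => ?_) fun i => ?_
      · simp [φ, MvPolynomial.finSuccEquiv_apply]
      · refine Fin.cases ?_ (fun j => ?_) i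
        · simp [φ, MvPolynomial.finSuccEquiv_X_zero]
        · simp [φ, MvPolynomial.finSuccEquiv_X_succ]
    exact congrArg (fun f => f F) h3
  rw [h2]
  exact hF

/-- If the prime ideal `q` of a domain has height at least two, a family which is algebraically
independent modulo `q` can be enlarged by two elements. -/
theorem exists_algebraicIndependent_of_height {k B : Type*} [Field k] [CommRing B] [IsDomain B]
    [Algebra k B] {q : Ideal B} [q.IsPrime] (hq : 2 ≤ q.height) {e : ℕ} {x : Fin e → B}
    (hx : IndMod k q x) : ∃ y : Fin (e + 2) → B, AlgebraicIndependent k y := by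
  -- a chain `0 < q₁ < q`
  obtain ⟨q₁, hq₁p, hq₁0, hq₁⟩ : ∃ q₁ : Ideal B, q₁.IsPrime ∧ q₁ ≠ ⊥ ∧ q₁ < q := by
    by_contra hcon
    push Not at hcon
    have h1 : q.height ≤ (1 : ℕ) := by
      refine Ideal.height_le_iff.2 fun q' hq' hlt => ?_
      have h2 : q' = ⊥ := by
        by_contra h3
        exact hcon q' hq' h3 hlt
      subst h2
      rw [Ideal.height_bot]
      exact zero_lt_one
    have := hq.trans h1
    exact absurd this (by decide)
  obtain ⟨b, hbq, hbq₁⟩ := SetLike.exists_of_lt hq₁
  obtain ⟨c, hcq₁, hc0⟩ := Submodule.exists_mem_ne_zero_of_ne_bot hq₁0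
  have h1 := indMod_cons hq₁.le hx hbq hbq₁
  have h2 : IndMod k (⊥ : Ideal B) (Fin.cons c (Fin.cons b x : Fin (e + 1) → B) :
      Fin (e + 1 + 1) → B) :=
    indMod_cons bot_le h1 hcq₁ (by simpa using hc0)
  refine ⟨(Fin.cons c (Fin.cons b x : Fin (e + 1) → B) : Fin (e + 1 + 1) → B),
    algebraicIndependent_iff.2 fun F hF => h2 F ?_⟩
  rw [hF]
  exact Submodule.zero_mem _

/-- Modulo a prime ideal of height one all variables but one are algebraically independent. -/
theorem exists_indMod_of_height_one {k : Type*} [Field k] {s : ℕ}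
    (p : Ideal (MvPolynomial (Fin s) k)) [hp : p.IsPrime] (h1 : p.height = 1) :
    ∃ (m : ℕ) (j : Fin m → Fin s), s = m + 1 ∧
      IndMod k p (fun i => (MvPolynomial.X (j i) : MvPolynomial (Fin s) k)) := by
  obtain ⟨F, hFp, hF⟩ := hp.exists_mem_prime_of_ne_bot (Ideal.ne_bot_of_height_eq_one h1)
  have hspan := Ideal.eq_span_singleton_of_height_eq_one h1 hFp hF
  -- a variable of `F`
  obtain ⟨j₀, hj₀⟩ : ∃ j, F.degreeOf j ≠ 0 := by
    by_contra hcon
    push Not at hcon
    have h2 : F.totalDegree = 0 := by
      rw [MvPolynomial.totalDegree_eq_zero_iff]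
      intro m hm j
      have := MvPolynomial.monomial_le_degreeOf j hm
      rw [hcon j] at this
      omega
    rw [MvPolynomial.totalDegree_eq_zero_iff_eq_C] at h2
    apply hF.not_isUnit
    rw [h2]
    refine (isUnit_iff_ne_zero.2 fun h3 => ?_).map MvPolynomial.C
    rw [h3, map_zero] at h2
    exact hF.ne_zero h2
  obtain ⟨m, rfl⟩ : ∃ m, s = m + 1 := ⟨s - 1, by have := j₀.pos; omega⟩
  refine ⟨m, j₀.succAbove, rfl, fun G hG => ?_⟩
  have h2 : MvPolynomial.aeval
      (fun i => (MvPolynomial.X (j₀.succAbove i) : MvPolynomial (Fin (m + 1)) k)) G =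
      MvPolynomial.rename j₀.succAbove G := by
    have h3 : (MvPolynomial.aeval
        (fun i => (MvPolynomial.X (j₀.succAbove i) : MvPolynomial (Fin (m + 1)) k))) =
        MvPolynomial.rename (R := k) j₀.succAbove := by
      refine MvPolynomial.algHom_ext fun i => ?_
      rw [MvPolynomial.aeval_X, MvPolynomial.rename_X]
    rw [h3]
  rw [h2, hspan, Ideal.mem_span_singleton] at hG
  obtain ⟨H, hH⟩ := hG
  by_contra hG0
  have h3 : MvPolynomial.rename j₀.succAbove G ≠ 0 := fun h =>
    hG0 (MvPolynomial.rename_injective _ (Fin.succAbove_right_injective) (by rw [h, map_zero]))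
  have h4 : H ≠ 0 := by
    intro h
    rw [h, mul_zero] at hH
    exact h3 hH
  have h5 := congrArg (MvPolynomial.degreeOf j₀) hH
  rw [MvPolynomial.degreeOf_mul_eq hF.ne_zero h4] at h5
  have h6 : MvPolynomial.degreeOf j₀ (MvPolynomial.rename j₀.succAbove G) = 0 := by
    by_contra h7
    rw [← Ne, ← MvPolynomial.mem_vars_iff_degreeOf_ne_zero] at h7
    have h8 := MvPolynomial.vars_rename _ _ h7
    rw [Finset.mem_image] at h8
    obtain ⟨i, -, hi⟩ := h8
    exact Fin.succAbove_ne _ _ hi
  omega

theorem finiteDimensional_of_essFiniteType (F K : Type*) [Field F] [Field K] [Algebra F K]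
    [Algebra.EssFiniteType F K] [Algebra.IsAlgebraic F K] : FiniteDimensional F K := by
  obtain ⟨S, hS⟩ := IntermediateField.fg_top F K
  have h1 : FiniteDimensional F (IntermediateField.adjoin F (S : Set K)) :=
    IntermediateField.finiteDimensional_adjoin fun x _ =>
      (Algebra.IsAlgebraic.isAlgebraic x).isIntegral
  rw [hS] at h1
  exact LinearEquiv.finiteDimensional (IntermediateField.topEquiv (F := F) (E := K)).toLinearEquiv

/-- The normalization `D` of a finitely generated domain `C`, and the residue fields at its prime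
ideals of height one. -/
theorem exists_normalization {k K : Type} [Field k] [CharZero k] [Field K] [Algebra k K]
    (C : Subalgebra k K) (hfg : C.FG) (hfrac : IsFractionRing C K) :
    ∃ D : Subalgebra k K, IsNoetherianRing D ∧ IsIntegrallyClosed D ∧ IsFractionRing D K ∧
      C ≤ D ∧ (∀ u ∈ D, IsIntegral C u) ∧ ∀ p : Ideal D, p.IsPrime → p.height = 1 →
        ∃ (m : ℕ) (a : Fin m → D), Algebra.trdeg k K = (m + 1 : ℕ) ∧ IndMod k p a := by
  have hft : Algebra.FiniteType k C := C.fg_iff_finiteType.1 hfg
  obtain ⟨s, g, hg, hint⟩ := exists_integral_inj_algHom_of_fg k C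
  let A := MvPolynomial (Fin s) k
  let _ : Algebra A K := (C.val.comp g).toRingHom.toAlgebra
  have hAK : ∀ a : A, algebraMap A K a = (g a : K) := fun _ => rfl
  have htow : IsScalarTower k A K := IsScalarTower.of_algebraMap_eq fun c => by
    rw [hAK, MvPolynomial.algebraMap_eq, ← MvPolynomial.algebraMap_eq, AlgHom.commutes]
    rfl
  have hinj : Function.Injective (algebraMap A K) := fun a b hab =>
    hg (Subtype.ext (by rw [← hAK, ← hAK]; exact hab))
  have hfaith : FaithfulSMul A K := (faithfulSMul_iff_algebraMap_injective A K).2 hinj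
  let D₀ : Subalgebra A K := integralClosure A K
  -- the fractions
  let F := FractionRing A
  let _ : Algebra F K := FractionRing.liftAlgebra A K
  have t1 : IsScalarTower A F K := FractionRing.isScalarTower_liftAlgebra A K
  have t2 : IsScalarTower k F K := IsScalarTower.to₁₃₄ k A F K
  have hCint : ∀ c ∈ C, IsIntegral A c := by
    intro c hc
    have h1 : g.toRingHom.IsIntegralElem ⟨c, hc⟩ := hint ⟨c, hc⟩
    obtain ⟨P, hP, hPe⟩ := h1
    refine ⟨P, hP, ?_⟩
    have h2 := congrArg (C.val : C →+* K) hPe
    rw [Polynomial.hom_eval₂, map_zero] at h2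
    exact h2
  have hess : Algebra.EssFiniteType k K := by
    have h2 : Algebra.EssFiniteType C K := Algebra.EssFiniteType.of_isLocalization _
      (nonZeroDivisors C)
    exact Algebra.EssFiniteType.comp k C K
  have hessF : Algebra.EssFiniteType F K := Algebra.EssFiniteType.of_comp k F K
  have halgA : Algebra.IsAlgebraic A K := by
    refine ⟨fun u => ?_⟩
    obtain ⟨a, b, hb, rfl⟩ := IsFractionRing.div_surjective (A := C) u
    rw [div_eq_mul_inv]
    exact (hCint a a.2).isAlgebraic.mul (hCint b b.2).isAlgebraic.inv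
  have halgF : Algebra.IsAlgebraic F K := IsFractionRing.comap_isAlgebraic_iff.1 halgA
  have hfd : FiniteDimensional F K := finiteDimensional_of_essFiniteType F K
  have hchar : CharZero F := charZero_of_injective_algebraMap (algebraMap k F).injective
  have hsep : Algebra.IsSeparable F K := inferInstance
  have hN : IsNoetherianRing D₀ := IsIntegralClosure.isNoetherianRing A F K D₀
  have hI : IsIntegrallyClosed D₀ := integralClosure.isIntegrallyClosedOfFiniteExtension F
  have hFr : IsFractionRing D₀ K := integralClosure.isFractionRing_of_finite_extension F K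
  refine ⟨D₀.restrictScalars k, hN, hI, hFr, fun c hc => hCint c hc, fun u hu => ?_,
    fun p hp hph => ?_⟩
  · obtain ⟨P, hP, hPe⟩ := (show IsIntegral A u from hu)
    refine ⟨P.map g.toRingHom, hP.map _, ?_⟩
    rw [Polynomial.eval₂_map]
    exact hPe
  · have hp' : (show Ideal D₀ from p).IsPrime := hp
    have hgd : Algebra.HasGoingDown A D₀ := inferInstance
    have hover := Ideal.over_under (A := A) (show Ideal D₀ from p)
    have h1 := Ideal.height_eq_height_add_of_liesOver_of_hasGoingDown
      (Ideal.under A (show Ideal D₀ from p)) (show Ideal D₀ from p)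
    have h2 : (Ideal.under A (show Ideal D₀ from p)).height ≤ 1 := by
      have h3 : (show Ideal D₀ from p).height = 1 := hph
      rw [h3] at h1
      rw [h1]
      exact le_self_add
    have h3 : Ideal.under A (show Ideal D₀ from p) ≠ ⊥ := by
      intro h0
      have h4 : (show Ideal D₀ from p) = ⊥ := Ideal.eq_bot_of_comap_eq_bot h0
      have h5 : (show Ideal D₀ from p).height = 1 := hph
      rw [h4, Ideal.height_bot] at h5
      exact zero_ne_one h5
    have h4 : (Ideal.under A (show Ideal D₀ from p)).height = 1 := by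
      refine le_antisymm h2 (Order.one_le_iff_ne_zero.2 fun h0 => h3 ?_)
      exact Ideal.height_eq_zero_iff_eq_bot.1 h0
    obtain ⟨m, j, hm, hj⟩ := exists_indMod_of_height_one _ h4
    refine ⟨m, fun i => (algebraMap A D₀ (MvPolynomial.X (j i)) : D₀), ?_, fun G hG => ?_⟩
    · have h5 := trdeg_add_eq k A (A := K)
      rw [trdeg_eq_zero_iff.2 halgA, add_zero, MvPolynomial.trdeg_of_isDomain, Cardinal.mk_fin,
        Cardinal.lift_natCast, hm] at h5
      exact h5.symm
    · refine hj G ?_
      change algebraMap A D₀ (MvPolynomial.aeval (fun i => (MvPolynomial.X (j i) : A)) G) ∈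
        (show Ideal D₀ from p)
      have t3 : IsScalarTower k A D₀ := IsScalarTower.of_algebraMap_eq fun c => by
        apply Subtype.ext
        exact IsScalarTower.algebraMap_apply k A K c
      have h5 := (MvPolynomial.aeval_algebraMap_apply (R := k) D₀
        (fun i => (MvPolynomial.X (j i) : A)) G)
      rw [← h5]
      exact hG

end Vale.Agent.P299.Q
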