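import Mathlib.RingTheory.AlgebraicIndependent.AlgebraicClosure
import Vale.Agent.P299.Q.FlAlg

/-!
# Subfields of finitely generated fields are finitely generated
-/

namespace Vale.Agent.P299.Q

theorem linearIndependent_adjoin {E L K ι : Type} [Field E] [Field L] [Field K] [Algebra E L]
    [Algebra L K] [Algebra E K] [IsScalarTower E L K] {t : Set K}
    (ht : AlgebraicIndependent L ((↑) : t → K)) {b : ι → L} (hb : LinearIndependent E b) :
    LinearIndependent (Algebra.adjoin E t) (fun i => algebraMap L K (b i)) := by
  rw [linearIndependent_iff']
  intro s g hg i hi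
  have h1 : ∀ i, ∃ P : MvPolynomial t E, MvPolynomial.aeval ((↑) : t → K) P = (g i : K) := by
    intro i
    have h2 : (g i : K) ∈ Algebra.adjoin E (Set.range ((↑) : t → K)) := by
      rw [Subtype.range_coe]
      exact (g i).2
    rw [Algebra.adjoin_range_eq_range_aeval] at h2
    exact h2
  choose P hP using h1
  let Q : MvPolynomial t L :=
    ∑ i ∈ s, MvPolynomial.C (b i) * MvPolynomial.map (algebraMap E L) (P i)
  have hQ : MvPolynomial.aeval ((↑) : t → K) Q = 0 := by
    rw [map_sum, ← hg]
    refine Finset.sum_congr rfl fun i _ => ?_
    rw [map_mul, MvPolynomial.aeval_C, MvPolynomial.aeval_map_algebraMap, hP, Subalgebra.smul_def,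
      smul_eq_mul, mul_comm]
  have hQ0 : Q = 0 := algebraicIndependent_iff.1 ht Q hQ
  have h3 : P i = 0 := by
    ext m
    have h4 := congrArg (MvPolynomial.coeff m) hQ0
    rw [MvPolynomial.coeff_sum, MvPolynomial.coeff_zero] at h4
    have h5 : ∑ j ∈ s, (P j).coeff m • b j = 0 := by
      rw [← h4]
      refine Finset.sum_congr rfl fun j _ => ?_
      rw [MvPolynomial.coeff_C_mul, MvPolynomial.coeff_map, Algebra.smul_def, mul_comm]
    exact linearIndependent_iff'.1 hb s _ h5 i hi
  apply Subtype.ext
  rw [← hP, h3, map_zero]
  rfl

/-- A subfield of a finitely generated field extension is finitely generated. -/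
theorem essFiniteType_intermediateField {k K : Type} [Field k] [Field K] [Algebra k K]
    [Algebra.EssFiniteType k K] (L : IntermediateField k K) : Algebra.EssFiniteType k L := by
  obtain ⟨s, hs⟩ := exists_isTranscendenceBasis k L
  have hsfin : s.Finite := by
    have h1 : AlgebraicIndependent k (fun x : s => ((x : L) : K)) :=
      hs.1.map' (f := L.val) L.val.injective
    have h2 := finite_of_algebraicIndependent h1
    exact Set.toFinite s
  let E := IntermediateField.adjoin k s
  have hEL : Algebra.IsAlgebraic E L := by
    have h1 := hs.isAlgebraic_field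
    rwa [Subtype.range_coe] at h1
  have hEfg : Algebra.EssFiniteType k E := by
    rw [IntermediateField.essFiniteType_iff]
    exact IntermediateField.fg_adjoin_of_finite hsfin
  have hEK : Algebra.EssFiniteType E K := Algebra.EssFiniteType.of_comp k E K
  obtain ⟨t, ht⟩ := exists_isTranscendenceBasis E K
  let M := IntermediateField.adjoin E t
  have hMK : Algebra.IsAlgebraic M K := by
    have h1 := ht.isAlgebraic_field
    rwa [Subtype.range_coe] at h1
  have hMess : Algebra.EssFiniteType M K := Algebra.EssFiniteType.of_comp E M K
  have hfd : FiniteDimensional M K := finiteDimensional_of_essFiniteType M K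
  have htL : AlgebraicIndependent L ((↑) : t → K) := ht.1.extendScalars L
  let b := Module.Basis.ofVectorSpace E L
  have h1 := linearIndependent_adjoin (E := E) htL b.linearIndependent
  open scoped IntermediateField.algebraAdjoinAdjoin in
  have h2 : LinearIndependent M (fun i => algebraMap L K (b i)) :=
    (LinearIndependent.iff_fractionRing (Algebra.adjoin E t) M).1 h1
  have h3 := h2.finite
  have h4 : FiniteDimensional E L := Module.Finite.of_basis b
  have h5 : Algebra.EssFiniteType E L := inferInstance
  exact Algebra.EssFiniteType.comp k E L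

end Vale.Agent.P299.Q
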