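import Mathlib.RingTheory.LocalRing.ResidueField.Defs
import Vale.Agent.P299.Q.FlFg

/-!
# A bound for the codimension of the centre
-/

namespace Vale.Agent.P299.Q

/-- If `κ` is algebraic over the field generated by `S`, and no `m + 1` elements of `S` are
algebraically independent, then the transcendence degree is at most `m`. -/
theorem trdeg_le_of_dependent {κ' κ : Type} [Field κ'] [Field κ] [Algebra κ' κ] (S : Set κ)
    [Algebra.IsAlgebraic (Algebra.adjoin κ' S) κ] {m : ℕ}
    (h : ∀ J : Fin (m + 1) → κ, (∀ i, J i ∈ S) → ¬ AlgebraicIndependent κ' J) :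
    Algebra.trdeg κ' κ ≤ m := by
  obtain ⟨t, htS, ht⟩ := exists_isTranscendenceBasis_subset (R := κ') S
  rw [← ht.cardinalMk_eq_trdeg]
  by_contra hlt
  rw [not_le] at hlt
  have h1 : Cardinal.mk (Fin (m + 1)) ≤ Cardinal.mk t := by
    rw [Cardinal.mk_fin, Nat.cast_add, Nat.cast_one]
    exact Cardinal.add_one_le_of_lt hlt
  obtain ⟨f⟩ := h1
  exact h (fun i => (f i : κ)) (fun i => htS (f i).2) (ht.1.comp f f.injective)

/-- The dimension of the local ring `B` with field of fractions `L` is at most one if the residue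
field `κ` of a divisorial valuation ring dominating `B` is generated over the residue field of `B` by
elements any `m + 1` of which are dependent; `m` is the difference of the transcendence degrees. -/
theorem height_lt_two {k L K B κ' κ : Type} [Field k] [Field L] [Field K] [CommRing B] [IsDomain B]
    [Field κ'] [Field κ] [Algebra k L] [Algebra k K] [Algebra k B] [Algebra B L]
    [IsScalarTower k B L] [FaithfulSMul B L] [Algebra k κ']
    [Algebra B κ'] [IsScalarTower k B κ'] [Algebra k κ] [Algebra κ' κ] [IsScalarTower k κ' κ]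
    (q : Ideal B) [q.IsPrime] (hker : ∀ b ∈ q, algebraMap B κ' b = 0)
    (hsurj : Function.Surjective (algebraMap B κ')) {n m : ℕ}
    (hK : Algebra.trdeg k K = (n + 1 : ℕ)) (hm : Algebra.trdeg k L + m = Algebra.trdeg k K)
    (hκ : (n : Cardinal) ≤ Algebra.trdeg k κ) (hκ' : Algebra.trdeg κ' κ ≤ m) : q.height < 2 := by
  by_contra hq
  rw [not_lt] at hq
  have h1 := hm
  have h2 := trdeg_add_eq k κ' (A := κ)
  rw [hK] at h1
  -- the transcendence degree of `L`
  obtain ⟨d, hd⟩ : ∃ d : ℕ, Algebra.trdeg k L = d := by
    have h3 : Algebra.trdeg k L < Cardinal.aleph0 := by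
      refine lt_of_le_of_lt ?_ (Cardinal.natCast_lt_aleph0 (n := n + 1))
      rw [← h1]
      exact self_le_add_right _ _
    obtain ⟨d, hd⟩ := Cardinal.lt_aleph0.1 h3
    exact ⟨d, hd⟩
  rw [hd] at h1
  have h1' : d + m = n + 1 := by exact_mod_cast h1
  -- families which are independent in the residue field
  have key : ∀ (e : ℕ) (x : Fin e → κ'), AlgebraicIndependent k x → e + 2 ≤ d := by
    intro e x hx
    choose y hy using hsurj
    have h4 : IndMod k q (fun i => y (x i)) := by
      intro F hF
      have h5 := hker _ hF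
      have h6 := MvPolynomial.aeval_algebraMap_apply (R := k) κ' (fun i => y (x i)) F
      rw [h5] at h6
      refine algebraicIndependent_iff.1 hx F ?_
      rw [← h6]
      congr 2
      funext i
      exact (hy (x i)).symm
    obtain ⟨z, hz⟩ := exists_algebraicIndependent_of_height hq h4
    have h5 : AlgebraicIndependent k (fun i => algebraMap B L (z i)) := by
      have := hz.map' (f := IsScalarTower.toAlgHom k B L) (FaithfulSMul.algebraMap_injective B L)
      exact this
    have h6 := h5.cardinalMk_le_trdeg
    rw [hd, Cardinal.mk_fin] at h6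
    exact_mod_cast h6
  obtain ⟨t, ht⟩ := exists_isTranscendenceBasis k κ'
  have h3 : Cardinal.mk t < ((d + 1 : ℕ) : Cardinal) := by
    by_contra h4
    rw [not_lt, ← Cardinal.mk_fin] at h4
    obtain ⟨f⟩ := h4
    have := key (d + 1) (fun i => (f i : κ')) (ht.1.comp f f.injective)
    omega
  obtain ⟨e, he⟩ := Cardinal.lt_aleph0.1 (h3.trans Cardinal.natCast_lt_aleph0)
  have h4 : Cardinal.mk (Fin e) ≤ Cardinal.mk t := by rw [he, Cardinal.mk_fin]
  obtain ⟨f⟩ := h4
  have h5 := key e (fun i => (f i : κ')) (ht.1.comp f f.injective)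
  have h6 : (n : Cardinal) ≤ (e + m : ℕ) := by
    refine hκ.trans ?_
    rw [← h2, ← ht.cardinalMk_eq_trdeg, he, Nat.cast_add]
    gcongr
  have h7 : n ≤ e + m := by exact_mod_cast h6
  omega

end Vale.Agent.P299.Q
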