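import Vale.Agent.P299.Q.Stable
import Vale.Agent.P299.Q.FlDeg

/-!
# Affine charts
-/

open CategoryTheory TopologicalSpace Opposite TopCat AlgebraicGeometry Order

namespace Vale.Agent.P299.Q

open Vale.Agent.P299.G

variable {X : Var}

/-- The local ring at `y` consists of fractions of polynomials in the elements of `S`. -/
def IsChartAt (X : Var) (S : Set X.K) (y : X.X) : Prop :=
  S ⊆ locRing X y ∧ ∀ g ∈ locRing X y, ∃ a ∈ Algebra.adjoin ℂ S, ∃ b ∈ Algebra.adjoin ℂ S,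
    b⁻¹ ∈ locRing X y ∧ b ≠ 0 ∧ g = a / b

theorem adjoin_subset_locRing {S : Set X.K} {y : X.X} (h : S ⊆ locRing X y) {a : X.K}
    (ha : a ∈ Algebra.adjoin ℂ S) : a ∈ locRing X y := by
  refine Algebra.adjoin_induction (fun x hx => h hx) (fun c => const_mem_locRing y c)
    (fun a b _ _ ha hb => (locRing X y).add_mem ha hb)
    (fun a b _ _ ha hb => (locRing X y).mul_mem ha hb) ha

theorem exists_chart (x : X.X) : ∃ (U : X.X.Opens) (S : Finset X.K), x ∈ U ∧
    ∀ y ∈ U, IsChartAt X S y := by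
  obtain ⟨_, ⟨U, hU, rfl⟩, hxU, -⟩ :=
    X.X.isBasis_affineOpens.exists_subset_of_mem_open (Set.mem_univ x) isOpen_univ
  have hU' : IsAffineOpen U := hU
  have hne : Nonempty U := ⟨⟨x, hxU⟩⟩
  let _ : Algebra ℂ Γ(X.X, U) := (cst U : ℂ →+* Γ(X.X, U)).toAlgebra
  have h1 : Algebra.FiniteType ℂ Γ(X.X, U) := cst_finiteType U hU'
  obtain ⟨T, hT⟩ := h1.out
  have htow : IsScalarTower ℂ Γ(X.X, U) X.K :=
    IsScalarTower.of_algebraMap_eq fun c => (germ_cst U c).symm
  classical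
  let f : Γ(X.X, U) →ₐ[ℂ] X.K := IsScalarTower.toAlgHom ℂ Γ(X.X, U) X.K
  have hf : ∀ g, f g = X.X.germToFunctionField U g := fun _ => rfl
  have hrange : ∀ g : Γ(X.X, U), f g ∈ Algebra.adjoin ℂ ((T.image f : Finset X.K) : Set X.K) := by
    intro g
    rw [Finset.coe_image, ← AlgHom.map_adjoin, hT]
    exact ⟨g, trivial, rfl⟩
  refine ⟨U, T.image f, hxU, fun y hy => ⟨?_, fun g hg => ?_⟩⟩
  · intro a ha
    rw [Finset.coe_image] at ha
    obtain ⟨g, -, rfl⟩ := ha
    exact germ_mem_locRing hy g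
  · obtain ⟨t, rfl⟩ := hg
    have := hU'.isLocalization_stalk ⟨y, hy⟩
    let _ := TopCat.Presheaf.algebra_section_stalk X.X.presheaf (U := U) ⟨y, hy⟩
    obtain ⟨⟨a, b⟩, hab⟩ := IsLocalization.surj (hU'.primeIdealOf ⟨y, hy⟩).asIdeal.primeCompl t
    have hb := IsLocalization.map_units (X.X.presheaf.stalk y) b
    have hbK : toK y (X.X.presheaf.germ U y hy b.1) = f b.1 :=
      Scheme.algebraMap_germ_eq_germToFunctionField X.X hy _
    have haK : toK y (X.X.presheaf.germ U y hy a) = f a :=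
      Scheme.algebraMap_germ_eq_germToFunctionField X.X hy _
    have hb' : IsUnit (X.X.presheaf.germ U y hy b.1) := hb
    have hab' : t * X.X.presheaf.germ U y hy b.1 = X.X.presheaf.germ U y hy a := hab
    have hb0 : f b.1 ≠ 0 := by
      rw [← hbK]
      exact (hb'.map (toK y)).ne_zero
    refine ⟨f a, hrange a, f b.1, hrange _, ?_, hb0, ?_⟩
    · obtain ⟨u, hu⟩ := hb'
      refine ⟨(u⁻¹ : (X.X.presheaf.stalk y)ˣ), ?_⟩
      rw [← hbK, ← hu]
      exact map_units_inv (algebraMap (X.X.presheaf.stalk y) X.K) u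
    · rw [eq_div_iff hb0, ← hbK, ← haK, ← hab', map_mul]

end Vale.Agent.P299.Q
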