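import Mathlib.RingTheory.Valuation.LocalSubring
import Vale.Agent.P299.Q.Center
import Vale.Agent.P299.Q.CenterOver
import Vale.Agent.P299.Q.FlChart

/-!
# The centre of a valuation ring
-/

open CategoryTheory TopologicalSpace Opposite TopCat AlgebraicGeometry Order

namespace Vale.Agent.P299.Q

open Vale.Agent.P299.G

variable {X Y : Var}

/-- `x` is the centre of the valuation ring `V` on `X`: `V` dominates the local ring of `x`. -/
def IsCenter (V : ValuationSubring X.K) (x : X.X) : Prop :=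
  (∀ a ∈ locRing X x, a ∈ V) ∧ ∀ a ∈ locRing X x, a⁻¹ ∈ V → a⁻¹ ∈ locRing X x

theorem isUnit_iff_inv_mem {x : X.X} {t : X.X.presheaf.stalk x} (ht : t ≠ 0) :
    IsUnit t ↔ (toK x t)⁻¹ ∈ locRing X x := by
  constructor
  · rintro ⟨u, rfl⟩
    exact ⟨(u⁻¹ : (X.X.presheaf.stalk x)ˣ), map_units_inv (toK x) u⟩
  · rintro ⟨s, hs⟩
    have h0 : toK x t ≠ 0 := toK_ne_zero ht
    refine IsUnit.of_mul_eq_one s (toK_injective x ?_)
    rw [map_mul, map_one]
    change toK x t * algebraMap _ X.K s = 1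
    rw [hs, mul_inv_cancel₀ h0]

theorem exists_isCenter (X : Var) (V : ValuationSubring X.K)
    (hV : ∀ c : ℂ, algebraMap ℂ X.K c ∈ V) : ∃ x : X.X, IsCenter V x := by
  obtain ⟨x₀, hx₀⟩ := exists_center X V hV
  let c : X.X.presheaf.stalk x₀ →+* V := (toK x₀).codRestrict V.toSubring hx₀
  let P : Ideal (X.X.presheaf.stalk x₀) := (IsLocalRing.maximalIdeal V).comap c
  have hP : ∀ a, a ∉ P → (toK x₀ a)⁻¹ ∈ V ∧ toK x₀ a ≠ 0 := by
    intro a ha
    have h1 : IsUnit (c a) := by
      by_contra h2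
      exact ha ((IsLocalRing.mem_maximalIdeal _).2 h2)
    have h2 : toK x₀ a ≠ 0 := by
      intro h3
      have h4 : c a = 0 := Subtype.ext h3
      rw [h4] at h1
      exact not_isUnit_zero h1
    refine ⟨?_, h2⟩
    obtain ⟨u, hu⟩ := h1
    have h3 : ((u⁻¹ : Vˣ) : X.K) = (toK x₀ a)⁻¹ := by
      rw [eq_comm, inv_eq_iff_eq_inv, eq_comm, ← eq_comm]
      have h4 : ((u : V) : X.K) * ((u⁻¹ : Vˣ) : V) = 1 := by
        rw [← MulMemClass.coe_mul, Units.mul_inv]
        rfl
      have h5 : ((u : V) : X.K) = toK x₀ a := by rw [hu]; rfl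
      rw [h5] at h4
      exact eq_inv_of_mul_eq_one_left h4
    rw [← h3]
    exact (u⁻¹ : Vˣ).1.2
  have hP' : ∀ a, toK x₀ a ≠ 0 → (toK x₀ a)⁻¹ ∈ V → a ∉ P := by
    intro a ha0 ha haP
    refine (IsLocalRing.mem_maximalIdeal _).1 haP ?_
    refine IsUnit.of_mul_eq_one (⟨(toK x₀ a)⁻¹, ha⟩ : V) (Subtype.ext ?_)
    exact mul_inv_cancel₀ ha0
  obtain ⟨y, hy, hyP⟩ := exists_primeAt P
  have hval : ∀ t : X.X.presheaf.stalk y, ∃ a b, b ∉ P ∧ toK y t = toK x₀ a / toK x₀ b ∧
      (a ∉ P → IsUnit t) := by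
    intro t
    obtain ⟨a, b, hb, hab⟩ := exists_frac hy t
    have h1 : b ∉ P := by
      rw [← hyP, mem_primeAt, not_not]
      exact hb
    refine ⟨a, b, h1, ?_, fun ha => ?_⟩
    · rw [eq_div_iff (hP b h1).2, ← toK_toStalk hy, ← toK_toStalk hy a, ← map_mul, hab]
    · rw [← hyP, mem_primeAt, not_not, ← hab] at ha
      exact isUnit_of_mul_isUnit_left ha
  refine ⟨y, ?_, ?_⟩
  · rintro _ ⟨t, rfl⟩
    obtain ⟨a, b, hb, hab, -⟩ := hval t
    change toK y t ∈ V
    rw [hab, div_eq_mul_inv]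
    exact V.mul_mem _ _ (hx₀ a) (hP b hb).1
  · rintro _ ⟨t, rfl⟩ ht
    change (toK y t)⁻¹ ∈ V at ht
    obtain ⟨a, b, hb, hab, hu⟩ := hval t
    by_cases ht0 : t = 0
    · rw [ht0, map_zero, inv_zero]
      exact (locRing X y).zero_mem
    refine (isUnit_iff_inv_mem ht0).1 (hu (hP' a ?_ ?_))
    · intro h0
      rw [h0, zero_div] at hab
      exact toK_ne_zero ht0 hab
    · have h3 : (toK x₀ a)⁻¹ = (toK y t)⁻¹ * (toK x₀ b)⁻¹ := by
        rw [hab]
        have := (hP b hb).2
        field_simp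
      rw [h3]
      exact V.mul_mem _ _ ht (hP b hb).1

theorem isSeparated (X : Var) : X.X.IsSeparated := by
  have h1 : IsSeparated (X.X ↘ SpecC) := inferInstance
  rw [Scheme.isSeparated_iff, ← Limits.terminal.comp_from (X.X ↘ SpecC)]
  infer_instance

/-- Let `x` be the centre of `V` on `X`. If `V` contains the local ring of `Y` at `y`, then `φ(x)` is
a generization of `y`. -/
theorem IsCenter.specializes {φ : DomHom X Y} {V : ValuationSubring X.K} {x : X.X}
    (hx : IsCenter V x) {y : Y.X} (hy : ∀ a : Y.X.presheaf.stalk y, φ.pull (toK y a) ∈ V) :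
    φ.f x ⤳ y := by
  have hsep := isSeparated Y
  let cx : X.X.presheaf.stalk x →+* V := (toK x).codRestrict V.toSubring fun a => hx.1 _ ⟨a, rfl⟩
  have hloc : IsLocalHom cx := by
    constructor
    intro a ha
    have ha0 : a ≠ 0 := by
      rintro rfl
      rw [map_zero] at ha
      exact not_isUnit_zero ha
    rw [isUnit_iff_inv_mem ha0]
    refine hx.2 _ ⟨a, rfl⟩ ?_
    obtain ⟨u, hu⟩ := ha
    have h4 : ((u : V) : X.K) * ((u⁻¹ : Vˣ) : V) = 1 := by
      rw [← MulMemClass.coe_mul, Units.mul_inv]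
      rfl
    have h5 : ((u : V) : X.K) = toK x a := by rw [hu]; rfl
    rw [h5] at h4
    have h6 := eq_inv_of_mul_eq_one_right h4
    change (toK x a)⁻¹ ∈ V
    rw [← h6]
    exact ((u⁻¹ : Vˣ) : V).2
  let cy : Y.X.presheaf.stalk y →+* V := (φ.pull.comp (toK y)).codRestrict V.toSubring hy
  let j : CommRingCat.of V ⟶ CommRingCat.of X.K := CommRingCat.ofHom (algebraMap V X.K)
  let A : Spec (CommRingCat.of V) ⟶ Y.X := Spec.map (CommRingCat.ofHom cx) ≫
    X.X.fromSpecStalk x ≫ φ.f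
  let B : Spec (CommRingCat.of V) ⟶ Y.X := Spec.map (CommRingCat.ofHom cy) ≫
    Y.X.fromSpecStalk y
  have hjx : CommRingCat.ofHom cx ≫ j = X.X.presheaf.stalkSpecializes
      (genericPoint_specializes x) := by
    ext a
    rfl
  have hgy : φ.f (genericPoint X.X) ⤳ y := by
    rw [φ.dominant]
    exact genericPoint_specializes y
  have hjy : CommRingCat.ofHom cy ≫ j = Y.X.presheaf.stalkSpecializes hgy ≫
      φ.f.stalkMap (genericPoint X.X) := by
    have h1 : Y.X.presheaf.stalkSpecializes (genericPoint_specializes y) ≫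
        Y.X.presheaf.stalkSpecializes (specializes_of_eq φ.dominant) =
        Y.X.presheaf.stalkSpecializes hgy := TopCat.Presheaf.stalkSpecializes_comp _ _ _
    rw [← h1, Category.assoc]
    ext a
    rfl
  have hAB : Spec.map j ≫ A = Spec.map j ≫ B := by
    change Spec.map j ≫ Spec.map (CommRingCat.ofHom cx) ≫ X.X.fromSpecStalk x ≫ φ.f =
      Spec.map j ≫ Spec.map (CommRingCat.ofHom cy) ≫ Y.X.fromSpecStalk y
    rw [← Spec.map_comp_assoc, ← Spec.map_comp_assoc, hjx, hjy,
      Scheme.SpecMap_stalkSpecializes_fromSpecStalk_assoc, Spec.map_comp, Category.assoc,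
      Scheme.SpecMap_stalkSpecializes_fromSpecStalk, Scheme.SpecMap_stalkMap_fromSpecStalk]
  have hdom : IsDominant (Spec.map j) := by
    refine ⟨?_⟩
    have h1 : DenseRange (PrimeSpectrum.comap j.hom) := by
      rw [PrimeSpectrum.denseRange_comap_iff_ker_le_nilRadical]
      have h2 : RingHom.ker j.hom = ⊥ := (RingHom.injective_iff_ker_eq_bot _).1
        (fun a b hab => Subtype.ext hab)
      rw [h2]
      exact bot_le
    exact h1
  have hEq : A = B := ext_of_isDominant (Spec.map j) hAB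
  have hA : A (IsLocalRing.closedPoint V) = φ.f x := by
    have h1 : Spec.map (CommRingCat.ofHom cx) (IsLocalRing.closedPoint V) =
        IsLocalRing.closedPoint (X.X.presheaf.stalk x) := IsLocalRing.comap_closedPoint cx
    have h2 : A (IsLocalRing.closedPoint V) = φ.f (X.X.fromSpecStalk x
        (Spec.map (CommRingCat.ofHom cx) (IsLocalRing.closedPoint V))) := rfl
    rw [h2, h1, Scheme.fromSpecStalk_closedPoint]
  have hB : B (IsLocalRing.closedPoint V) ⤳ y := by
    have h6 : B (IsLocalRing.closedPoint V) ∈ Set.range (Y.X.fromSpecStalk y) :=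
      ⟨_, rfl⟩
    rw [Scheme.range_fromSpecStalk] at h6
    exact h6
  rw [← hA, hEq]
  exact hB

end Vale.Agent.P299.Q
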