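import Vale.Agent.P299.Q.EqfCoord
import Vale.Agent.P299.Q.FlCenter

/-!
# Logarithmic forms and centres of valuations
-/

open CategoryTheory TopologicalSpace Opposite TopCat AlgebraicGeometry Order

namespace Vale.Agent.P299.Q

open Vale.Agent.P299.G

variable {X : Var}

theorem IVal.det_mem {K : Type} [Field K] {V : IVal K} {n : ℕ} {M : Matrix (Fin n) (Fin n) K}
    (h : ∀ i j, V.ge 0 (M i j)) : V.ge 0 M.det := by
  rw [Matrix.det_apply]
  refine IVal.ge.sum _ _ fun σ _ => ?_
  have h1 : V.ge 0 (∏ i, M (σ i) i) := by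
    have h2 : ∀ S : Finset (Fin n), V.ge 0 (∏ i ∈ S, M (σ i) i) := by
      classical
      intro S
      induction S using Finset.induction_on with
      | empty =>
        rw [Finset.prod_empty]
        exact fun _ => IVal.v_one.ge
      | insert a S ha ih =>
        rw [Finset.prod_insert ha]
        have h3 := (h (σ a) a).mul ih
        rwa [add_zero] at h3
    exact h2 _
  rcases Int.units_eq_one_or (Equiv.Perm.sign σ) with h2 | h2
  · rw [h2, one_smul]
    exact h1
  · rw [h2, Units.neg_smul, one_smul]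
    exact h1.neg

theorem IVal.adjugate_mem {K : Type} [Field K] {V : IVal K} {n : ℕ}
    {M : Matrix (Fin n) (Fin n) K} (h : ∀ i j, V.ge 0 (M i j)) (i j : Fin n) :
    V.ge 0 (M.adjugate i j) := by
  rw [Matrix.adjugate_apply]
  refine IVal.det_mem fun a b => ?_
  rw [Matrix.updateRow_apply]
  split_ifs
  · rw [Pi.single_apply]
    split_ifs
    · exact fun _ => IVal.v_one.ge
    · exact V.ge_zero 0
  · exact h _ _

/-- The valuation of the elements of the local ring of the centre. -/
theorem IsCenter.ge {V : IVal X.K} {x : X.X} (hx : IsCenter V.ring x) {f : X.K}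
    (hf : f ∈ locRing X x) : V.ge 0 f := hx.1 f hf

theorem IsCenter.ge_one {V : IVal X.K} {x : X.X} (hx : IsCenter V.ring x)
    {c : X.X.presheaf.stalk x} (hc : ¬ IsUnit c) : V.ge 1 (toK x c) := by
  intro h0
  have hc0 : c ≠ 0 := by
    rintro rfl
    exact h0 (map_zero _)
  by_contra hlt
  push Not at hlt
  apply hc
  rw [isUnit_iff_inv_mem hc0]
  refine hx.2 _ ⟨c, rfl⟩ ?_
  change V.ge 0 (toK x c)⁻¹
  intro _
  rw [IVal.v_inv _ h0]
  omega

theorem IsCenter.v_unit {V : IVal X.K} {x : X.X} (hx : IsCenter V.ring x)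
    {b : X.X.presheaf.stalk x} (hb : IsUnit b) : V.v (toK x b) = 0 := by
  have hb0 : toK x b ≠ 0 := toK_ne_zero hb.ne_zero
  have h1 := hx.ge (⟨b, rfl⟩ : toK x b ∈ locRing X x) hb0
  have h2 := hx.ge ((isUnit_iff_inv_mem hb.ne_zero).1 hb) (inv_ne_zero hb0)
  rw [IVal.v_inv _ hb0] at h2
  omega

/-- **Top forms on logarithmic vector fields.** Let `x` be the centre of the valuation `V` and not
the generic point, and let `g ω` be regular at `x`. Then the value of `g ω` on logarithmic vector
fields has valuation at least one. -/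
theorem log_order {N : ℕ} (hN : X.dim = N) {V : IVal X.K} {x : X.X} (hx : IsCenter V.ring x)
    (hxg : x ≠ genericPoint X.X) {ω : X.Ten X.dim} (hω : IsAlt ω) {u : Fin N → X.K}
    {v : Fin N → X.Der} (huv : Fr x u v) {g : X.K} (hreg : g * topVal hN ω v ∈ locRing X x)
    {D : Fin N → X.Der} (hD : ∀ j k f, V.ge k f → V.ge k (D j f)) :
    V.ge 1 (g * topVal hN ω D) := by
  rw [topVal_det hN hω huv.dual huv.expand D, ← mul_assoc]
  set M : Matrix (Fin N) (Fin N) X.K := Matrix.of fun i j => D j (u i) with hM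
  have hMmem : ∀ i j, V.ge 0 (M i j) := fun i j => hD j 0 _ (hx.ge (huv.mem i))
  obtain ⟨c, l, b, hc, hb, hcb⟩ := exists_unit_der hxg huv
  have hdet : V.ge 1 M.det := by
    let e : Fin N → X.K := fun m => v m (toK x c)
    have he : Matrix.vecMul e M = fun j => D j (toK x c) := by
      funext j
      have h1 : D j (toK x c) = (∑ i, D j (u i) • v i) (toK x c) := by
        rw [← huv.expand (D j)]
      rw [h1, sum_smul_apply]
      change ∑ i, e i * M i j = _
      exact Finset.sum_congr rfl fun i _ => mul_comm _ _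
    have h1 : Matrix.vecMul (fun j => D j (toK x c)) M.adjugate l = M.det * e l := by
      rw [← he, Matrix.vecMul_vecMul, Matrix.mul_adjugate, Matrix.vecMul_smul, Matrix.vecMul_one]
      rfl
    have hel : e l = toK x b := hcb
    have h2 : V.ge 1 (toK x b * M.det) := by
      rw [mul_comm, ← hel, ← h1]
      change V.ge 1 (∑ i, D i (toK x c) * M.adjugate i l)
      refine IVal.ge.sum _ _ fun i _ => ?_
      have h3 := (hD i 1 _ (hx.ge_one hc)).mul (IVal.adjugate_mem hMmem i l)
      rwa [add_zero] at h3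
    have h4 := h2.of_mul (toK_ne_zero hb.ne_zero)
    rwa [hx.v_unit hb, sub_zero] at h4
  have h1 := (hx.ge hreg).mul hdet
  rwa [zero_add] at h1

end Vale.Agent.P299.Q
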