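import Vale.Agent.P299.Q.EqfSemi
import Vale.Agent.P299.Q.EqfCenter

/-!
# Rational quotients by a torus: coordinates, invariant forms, orders of vanishing
-/

open CategoryTheory TopologicalSpace Opposite TopCat AlgebraicGeometry Order

namespace Vale.Agent.P299.Q

open Vale.Agent.P299.G

/-- The order along a prime divisor. -/
noncomputable def ordVal {X : Var} {x : X.X} (hx : coheight x = 1) : IVal X.K where
  v f := Scheme.ord f x
  map_mul f g hf hg := Scheme.ord_mul hf hg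
  map_add f g hf hg hfg := by
    have h1 : og x (min (Scheme.ord f x) (Scheme.ord g x)) f := fun _ => min_le_left _ _
    have h2 : og x (min (Scheme.ord f x) (Scheme.ord g x)) g := fun _ => min_le_right _ _
    exact (og.add hx h1 h2) hfg

theorem ordVal_v {X : Var} {x : X.X} (hx : coheight x = 1) (f : X.K) :
    (ordVal hx).v f = Scheme.ord f x := rfl

theorem ordVal_ge {X : Var} {x : X.X} (hx : coheight x = 1) {f : X.K} (hf : f ∈ locRing X x) :
    (ordVal hx).ge 0 f := (og_iff hx).2 hf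

/-- The restriction of a valuation. -/
def IVal.comap {K L : Type} [Field K] [Field L] (V : IVal L) (f : K →+* L) : IVal K where
  v a := V.v (f a)
  map_mul a b ha hb := by
    rw [_root_.map_mul]
    exact V.map_mul _ _ ((map_ne_zero f).2 ha) ((map_ne_zero f).2 hb)
  map_add a b ha hb hab := by
    rw [_root_.map_add]
    refine V.map_add _ _ ((map_ne_zero f).2 ha) ((map_ne_zero f).2 hb) ?_
    rw [← _root_.map_add]
    exact (map_ne_zero f).2 hab

theorem IVal.comap_ge {K L : Type} [Field K] [Field L] {V : IVal L} {f : K →+* L} {k : ℤ} {a : K} :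
    (V.comap f).ge k a ↔ V.ge k (f a) := by
  unfold IVal.ge
  rw [map_ne_zero]
  rfl

/-- A quotient of two generators of the same divisor is regular. -/
theorem mem_locRing_of_ord {X : Var} {x : X.X} {f : X.K}
    (h : f ≠ 0 → ∀ y, coheight y = 1 → y ⤳ x → 0 ≤ Scheme.ord f y) : f ∈ locRing X x := by
  by_cases hf : f = 0
  · rw [hf]
    exact (locRing X x).zero_mem
  have := factorialStalks X x
  obtain ⟨a, ha⟩ := exists_of_forall_ord_nonneg X.dvr x f fun q hq hqx => h hf q hq hqx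
  exact ⟨a, ha⟩

section

variable {r : ℕ} {Z X Y : Var} (τ : TAct r Z) {μ : DomHom X Z} (hμ : μ.Birational)
  {φ : DomHom X Y} (hk : ∀ g : Z.K, g ∈ τ.inv ↔ ∃ h : Y.K, φ.pull h = μ.pull g)

include hk in
theorem symm_mem_inv (a : Y.K) : hμ.equiv.symm (φ.pull a) ∈ τ.inv := by
  rw [hk]
  exact ⟨a, (hμ.equiv.apply_symm_apply (φ.pull a)).symm⟩

variable {s : ℕ} {t : Fin s → Z.K} {w : Fin s → Fin r → ℤ} (hc : τ.ratAct.Coords s t w)

include hμ hk hc in
/-- The coordinates of the rational quotient. -/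
theorem transCoord : TransCoord φ (fun i => μ.pull (t i)) where
  ne i := μ.pull_ne_zero (hc.ne i)
  inj p hp := by
    let e : Y.K →+* τ.ratAct.fixed :=
      ((hμ.equiv.symm : X.K →+* Z.K).comp φ.pull).codRestrict τ.ratAct.fixed.toSubfield
        fun a s => symm_mem_inv τ hμ hk a s
    have h1 : MvPolynomial.aeval t (MvPolynomial.map e p) =
        (hμ.equiv.symm : X.K →+* Z.K) (MvPolynomial.eval₂ φ.pull (fun i => μ.pull (t i)) p) := by
      rw [MvPolynomial.eval₂_comp_left, MvPolynomial.aeval_def, MvPolynomial.eval₂_map]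
      congr 1
      funext i
      exact (hμ.equiv.symm_apply_apply (t i)).symm
    rw [hp, map_zero] at h1
    have h2 := (injective_iff_map_eq_zero _).1 (TS.RatAct.aeval_injective hc) _ h1
    have h3 : Function.Injective (MvPolynomial.map e : MvPolynomial (Fin s) Y.K →+* _) :=
      MvPolynomial.map_injective e e.injective
    exact h3 (h2.trans (map_zero _).symm)
  gen F hF ht := by
    have h1 : F.comap μ.pull = ⊤ := hc.gen _ (fun f hf => by
      obtain ⟨a, ha⟩ := (hk f).1 hf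
      change μ.pull f ∈ F
      rw [← ha]
      exact hF a) fun i => ht i
    rw [eq_top_iff]
    intro f _
    obtain ⟨g, rfl⟩ := hμ.2 f
    have h2 : g ∈ F.comap μ.pull := by
      rw [h1]
      trivial
    exact h2

variable (hmono : ∀ v f, f ≠ 0 → τ.ratAct.Semi v f → ∃ (c : Z.K) (a : Fin s → ℤ),
  (∀ σ, τ.ratAct.ρ σ c = c) ∧ c ≠ 0 ∧ f = c * ∏ i, t i ^ a i)

include hk hmono in
/-- The semi-invariants are monomials. -/
theorem semi_eq_mono {v : Fin r → ℤ} {f : Z.K} (hf0 : f ≠ 0) (hf : τ.ratAct.Semi v f) :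
    ∃ (g : Y.K) (a : Fin s → ℤ), g ≠ 0 ∧ μ.pull f = φ.pull g * ∏ i, μ.pull (t i) ^ a i := by
  obtain ⟨c, a, hcinv, hc0, rfl⟩ := hmono v f hf0 hf
  obtain ⟨g, hg⟩ := (hk c).1 hcinv
  refine ⟨g, a, ?_, ?_⟩
  · rintro rfl
    rw [map_zero] at hg
    exact μ.pull_ne_zero hc0 hg.symm
  · rw [map_mul, ← hg, map_prod]
    congr 1
    exact Finset.prod_congr rfl fun i _ => map_zpow₀ _ _ _

include hk hc in
/-- Vector fields with constant logarithmic derivatives of the coordinates are invariant. -/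
theorem down_inv {D : X.Der} {δ : Y.Der} (hD : ∀ a, D (φ.pull a) = φ.pull (δ a)) {c : Fin s → ℂ}
    (hcD : ∀ i, D (μ.pull (t i)) = algebraMap ℂ X.K (c i) * μ.pull (t i)) (σ : Fin r → ℂˣ)
    (f : Z.K) : hμ.down D ((τ.act σ).pull f) = (τ.act σ).pull (hμ.down D f) := by
  let ψ : X.K →+* X.K := (hμ.equiv : Z.K →+* X.K).comp ((τ.act σ).pull.comp
    (hμ.equiv.symm : X.K →+* Z.K))
  have hψ : ∀ f, ψ f = hμ.equiv ((τ.act σ).pull (hμ.equiv.symm f)) := fun _ => rfl
  have hψφ : ∀ a, ψ (φ.pull a) = φ.pull a := by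
    intro a
    rw [hψ, symm_mem_inv τ hμ hk a σ, RingEquiv.apply_symm_apply]
  have hψt : ∀ i, ψ (μ.pull (t i)) = algebraMap ℂ X.K ((∏ j, σ j ^ w i j : ℂˣ) : ℂ) *
      μ.pull (t i) := by
    intro i
    have h1 : (τ.act σ).pull (t i) = TS.chr Z.K (w i) σ * t i := hc.semi i σ
    have h2 : hμ.equiv.symm (μ.pull (t i)) = t i := hμ.equiv.symm_apply_apply (t i)
    rw [hψ, h2, h1, map_mul]
    congr 1
    exact μ.pull_constant _
  have h3 : ∀ c : ℂ, D (algebraMap ℂ X.K c) = 0 := fun c => D.map_algebraMap c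
  have hψc : ∀ c : ℂ, ψ (algebraMap ℂ X.K c) = algebraMap ℂ X.K c := by
    intro c
    rw [hψ]
    have h1 : hμ.equiv.symm (algebraMap ℂ X.K c) = algebraMap ℂ Z.K c := by
      rw [RingEquiv.symm_apply_eq]
      exact (μ.pull_constant c).symm
    rw [h1, (τ.act σ).pull_scalar]
    exact μ.pull_constant c
  have key := (transCoord τ hμ hk hc).ext_gen ψ (D.toAddMonoidHom.comp ψ.toAddMonoidHom)
    (ψ.toAddMonoidHom.comp D.toAddMonoidHom) (fun f g => ?_) (fun f g => ?_)
    (fun a => ?_) (fun i => ?_) (hμ.equiv f)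
  · change D (ψ (hμ.equiv f)) = ψ (D (hμ.equiv f)) at key
    rw [hμ.down_apply, hμ.down_apply]
    rw [hψ (hμ.equiv f), RingEquiv.symm_apply_apply] at key
    rw [key, hψ, RingEquiv.symm_apply_apply]
  · change D (ψ (f * g)) = ψ f * D (ψ g) + ψ g * D (ψ f)
    rw [map_mul, D.leibniz, smul_eq_mul, smul_eq_mul]
  · change ψ (D (f * g)) = ψ f * ψ (D g) + ψ g * ψ (D f)
    rw [D.leibniz, smul_eq_mul, smul_eq_mul, map_add, map_mul, map_mul]
  · change D (ψ (φ.pull a)) = ψ (D (φ.pull a))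
    rw [hψφ, hD, hψφ]
  · change D (ψ (μ.pull (t i))) = ψ (D (μ.pull (t i)))
    rw [hψt, D.leibniz, smul_eq_mul, smul_eq_mul, h3, mul_zero, add_zero, hcD, map_mul, hψt, hψc]
    ring

include hk hc in
/-- The form on `Y` obtained from an invariant form on `Z`. -/
theorem exists_base_form' {ω : Z.Ten Z.dim} (hω0 : ω ≠ 0) (hω : IsAlt ω)
    (hinv : τ.InvTensor ω) : ∃ η : Y.Ten Y.dim, η ≠ 0 ∧ IsAlt η ∧
      ∀ δ : Fin Y.dim → Y.Der, topVal (transCoord τ hμ hk hc).dim_eq (hμ.upTop ω)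
        ((transCoord τ hμ hk hc).logfr δ) = φ.pull (η δ) := by
  have h := transCoord τ hμ hk hc
  obtain ⟨u, v, huv⟩ := exists_fr (X := Y) rfl (genericPoint Y.X)
  have hd := h.frm_dual huv.dual
  have he := h.frm_expand huv.dual huv.expand
  have hval := topVal_det h.dim_eq (hμ.upTop_isAlt hω) hd he
  have h0 := topVal_frame_ne_zero h.dim_eq (hμ.upTop_ne_zero hω0) (hμ.upTop_isAlt hω) hd he
  -- the value on the logarithmic frame
  have hg : ∃ a, φ.pull a = topVal h.dim_eq (hμ.upTop ω) (h.logfr v) := by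
    have h1 : (ω fun k => hμ.down (h.logfr v (Fin.cast h.dim_eq (Fin.cast hμ.dim_eq.symm k)))) ∈
        τ.inv := by
      intro σ
      refine (hinv σ _ _ fun i f => ?_).symm
      generalize Fin.cast h.dim_eq (Fin.cast hμ.dim_eq.symm i) = j
      refine Fin.addCases (fun j => ?_) (fun l => ?_) j
      · simp only [TransCoord.logfr, Fin.append_left]
        exact down_inv τ hμ hk hc (h.L_pull j) (h.L_t' j) σ f
      · simp only [TransCoord.logfr, Fin.append_right]
        exact down_inv τ hμ hk hc (h.lift_pull (v l)) (c := 0) (fun i => by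
          rw [h.lift_t, Pi.zero_apply, map_zero, zero_mul]) σ f
    obtain ⟨a, ha⟩ := (hk _).1 h1
    exact ⟨a, ha⟩
  have hdet1 : (Matrix.of fun i j => v j (u i)).det = 1 := by
    have h4 : (Matrix.of fun i j => v j (u i)) = (1 : Matrix (Fin Y.dim) (Fin Y.dim) Y.K) := by
      ext i j
      rw [Matrix.of_apply, huv.dual, Matrix.one_apply]
      by_cases h : i = j
      · rw [if_pos h, if_pos h.symm]
      · rw [if_neg h, if_neg (Ne.symm h)]
    rw [h4, Matrix.det_one]
  have hlog : ∀ δ : Fin Y.dim → Y.Der, topVal h.dim_eq (hμ.upTop ω) (h.logfr δ) =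
      topVal h.dim_eq (hμ.upTop ω) (h.logfr v) *
        φ.pull (Matrix.of fun i j => δ j (u i)).det := by
    intro δ
    rw [hval (h.logfr δ), hval (h.logfr v), h.det_logfr u δ, h.det_logfr u v, hdet1, map_one]
    ring
  have hg0 : topVal h.dim_eq (hμ.upTop ω) (h.logfr v) ≠ 0 := by
    rw [hval (h.logfr v), h.det_logfr u v, hdet1, map_one, mul_one]
    exact mul_ne_zero h0 (Finset.prod_ne_zero_iff.2 fun i _ => h.ne i)
  obtain ⟨a, ha⟩ := hg
  have ha0 : a ≠ 0 := by
    rintro rfl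
    rw [map_zero] at ha
    exact hg0 ha.symm
  obtain ⟨η, hη0, hη, hηv⟩ := exists_top rfl huv.dual huv.expand ha0
  refine ⟨η, hη0, hη, fun δ => ?_⟩
  have h5 : η δ = a * (Matrix.of fun i j => δ j (u i)).det := hηv δ
  rw [hlog, h5, map_mul, ha]

/-! ### The monomial valuation attached to a prime divisor -/

section Mono

variable {V W : IVal X.K} (hW : ∀ p : MvPolynomial (Fin s) Y.K, p ≠ 0 →
  W.v (MvPolynomial.eval₂ φ.pull (fun i => μ.pull (t i)) p) =
    mw φ.pull (fun i => μ.pull (t i)) V p)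

include hk hc hmono hW

theorem semi_val {v : Fin r → ℤ} {f : Z.K} (hf0 : f ≠ 0) (hf : τ.ratAct.Semi v f) :
    W.v (μ.pull f) = V.v (μ.pull f) := by
  obtain ⟨g, a, hg0, h⟩ := semi_eq_mono τ hk hmono hf0 hf
  rw [h]
  exact mono_mono (fun i => μ.pull_ne_zero (hc.ne i)) hW hg0 a

theorem semi_sum_val (S : Finset ℕ) (g : ℕ → Z.K)
    (hg : ∀ m ∈ S, ∃ v, τ.ratAct.Semi v (g m)) (h0 : ∑ m ∈ S, g m ≠ 0) :
    W.v (μ.pull (∑ m ∈ S, g m)) ≤ V.v (μ.pull (∑ m ∈ S, g m)) := by
  have h1 : ∀ m, ∃ (c : Y.K) (a : Fin s → ℤ), m ∈ S →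
      μ.pull (g m) = φ.pull c * ∏ i, μ.pull (t i) ^ a i := by
    intro m
    by_cases hm : m ∈ S
    · by_cases hgm : g m = 0
      · exact ⟨0, 0, fun _ => by rw [hgm, map_zero, map_zero, zero_mul]⟩
      · obtain ⟨v, hv⟩ := hg m hm
        obtain ⟨c, a, -, h⟩ := semi_eq_mono τ hk hmono hgm hv
        exact ⟨c, a, fun _ => h⟩
    · exact ⟨0, 0, fun h => absurd h hm⟩
  choose c a hca using h1
  have h2 : μ.pull (∑ m ∈ S, g m) = ∑ m ∈ S, φ.pull (c m) * ∏ i, μ.pull (t i) ^ a m i := by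
    rw [map_sum]
    exact Finset.sum_congr rfl fun m hm => hca m hm
  have h3 := μ.pull_ne_zero h0
  rw [h2] at h3 ⊢
  exact mono_le_sum (fun i => μ.pull_ne_zero (hc.ne i)) hW S c a h3

/-- The monomial valuation is nonnegative on the local ring of the image in `Z`. -/
theorem mono_ge_Z {z : Z.X} (hV : ∀ f ∈ locRing Z z, V.ge 0 (μ.pull f)) {f : Z.K}
    (hf : f ∈ locRing Z z) : W.ge 0 (μ.pull f) := by
  have h := τ.ge_of_semi (V := V.comap μ.pull) (W := W.comap μ.pull)
    (fun S g hg h0 => semi_sum_val τ hk hc hmono hW S g hg h0)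
    (fun v f hf0 hf => semi_val τ hk hc hmono hW hf0 hf)
    (fun f hf => IVal.comap_ge.2 (hV f hf)) hf
  exact IVal.comap_ge.1 h

end Mono

end

end Vale.Agent.P299.Q
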