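import Vale.Agent.P299.Q.TorKoz

/-!
# Invariant sections in the Koszul complex

If a linear operator `ρ` projects the spaces of sections onto their parts in a subspace `E`, and
all the sheaves in the Koszul complex are acyclic, then the alternating sum of the dimensions of
the parts in `E` of the spaces of global sections is zero.
-/

open CategoryTheory TopologicalSpace Opposite TopCat AlgebraicGeometry Order

namespace Vale.Agent.P299.Q

open Vale.Agent.P299.G

section Alg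

variable {N : ℕ} {K : Type} [Field K] [Algebra ℂ K]

/-- The alternating forms whose value at the basis vectors of the subset `S` lies in `G S`. -/
abbrev KzG (N p : ℕ) (G : Finset (Fin N) → Submodule ℂ K) : Submodule ℂ (Kz N p K) :=
  KzS (T := TopCat.of PUnit.{1}) N p (fun S _ => G S) PUnit.unit

theorem mem_KzG {p : ℕ} {G : Finset (Fin N) → Submodule ℂ K} {ω : Kz N p K} :
    ω ∈ KzG N p G ↔ ∀ J : Fin p → Fin N, Function.Injective J →
      ω (fun i => Pi.single (J i) 1) ∈ G (Finset.univ.image J) := Iff.rfl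

/-- The coefficients of an alternating form. -/
noncomputable def kzgMap {p C : ℕ} (en : Fin C ≃ {S : Finset (Fin N) // S.card = p})
    (G : Finset (Fin N) → Submodule ℂ K) : KzG N p G →ₗ[ℂ] ((k : Fin C) → G (en k).1) where
  toFun := fun ω k => ⟨ω.1 fun i => Pi.single ((en k).1.orderEmbOfFin (en k).2 i) 1, by
    have h5 := ω.2 _ ((en k).1.orderEmbOfFin (en k).2).injective
    rwa [Finset.image_orderEmbOfFin_univ] at h5⟩
  map_add' := fun _ _ => rfl
  map_smul' := fun _ _ => rfl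

/-- The coefficients of an alternating form, as an equivalence. -/
noncomputable def kzgEquiv {p C : ℕ} (en : Fin C ≃ {S : Finset (Fin N) // S.card = p})
    (G : Finset (Fin N) → Submodule ℂ K) : KzG N p G ≃ₗ[ℂ] ((k : Fin C) → G (en k).1) :=
  LinearEquiv.ofBijective (kzgMap en G)
    ⟨fun ω ω' h => by
      apply Subtype.ext
      rw [← ofCoeffs_surj en ω.1, ← ofCoeffs_surj en ω'.1]
      congr 1
      funext k
      exact congrArg Subtype.val (congrFun h k),
    fun g => ⟨⟨ofCoeffs en fun k => (g k).1, ofCoeffs_mem (T := TopCat.of PUnit.{1})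
      (M := fun S _ => G S) en fun k => (g k).2⟩, by
        funext k
        exact Subtype.ext (ofCoeffs_basis en (fun k => (g k).1) k)⟩⟩

theorem finrank_KzG (p : ℕ) (G : Finset (Fin N) → Submodule ℂ K)
    (hfin : ∀ S, Module.Finite ℂ (G S)) :
    Module.Finite ℂ (KzG N p G) ∧ (Module.finrank ℂ (KzG N p G) : ℤ) =
      ∑ S ∈ Finset.univ.filter (fun S : Finset (Fin N) => S.card = p),
        (Module.finrank ℂ (G S) : ℤ) := by
  let en : Fin (Fintype.card {S : Finset (Fin N) // S.card = p}) ≃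
    {S : Finset (Fin N) // S.card = p} := (Fintype.equivFin _).symm
  refine ⟨Module.Finite.equiv (kzgEquiv en G).symm, ?_⟩
  rw [(kzgEquiv en G).finrank_eq, Module.finrank_pi_fintype, ← Finset.sum_subtype_eq_sum_filter,
    Finset.subtype_univ, Nat.cast_sum]
  exact Equiv.sum_comp en fun S => (Module.finrank ℂ (G S.1) : ℤ)

/-- **Linear algebra of the Koszul complex.** -/
theorem sum_finrank_of_exact {s : Fin N → K} {G : Finset (Fin N) → Submodule ℂ K}
    (hfin : ∀ S, Module.Finite ℂ (G S))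
    (hmul : ∀ S : Finset (Fin N), ∀ j ∉ S, ∀ f ∈ G (insert j S), s j * f ∈ G S)
    (hex0 : ∀ f ∈ KzG N 0 G, ∃ ω ∈ KzG N 1 G, contr s 0 ω = f)
    (hex : ∀ p, ∀ f ∈ KzG N (p + 1) G, contr s p f = 0 →
      ∃ ω ∈ KzG N (p + 2) G, contr s (p + 1) ω = f) :
    ∑ S : Finset (Fin N), (-1 : ℤ) ^ S.card * (Module.finrank ℂ (G S) : ℤ) = 0 := by
  have hK := fun p => finrank_KzG p G hfin
  have hF : ∀ p, Module.Finite ℂ (KzG N p G) := fun p => (hK p).1
  let d : ∀ p, KzG N (p + 1) G →ₗ[ℂ] KzG N p G := fun p =>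
    ((contr s p).comp (KzG N (p + 1) G).subtype).codRestrict (KzG N p G) fun ω =>
      contrS_mem (T := TopCat.of PUnit.{1}) (M := fun S _ => G S)
        (fun S j hj _ f hf => hmul S j hj f hf) p PUnit.unit ω.1 ω.2
  let z : ℕ → ℤ := fun p => (Module.finrank ℂ (LinearMap.ker (d p)) : ℤ)
  let k : ℕ → ℤ := fun p => (Module.finrank ℂ (KzG N p G) : ℤ)
  have hrn : ∀ p, (Module.finrank ℂ (LinearMap.range (d p)) : ℤ) + z p = k (p + 1) := by
    intro p
    have h := LinearMap.finrank_range_add_finrank_ker (K := ℂ) (V := KzG N (p + 1) G)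
      (V₂ := KzG N p G) (d p)
    change (Module.finrank ℂ (LinearMap.range (d p)) : ℤ) +
      (Module.finrank ℂ (LinearMap.ker (d p)) : ℤ) = (Module.finrank ℂ (KzG N (p + 1) G) : ℤ)
    rw [← h, Nat.cast_add]
  have h0 : LinearMap.range (d 0) = ⊤ := by
    rw [LinearMap.range_eq_top]
    intro f
    obtain ⟨ω, hω, h⟩ := hex0 f.1 f.2
    exact ⟨⟨ω, hω⟩, Subtype.ext h⟩
  have h1 : ∀ p, LinearMap.range (d (p + 1)) = LinearMap.ker (d p) := by
    intro p
    apply le_antisymm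
    · rintro _ ⟨ω, rfl⟩
      rw [LinearMap.mem_ker]
      exact Subtype.ext (contr_contr s p ω.1)
    · intro f hf
      obtain ⟨ω, hω, h⟩ := hex p f.1 f.2 (congrArg Subtype.val (LinearMap.mem_ker.1 hf))
      exact ⟨⟨ω, hω⟩, Subtype.ext h⟩
  have hB : k 1 = k 0 + z 0 := by
    rw [← hrn 0, h0, finrank_top]
  have hA : ∀ p, k (p + 2) = z p + z (p + 1) := by
    intro p
    rw [← hrn (p + 1), h1]
  have key : ∀ m, ∑ p ∈ Finset.range (m + 2), (-1) ^ p * k p = (-1) ^ (m + 1) * z m := by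
    intro m
    induction m with
    | zero =>
      rw [Finset.sum_range_succ, Finset.sum_range_one, hB]
      ring
    | succ m ih =>
      rw [Finset.sum_range_succ, ih, hA]
      ring
  have hk : k (N + 1) = 0 := by
    have : Subsingleton (Kz N (N + 1) K) := Kz_subsingleton (Nat.lt_succ_self N)
    have : Subsingleton (KzG N (N + 1) G) := inferInstance
    change ((Module.finrank ℂ (KzG N (N + 1) G) : ℕ) : ℤ) = 0
    rw [Module.finrank_zero_of_subsingleton, Nat.cast_zero]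
  have hz : z N = 0 := by
    have : Subsingleton (Kz N (N + 1) K) := Kz_subsingleton (Nat.lt_succ_self N)
    have : Subsingleton (LinearMap.ker (d N)) := inferInstance
    change ((Module.finrank ℂ (LinearMap.ker (d N)) : ℕ) : ℤ) = 0
    rw [Module.finrank_zero_of_subsingleton, Nat.cast_zero]
  have h2 := key N
  rw [Finset.sum_range_succ, hk, hz, mul_zero, add_zero] at h2
  rw [← h2]
  have h3 : ∀ p ∈ Finset.range (N + 1), (-1) ^ p * k p =
      ∑ S ∈ Finset.univ.filter (fun S : Finset (Fin N) => S.card = p),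
        (-1) ^ S.card * (Module.finrank ℂ (G S) : ℤ) := by
    intro p _
    change (-1) ^ p * (Module.finrank ℂ (KzG N p G) : ℤ) = _
    rw [(hK p).2, Finset.mul_sum]
    refine Finset.sum_congr rfl fun S hS => ?_
    rw [(Finset.mem_filter.1 hS).2]
  rw [Finset.sum_congr rfl h3, Finset.sum_fiberwise_of_maps_to]
  intro S _
  have := Finset.card_le_univ S
  rw [Fintype.card_fin] at this
  exact Finset.mem_range.2 (Nat.lt_succ_of_le this)

end Alg

section Sheaf

variable {T : TopCat.{0}} [PreirreducibleSpace T] [Nonempty T] {N : ℕ} {K : Type} [Field K]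
  [Algebra ℂ K] {s : Fin N → K} {M : Finset (Fin N) → T → Submodule ℂ K}
  (hmul : ∀ S : Finset (Fin N), ∀ j ∉ S, ∀ x, ∀ f ∈ M (insert j S) x, s j * f ∈ M S x)
  (hdiv : ∀ x₀ : T, ∃ V : Opens T, x₀ ∈ V ∧ ∃ j, s j ≠ 0 ∧ ∀ S : Finset (Fin N), j ∉ S → ∀ x ∈ V,
    ∀ f ∈ M S x, (s j)⁻¹ * f ∈ M (insert j S) x)
  (hgood : ∀ S, Good 0 (constSheaf (M S)))

include hmul hdiv hgood

theorem kz_global_zero (f : Kz N 0 K) (hf : ∀ x, f ∈ KzS N 0 M x) :
    ∃ ω : Kz N 1 K, (∀ x, ω ∈ KzS N 1 M x) ∧ contr s 0 ω = f := by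
  have hZ := good_ZS hmul hdiv (n := 0) (fun p _ _ => (good_KzS p M fun S _ => hgood S).1) 0
  obtain ⟨t, ht⟩ := exists_global_of_shortExact (cxBS_shortExact hmul hdiv)
    (hZ.2 1 one_pos) (⟨fun _ => f, fun _ _ => rfl, fun x => hf x.1⟩ : constSec (KzS N 0 M) ⊤)
  obtain ⟨x₀⟩ := ‹Nonempty T›
  let t' : constSec (KzS N 1 M) ⊤ := t
  refine ⟨t'.1 ⟨x₀, trivial⟩, fun x => ?_, ?_⟩
  · rw [t'.2.1 ⟨x₀, trivial⟩ ⟨x, trivial⟩]
    exact t'.2.2 ⟨x, trivial⟩
  · exact congrArg (fun u : constSec (KzS N 0 M) ⊤ => u.1 ⟨x₀, trivial⟩) ht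

theorem kz_global (p : ℕ) (f : Kz N (p + 1) K) (hf : ∀ x, f ∈ KzS N (p + 1) M x)
    (h0 : contr s p f = 0) :
    ∃ ω : Kz N (p + 2) K, (∀ x, ω ∈ KzS N (p + 2) M x) ∧ contr s (p + 1) ω = f := by
  have hZ := good_ZS hmul hdiv (n := 0) (fun p _ _ => (good_KzS p M fun S _ => hgood S).1) (p + 1)
  obtain ⟨t, ht⟩ := exists_global_of_shortExact (cxAS_shortExact hmul hdiv p)
    (hZ.2 1 one_pos) (⟨fun _ => (⟨f, h0⟩ : LinearMap.ker (contr s p)), fun _ _ => rfl,
      fun x => hf x.1⟩ : constSec (ZS s M p) ⊤)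
  obtain ⟨x₀⟩ := ‹Nonempty T›
  let t' : constSec (KzS N (p + 2) M) ⊤ := t
  refine ⟨t'.1 ⟨x₀, trivial⟩, fun x => ?_, ?_⟩
  · rw [t'.2.1 ⟨x₀, trivial⟩ ⟨x, trivial⟩]
    exact t'.2.2 ⟨x, trivial⟩
  · have h1 := congrArg (fun u : constSec (ZS s M p) ⊤ => u.1 ⟨x₀, trivial⟩) ht
    exact congrArg (cycIncl s p) h1

/-- **The Koszul relation for the sections in `E`.** -/
theorem sum_finrank_inf {E : Submodule ℂ K} (ρ : K →ₗ[ℂ] K) (hρE : ∀ f ∈ E, ρ f = f)
    (hρs : ∀ j f, ρ (s j * f) = s j * ρ f) (hEs : ∀ j, ∀ f ∈ E, s j * f ∈ E)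
    (hfin : ∀ S, Module.Finite ℂ (⨅ x, M S x : Submodule ℂ K))
    (hmap : ∀ S, ∀ f ∈ (⨅ x, M S x : Submodule ℂ K), ρ f ∈ (E ⊓ ⨅ x, M S x : Submodule ℂ K)) :
    ∑ S : Finset (Fin N), (-1 : ℤ) ^ S.card *
      (Module.finrank ℂ (E ⊓ ⨅ x, M S x : Submodule ℂ K) : ℤ) = 0 := by
  -- the operator `ρ` on forms
  have hmem : ∀ p (ω : Kz N p K), (∀ x, ω ∈ KzS N p M x) →
      ρ.compAlternatingMap ω ∈ KzG N p fun S => E ⊓ ⨅ x, M S x := by
    intro p ω hω J hJ
    exact hmap _ _ ((Submodule.mem_iInf _).2 fun x => hω x J hJ)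
  have hcontr : ∀ p (ω : Kz N (p + 1) K),
      contr s p (ρ.compAlternatingMap ω) = ρ.compAlternatingMap (contr s p ω) := by
    intro p ω
    ext w
    rw [LinearMap.compAlternatingMap_apply, contr_apply, contr_apply, map_sum]
    exact Finset.sum_congr rfl fun j _ => (hρs j _).symm
  have hmem' : ∀ p (ω : Kz N p K), ω ∈ KzG N p (fun S => E ⊓ ⨅ x, M S x) →
      ∀ x, ω ∈ KzS N p M x := by
    intro p ω hω x J hJ
    exact (Submodule.mem_iInf _).1 (hω J hJ).2 x
  have hfix : ∀ p (ω : Kz N p K), ω ∈ KzG N p (fun S => E ⊓ ⨅ x, M S x) →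
      ρ.compAlternatingMap ω = ω := by
    intro p ω hω
    refine Module.Basis.ext_alternating (Pi.basisFun ℂ (Fin N)) fun J hJ => ?_
    simp only [Pi.basisFun_apply]
    exact hρE _ (hω J hJ).1
  refine sum_finrank_of_exact (s := s) (G := fun S => E ⊓ ⨅ x, M S x) (fun S => ?_) ?_ ?_ ?_
  · have := hfin S
    exact Submodule.finiteDimensional_of_le
      (inf_le_right : (E ⊓ ⨅ x, M S x : Submodule ℂ K) ≤ ⨅ x, M S x)
  · intro S j hj f hf
    exact ⟨hEs j f hf.1, (Submodule.mem_iInf _).2 fun x =>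
      hmul S j hj x f ((Submodule.mem_iInf _).1 hf.2 x)⟩
  · intro f hf
    obtain ⟨ω, hω, h⟩ := kz_global_zero hmul hdiv hgood f (hmem' 0 f hf)
    refine ⟨ρ.compAlternatingMap ω, hmem 1 ω hω, ?_⟩
    rw [hcontr, h, hfix 0 f hf]
  · intro p f hf h0
    obtain ⟨ω, hω, h⟩ := kz_global hmul hdiv hgood p f (hmem' (p + 1) f hf) h0
    refine ⟨ρ.compAlternatingMap ω, hmem (p + 2) ω hω, ?_⟩
    rw [hcontr, h, hfix (p + 1) f hf]

end Sheaf

section Var

/-- **The Koszul relation for the sections in `E`**, for the sheaves of a variety. -/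
theorem sum_finrank_koszul {X : Var} {E : Submodule ℂ X.K} (ρ : X.K →ₗ[ℂ] X.K)
    (hρ : ∀ f ∈ E, ρ f = f) {N : ℕ} {B : Fin N → Div X.X}
    (hB : ∀ j, (1 : X.K) ∈ H0 (coef (B j))) (hgen : ∀ x : X.X, ∃ j, GenAt (B j) (1 : X.K) x)
    (D : Div X.X)
    (hvan : ∀ S : Finset (Fin N), ∀ i > 0, Subsingleton (Coh (secSheaf (S := (X.X : TopCat.{0}))
      (id : X.X → X.X) (⊤ : Submodule ℂ X.K) (D - ∑ i ∈ S, B i)) i))
    (hmap : ∀ S : Finset (Fin N), ∀ f ∈ H0 (coef (D - ∑ i ∈ S, B i)),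
      ρ f ∈ E ⊓ H0 (coef (D - ∑ i ∈ S, B i))) :
    ∑ S : Finset (Fin N), (-1 : ℤ) ^ S.card *
      (Module.finrank ℂ (E ⊓ H0 (coef (D - ∑ i ∈ S, B i)) : Submodule ℂ X.K) : ℤ) = 0 := by
  have hinf : ∀ S : Finset (Fin N),
      (⨅ x : X.X, secK (T := (X.X : TopCat.{0})) (id : X.X → X.X) ⊤ (D - ∑ i ∈ S, B i) x) =
        H0 (coef (D - ∑ i ∈ S, B i)) := by
    intro S
    ext f
    rw [Submodule.mem_iInf]
    constructor
    · intro h
      exact (Submodule.mem_iInf _).2 fun x => (mem_secK.1 (h x)).2 x rfl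
    · intro h x
      rw [mem_secK]
      exact ⟨trivial, fun y _ => (Submodule.mem_iInf _).1 h y⟩
  have hg : ∀ p : (X.X : TopCat.{0}), ∃ V : Opens (X.X : TopCat.{0}), p ∈ V ∧
      ∃ j, (1 : X.K) ≠ 0 ∧ ∀ x, (id : X.X → X.X) x ∈ V → GenAt (B j) (1 : X.K) x := by
    intro p
    obtain ⟨j, hj⟩ := hgen p
    obtain ⟨V, hpV, hV⟩ := exists_genAt_nhds (B j) p hj
    exact ⟨V, hpV, j, one_ne_zero, fun x hx => hV x hx⟩
  have hT : Nonempty (X.X : TopCat.{0}) := ⟨genericPoint X.X⟩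
  have key := sum_finrank_inf (T := (X.X : TopCat.{0})) (K := X.K) (s := fun _ : Fin N => 1)
    (M := fun S p => secK (T := (X.X : TopCat.{0})) (id : X.X → X.X) ⊤ (D - ∑ i ∈ S, B i) p)
    (sec_mul (T := (X.X : TopCat.{0})) (id : X.X → X.X) ⊤ (s := fun _ : Fin N => 1) D
      (fun _ _ _ => trivial) hB)
    (sec_div (T := (X.X : TopCat.{0})) (id : X.X → X.X) ⊤ (s := fun _ : Fin N => 1) D
      (fun _ _ _ => trivial) hg)
    (fun S => good_zero_sec (T := (X.X : TopCat.{0})) (q := (id : X.X → X.X)) (hvan S))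
    (E := E) ρ hρ (fun j f => by rw [one_mul, one_mul]) (fun j f hf => by rwa [one_mul])
    (fun S => by
      rw [hinf S]
      exact finite_H0 factorialStalks _)
    (fun S f hf => by
      rw [hinf S] at hf ⊢
      exact hmap S f hf)
  rw [← key]
  refine Finset.sum_congr rfl fun S _ => ?_
  rw [hinf S]

end Var

end Vale.Agent.P299.Q
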