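import Vale.Agent.P299.Q.TorEff
import Vale.Agent.P299.Q.TorEx
import Vale.Agent.P299.Q.TorLin

/-!
# The Reynolds operator of a torus action
-/

open CategoryTheory TopologicalSpace Opposite TopCat AlgebraicGeometry Order

namespace Vale.Agent.P299.Q

open Vale.Agent.P299.G

namespace TS.RatAct

variable {r : ℕ} {K : Type} [Field K] [Algebra ℂ K] (τ : TS.RatAct r K)

/-- The semi-invariants of weight `w`. -/
def semiSub (w : Fin r → ℤ) : Submodule ℂ K where
  carrier := {f | τ.Semi w f}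
  zero_mem' := fun s => by rw [map_zero, mul_zero]
  add_mem' := fun {a b} ha hb s => by rw [map_add, ha s, hb s, mul_add]
  smul_mem' := fun c f hf s => by
    rw [Algebra.smul_def, map_mul, τ.scalar, hf s]
    ring

theorem mem_semiSub {w : Fin r → ℤ} {f : K} : f ∈ τ.semiSub w ↔ τ.Semi w f := Iff.rfl

theorem disjoint_semiSub : Disjoint (⨆ w : {w : Fin r → ℤ // w ≠ 0}, τ.semiSub w.1)
    (τ.semiSub 0) := by
  classical
  rw [Submodule.disjoint_def]
  intro f hf hf0
  rw [Submodule.mem_iSup_iff_exists_finsupp] at hf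
  obtain ⟨g, hg, hsum⟩ := hf
  let S : Finset (Option {w : Fin r → ℤ // w ≠ 0}) := insert none (g.support.image some)
  let W : Option {w : Fin r → ℤ // w ≠ 0} → Fin r → ℤ := fun o => o.elim 0 fun w => w.1
  let G : Option {w : Fin r → ℤ // w ≠ 0} → K := fun o => o.elim (-f) fun w => g w
  have hinj : Function.Injective W := by
    intro a b hab
    cases a with
    | none =>
      cases b with
      | none => rfl
      | some b => exact absurd hab.symm b.2
    | some a =>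
      cases b with
      | none => exact absurd hab a.2
      | some b => exact congrArg some (Subtype.ext hab)
  have hsemi : ∀ o ∈ S, τ.Semi (W o) (G o) := by
    intro o _
    cases o with
    | none => exact (τ.semiSub 0).neg_mem hf0
    | some w => exact hg w
  have hsum' : ∑ o ∈ S, G o ∈ (⊥ : Submodule ℂ K) := by
    rw [Finset.sum_insert (by simp), Finset.sum_image (by
      intro a _ b _ hab
      exact Option.some_injective _ hab)]
    have h1 : ∑ w ∈ g.support, G (some w) = f := hsum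
    rw [h1]
    simp [G]
  have h2 := τ.mem_of_sum_mem (V := ⊥) (fun s f hf => by
    rw [(Submodule.mem_bot ℂ).1 hf, map_zero]
    exact Submodule.zero_mem _) S W hinj.injOn G hsemi hsum' none (Finset.mem_insert_self _ _)
  have h3 : -f = 0 := (Submodule.mem_bot ℂ).1 h2
  exact neg_eq_zero.1 h3

/-- **The Reynolds operator.** -/
theorem exists_reynolds {n : ℕ} {t : Fin n → K} {w : Fin n → Fin r → ℤ} (hc : τ.Coords n t w) :
    ∃ ρ : K →ₗ[ℂ] K, (∀ f, τ.Semi 0 f → ρ f = f) ∧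
      ∀ V : Submodule ℂ K, Module.Finite ℂ V → (∀ s, ∀ f ∈ V, τ.ρ s f ∈ V) →
        ∀ f ∈ V, ρ f ∈ V ∧ τ.Semi 0 (ρ f) := by
  obtain ⟨W, hW, hcompl⟩ := τ.disjoint_semiSub.exists_isCompl
  let pr := (τ.semiSub 0).projectionOnto W hcompl.symm
  let ρ : K →ₗ[ℂ] K := (τ.semiSub 0).subtype.comp pr
  have h0 : ∀ f, τ.Semi 0 f → ρ f = f := by
    intro f hf
    have := Submodule.projectionOnto_apply_left hcompl.symm (⟨f, hf⟩ : τ.semiSub 0)
    exact congrArg Subtype.val this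
  have h1 : ∀ v : Fin r → ℤ, v ≠ 0 → ∀ f, τ.Semi v f → ρ f = 0 := by
    intro v hv f hf
    have hfW : f ∈ W := hW ((le_iSup (fun w : {w : Fin r → ℤ // w ≠ 0} => τ.semiSub w.1)
      ⟨v, hv⟩) hf)
    have := Submodule.projectionOnto_apply_right hcompl.symm (⟨f, hfW⟩ : W)
    exact congrArg Subtype.val this
  refine ⟨ρ, h0, fun V hV hst f hf => ?_⟩
  obtain ⟨S, v, g, hg, rfl⟩ := exists_sum_semi hc V hst hf
  rw [map_sum]
  constructor
  · refine V.sum_mem fun m hm => ?_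
    by_cases hv : v m = 0
    · rw [h0 _ (by have := (hg m hm).1; rwa [hv] at this)]
      exact (hg m hm).2
    · rw [h1 _ hv _ (hg m hm).1]
      exact V.zero_mem
  · refine (τ.semiSub 0).sum_mem fun m hm => ?_
    by_cases hv : v m = 0
    · have h2 : τ.Semi 0 (g m) := by have := (hg m hm).1; rwa [hv] at this
      rw [h0 _ h2]
      exact h2
    · rw [h1 _ hv _ (hg m hm).1]
      exact (τ.semiSub 0).zero_mem

end TS.RatAct

section Torus

variable {r : ℕ} {X : Var} (τ : TAct r X)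

theorem TAct.exists_ratCoords : ∃ (n : ℕ) (t : Fin n → X.K) (w : Fin n → Fin r → ℤ),
    τ.ratAct.Coords n t w := by
  obtain ⟨n, t, w, h1, h2, h3, h4⟩ := τ.ratAct.exists_coords_li
  exact ⟨n, t, w, h1, h2, h3, fun F hF hF' => h4 F hF hF'⟩

theorem TAct.semi_zero_iff {f : X.K} : τ.ratAct.Semi 0 f ↔ f ∈ τ.inv := by
  refine forall_congr' fun s => ?_
  rw [TS.chr_zero, one_mul]
  rfl

/-- (R1) **The Reynolds operator** of a torus action. -/
theorem TAct.exists_reynolds : ∃ ρ : X.K →ₗ[ℂ] X.K, (∀ f ∈ τ.inv, ρ f = f) ∧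
    ∀ V : Submodule ℂ X.K, Module.Finite ℂ V → (∀ σ, ∀ f ∈ V, (τ.act σ).pull f ∈ V) →
      ∀ f ∈ V, ρ f ∈ V ∧ ρ f ∈ τ.inv := by
  obtain ⟨n, t, w, hc⟩ := τ.exists_ratCoords
  obtain ⟨ρ, h1, h2⟩ := τ.ratAct.exists_reynolds hc
  refine ⟨ρ, fun f hf => h1 f (τ.semi_zero_iff.2 hf), fun V hV hst f hf => ?_⟩
  obtain ⟨h3, h4⟩ := h2 V hV hst f hf
  exact ⟨h3, τ.semi_zero_iff.1 h4⟩

/-- The sections of `O_X(D)` which do not generate at the points of `C`. -/
noncomputable def vanSub (D : Div X.X) (C : Set X.X) : Submodule ℂ X.K where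
  carrier := {f | f ∈ H0 (coef D) ∧ ∀ y ∈ C, ¬ GenAt D f y}
  zero_mem' := ⟨Submodule.zero_mem _, fun _ _ h => h.1 rfl⟩
  add_mem' := fun {a b} ha hb => ⟨Submodule.add_mem _ ha.1 hb.1, fun y hy =>
    (nonGen D y).add_mem (x := ⟨a, ha.1⟩) (y := ⟨b, hb.1⟩) (ha.2 y hy) (hb.2 y hy)⟩
  smul_mem' := fun c f hf => ⟨Submodule.smul_mem _ c hf.1, fun y hy =>
    (nonGen D y).smul_mem (x := ⟨f, hf.1⟩) c (hf.2 y hy)⟩

theorem mem_vanSub {D : Div X.X} {C : Set X.X} {f : X.K} :
    f ∈ vanSub D C ↔ f ∈ H0 (coef D) ∧ ∀ y ∈ C, ¬ GenAt D f y := Iff.rfl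

theorem finite_vanSub (D : Div X.X) (C : Set X.X) : Module.Finite ℂ (vanSub D C) := by
  have h1 : Module.Finite ℂ (H0 (coef D)) := finite_H0 factorialStalks D
  exact Submodule.finiteDimensional_of_le (fun f hf => hf.1 : vanSub D C ≤ H0 (coef D))

/-- Translation of generators. -/
theorem TAct.genAt_pull {D : Div X.X} (hD : τ.InvDiv D) (σ : Fin r → ℂˣ) {f : X.K} {x : X.X} :
    GenAt D ((τ.act σ).pull f) x ↔ GenAt D f ((τ.act σ).f x) := by
  have key : ∀ (σ : Fin r → ℂˣ) (f : X.K) (x : X.X), GenAt D f ((τ.act σ).f x) →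
      GenAt D ((τ.act σ).pull f) x := by
    intro σ f x h
    refine ⟨(τ.act σ).pull_ne_zero h.1, fun y hy hyx => ?_⟩
    have h1 := h.2 ((τ.act σ).f y) (by rw [τ.coheight_act, hy])
      (hyx.map (τ.act σ).f.continuous)
    rwa [← τ.ord_act, hD] at h1
  refine ⟨fun h => ?_, key σ f x⟩
  have h1 := key σ⁻¹ ((τ.act σ).pull f) ((τ.act σ).f x) (by rwa [τ.act_inv_act])
  rwa [τ.pull_act_inv] at h1

theorem TAct.vanSub_stable {D : Div X.X} (hD : τ.InvDiv D) {C : Set X.X}
    (hC : ∀ σ, ∀ x ∈ C, (τ.act σ).f x ∈ C) (σ : Fin r → ℂˣ) {f : X.K} (hf : f ∈ vanSub D C) :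
    (τ.act σ).pull f ∈ vanSub D C :=
  ⟨τ.pull_mem_H0' hD σ hf.1, fun y hy h => hf.2 _ (hC σ y hy) ((τ.genAt_pull hD σ).1 h)⟩

/-- (R4) The Reynolds operator preserves the sections of `O_X(D)` over the set where the effective
divisor `B` is zero. -/
theorem TAct.reynolds_mem {ρ : X.K →ₗ[ℂ] X.K}
    (hρ : ∀ V : Submodule ℂ X.K, Module.Finite ℂ V → (∀ σ, ∀ f ∈ V, (τ.act σ).pull f ∈ V) →
      ∀ f ∈ V, ρ f ∈ V ∧ ρ f ∈ τ.inv)
    {B D : Div X.X} (hB : τ.InvDiv B) (hB1 : (1 : X.K) ∈ H0 (coef B)) (hD : τ.InvDiv D) {f : X.K}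
    (hf : ∀ x, GenAt B 1 x → f ∈ polar (coef D) x) :
    ρ f ∈ τ.inv ∧ ∀ x, GenAt B 1 x → ρ f ∈ polar (coef D) x := by
  have hB0 : ∀ x, coheight x = 1 → 0 ≤ coef B x := by
    intro x hx
    have h1 := (mem_H0.1 hB1) x hx one_ne_zero
    rwa [ord_one', zero_add] at h1
  obtain ⟨k, hk⟩ : ∃ k : ℕ, f ∈ H0 (coef (D + k • B)) := by
    by_cases hf0 : f = 0
    · exact ⟨0, by rw [hf0]; exact Submodule.zero_mem _⟩
    obtain ⟨k, -, hk⟩ := exists_bound (g := fun x => Scheme.ord f x + coef D x)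
      (((finite_ord_ne_zero f hf0).union (finite_coef D)).subset fun z hz => by
        by_contra h
        rw [Set.mem_union, not_or] at h
        have h1 : Scheme.ord f z = 0 := by
          by_contra h2
          exact h.1 h2
        have h2 : coef D z = 0 := by
          by_contra h2
          exact h.2 h2
        exact hz (show Scheme.ord f z + coef D z = 0 by rw [h1, h2, add_zero]))
    refine ⟨k, mem_H0.2 fun x hx _ => ?_⟩
    rw [coef_add, coef_nsmul]
    have h1 := hk x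
    have h2 := hB0 x hx
    by_cases h3 : coef B x = 0
    · have h4 : GenAt B 1 x := ⟨one_ne_zero, fun y hy hyx => by
        have h5 : y = x := by
          have h6 : x ≤ y := hyx
          by_cases h7 : y ≤ x
          · have h8 : x ⤳ y := h7
            exact (h8.antisymm h6).eq.symm
          · exfalso
            have h5 := coheight_add_one_le (lt_of_le_not_ge h6 h7)
            rw [hx, hy] at h5
            exact absurd h5 (by decide)
        rw [h5, h3, ord_one', add_zero]⟩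
      have h5 := hf x h4 hx hf0
      rw [h3]
      linarith
    · have h4 : (1 : ℤ) ≤ coef B x := by omega
      have h5 : (0 : ℤ) ≤ k := Int.natCast_nonneg k
      nlinarith
  obtain ⟨h1, h2⟩ := hρ (H0 (coef (D + k • B))) (finite_H0 factorialStalks _)
    (fun σ g hg => τ.pull_mem_H0' (TAct.InvDiv.add τ hD (TAct.InvDiv.nsmul τ hB k)) σ hg) f hk
  refine ⟨h2, fun x hx hx1 hne => ?_⟩
  have h3 := (mem_H0.1 h1) x hx1 hne
  have h4 := hx.2 x hx1 specializes_rfl
  rw [ord_one', zero_add] at h4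
  rwa [coef_add, coef_nsmul, h4, mul_zero, add_zero] at h3

/-- The complements of the effective `T`-invariant ample divisors. -/
def TAct.torBasis : Set (Opens τ.space) :=
  {V | ∃ B : Div X.X, τ.InvDiv B ∧ IsAmple B ∧ (1 : X.K) ∈ H0 (coef B) ∧
    ∀ x : X.X, (show τ.space from x) ∈ V ↔ GenAt B 1 x}

/-- The divisor of a semi-invariant section. -/
theorem TAct.exists_div_semi {D : Div X.X} (hD : τ.InvDiv D) (hA : IsAmple D) {g : X.K}
    (hg0 : g ≠ 0) (hg : g ∈ H0 (coef D))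
    (hsemi : ∀ σ, ∃ c : ℂ, c ≠ 0 ∧ (τ.act σ).pull g = c • g) :
    ∃ B : Div X.X, τ.InvDiv B ∧ IsAmple B ∧ (1 : X.K) ∈ H0 (coef B) ∧
      ∀ x : X.X, GenAt B 1 x ↔ GenAt D g x := by
  obtain ⟨P, hP⟩ := exists_isDivOf hg0
  refine ⟨D + P, ?_, hA.add_isDivOf hP, ?_, fun x => ?_⟩
  · refine TAct.InvDiv.add τ hD fun σ y => ?_
    by_cases hy : coheight y = 1
    · rw [← hP.2 _ (by rw [τ.coheight_act, hy]), ← hP.2 y hy, τ.ord_semi hsemi]
    · rw [coef_of_ne hy, coef_of_ne (by rwa [τ.coheight_act])]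
  · rw [mem_H0]
    intro y hy _
    have h1 := (mem_H0.1 hg) y hy hg0
    rw [ord_one', coef_add, ← hP.2 y hy]
    linarith
  · constructor
    · intro h
      refine ⟨hg0, fun y hy hyx => ?_⟩
      have h1 := h.2 y hy hyx
      rw [ord_one', coef_add, ← hP.2 y hy] at h1
      linarith
    · intro h
      refine ⟨one_ne_zero, fun y hy hyx => ?_⟩
      have h1 := h.2 y hy hyx
      rw [ord_one', coef_add, ← hP.2 y hy]
      linarith

/-- If a sum of elements of `H^0(D)` generates at `x`, so does one of them. -/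
theorem exists_genAt_of_fin_sum {D : Div X.X} {ι : Type} (S : Finset ι) (g : ι → X.K)
    (hg : ∀ m ∈ S, g m ∈ H0 (coef D)) {x : X.X} (h : GenAt D (∑ m ∈ S, g m) x) :
    ∃ m ∈ S, GenAt D (g m) x := by
  by_contra hcon
  push Not at hcon
  have h1 : ∑ m ∈ S, g m ∈ vanSub D {x} := Submodule.sum_mem _ fun m hm =>
    ⟨hg m hm, fun y hy => by
      rw [Set.mem_singleton_iff.1 hy]
      exact hcon m hm⟩
  exact h1.2 x rfl h

/-- (R3) The complements of the effective `T`-invariant ample divisors form a basis of the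
invariant topology. -/
theorem TAct.exists_torBasis (W : Opens τ.space) (x : X.X) (hx : (show τ.space from x) ∈ W) :
    ∃ V ∈ τ.torBasis, (show τ.space from x) ∈ V ∧ V ≤ W := by
  obtain ⟨A, hAi, hA⟩ := linearization r X τ
  let W' : X.X.Opens := ⟨{y : X.X | (show τ.space from y) ∈ W}, W.2.1⟩
  have hWinv : ∀ (σ : Fin r → ℂˣ) (y : X.X), (τ.act σ).f y ∈ W' ↔ y ∈ W' := by
    intro σ y
    have h1 := W.2.2 σ
    have h2 := congrArg (fun s => y ∈ s) h1
    exact h2.to_iff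
  obtain ⟨m, hm, s, hs, U, -, hxU, hUW, hU⟩ := hA.exists_small (factorialStalks X) x W' hx
  have hmi : τ.InvDiv (m • A) := TAct.InvDiv.nsmul τ hAi m
  obtain ⟨n, t, w, hc⟩ := τ.exists_ratCoords
  have hfin := finite_vanSub (m • A) ((W' : Set X.X)ᶜ)
  obtain ⟨S, v, g, hg, hsum⟩ := TS.RatAct.exists_sum_semi hc (vanSub (m • A) ((W' : Set X.X)ᶜ))
    (fun σ f hf => τ.vanSub_stable hmi (C := (W' : Set X.X)ᶜ)
      (fun σ y hy h => hy ((hWinv σ y).1 h)) σ hf)
    (f := s) ⟨hs, fun y hy h => hy (hUW ((hU y).2 h))⟩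
  obtain ⟨k, hk, hkx⟩ := exists_genAt_of_fin_sum S g (fun m hm => (hg m hm).2.1)
    (x := x) (by rw [← hsum]; exact (hU x).1 hxU)
  obtain ⟨B, hB1, hB2, hB3, hB4⟩ := τ.exists_div_semi hmi (hA.nsmul hm) hkx.1 (hg k hk).2.1
    fun σ => ⟨((∏ i, σ i ^ (v k) i : ℂˣ) : ℂ), Units.ne_zero _, by
      rw [Algebra.smul_def]
      exact (hg k hk).1 σ⟩
  refine ⟨τ.genOpens (s := 1) hB1 fun σ => ⟨1, one_ne_zero, by rw [map_one, one_smul]⟩,
    ⟨B, hB1, hB2, hB3, fun y => Iff.rfl⟩, (hB4 x).2 hkx, fun y hy => ?_⟩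
  by_contra hyW
  exact (hg k hk).2.2 y hyW ((hB4 y).1 hy)

end Torus

end Vale.Agent.P299.Q
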