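import Vale.Agent.P299.Q.TorLeray
import Vale.Agent.P299.Q.TorVal

/-!
# From the Euler characteristic of the quotient to the invariant cohomology of `X`
-/

open CategoryTheory TopologicalSpace Opposite TopCat AlgebraicGeometry Order

namespace Vale.Agent.P299.Q

open Vale.Agent.P299.G

/-- A section of a multiple of `A` which vanishes at the images of finitely many vertical prime
divisors. -/
theorem exists_vanishing_finset {X Y : Var} {φ : DomHom X Y} {A : Div Y.X} {A' : Div X.X}
    (hA : IsAmple A) (hA' : IsPullback φ A A') (F : Finset X.X)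
    (hF : ∀ x ∈ F, coheight x = 1 ∧ φ.f x ≠ genericPoint Y.X) :
    ∃ k : ℕ, ∃ t ∈ H0 (coef (k • A)), t ≠ 0 ∧
      ∀ x ∈ F, 1 ≤ Scheme.ord (φ.pull t) x + k * coef A' x := by
  classical
  induction F using Finset.induction_on with
  | empty =>
    refine ⟨0, 1, ?_, one_ne_zero, fun x hx => absurd hx (Finset.notMem_empty x)⟩
    rw [zero_smul]
    exact one_mem_H0_zero
  | insert a F ha ih =>
    obtain ⟨k, t, ht, ht0, h1⟩ := ih fun x hx => hF x (Finset.mem_insert_of_mem hx)
    obtain ⟨k', t', ht', ht0', h1'⟩ := hA.exists_vanishing factorialStalks hA'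
      (hF a (Finset.mem_insert_self a F)).1 (hF a (Finset.mem_insert_self a F)).2
    have h2 : ∀ x, coheight x = 1 → 0 ≤ Scheme.ord (φ.pull t) x + k * coef A' x := by
      intro x hx
      have h3 := (mem_H0.1 ((hA'.nsmul k).pull_mem_H0 factorialStalks ht)) x hx
        (φ.pull_ne_zero ht0)
      rwa [coef_nsmul] at h3
    have h2' : ∀ x, coheight x = 1 → 0 ≤ Scheme.ord (φ.pull t') x + k' * coef A' x := by
      intro x hx
      have h3 := (mem_H0.1 ((hA'.nsmul k').pull_mem_H0 factorialStalks ht')) x hx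
        (φ.pull_ne_zero ht0')
      rwa [coef_nsmul] at h3
    refine ⟨k + k', t * t', ?_, mul_ne_zero ht0 ht0', fun x hx => ?_⟩
    · rw [add_smul]
      exact H0_mul ht ht'
    · rw [map_mul, Scheme.ord_mul (φ.pull_ne_zero ht0) (φ.pull_ne_zero ht0')]
      push_cast
      have hx1 := (hF x hx).1
      have h3 := h2 x hx1
      have h3' := h2' x hx1
      rcases Finset.mem_insert.1 hx with rfl | hx'
      · nlinarith
      · have h4 := h1 x hx'
        nlinarith

/-- A divisor which is positive along the invariant horizontal prime divisors becomes big after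
adding the pull back of an ample divisor. -/
theorem exists_big {r : ℕ} {X Y : Var} (τ : TAct r X) {φ : DomHom X Y} {S H : Div X.X}
    (hS : ∀ x, coheight x = 1 → φ.f x = genericPoint Y.X →
      0 ≤ coef S x ∧ ((∀ σ, (τ.act σ).f x = x) → 1 ≤ coef S x))
    (hH : τ.InvDiv H) {A : Div Y.X} {A' : Div X.X} (hA : IsAmple A) (hA' : IsPullback φ A A') :
    ∃ a b : ℕ, H0 (coef (a • S + b • A' - H)) ≠ ⊥ := by
  classical
  obtain ⟨a, -, ha⟩ := exists_bound (g := fun x : X.X => -coef H x)
    ((finite_coef H).subset fun x hx => by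
      have h1 : -coef H x ≠ 0 := hx
      exact fun h0 => h1 (by rw [h0, neg_zero]))
  have ha' : ∀ x, coef H x ≤ a := fun x => by
    have := ha x
    rw [neg_neg] at this
    exact this.le
  -- the vertical prime divisors
  let g : X.X → ℤ := fun x => a * coef S x - coef H x
  have hgfin : {x | g x ≠ 0}.Finite := by
    refine ((finite_coef S).union (finite_coef H)).subset fun x hx => ?_
    by_contra hcon
    rw [Set.mem_union, not_or] at hcon
    have h1 : coef S x = 0 := by
      by_contra h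
      exact hcon.1 h
    have h2 : coef H x = 0 := by
      by_contra h
      exact hcon.2 h
    exact hx (by simp only [g]; rw [h1, h2]; ring)
  obtain ⟨N, -, hN⟩ := exists_bound hgfin
  obtain ⟨k, t, ht, ht0, h1⟩ := exists_vanishing_finset hA hA'
    (hgfin.toFinset.filter fun x => coheight x = 1 ∧ φ.f x ≠ genericPoint Y.X)
    (fun x hx => (Finset.mem_filter.1 hx).2)
  have hpt0 := φ.pull_ne_zero ht0
  refine ⟨a, N * k, H0_ne_bot_iff.2 ⟨φ.pull t ^ N, mem_H0.2 fun x hx _ => ?_,
    pow_ne_zero _ hpt0⟩⟩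
  rw [Q.ord_pow hpt0, coef_sub, coef_add, coef_nsmul, coef_nsmul]
  push_cast
  by_cases hgx : φ.f x = genericPoint Y.X
  · rw [φ.ord_pull_of_generic x hgx ht0, hA'.coef_eq_zero hx hgx]
    obtain ⟨h2, h3⟩ := hS x hx hgx
    by_cases hHx : coef H x = 0
    · rw [hHx]
      have h4 : (0 : ℤ) ≤ a := Int.natCast_nonneg a
      nlinarith
    · have h4 := h3 (hH.fixed hHx)
      have h5 := ha' x
      have h6 : (0 : ℤ) ≤ a := Int.natCast_nonneg a
      nlinarith
  · have h2 : 0 ≤ Scheme.ord (φ.pull t) x + k * coef A' x := by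
      have h3 := (mem_H0.1 ((hA'.nsmul k).pull_mem_H0 factorialStalks ht)) x hx hpt0
      rwa [coef_nsmul] at h3
    have h3 : (0 : ℤ) ≤ N := Int.natCast_nonneg N
    by_cases hx0 : g x = 0
    · have h4 : a * coef S x - coef H x = 0 := hx0
      nlinarith
    · have h4 := h1 x (Finset.mem_filter.2 ⟨(Set.Finite.mem_toFinset _).2 hx0, hx, hgx⟩)
      have h5 := hN x
      have h6 : g x = a * coef S x - coef H x := rfl
      nlinarith

/-- The vanishing of the invariant cohomology of `κ' + S + φ^*A`, for `A` ample. -/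
theorem vanishing_over (hKN : KollarNadelVanishing) (hSPN : SemiPosNef) (hLin : Linearization)
    (hInv : InvariantPart) {r : ℕ} {X Y : Var} (τ : TAct r X) {φ : DomHom X Y}
    (hφ : τ.InvHom φ) {κ S : Div X.X} (hκ : IsCanonicalDivisor κ) (hκi : τ.InvDiv κ)
    (hSP : SemiPos S) (hSi : τ.InvDiv S)
    (hS : ∀ x, coheight x = 1 → φ.f x = genericPoint Y.X →
      0 ≤ coef S x ∧ ((∀ σ, (τ.act σ).f x = x) → 1 ≤ coef S x))
    {A : Div Y.X} {A' : Div X.X} (hA : IsAmple A) (hA' : IsPullback φ A A') :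
    ∀ i > 0, Subsingleton (Coh (secSheaf (S := τ.space) id τ.inv (κ + S + A')) i) := by
  intro i hi
  obtain ⟨H, hHi, hH⟩ := hLin r X τ
  obtain ⟨a, b, hab⟩ := exists_big τ hS hHi hA hA'
  have hA'n : IsNef A' := nefPullback factorialStalks X Y φ A A' hA' hA.isNef
  have hSn : IsNef S := hSPN X S hSP
  refine hInv r X τ _ i (TAct.InvDiv.add τ (TAct.InvDiv.add τ hκi hSi)
    (TAct.InvDiv.of_invHom τ factorialStalks hφ hA')) ?_
  refine vanishing_of_psef hKN hκ hSP hA'n hH (c := a + b + 1) (by omega) ?_ i hi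
  have e : (a + b + 1) • (S + A') - H =
      ((b + 1) • S + (a + 1) • A') + (a • S + b • A' - H) := by
    simp only [add_smul, smul_add, one_smul]
    abel
  rw [e]
  exact ((hSn.nsmul _).add (hA'n.nsmul _)).isPsef'.add_section hab

/-- **From the Euler characteristic of the quotient to the invariant cohomology.** -/
theorem exists_h_ne_zero (hKN : KollarNadelVanishing) (hSPN : SemiPosNef)
    (hLin : Linearization) (hInv : InvariantPart) {r : ℕ} {X X' Y : Var} (τ : TAct r X)
    (τ' : TAct r X') {μ : DomHom X' X} (hμ : μ.Birational)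
    (heq : ∀ t, (τ'.act t).f ≫ μ.f = μ.f ≫ (τ.act t).f)
    {κ S : Div X.X} {κ' κ₀ E S' : Div X'.X} (hκ : IsCanonicalDivisor κ) (hκi : τ.InvDiv κ)
    (hκ' : IsCanonicalDivisor κ') (hκ'i : τ'.InvDiv κ') (hpb : IsPullback μ κ κ₀)
    (hκE : κ' = κ₀ + E) (hE : 0 ≤ E)
    (hEx : ∀ x : X'.X, coheight (μ.f x) = 1 → coef E x = 0)
    (hS : SemiPos S) (hSi : τ.InvDiv S) (hS' : IsPullback μ S S')
    {φ : DomHom X' Y} (hφ : τ'.InvHom φ) {D' : Div Y.X}
    (hsec : ∀ (B : Div Y.X) (B' : Div X'.X), IsPullback φ B B' → ∀ U : Opens (Y.X : TopCat.{0}),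
      (U : Set Y.X).Nonempty → ∀ f : X'.K,
        (∃ g : Y.K, (∀ y : Y.X, y ∈ U → g ∈ polar (coef (D' + B)) y) ∧ φ.pull g = f) ↔
        f ∈ τ'.inv ∧ ∀ x : X'.X, φ.f x ∈ U → f ∈ polar (coef (κ' + S' + B')) x)
    (hhor : ∀ x, coheight x = 1 → φ.f x = genericPoint Y.X →
      0 ≤ coef S' x ∧ ((∀ σ, (τ'.act σ).f x = x) → 1 ≤ coef S' x))
    (hχ : chi D' ≠ 0) : ∃ i, τ.h (κ + S) i ≠ 0 := by
  obtain ⟨N, hg, hg', he⟩ := birational_compare hKN hSPN hLin hInv τ τ' hμ heq hκ hκi hκ' hκ'i
    hpb hκE hE hEx hS hSi hS'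
  have hS'i : τ'.InvDiv S' := TAct.InvDiv.pull τ factorialStalks heq hSi hS'
  obtain ⟨hY, heY⟩ := direct_image_compare hKN τ' hφ hsec fun A A' hA hA' =>
    vanishing_over hKN hSPN hLin hInv τ' hφ hκ' hκ'i (semiPos_pull factorialStalks μ hS' hS)
      hS'i hhor hA hA'
  by_contra hcon
  push Not at hcon
  apply hχ
  rw [← heY, ← eu_eq_of_good hY (Nat.le_add_left Y.dim N),
    eu_eq_of_good hg' (Nat.le_add_right N Y.dim), ← he]
  refine Finset.sum_eq_zero fun i _ => ?_
  have h1 : Module.finrank ℂ (Coh (secSheaf (S := τ.space) id τ.inv (κ + S)) i) = 0 := hcon i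
  rw [h1]
  simp

end Vale.Agent.P299.Q
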