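import Vale.Agent.P299.Q.EqfKoz
import Vale.Agent.P299.Q.TorP4
import Vale.Agent.P299.Q.OrbRey

/-!
# The invariant Euler characteristic and that of the quotient

The comparison uses a model `X'` of `X` with a morphism to a model `Y` of the field of the
invariants. No action on `X'` is needed, it is enough that the spaces of sections are stable.
-/

open CategoryTheory TopologicalSpace Opposite TopCat AlgebraicGeometry Order

namespace Vale.Agent.P299.Q

open Vale.Agent.P299.G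

section Sums

theorem sum_of_compl {n : ℕ} (F : Finset (Fin n) → ℤ)
    (h : ∑ S : Finset (Fin n), (-1 : ℤ) ^ S.card * F Sᶜ = 0) :
    ∑ S : Finset (Fin n), (-1 : ℤ) ^ S.card * F S = 0 := by
  classical
  have h0 : ∀ a b k : ℕ, a + b = k → (-1 : ℤ) ^ a = (-1) ^ k * (-1) ^ b := by
    rintro a b k rfl
    rw [pow_add, mul_assoc, ← mul_pow, neg_one_mul, neg_neg, one_pow, mul_one]
  have h1 : ∀ S : Finset (Fin n), (-1 : ℤ) ^ S.card = (-1) ^ n * (-1) ^ (Sᶜ).card := by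
    intro S
    refine h0 _ _ _ ?_
    rw [Finset.card_add_card_compl, Fintype.card_fin]
  have h3 : ∑ S : Finset (Fin n), (-1 : ℤ) ^ S.card * F S =
      (-1) ^ n * ∑ S : Finset (Fin n), (-1 : ℤ) ^ S.card * F Sᶜ := by
    rw [Finset.mul_sum]
    refine Fintype.sum_equiv (Equiv.ofBijective (fun S : Finset (Fin n) => Sᶜ)
      compl_bijective) _ _ fun S => ?_
    change _ = (-1) ^ n * ((-1) ^ (Sᶜ).card * F Sᶜᶜ)
    rw [compl_compl, ← mul_assoc, ← h1]
  rw [h3, h, mul_zero]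

theorem double_sum {n m : ℕ} (a : Finset (Fin n) → Finset (Fin m) → ℤ)
    (h1 : ∀ P, P.Nonempty → ∑ Q : Finset (Fin m), (-1 : ℤ) ^ Q.card * a P Q = 0)
    (h2 : ∀ Q, Q.Nonempty → ∑ P : Finset (Fin n), (-1 : ℤ) ^ P.card * a P Q = 0) :
    ∑ P ∈ Finset.univ.erase (∅ : Finset (Fin n)), (-1 : ℤ) ^ P.card * a P ∅ =
      ∑ Q ∈ Finset.univ.erase (∅ : Finset (Fin m)), (-1 : ℤ) ^ Q.card * a ∅ Q := by
  classical
  have h3 : ∀ P ∈ Finset.univ.erase (∅ : Finset (Fin n)), (-1 : ℤ) ^ P.card * a P ∅ =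
      ∑ Q ∈ Finset.univ.erase (∅ : Finset (Fin m)),
        -((-1 : ℤ) ^ P.card * ((-1 : ℤ) ^ Q.card * a P Q)) := by
    intro P hP
    have h := h1 P (Finset.nonempty_iff_ne_empty.2 (Finset.ne_of_mem_erase hP))
    rw [← Finset.sum_erase_add _ _ (Finset.mem_univ ∅), Finset.card_empty, pow_zero, one_mul] at h
    rw [Finset.sum_neg_distrib, ← Finset.mul_sum, eq_neg_of_add_eq_zero_right h, mul_neg]
  have h4 : ∀ Q ∈ Finset.univ.erase (∅ : Finset (Fin m)), (-1 : ℤ) ^ Q.card * a ∅ Q =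
      ∑ P ∈ Finset.univ.erase (∅ : Finset (Fin n)),
        -((-1 : ℤ) ^ P.card * ((-1 : ℤ) ^ Q.card * a P Q)) := by
    intro Q hQ
    have h := h2 Q (Finset.nonempty_iff_ne_empty.2 (Finset.ne_of_mem_erase hQ))
    rw [← Finset.sum_erase_add _ _ (Finset.mem_univ ∅), Finset.card_empty, pow_zero, one_mul] at h
    rw [Finset.sum_neg_distrib, eq_neg_of_add_eq_zero_right h, mul_neg, Finset.mul_sum]
    congr 1
    exact Finset.sum_congr rfl fun P _ => by ring
  rw [Finset.sum_congr rfl h3, Finset.sum_congr rfl h4, Finset.sum_comm]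

end Sums

theorem add_sum_sub_sum {X : Var} {m : ℕ} (B : Fin m → Div X.X) (D : Div X.X)
    (S : Finset (Fin m)) : D + ∑ i, B i - ∑ i ∈ S, B i = D + ∑ i ∈ Sᶜ, B i := by
  classical
  rw [← Finset.sum_add_sum_compl S B]
  abel

/-- **The Euler characteristic from the Koszul complex.** -/
theorem eu_koszul {X : Var} {T : TopCat.{0}} [PreirreducibleSpace T] {q : X.X → T}
    {E : Submodule ℂ X.K} {m : ℕ} {B : Fin (m + 1) → Div X.X} {s : Fin (m + 1) → X.K}
    (hE₁ : ∀ j, ∀ f ∈ E, s j * f ∈ E) (hE₂ : ∀ j, ∀ f ∈ E, (s j)⁻¹ * f ∈ E)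
    (hs : ∀ j, s j ∈ H0 (coef (B j)))
    (hgen : ∀ p : T, ∃ V : Opens T, p ∈ V ∧ ∃ j, s j ≠ 0 ∧ ∀ x, q x ∈ V → GenAt (B j) (s j) x)
    (D : Div X.X)
    (h : ∀ S : Finset (Fin (m + 1)), S.Nonempty →
      ∀ i > 0, Subsingleton (Coh (secSheaf q E (D + ∑ i ∈ S, B i)) i)) :
    Good m (secSheaf q E D) ∧
      eu m (secSheaf q E D) = -∑ S ∈ Finset.univ.erase (∅ : Finset (Fin (m + 1))),
        (-1 : ℤ) ^ S.card *
          (Module.finrank ℂ (E ⊓ H0 (coef (D + ∑ i ∈ S, B i)) : Submodule ℂ X.K) : ℤ) := by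
  classical
  have hne : ∀ S : Finset (Fin (m + 1)), S ≠ Finset.univ → (Sᶜ).Nonempty := by
    intro S hS
    rw [Finset.nonempty_iff_ne_empty]
    intro h0
    exact hS ((Finset.compl_eq_empty_iff S).1 h0)
  have hg1 : ∀ S : Finset (Fin (m + 1)), S ≠ Finset.univ →
      Good 0 (secSheaf q E (D + ∑ i, B i - ∑ i ∈ S, B i)) := by
    intro S hS
    rw [add_sum_sub_sum]
    exact good_zero_sec (h _ (hne S hS))
  have hG := sec_good q E hE₁ hE₂ hs hgen rfl (D + ∑ i, B i) hg1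
  have hall : ∀ S : Finset (Fin (m + 1)),
      Good m (secSheaf q E (D + ∑ i, B i - ∑ i ∈ S, B i)) := by
    intro S
    by_cases hS : S = Finset.univ
    · rw [hS]
      exact hG
    · exact (hg1 S hS).mono (Nat.zero_le m)
  have he := sec_eu q E hE₁ hE₂ hs hgen (D + ∑ i, B i) hall
  have he' := sum_of_compl (fun S => eu m (secSheaf q E (D + ∑ i ∈ S, B i))) (by
    rw [← he]
    refine Finset.sum_congr rfl fun S _ => ?_
    rw [add_sum_sub_sum])
  rw [← Finset.sum_erase_add _ _ (Finset.mem_univ ∅), Finset.card_empty, pow_zero, one_mul,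
    Finset.sum_empty, add_zero] at he'
  have e0 : D + ∑ i, B i - ∑ i, B i = D := by abel
  rw [e0] at hG
  refine ⟨hG, ?_⟩
  rw [eq_neg_of_add_eq_zero_right he']
  congr 1
  refine Finset.sum_congr rfl fun S hS => ?_
  rw [eu_sec_of_good_zero (good_zero_sec (h S
    (Finset.nonempty_iff_ne_empty.2 (Finset.ne_of_mem_erase hS)))) m]

/-- **The Koszul relation for the sections in `E`.** -/
theorem sum_finrank_koszul' {X : Var} {E : Submodule ℂ X.K} (ρ : X.K →ₗ[ℂ] X.K)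
    (hρ : ∀ f ∈ E, ρ f = f) {N : ℕ} {B : Fin N → Div X.X}
    (hB : ∀ j, (1 : X.K) ∈ H0 (coef (B j))) (hgen : ∀ x : X.X, ∃ j, GenAt (B j) (1 : X.K) x)
    (D : Div X.X)
    (hvan : ∀ S : Finset (Fin N), ∀ i > 0, Subsingleton (Coh (secSheaf (S := (X.X : TopCat.{0}))
      (id : X.X → X.X) (⊤ : Submodule ℂ X.K) (D + ∑ i ∈ S, B i)) i))
    (hmap : ∀ S : Finset (Fin N), ∀ f ∈ H0 (coef (D + ∑ i ∈ S, B i)),
      ρ f ∈ E ⊓ H0 (coef (D + ∑ i ∈ S, B i))) :
    ∑ S : Finset (Fin N), (-1 : ℤ) ^ S.card *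
      (Module.finrank ℂ (E ⊓ H0 (coef (D + ∑ i ∈ S, B i)) : Submodule ℂ X.K) : ℤ) = 0 := by
  classical
  have h := sum_finrank_koszul ρ hρ hB hgen (D + ∑ i, B i)
    (fun S => by
      rw [add_sum_sub_sum]
      exact hvan _)
    (fun S => by
      rw [add_sum_sub_sum]
      exact hmap _)
  refine sum_of_compl (fun S => (Module.finrank ℂ
    (E ⊓ H0 (coef (D + ∑ i ∈ S, B i)) : Submodule ℂ X.K) : ℤ)) ?_
  rw [← h]
  refine Finset.sum_congr rfl fun S _ => ?_
  rw [add_sum_sub_sum]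

/-- Principal divisors are nef. -/
theorem isNef_of_isDivOf {X : Var} {P : Div X.X} {g : X.K} (h : IsDivOf g P) : IsNef P := by
  intro A hA m
  rw [add_comm]
  refine hA.add_isDivOf (g := g ^ m) ⟨pow_ne_zero _ h.1, fun y hy => ?_⟩
  rw [Q.ord_pow h.1, h.2 y hy, coef_nsmul]

theorem isNef_sum {X : Var} {ι : Type} {B : ι → Div X.X} (hB : ∀ j, IsNef (B j))
    (T : Finset ι) : IsNef (∑ i ∈ T, B i) := by
  classical
  induction T using Finset.induction_on with
  | empty => rw [Finset.sum_empty]; exact isNef_zero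
  | insert a s ha ih => rw [Finset.sum_insert ha]; exact (hB a).add ih

/-- Effective members of a linear system without base points. -/
theorem exists_effective_gen {X : Var} {A : Div X.X} (hA : IsGenerated A) :
    ∃ B : Fin (X.dim + 1) → Div X.X, (∀ j, (∃ g P, IsDivOf g P ∧ B j = A + P) ∧
      (1 : X.K) ∈ H0 (coef (B j))) ∧ ∀ x, ∃ j, GenAt (B j) 1 x := by
  classical
  obtain ⟨t, ht, hgen⟩ := exists_sections (fun _ : Fin (X.dim + 1) => A) fun _ => hA
  obtain ⟨j₀, hj₀⟩ := hgen (genericPoint X.X)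
  let u : Fin (X.dim + 1) → X.K := fun j => if t j = 0 then t j₀ else t j
  have hu0 : ∀ j, u j ≠ 0 := by
    intro j
    simp only [u]
    split_ifs with h
    · exact hj₀.1
    · exact h
  have huH : ∀ j, u j ∈ H0 (coef A) := by
    intro j
    simp only [u]
    split_ifs with h
    · exact ht j₀
    · exact ht j
  have hP : ∀ j, ∃ P : Div X.X, IsDivOf (u j) P := fun j => exists_isDivOf (hu0 j)
  choose P hP using hP
  refine ⟨fun j => A + P j, fun j => ⟨⟨u j, P j, hP j, rfl⟩, ?_⟩, fun x => ?_⟩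
  · rw [mem_H0]
    intro y hy _
    have h1 := (mem_H0.1 (huH j)) y hy (hu0 j)
    rw [ord_one', coef_add, ← (hP j).2 y hy]
    linarith
  · obtain ⟨j, hj⟩ := hgen x
    refine ⟨j, one_ne_zero, fun y hy hyx => ?_⟩
    have hu : u j = t j := if_neg hj.1
    have h1 := hj.2 y hy hyx
    rw [ord_one', coef_add, ← (hP j).2 y hy, hu]
    linarith

/-- A divisor which is positive along the horizontal prime divisors in the support of `H` becomes
big after adding the pull back of an ample divisor. -/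
theorem exists_big_of {X Y : Var} {φ : DomHom X Y} {S H : Div X.X}
    (hS : ∀ x, coheight x = 1 → φ.f x = genericPoint Y.X →
      0 ≤ coef S x ∧ (coef H x ≠ 0 → 1 ≤ coef S x))
    {A : Div Y.X} {A' : Div X.X} (hA : IsAmple A) (hA' : IsPullback φ A A') :
    ∃ a b : ℕ, H0 (coef (a • S + b • A' - H)) ≠ ⊥ := by
  classical
  obtain ⟨a, -, ha⟩ := exists_bound (g := fun x : X.X => -coef H x)
    ((finite_coef H).subset fun x hx => by
      have h1 : -coef H x ≠ 0 := hx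
      exact fun h0 => h1 (by rw [h0, neg_zero]))
  have ha' : ∀ x, coef H x ≤ a := fun x => by
    have := ha x
    rw [neg_neg] at this
    exact this.le
  -- the vertical prime divisors
  let g : X.X → ℤ := fun x => a * coef S x - coef H x
  have hgfin : {x | g x ≠ 0}.Finite := by
    refine ((finite_coef S).union (finite_coef H)).subset fun x hx => ?_
    by_contra hcon
    rw [Set.mem_union, not_or] at hcon
    have h1 : coef S x = 0 := by
      by_contra h
      exact hcon.1 h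
    have h2 : coef H x = 0 := by
      by_contra h
      exact hcon.2 h
    exact hx (by simp only [g]; rw [h1, h2]; ring)
  obtain ⟨N, -, hN⟩ := exists_bound hgfin
  obtain ⟨k, t, ht, ht0, h1⟩ := exists_vanishing_finset hA hA'
    (hgfin.toFinset.filter fun x => coheight x = 1 ∧ φ.f x ≠ genericPoint Y.X)
    (fun x hx => (Finset.mem_filter.1 hx).2)
  have hpt0 := φ.pull_ne_zero ht0
  refine ⟨a, N * k, H0_ne_bot_iff.2 ⟨φ.pull t ^ N, mem_H0.2 fun x hx _ => ?_,
    pow_ne_zero _ hpt0⟩⟩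
  rw [Q.ord_pow hpt0, coef_sub, coef_add, coef_nsmul, coef_nsmul]
  push_cast
  by_cases hgx : φ.f x = genericPoint Y.X
  · rw [φ.ord_pull_of_generic x hgx ht0, hA'.coef_eq_zero hx hgx]
    obtain ⟨h2, h3⟩ := hS x hx hgx
    by_cases hHx : coef H x = 0
    · rw [hHx]
      have h4 : (0 : ℤ) ≤ a := Int.natCast_nonneg a
      nlinarith
    · have h4 := h3 hHx
      have h5 := ha' x
      have h6 : (0 : ℤ) ≤ a := Int.natCast_nonneg a
      nlinarith
  · have h2 : 0 ≤ Scheme.ord (φ.pull t) x + k * coef A' x := by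
      have h3 := (mem_H0.1 ((hA'.nsmul k).pull_mem_H0 factorialStalks ht)) x hx hpt0
      rwa [coef_nsmul] at h3
    have h3 : (0 : ℤ) ≤ N := Int.natCast_nonneg N
    by_cases hx0 : g x = 0
    · have h4 : a * coef S x - coef H x = 0 := hx0
      nlinarith
    · have h4 := h1 x (Finset.mem_filter.2 ⟨(Set.Finite.mem_toFinset _).2 hx0, hx, hgx⟩)
      have h5 := hN x
      have h6 : g x = a * coef S x - coef H x := rfl
      nlinarith

/-- The Reynolds operator on a birational model. -/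
theorem exists_reynolds_model {r : ℕ} {X X' : Var} (τ : TAct r X) {μ : DomHom X' X}
    (hμ : μ.Birational) :
    ∃ (E' : Submodule ℂ X'.K) (ρ' : X'.K →ₗ[ℂ] X'.K), (∀ f, μ.pull f ∈ E' ↔ f ∈ τ.inv) ∧
      (∀ f ∈ E', ρ' f = f) ∧ ∀ D : Div X'.X, (∀ f : X.K, μ.pull f ∈ H0 (coef D) → ∀ σ,
        μ.pull ((τ.act σ).pull f) ∈ H0 (coef D)) →
      ∀ f ∈ H0 (coef D), ρ' f ∈ E' ⊓ H0 (coef D) := by
  obtain ⟨ρ, hρ1, hρ2⟩ := τ.exists_reynolds
  let e₀ : X.K →ₗ[ℂ] X'.K :=
    { toFun := μ.pull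
      map_add' := fun a b => map_add _ _ _
      map_smul' := fun c a => by
        rw [Algebra.smul_def, map_mul, μ.pull_scalar, RingHom.id_apply, Algebra.smul_def] }
  obtain ⟨e, he⟩ : ∃ e : X.K ≃ₗ[ℂ] X'.K, ∀ f, e f = μ.pull f :=
    ⟨LinearEquiv.ofBijective e₀ ⟨μ.pull_injective, hμ.2⟩, fun f => rfl⟩
  have hE' : ∀ f, μ.pull f ∈ τ.inv.map e.toLinearMap ↔ f ∈ τ.inv := by
    intro f
    rw [Submodule.mem_map]
    constructor
    · rintro ⟨g, hg, hgf⟩
      have h1 : g = f := μ.pull_injective ((he g).symm.trans hgf)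
      rwa [← h1]
    · intro hf
      exact ⟨f, hf, he f⟩
  have hρ'e : ∀ f, e (ρ (e.symm (μ.pull f))) = μ.pull (ρ f) := by
    intro f
    rw [← he f, e.symm_apply_apply, he]
  refine ⟨τ.inv.map e.toLinearMap, e.toLinearMap ∘ₗ ρ ∘ₗ e.symm.toLinearMap, hE', ?_, ?_⟩
  · rintro _ ⟨g, hg, rfl⟩
    change e (ρ (e.symm (e g))) = e g
    rw [e.symm_apply_apply, hρ1 g hg]
  · intro D hD f hf
    obtain ⟨g, rfl⟩ := hμ.2 f
    have hVf : Module.Finite ℂ ((H0 (coef D)).comap e.toLinearMap) := by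
      have h1 : Module.Finite ℂ (H0 (coef D)) := finite_H0 factorialStalks _
      have h2 : (H0 (coef D)).comap e.toLinearMap = (H0 (coef D)).map e.symm.toLinearMap :=
        (Submodule.map_equiv_eq_comap_symm e.symm (H0 (coef D))).symm
      rw [h2]
      exact Module.Finite.map _ _
    have h1 := hρ2 ((H0 (coef D)).comap e.toLinearMap) hVf (fun σ f hf => by
        rw [Submodule.mem_comap] at hf ⊢
        change e _ ∈ _
        rw [he]
        refine hD f ?_ σ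
        rw [← he]
        exact hf) g (by
        rw [Submodule.mem_comap]
        change e _ ∈ _
        rw [he]
        exact hf)
    change e (ρ (e.symm (μ.pull g))) ∈ _
    rw [hρ'e]
    refine ⟨(hE' _).2 h1.2, ?_⟩
    have h3 : e (ρ g) ∈ H0 (coef D) := h1.1
    rwa [he] at h3

/-- Sections on the quotient. -/
theorem finrank_H0_quot {X Y : Var} {φ : DomHom X Y} {E : Submodule ℂ X.K} {D : Div X.X}
    {D' : Div Y.X} (h : ∀ f : X.K, (∃ g ∈ H0 (coef D'), φ.pull g = f) ↔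
      f ∈ E ∧ f ∈ H0 (coef D)) :
    Module.finrank ℂ ((⊤ : Submodule ℂ Y.K) ⊓ H0 (coef D') : Submodule ℂ Y.K) =
      Module.finrank ℂ (E ⊓ H0 (coef D) : Submodule ℂ X.K) := by
  let e₁ : Y.K →ₗ[ℂ] X.K :=
    { toFun := φ.pull
      map_add' := fun a b => map_add _ _ _
      map_smul' := fun c a => by
        rw [Algebra.smul_def, map_mul, φ.pull_scalar, RingHom.id_apply, Algebra.smul_def] }
  have he₁ : Function.Injective e₁ := φ.pull_injective
  have hmap : ((⊤ : Submodule ℂ Y.K) ⊓ H0 (coef D') : Submodule ℂ Y.K).map e₁ =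
      E ⊓ H0 (coef D) := by
    ext f
    rw [Submodule.mem_map, Submodule.mem_inf, ← h f]
    constructor
    · rintro ⟨g, hg, rfl⟩
      exact ⟨g, hg.2, rfl⟩
    · rintro ⟨g, hg, hgf⟩
      exact ⟨g, ⟨trivial, hg⟩, hgf⟩
  rw [← hmap]
  exact (LinearEquiv.finrank_eq (Submodule.equivMapOfInjective e₁ he₁ _))

/-- **From the Euler characteristic of the quotient to the invariant cohomology.** The torus does
not act on the model `X'`, but the spaces of sections are stable. -/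
theorem exists_h_ne_zero_of_stable (hKN : KollarNadelVanishing) (hSPN : SemiPosNef)
    (hInv : InvariantPart) {r : ℕ} {X X' Y : Var} (τ : TAct r X)
    {μ : DomHom X' X} (hμ : μ.Birational) {φ : DomHom X' Y}
    {κ S : Div X.X} {κ' κ₀ E S' : Div X'.X} (hκ : IsCanonicalDivisor κ) (hκi : τ.InvDiv κ)
    (hκ' : IsCanonicalDivisor κ') (hpb : IsPullback μ κ κ₀)
    (hκE : κ' = κ₀ + E) (hE : 0 ≤ E)
    (hEx : ∀ x : X'.X, coheight (μ.f x) = 1 → coef E x = 0)
    (hS : SemiPos S) (hSi : τ.InvDiv S) (hS' : IsPullback μ S S')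
    (hstab : ∀ (B : Div X.X) (B' : Div X'.X) (A : Div Y.X) (A' : Div X'.X), τ.InvDiv B →
      IsPullback μ B B' → IsPullback φ A A' → ∀ f : X.K,
      μ.pull f ∈ H0 (coef (κ' + B' + A')) → ∀ σ,
      μ.pull ((τ.act σ).pull f) ∈ H0 (coef (κ' + B' + A')))
    {D' : Div Y.X}
    (hsec : ∀ (A : Div Y.X) (A' : Div X'.X), IsPullback φ A A' → ∀ f : X'.K,
      (∃ g ∈ H0 (coef (D' + A)), φ.pull g = f) ↔
        (∃ g ∈ τ.inv, μ.pull g = f) ∧ f ∈ H0 (coef (κ' + S' + A')))
    (hhor : ∀ (H : Div X.X) (H' : Div X'.X), τ.InvDiv H → IsPullback μ H H' →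
      ∀ x, coheight x = 1 → φ.f x = genericPoint Y.X →
        0 ≤ coef S' x ∧ (coef H' x ≠ 0 → 1 ≤ coef S' x))
    (hχ : chi D' ≠ 0) : ∃ i, τ.h (κ + S) i ≠ 0 := by
  classical
  obtain ⟨H, hHi, hH⟩ := linearization r X τ
  obtain ⟨N, B, hB, hgen⟩ := τ.exists_effective hH hHi
  -- the divisors on `Y`
  obtain ⟨L, hL⟩ := Y.ample
  obtain ⟨k₀, hk₀⟩ := exists_vanishing_forall hKN factorialStalks hL D'
  obtain ⟨m₀, hm₀⟩ := hL.forall_add (factorialStalks Y) 0
  set k := k₀ + m₀ + 1 with hk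
  have hkL : IsAmple (k • L) := hL.nsmul (by omega)
  have hkg : IsGenerated (k • L) := by
    have := (hm₀ k (by omega)).2
    rwa [add_zero] at this
  obtain ⟨A, hA, hgenA⟩ := exists_effective_gen hkg
  have hAa : ∀ j, IsAmple (A j) := fun j => by
    obtain ⟨g, P, hP, e⟩ := (hA j).1
    rw [e]
    exact hkL.add_isDivOf hP
  have hvanY : ∀ Q : Finset (Fin (Y.dim + 1)), Q.Nonempty → ∀ i > 0,
      Subsingleton (Coh (secSheaf (S := (Y.X : TopCat.{0})) id ⊤ (D' + ∑ j ∈ Q, A j)) i) := by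
    intro Q hQ i hi
    obtain ⟨j, hj⟩ := hQ
    obtain ⟨g, P, hP, e⟩ := (hA j).1
    have e1 : D' + ∑ j ∈ Q, A j = D' + k • L + (P + ∑ l ∈ Q.erase j, A l) := by
      rw [← Finset.add_sum_erase _ _ hj, e]
      abel
    rw [e1]
    exact hk₀ k (by omega) _
      ((isNef_of_isDivOf hP).add (isNef_sum (fun j => (hAa j).isNef) _)) i hi
  -- the pull backs
  let B' : Fin (N + 1) → Div X'.X := fun j => μ.pb factorialStalks (B j)
  have hB' : ∀ j, IsPullback μ (B j) (B' j) := fun j => μ.isPullback_pb factorialStalks (B j)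
  let A' : Fin (Y.dim + 1) → Div X'.X := fun j => φ.pb factorialStalks (A j)
  have hA' : ∀ j, IsPullback φ (A j) (A' j) := fun j => φ.isPullback_pb factorialStalks (A j)
  have hB'1 : ∀ j, (1 : X'.K) ∈ H0 (coef (B' j)) := by
    intro j
    have h2 := (hB' j).pull_mem_H0 factorialStalks (hB j).2.2
    rwa [map_one] at h2
  have hA'1 : ∀ j, (1 : X'.K) ∈ H0 (coef (A' j)) := by
    intro j
    have h2 := (hA' j).pull_mem_H0 factorialStalks (hA j).2
    rwa [map_one] at h2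
  have hB'gen : ∀ x, ∃ j, GenAt (B' j) (1 : X'.K) x := by
    intro x
    obtain ⟨j, hj⟩ := hgen (μ.f x)
    have h3 := (hB' j).genAt factorialStalks hj
    rw [map_one] at h3
    exact ⟨j, h3⟩
  have hA'gen : ∀ x, ∃ j, GenAt (A' j) (1 : X'.K) x := by
    intro x
    obtain ⟨j, hj⟩ := hgenA (φ.f x)
    have h3 := (hA' j).genAt factorialStalks hj
    rw [map_one] at h3
    exact ⟨j, h3⟩
  have hS'sp : SemiPos S' := semiPos_pull factorialStalks μ hS' hS
  have hS'n : IsNef S' := hSPN X' S' hS'sp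
  have hBP : ∀ P : Finset (Fin (N + 1)), IsPullback μ (∑ j ∈ P, B j) (∑ j ∈ P, B' j) :=
    fun P => isPullback_sum hB' P
  have hAQ : ∀ Q : Finset (Fin (Y.dim + 1)), IsPullback φ (∑ j ∈ Q, A j) (∑ j ∈ Q, A' j) :=
    fun Q => isPullback_sum hA' Q
  have hBPn : ∀ P : Finset (Fin (N + 1)), IsNef (∑ j ∈ P, B' j) := fun P =>
    nefPullback factorialStalks X' X μ _ _ (hBP P) (isNef_sum (fun j => (hB j).1.isNef) P)
  have hAQn : ∀ Q : Finset (Fin (Y.dim + 1)), IsNef (∑ j ∈ Q, A' j) := fun Q =>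
    nefPullback factorialStalks X' Y φ _ _ (hAQ Q) (isNef_sum (fun j => (hAa j).isNef) Q)
  -- the vanishing on `X'`
  have hvan : ∀ (P : Finset (Fin (N + 1))) (Q : Finset (Fin (Y.dim + 1))),
      P.Nonempty ∨ Q.Nonempty → ∀ i > 0, Subsingleton (Coh (secSheaf (S := (X'.X : TopCat.{0}))
        id ⊤ (κ' + S' + ∑ j ∈ P, B' j + ∑ j ∈ Q, A' j)) i) := by
    intro P Q hPQ i hi
    obtain ⟨C, hC⟩ := X'.ample
    rw [add_assoc]
    have hMn := (hBPn P).add (hAQn Q)
    rcases hPQ with hP | hQ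
    · obtain ⟨l, hl, hlC⟩ := kodairaLemma factorialStalks X' X μ hμ _ _ (hBP P)
        (isAmple_sum (fun j => (hB j).1) hP) C
      refine vanishing_of_psef hKN hκ' hS'sp hMn hC hl ?_ i hi
      have e : l • (S' + (∑ j ∈ P, B' j + ∑ j ∈ Q, A' j)) - C =
          (l • S' + l • ∑ j ∈ Q, A' j) + (l • ∑ j ∈ P, B' j - C) := by
        simp only [smul_add]
        abel
      rw [e]
      exact ((hS'n.nsmul l).add ((hAQn Q).nsmul l)).isPsef'.add_section hlC
    · obtain ⟨H', hH'⟩ := exists_isPullback factorialStalks μ H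
      obtain ⟨a, b, hab⟩ := exists_big_of (hhor H H' hHi hH')
        (isAmple_sum hAa hQ) (hAQ Q)
      obtain ⟨l, hl, hlC⟩ := kodairaLemma factorialStalks X' X μ hμ _ _ hH' hH C
      refine vanishing_of_psef hKN hκ' hS'sp hMn hC (c := l * (a + b + 1))
        (Nat.mul_pos hl (by omega)) ?_ i hi
      have e : (l * (a + b + 1)) • (S' + (∑ j ∈ P, B' j + ∑ j ∈ Q, A' j)) - C =
          ((l * (b + 1)) • S' + (l * (a + 1)) • ∑ j ∈ Q, A' j +
            (l * (a + b + 1)) • ∑ j ∈ P, B' j) +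
          (l • (a • S' + b • ∑ j ∈ Q, A' j - H') + (l • H' - C)) := by
        simp only [add_smul, smul_add, one_smul, smul_sub, mul_smul]
        abel
      rw [e]
      exact (((hS'n.nsmul _).add ((hAQn Q).nsmul _)).add ((hBPn P).nsmul _)).isPsef'.add_section
        (H0_add_ne_bot (H0_nsmul_ne_bot hab l) hlC)
  -- the Reynolds operator
  obtain ⟨E', ρ', hE', hρ'1, hρ'2⟩ := exists_reynolds_model τ hμ
  have hmap : ∀ (P : Finset (Fin (N + 1))) (Q : Finset (Fin (Y.dim + 1))),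
      ∀ f ∈ H0 (coef (κ' + S' + ∑ j ∈ P, B' j + ∑ j ∈ Q, A' j)),
        ρ' f ∈ E' ⊓ H0 (coef (κ' + S' + ∑ j ∈ P, B' j + ∑ j ∈ Q, A' j)) := by
    intro P Q
    have hass : κ' + S' + ∑ j ∈ P, B' j + ∑ j ∈ Q, A' j =
        κ' + (S' + ∑ j ∈ P, B' j) + ∑ j ∈ Q, A' j := by abel
    rw [hass]
    exact hρ'2 _ (hstab _ _ _ _ (TAct.InvDiv.add τ hSi
      (TAct.InvDiv.sum τ (fun j => (hB j).2.1) P)) (hS'.add (hBP P)) (hAQ Q))
  -- the double sum
  have key := double_sum (fun P Q => (Module.finrank ℂ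
      (E' ⊓ H0 (coef (κ' + S' + ∑ j ∈ P, B' j + ∑ j ∈ Q, A' j)) : Submodule ℂ X'.K) : ℤ))
    (fun P hP => sum_finrank_koszul' ρ' hρ'1 hA'1 hA'gen (κ' + S' + ∑ j ∈ P, B' j)
      (fun Q => hvan P Q (Or.inl hP)) (fun Q => hmap P Q))
    (fun Q hQ => by
      have hcomm : ∀ P : Finset (Fin (N + 1)),
          κ' + S' + ∑ j ∈ P, B' j + ∑ j ∈ Q, A' j =
          κ' + S' + ∑ j ∈ Q, A' j + ∑ j ∈ P, B' j := fun P => by abel
      have h1 := sum_finrank_koszul' ρ' hρ'1 hB'1 hB'gen (κ' + S' + ∑ j ∈ Q, A' j)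
        (fun P => by
          rw [← hcomm]
          exact hvan P Q (Or.inr hQ))
        (fun P => by
          rw [← hcomm]
          exact hmap P Q)
      rw [← h1]
      refine Finset.sum_congr rfl fun P _ => ?_
      rw [hcomm])
  -- the Euler characteristic on `X`
  have h1 : ∀ σ, ∃ c : ℂ, c ≠ 0 ∧ (τ.act σ).pull (1 : X.K) = c • (1 : X.K) := fun σ =>
    ⟨1, one_ne_zero, by rw [map_one, one_smul]⟩
  obtain ⟨hg, hZ⟩ := eu_koszul (T := τ.space) (q := id) (E := τ.inv) (B := B)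
    (s := fun _ => 1) (fun j f hf => by rwa [one_mul]) (fun j f hf => by rwa [inv_one, one_mul])
    (fun j => (hB j).2.2) (fun p => by
      obtain ⟨j, hj⟩ := hgen p
      exact ⟨τ.genOpens (hB j).2.1 h1, hj, j, one_ne_zero, fun x hx => hx⟩) (κ + S)
    (fun P hP i hi => by
      have hsumA : IsAmple (∑ i ∈ P, B i) := isAmple_sum (fun j => (hB j).1) hP
      have hsumi : τ.InvDiv (∑ i ∈ P, B i) := TAct.InvDiv.sum τ (fun j => (hB j).2.1) P
      refine hInv r X τ _ i (TAct.InvDiv.add τ (TAct.InvDiv.add τ hκi hSi) hsumi) ?_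
      refine vanishing_of_psef hKN hκ hS hsumA.isNef hsumA (c := 1) one_pos ?_ i hi
      rw [one_smul, add_sub_cancel_right]
      exact (hSPN X S hS).isPsef')
  -- the Euler characteristic on `Y`
  obtain ⟨-, hYe⟩ := eu_koszul (T := (Y.X : TopCat.{0})) (q := (id : Y.X → Y.X)) (E := ⊤) (B := A)
    (s := fun _ => 1) (fun _ _ _ => trivial) (fun _ _ _ => trivial) (fun j => (hA j).2)
    (fun y => by
      obtain ⟨j, hj⟩ := hgenA y
      obtain ⟨V, hyV, hV⟩ := exists_genAt_nhds (A j) y hj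
      exact ⟨V, hyV, j, hj.1, fun x hx => hV x hx⟩) D' hvanY
  have h3 : ∀ P ∈ Finset.univ.erase (∅ : Finset (Fin (N + 1))), (-1 : ℤ) ^ P.card *
      (Module.finrank ℂ (τ.inv ⊓ H0 (coef (κ + S + ∑ j ∈ P, B j)) : Submodule ℂ X.K) : ℤ) =
      (-1 : ℤ) ^ P.card * (Module.finrank ℂ (E' ⊓ H0 (coef (κ' + S' + ∑ j ∈ P, B' j +
        ∑ j ∈ (∅ : Finset (Fin (Y.dim + 1))), A' j)) : Submodule ℂ X'.K) : ℤ) := by
    intro P _
    rw [finrank_H0_models hμ hE' ((hpb.add hS').add (hBP P)) (F := E)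
      (D' := κ' + S' + ∑ j ∈ P, B' j + ∑ j ∈ (∅ : Finset (Fin (Y.dim + 1))), A' j)
      (by rw [hκE, Finset.sum_empty]; abel) hE hEx]
  have h4 : ∀ Q ∈ Finset.univ.erase (∅ : Finset (Fin (Y.dim + 1))), (-1 : ℤ) ^ Q.card *
      (Module.finrank ℂ ((⊤ : Submodule ℂ Y.K) ⊓ H0 (coef (D' + ∑ j ∈ Q, A j)) :
        Submodule ℂ Y.K) : ℤ) =
      (-1 : ℤ) ^ Q.card * (Module.finrank ℂ (E' ⊓ H0 (coef (κ' + S' +
        ∑ j ∈ (∅ : Finset (Fin (N + 1))), B' j + ∑ j ∈ Q, A' j)) : Submodule ℂ X'.K) : ℤ) := by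
    intro Q _
    refine congrArg (fun n : ℕ => (-1 : ℤ) ^ Q.card * (n : ℤ)) (finrank_H0_quot (φ := φ)
      (E := E') (D := κ' + S' + ∑ j ∈ (∅ : Finset (Fin (N + 1))), B' j + ∑ j ∈ Q, A' j)
      fun f => ?_)
    rw [Finset.sum_empty, add_zero, hsec _ _ (hAQ Q) f]
    refine and_congr_left fun _ => ?_
    constructor
    · rintro ⟨g, hg, rfl⟩
      exact (hE' g).2 hg
    · intro hf
      obtain ⟨g, rfl⟩ := hμ.2 f
      exact ⟨g, (hE' g).1 hf, rfl⟩
  have hchi : chi D' = eu N (secSheaf (S := τ.space) id τ.inv (κ + S)) := by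
    have h2 : chi D' = eu Y.dim (secSheaf (S := (Y.X : TopCat.{0})) id ⊤ D') := rfl
    rw [h2, hYe, hZ, Finset.sum_congr rfl h3, Finset.sum_congr rfl h4]
    exact congrArg Neg.neg key.symm
  by_contra hcon
  push Not at hcon
  apply hχ
  rw [hchi]
  refine Finset.sum_eq_zero fun i _ => ?_
  have h1 : Module.finrank ℂ (Coh (secSheaf (S := τ.space) id τ.inv (κ + S)) i) = 0 := hcon i
  rw [h1]
  simp

end Vale.Agent.P299.Q
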