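import Vale.Agent.P299.Q.OrbRey
import Vale.Agent.P299.Q.EqfVal

/-!
# Semi-invariant local generators, and monomials
-/

open CategoryTheory TopologicalSpace Opposite TopCat AlgebraicGeometry Order

namespace Vale.Agent.P299.Q

open Vale.Agent.P299.G

namespace TS.RatAct

variable {r : ℕ} {K : Type} [Field K] [Algebra ℂ K] (τ : TS.RatAct r K)

/-- There are coordinates such that every semi-invariant is the product of an invariant and of a
monomial. -/
theorem exists_coords_mono : ∃ (n : ℕ) (t : Fin n → K) (w : Fin n → Fin r → ℤ), τ.Coords n t w ∧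
    ∀ v f, f ≠ 0 → τ.Semi v f → ∃ (c : K) (a : Fin n → ℤ), (∀ s, τ.ρ s c = c) ∧ c ≠ 0 ∧
      f = c * ∏ i, t i ^ a i := by
  let L : Submodule ℤ (Fin r → ℤ) := AddSubgroup.toIntSubmodule τ.weights
  obtain ⟨n, b⟩ := Submodule.basisOfPid (Pi.basisFun ℤ (Fin r)) L
  have hmem : ∀ i, ((b i : L) : Fin r → ℤ) ∈ τ.weights := fun i => (b i).2
  choose t ht0 ht using hmem
  have hmono : ∀ v f, f ≠ 0 → τ.Semi v f → ∃ (c : K) (a : Fin n → ℤ), (∀ s, τ.ρ s c = c) ∧
      c ≠ 0 ∧ f = c * ∏ i, t i ^ a i := by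
    intro v g hg0 hg
    have hw : v ∈ L := ⟨g, hg0, hg⟩
    have hrep : ∑ i, b.repr ⟨v, hw⟩ i • ((b i : L) : Fin r → ℤ) = v := by
      have h1 := b.sum_repr ⟨v, hw⟩
      have h2 := congrArg L.subtype h1
      rw [map_sum] at h2
      exact h2
    have hprod := Semi.prod_zpow τ (t := t) (w := fun i => ((b i : L) : Fin r → ℤ)) ht
      (fun i => b.repr ⟨v, hw⟩ i)
    rw [hrep] at hprod
    have hne : ∏ i, t i ^ (b.repr ⟨v, hw⟩ i) ≠ 0 :=
      Finset.prod_ne_zero_iff.2 fun i _ => zpow_ne_zero _ (ht0 i)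
    refine ⟨g / (∏ i, t i ^ (b.repr ⟨v, hw⟩ i)), fun i => b.repr ⟨v, hw⟩ i, fun s => ?_,
      div_ne_zero hg0 hne, (div_mul_cancel₀ g hne).symm⟩
    have h1 := hg.mul τ (hprod.inv τ)
    rw [add_neg_cancel] at h1
    have h2 := h1 s
    rw [chr_zero, one_mul] at h2
    rw [div_eq_mul_inv]
    exact h2
  refine ⟨n, t, fun i => (b i : L), ⟨ht0, ?_, ht, fun F hinv htF => ?_⟩, hmono⟩
  · exact b.linearIndependent.map' L.subtype (Submodule.ker_subtype _)
  · rw [eq_top_iff]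
    intro f _
    refine τ.mem_of_semi (fun w g hg => ?_) f
    by_cases hg0 : g = 0
    · rw [hg0]
      exact F.zero_mem
    obtain ⟨c, a, hc, -, rfl⟩ := hmono w g hg0 hg
    exact F.mul_mem (hinv c hc) (F.prod_mem fun i _ => F.zpow_mem (htF i) _)

end TS.RatAct

section Torus

variable {r : ℕ} {X : Var} (τ : TAct r X)

/-- If a `T`-invariant divisor is generated at `x`, it is generated by a semi-invariant section. -/
theorem TAct.exists_weight_genAt {D : Div X.X} (hD : τ.InvDiv D) {x : X.X} {s : X.K}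
    (hs : s ∈ H0 (coef D)) (hx : GenAt D s x) :
    ∃ v, ∃ g ∈ H0 (coef D), GenAt D g x ∧ τ.ratAct.Semi v g := by
  obtain ⟨n, t, w, hc⟩ := τ.exists_ratCoords
  have hfin : Module.Finite ℂ (H0 (coef D)) := finite_H0 factorialStalks D
  obtain ⟨S, v, g, hg, hsum⟩ := TS.RatAct.exists_sum_semi hc (H0 (coef D))
    (fun σ f hf => τ.pull_mem_H0' hD σ hf) hs
  obtain ⟨m, hm, hgen⟩ := exists_genAt_of_fin_sum S g (fun m hm => (hg m hm).2)
    (x := x) (by rw [← hsum]; exact hx)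
  exact ⟨v m, g m, (hg m hm).2, hgen, (hg m hm).1⟩

/-- A `T`-invariant divisor has semi-invariant local generators. -/
theorem TAct.exists_semi_gen {D : Div X.X} (hD : τ.InvDiv D) (x : X.X) :
    ∃ (v : Fin r → ℤ) (f : X.K), τ.ratAct.Semi v f ∧ GenAt D f x := by
  obtain ⟨A, hAi, hA⟩ := linearization r X τ
  obtain ⟨m₁, hm₁⟩ := hA.forall_add (factorialStalks X) D
  obtain ⟨m₂, hm₂⟩ := hA.forall_add (factorialStalks X) 0
  set m := m₁ + m₂ with hm
  obtain ⟨s₁, hs₁, hx₁⟩ := (hm₁ m (by omega)).2 x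
  obtain ⟨s₂, hs₂, hx₂⟩ := (hm₂ m (by omega)).2 x
  rw [add_zero] at hs₂ hx₂
  have hmi : τ.InvDiv (m • A) := TAct.InvDiv.nsmul τ hAi m
  obtain ⟨v₁, g₁, -, hg₁, hv₁⟩ := τ.exists_weight_genAt (TAct.InvDiv.add τ hmi hD) hs₁ hx₁
  obtain ⟨v₂, g₂, -, hg₂, hv₂⟩ := τ.exists_weight_genAt hmi hs₂ hx₂
  refine ⟨v₁ + -v₂, g₁ * g₂⁻¹, hv₁.mul τ.ratAct (hv₂.inv τ.ratAct),
    mul_ne_zero hg₁.1 (inv_ne_zero hg₂.1), fun y hy hyx => ?_⟩
  have h1 := hg₁.2 y hy hyx
  have h2 := hg₂.2 y hy hyx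
  rw [Scheme.ord_mul hg₁.1 (inv_ne_zero hg₂.1), Q.ord_inv hg₂.1]
  rw [coef_add] at h1
  linarith

/-- A function which is regular at `x` is a quotient of two sections of a multiple of a given
ample divisor, the second of which generates at `x`. -/
theorem exists_quotient_sections {A : Div X.X} (hA : IsAmple A) {x : X.X} {g : X.K}
    (hg : g ∈ locRing X x) (hg0 : g ≠ 0) :
    ∃ m : ℕ, ∃ b ∈ H0 (coef (m • A)), GenAt (m • A) b x ∧ b * g ∈ H0 (coef (m • A)) := by
  let P : Div X.X := mkDiv (fun y => max (-Scheme.ord g y) 0)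
    ((G.finite_ord_ne_zero g hg0).subset fun y hy h0 => hy.2 (by rw [h0]; simp))
  have hP : ∀ y, coheight y = 1 → coef P y = max (-Scheme.ord g y) 0 := fun y hy =>
    coef_mkDiv _ _ hy
  obtain ⟨m, hm⟩ := hA.forall_add (factorialStalks X) (-P)
  obtain ⟨b, hb, hbx⟩ := (hm m le_rfl).2 x
  have hx0 : ∀ y, coheight y = 1 → y ⤳ x → coef P y = 0 := by
    intro y hy hyx
    have h1 : g ∈ locRing X y := locRing_le hyx hg
    have h2 : 0 ≤ Scheme.ord g y := by
      have := (og_iff hy).2 h1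
      exact this hg0
    rw [hP y hy]
    exact max_eq_right (by linarith)
  refine ⟨m, b, mem_H0.2 fun y hy hb0 => ?_, ⟨hbx.1, fun y hy hyx => ?_⟩,
    mem_H0.2 fun y hy hbg => ?_⟩
  · have h1 := (mem_H0.1 hb) y hy hb0
    rw [coef_add, coef_neg, hP y hy] at h1
    have h2 := le_max_right (-Scheme.ord g y) 0
    linarith
  · have h1 := hbx.2 y hy hyx
    rwa [coef_add, coef_neg, hx0 y hy hyx, neg_zero, add_zero] at h1
  · have hb0 : b ≠ 0 := left_ne_zero_of_mul hbg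
    have h1 := (mem_H0.1 hb) y hy hb0
    rw [coef_add, coef_neg, hP y hy] at h1
    rw [Scheme.ord_mul hb0 hg0]
    have h2 := le_max_left (-Scheme.ord g y) 0
    linarith

/-- **Comparison of valuations.** Let `W ≤ V` on the sums of semi-invariants, with equality on the
semi-invariants. If `V` is nonnegative on the local ring of `x`, then so is `W`. -/
theorem TAct.ge_of_semi {V W : IVal X.K}
    (hle : ∀ (S : Finset (ℕ)) (g : ℕ → X.K), (∀ m ∈ S, ∃ v, τ.ratAct.Semi v (g m)) →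
      ∑ m ∈ S, g m ≠ 0 → W.v (∑ m ∈ S, g m) ≤ V.v (∑ m ∈ S, g m))
    (heq : ∀ v f, f ≠ 0 → τ.ratAct.Semi v f → W.v f = V.v f) {x : X.X}
    (hx : ∀ f ∈ locRing X x, V.ge 0 f) {f : X.K} (hf : f ∈ locRing X x) : W.ge 0 f := by
  intro hf0
  obtain ⟨A, hAi, hA⟩ := linearization r X τ
  obtain ⟨m, b, hb, hbx, hbf⟩ := exists_quotient_sections hA hf hf0
  have hmi : τ.InvDiv (m • A) := TAct.InvDiv.nsmul τ hAi m
  obtain ⟨v₀, s, hs, hsx, hv₀⟩ := τ.exists_weight_genAt hmi hb hbx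
  have hs0 := hsx.1
  obtain ⟨n, t, w, hc⟩ := τ.exists_ratCoords
  have hfin : Module.Finite ℂ (H0 (coef (m • A))) := finite_H0 factorialStalks _
  -- sections divided by `s` are regular at `x`
  have hreg : ∀ g ∈ H0 (coef (m • A)), g * s⁻¹ ∈ locRing X x := by
    intro g hg
    by_cases hg0 : g = 0
    · rw [hg0, zero_mul]
      exact (locRing X x).zero_mem
    have := factorialStalks X x
    obtain ⟨a, ha⟩ := exists_of_forall_ord_nonneg X.dvr x (g * s⁻¹) fun q hq hqx => by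
      rw [Scheme.ord_mul hg0 (inv_ne_zero hs0), Q.ord_inv hs0]
      have h1 := (mem_H0.1 hg) q hq hg0
      have h2 := hsx.2 q hq hqx
      linarith
    exact ⟨a, ha⟩
  have hVu : V.v (b * s⁻¹) = 0 := by
    have h1 : b * s⁻¹ ∈ locRing X x := hreg b hb
    have h2 : s * b⁻¹ ∈ locRing X x := by
      have := factorialStalks X x
      obtain ⟨a, ha⟩ := exists_of_forall_ord_nonneg X.dvr x (s * b⁻¹) fun q hq hqx => by
        rw [Scheme.ord_mul hs0 (inv_ne_zero hbx.1), Q.ord_inv hbx.1]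
        have h3 := hbx.2 q hq hqx
        have h4 := hsx.2 q hq hqx
        linarith
      exact ⟨a, ha⟩
    have h3 : b * s⁻¹ ≠ 0 := mul_ne_zero hbx.1 (inv_ne_zero hs0)
    have h4 := hx _ h1 h3
    have h5 : s * b⁻¹ = (b * s⁻¹)⁻¹ := by
      rw [mul_inv, inv_inv]
      ring
    have h6 := hx _ h2 (by rw [h5]; exact inv_ne_zero h3)
    rw [h5, IVal.v_inv _ h3] at h6
    omega
  -- the monomial valuation of a section
  have hsec : ∀ g ∈ H0 (coef (m • A)), W.ge 0 (g * s⁻¹) := by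
    intro g hg
    obtain ⟨S, v, h, hh, rfl⟩ := TS.RatAct.exists_sum_semi hc (H0 (coef (m • A)))
      (fun σ f hf => τ.pull_mem_H0' hmi σ hf) hg
    rw [Finset.sum_mul]
    refine IVal.ge.sum _ _ fun k hk hne => ?_
    rw [heq (v k + -v₀) _ hne ((hh k hk).1.mul τ.ratAct (hv₀.inv τ.ratAct))]
    exact hx _ (hreg _ (hh k hk).2) hne
  have hbs : W.v (b * s⁻¹) = 0 := by
    have h3 : b * s⁻¹ ≠ 0 := mul_ne_zero hbx.1 (inv_ne_zero hs0)
    refine le_antisymm ?_ (hsec b hb h3)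
    rw [← hVu]
    obtain ⟨S, v, h, hh, hsum⟩ := TS.RatAct.exists_sum_semi hc (H0 (coef (m • A)))
      (fun σ f hf => τ.pull_mem_H0' hmi σ hf) hb
    classical
    let e := S.equivFin
    have h4 : b * s⁻¹ = ∑ k ∈ Finset.range S.card, (if hk : k < S.card then
        h (e.symm ⟨k, hk⟩) * s⁻¹ else 0) := by
      rw [hsum, Finset.sum_mul, ← Finset.sum_coe_sort, Finset.sum_range]
      refine Fintype.sum_equiv e _ _ fun k => ?_
      rw [dif_pos (e k).2]
      simp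
    have h5 := hle (Finset.range S.card) (fun k => if hk : k < S.card then
        h (e.symm ⟨k, hk⟩) * s⁻¹ else 0) (fun k hk => by
      rw [Finset.mem_range] at hk
      rw [dif_pos hk]
      exact ⟨_, (hh _ (e.symm ⟨k, hk⟩).2).1.mul τ.ratAct (hv₀.inv τ.ratAct)⟩)
    rw [← h4] at h5
    exact h5 h3
  have h3 : b * s⁻¹ ≠ 0 := mul_ne_zero hbx.1 (inv_ne_zero hs0)
  have h4 := hsec (b * f) hbf
  have h5 : b * f * s⁻¹ = b * s⁻¹ * f := by ring
  rw [h5] at h4
  have h6 := h4.of_mul h3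
  rw [hbs, sub_zero] at h6
  exact h6 hf0

end Torus

end Vale.Agent.P299.Q
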