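import Vale.Agent.P299.Q.Nef
import Vale.Agent.P299.Q.FinDim

/-!
# Divisors with a semipositive metric are nef (final form)
-/

open CategoryTheory TopologicalSpace Opposite TopCat AlgebraicGeometry Order

namespace Vale.Agent.P299.Q

theorem SnapperTheorem.chi_polynomial (hSn : SnapperTheorem) (X : Var) (D M : Div X.X) :
    ∃ p : Polynomial ℚ, ∀ k : ℕ, (chi (D + k • M) : ℚ) = p.eval (k : ℚ) := by
  obtain ⟨p, hp⟩ := hSn X X (DomHom.id X) D M M (isPullback_id factorialStalks _)
  refine ⟨p, fun k => ?_⟩
  rw [← hp k]
  unfold chi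
  push_cast
  rfl

/-- A divisor with a smooth semipositive metric is nef. -/
theorem semiPosNef_of_published (hLef : HardLefschetz) (hKN : KollarNadelVanishing)
    (hSn : SnapperTheorem) : SemiPosNef :=
  semiPosNef hLef hKN hSn.chi_polynomial fun _ D => finite_H0 factorialStalks D

end Vale.Agent.P299.Q
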