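import Vale.Agent.P299.Q.AsymCore
import Vale.Agent.P299.Q.SnapFinal
import Vale.Agent.P299.Q.SemiPosNef

/-!
# Anticanonical nonvanishing from five published theorems

Kollár–Nadel vanishing, Hard Lefschetz, generic nefness of the tangent bundle, Nakayama's criterion,
flattening.
-/

open CategoryTheory TopologicalSpace Opposite TopCat AlgebraicGeometry Order

namespace Vale.Agent.P299.Q

theorem snapperSemiAt_zero (hKN : KollarNadelVanishing) : SnapperSemiAt 0 := by
  intro X Y τ φ _ κ S M M' hκ _ _ hS hSp hM
  obtain ⟨p, hp⟩ := snapper_semi hKN φ (τ.isCanonical_zero.1 hκ) hS hSp hM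
  refine ⟨p, fun k => ?_⟩
  rw [← hp k]
  refine Finset.sum_congr rfl fun i _ => ?_
  unfold TAct.hY hY
  rw [τ.inv_zero]

/-- A divisor with a smooth semipositive metric is nef. -/
theorem semiPosNef' (hLef : HardLefschetz) (hKN : KollarNadelVanishing) : SemiPosNef :=
  semiPosNef hLef hKN (fun _ D M => chi_polynomial hKN D M)
    fun _ D => finite_H0 factorialStalks D

/-- **The core theorem**: if `-kK_X` has nonzero cohomology for arbitrarily large `k` and `-K_X` has
a semipositive metric, then some positive multiple of `-K_X` has a nonzero section. -/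
theorem coreStatement' (hKN : KollarNadelVanishing) (hLef : HardLefschetz)
    (hGN : GenericNefness0) (hNak : NakayamaCriterion) (hFl : Flattening) : CoreStatement :=
  coreStatement_asym (chi_polyLt' hKN) (snapperSemiAt_zero hKN) hLef (semiPosNef' hLef hKN) hGN hKN
    hNak (flatModels factorialStalks hFl)

/-- **Anticanonical nonvanishing for varieties with nonzero Euler characteristic**, from the
published theorems. -/
theorem nonvanishing_of_chi_ne_zero' (hKN : KollarNadelVanishing) (hLef : HardLefschetz)
    (hGN : GenericNefness0) (hNak : NakayamaCriterion) (hFl : Flattening) (X : Var)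
    (κ : Div X.X) (hκ : IsCanonicalDivisor κ) (hSP : SemiPos (-κ))
    (hchi : chi (0 : Div X.X) ≠ 0) : ∃ m : ℕ, 0 < m ∧ H0 (coef (m • -κ)) ≠ ⊥ := by
  refine coreStatement' hKN hLef hGN hNak hFl X κ hκ hSP ?_
  obtain ⟨p, hp⟩ := chi_polynomial hKN (0 : Div X.X) (-κ)
  have hp' : ∀ k : ℕ, ∑ i ∈ Finset.range (X.dim + 1),
      (-1 : ℚ) ^ i * hh (S := (X.X : TopCat.{0})) id ⊤ (k • -κ) i = p.eval (k : ℚ) := by
    intro k
    rw [← hp k, zero_add]
    unfold chi
    push_cast
    rfl
  have hp0 : p.eval 0 ≠ 0 := by
    have h1 := hp 0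
    rw [zero_smul, zero_add, Nat.cast_zero] at h1
    rw [← h1]
    exact_mod_cast hchi
  exact coh_of_index (fun k i => hh (S := (X.X : TopCat.{0})) id ⊤ (k • -κ) i) one_pos hp0
    fun k => by
      rw [← hp' k]
      exact Finset.sum_congr rfl fun i _ => by rw [mul_one]

/-- **Anticanonical nonvanishing** (Q1), from the published theorems. -/
theorem anticanonicalNonvanishing_of_published' (hKN : KollarNadelVanishing)
    (hLef : HardLefschetz) (hGN : GenericNefness0) (hNak : NakayamaCriterion) (hFl : Flattening)
    (hST : StructureTheoremCoh) (hII : InvariantIndex) : AnticanonicalNonvanishing :=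
  anticanonicalNonvanishing_of_core (coreStatement' hKN hLef hGN hNak hFl) factorialStalks
    (semiPosNef' hLef hKN) hST hII

end Vale.Agent.P299.Q
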