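import Vale.Agent.P299.Q.Final2
import Vale.Agent.P299.Q.TorFinal

/-!
# Anticanonical nonvanishing from published theorems
-/

open CategoryTheory TopologicalSpace Opposite TopCat AlgebraicGeometry Order

namespace Vale.Agent.P299.Q

/-- **The core theorem**: if `-kK_X` has nonzero cohomology for arbitrarily large `k` and `-K_X` has
a semipositive metric, then some positive multiple of `-K_X` has a nonzero section. -/
theorem coreStatement4 (hKN : KollarNadelVanishing) (hLef : HardLefschetz)
    (hBo : BochnerVanishing) (hNC : NefCriterion) (hFM : FlatModels) : CoreStatement :=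
  coreStatement_bochner (chi_polyLt' hKN) (snapperSemiAt_zero hKN) hLef (semiPosNef' hLef hKN)
    hBo hKN hNC hFM

end Vale.Agent.P299.Q
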