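import Vale.Agent.P299.Q.FlModel

/-!
# Flat models of rational fibrations, from resolution of singularities
-/

open CategoryTheory TopologicalSpace Opposite TopCat AlgebraicGeometry Order

namespace Vale.Agent.P299.Q

open Vale.Agent.P299.G

/-- Every prime divisor of `Y` is the image of a prime divisor of `X`. -/
theorem exists_prime_over {X Y : Var} (φ : DomHom X Y) {y : Y.X} (hy : coheight y = 1) :
    ∃ x : X.X, coheight x = 1 ∧ φ.f x = y := by
  obtain ⟨x₀, rfl⟩ := φ.surjective y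
  have := Y.dvr _ hy
  obtain ⟨ϖ, hϖ⟩ := IsDiscreteValuationRing.exists_irreducible (Y.X.presheaf.stalk (φ.f x₀))
  have h1 : φ.f.stalkMap x₀ ϖ ≠ 0 := fun h0 =>
    hϖ.ne_zero (φ.stalkMap_injective x₀ (by rw [h0]; exact (map_zero (φ.f.stalkMap x₀).hom).symm))
  have h2 : ¬ IsUnit ((φ.f.stalkMap x₀).hom ϖ) := fun hu =>
    hϖ.not_isUnit (isUnit_of_map_unit (φ.f.stalkMap x₀).hom ϖ hu)
  obtain ⟨w, hw, hw1, hmem⟩ := exists_codim_one_of_mem h1 h2
  refine ⟨w, hw1, (eq_or_eq_generic hy (hw.map φ.f.continuous)).resolve_right fun hg => ?_⟩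
  have := X.dvr w hw1
  have hϖK : toK (φ.f x₀) ϖ ≠ 0 := toK_ne_zero hϖ.ne_zero
  have h3 := φ.ord_pull_of_generic w hg hϖK
  have h4 : φ.pull (toK (φ.f x₀) ϖ) = toK w (toStalk hw ((φ.f.stalkMap x₀).hom ϖ)) := by
    rw [toK_toStalk]
    exact φ.pull_stalk x₀ ϖ
  rw [h4] at h3
  rw [mem_primeAt] at hmem
  apply hmem
  refine isUnit_of_ord_eq_zero w hw1 ?_ h3
  intro h0
  exact h1 (toStalk_injective hw (by rw [map_zero]; exact h0))

/-- The property `star` of the models. -/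
theorem star_of_base (hFS : FactorialStalks) {Z Y X : Var} {μ : DomHom X Z} {φ : DomHom X Y}
    (h : ∀ (x : X.X) (u : X.K), (∀ x' : X.X, coheight x' = 1 → μ.f x' ⤳ μ.f x →
      φ.f x' ⤳ φ.f x → coheight (φ.f x') ≤ 1 → u ∈ locRing X x') → u ∈ locRing X x)
    (s : Div Z.X) (s' : Div X.X) (R : Div Y.X) (R' : Div X.X) (hs : IsPullback μ s s')
    (hR : IsPullback φ R R')
    (hle : ∀ x ∈ {x : X.X | coheight x = 1 ∧ coheight (φ.f x) ≤ 1}, coef R' x ≤ coef s' x) :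
    R' ≤ s' := by
  intro x
  have hFZ := hFS Z (μ.f x.1)
  have hFY := hFS Y (φ.f x.1)
  obtain ⟨l, hl⟩ := exists_genAt (-s) (μ.f x.1)
  obtain ⟨r, hr⟩ := exists_genAt (-R) (φ.f x.1)
  have hl0 := μ.pull_ne_zero hl.ne_zero
  have hr0 := φ.pull_ne_zero hr.ne_zero
  have hu : ∀ x' : X.X, coheight x' = 1 → μ.f x' ⤳ μ.f x.1 → φ.f x' ⤳ φ.f x.1 →
      Scheme.ord (μ.pull l / φ.pull r) x' = coef s' x' - coef R' x' := by
    intro x' hx' h1 h2
    have h3 := hs.neg.ord_pull hFS hx' (hl.of_specializes h1)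
    have h4 := hR.neg.ord_pull hFS hx' (hr.of_specializes h2)
    rw [coef_neg] at h3 h4
    rw [ord_div hl0 hr0]
    linarith
  have h1 : μ.pull l / φ.pull r ∈ locRing X x.1 := h x.1 _ fun x' hx' h1 h2 h3 => by
    refine locRing_of_ord_nonneg hx' fun _ => ?_
    rw [hu x' hx' h1 h2]
    have := hle x' ⟨hx', h3⟩
    linarith
  have h2 := ord_nonneg_of_locRing h1
  rw [hu x.1 x.2 (specializes_refl _) (specializes_refl _), coef_val, coef_val] at h2
  change R' x ≤ s' x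
  linarith

/-- Equivariant flat models, from resolution of singularities. -/
theorem flatModelsAt_of_resolution (hFS : FactorialStalks) (hR : Resolution) {r : ℕ}
    (hE : EquivResolutionAt r) : FlatModelsAt r := by
  intro Z τ κ hκ _ k hk0
  obtain ⟨Y, ψ, hψ, hY⟩ := exists_base hR Z k
  obtain ⟨Z', τ', μ, φ, hμ, heq, hinv, hφ⟩ := hE Z Y τ ψ fun a => hk0 _ ((hψ _).2 ⟨a, rfl⟩)
  obtain ⟨ω, hω0, hω, hωT, hdiv⟩ := hκ
  obtain ⟨κ', κ₀, E, hκ', hE'⟩ := exists_relative_canonical_form hFS hμ hω0 hω hdiv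
  have hT := TAct.InvTensor.upTop hμ heq hωT
  have hk : ∀ g : Z.K, g ∈ k ↔ ∃ h : Y.K, φ.pull h = μ.pull g := by
    intro g
    rw [hψ]
    refine exists_congr fun h => ?_
    rw [hφ]
    exact ⟨fun h1 => by rw [h1], fun h1 => μ.pull_injective h1⟩
  refine ⟨Y, Z', τ', μ, φ, {x | coheight x = 1 ∧ coheight (φ.f x) ≤ 1}, κ', κ₀, E, hμ, heq, hinv,
    hk, fun x hx => hx, fun y hy => ?_, star_of_base hFS (hY Z' μ φ hμ hφ),
    ⟨hμ.upTop ω, hμ.upTop_ne_zero hω0, hμ.upTop_isAlt hω, hT, hκ'⟩, hT.invDiv hκ', hE'⟩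
  obtain ⟨x, hx, rfl⟩ := exists_prime_over φ hy
  exact ⟨x, ⟨hx, hy.le⟩, rfl⟩

/-- A smooth projective model of the function field of `Z` with morphisms to `Z` and `Y`. -/
theorem exists_join (hR : Resolution) (Z Y : Var) (ψ : Y.K →ₐ[ℂ] Z.K) :
    ∃ (Z' : Var) (μ : DomHom Z' Z) (φ : DomHom Z' Y), μ.Birational ∧
      ∀ a, φ.pull a = μ.pull (ψ a) := by
  let V : Fin 2 → Var := ![Z, Y]
  let j : ∀ i, (V i).K →ₐ[ℂ] Z.K := fun i =>
    match i with
    | 0 => AlgHom.id ℂ Z.K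
    | 1 => ψ
  obtain ⟨W, e, φ, hφ, -⟩ := hR Z.K (essFiniteType Z) 2 V j 1 (fun _ => 1) ⟨0, one_ne_zero⟩
  let μ : DomHom W Z := φ 0
  let φ' : DomHom W Y := φ 1
  have hμ : ∀ a, μ.pull a = e a := hφ 0
  have hφ' : ∀ a, φ'.pull a = e (ψ a) := hφ 1
  refine ⟨W, μ, φ', ?_, fun a => by rw [hφ', hμ]⟩
  refine ⟨μ.pull_injective, fun b => ⟨e.symm b, ?_⟩⟩
  rw [hμ, e.apply_symm_apply]

/-- Flat models, from resolution of singularities. -/
theorem flatModels_of_resolution (hFS : FactorialStalks) (hR : Resolution) : FlatModels := by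
  intro Z κ hκ k
  obtain ⟨Y, ψ, hψ, hY⟩ := exists_base hR Z k
  obtain ⟨Z', μ, φ, hμ, hφ⟩ := exists_join hR Z Y ψ
  obtain ⟨κ', κ₀, E, hE⟩ := exists_relative_canonical hFS hμ hκ
  have hk : ∀ g : Z.K, g ∈ k ↔ ∃ h : Y.K, φ.pull h = μ.pull g := by
    intro g
    rw [hψ]
    refine exists_congr fun h => ?_
    rw [hφ]
    exact ⟨fun h1 => by rw [h1], fun h1 => μ.pull_injective h1⟩
  refine ⟨Y, Z', μ, φ, {x | coheight x = 1 ∧ coheight (φ.f x) ≤ 1}, κ', κ₀, E, hμ, hk,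
    fun x hx => hx, fun y hy => ?_, star_of_base hFS (hY Z' μ φ hμ hφ), hE⟩
  obtain ⟨x, hx, rfl⟩ := exists_prime_over φ hy
  exact ⟨x, ⟨hx, hy.le⟩, rfl⟩

/-- Resolution of singularities in a finite extension of the function field. -/
theorem hironaka_of_resolution (hR : Resolution) : Hironaka := by
  intro Y L _ _ _ r s hs
  let _ : Algebra ℂ L := ((algebraMap Y.K L).comp (algebraMap ℂ Y.K)).toAlgebra
  have t1 : IsScalarTower ℂ Y.K L := IsScalarTower.of_algebraMap_eq fun _ => rfl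
  have h1 := essFiniteType Y
  have h2 : Algebra.EssFiniteType ℂ L := Algebra.EssFiniteType.comp ℂ Y.K L
  obtain ⟨W, e, φ, hφ, hW⟩ := hR L h2 1 (fun _ => Y) (fun _ => IsScalarTower.toAlgHom ℂ Y.K L)
    r s hs
  exact ⟨W, φ 0, e.toRingEquiv, fun a => (hφ 0 a).symm, hW⟩

/-- A finitely generated field has a smooth projective model on which a given rational map is a
morphism. -/
theorem exists_model (hR : Resolution) (L : Type) [Field L] [Algebra ℂ L]
    (hL : Algebra.EssFiniteType ℂ L) {r : ℕ} (s : Fin r → L) (hs : ∃ i, s i ≠ 0) :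
    ∃ (W : Var) (e : L ≃ₐ[ℂ] W.K),
      ∀ x : W.X, ∃ i, s i ≠ 0 ∧ ∀ l, e (s l) / e (s i) ∈ locRing W x := by
  obtain ⟨W, e, -, -, hW⟩ := hR L hL 0 (fun i => i.elim0) (fun i => i.elim0) r s hs
  exact ⟨W, e, hW⟩

end Vale.Agent.P299.Q
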