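import Vale.Agent.P299.Q.FlPoint

/-!
# The flattening theorem: functions without poles along the prime divisors which are not contracted
-/

open CategoryTheory TopologicalSpace Opposite TopCat AlgebraicGeometry Order IsLocalRing

namespace Vale.Agent.P299.Q

open Vale.Agent.P299.G

variable {X Z Y : Var}

theorem mem_locRing_of_equations {μ : DomHom X Z} (hμ : μ.Birational) (φ : DomHom X Y) {m : ℕ}
    (hm : Algebra.trdeg ℂ Y.K + m = Algebra.trdeg ℂ X.K) (x : X.X) {SZ : Set Z.K}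
    {SY : Set Y.K} (hZ : IsChartAt Z SZ (μ.f x))
    (hY : IsChartAt Y SY (φ.f x)) (hSZ : SZ.Finite) (hSY : SY.Finite)
    (hE : HasEquations φ (μ.pull '' SZ) m) (u : X.K)
    (hu : ∀ x' : X.X, coheight x' = 1 → μ.f x' ⤳ μ.f x → φ.f x' ⤳ φ.f x →
      coheight (φ.f x') ≤ 1 → u ∈ locRing X x') : u ∈ locRing X x := by
  have hCx : ∀ c ∈ coordAlg μ φ SZ SY, c ∈ locRing X x := coordAlg_le hZ.1 hY.1
  have hfg : (coordAlg μ φ SZ SY).FG :=
    Subalgebra.fg_def.2 ⟨_, (hSZ.image _).union (hSY.image _), rfl⟩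
  have hfr : IsFractionRing (coordAlg μ φ SZ SY) X.K :=
    isFractionRing_of_chart hμ hZ _ fun a ha => pull_mem_coordAlg_left (Algebra.subset_adjoin ha)
  obtain ⟨D, hN, hI, hF, hCD, hint, hdim⟩ := exists_normalization (coordAlg μ φ SZ SY) hfg hfr
  have hDx : ∀ d ∈ D, d ∈ locRing X x := fun d hd => mem_locRing_of_isIntegral _ hCx (hint d hd)
  let P : Ideal D := (IsLocalRing.maximalIdeal (X.X.presheaf.stalk x)).comap (liftStalk D hDx)
  have hPx : ∀ d : D, d ∈ P ↔ d = 0 ∨ (d : X.K)⁻¹ ∉ locRing X x := by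
    intro d
    by_cases hd : d = 0
    · rw [hd]
      simp
    have hd' : liftStalk D hDx d ≠ 0 := by
      intro h3
      apply hd
      apply Subtype.ext
      rw [← toK_liftStalk D hDx, h3, map_zero]
      rfl
    rw [or_iff_right hd, ← toK_liftStalk D hDx, ← isUnit_iff_inv_mem hd']
    exact IsLocalRing.mem_maximalIdeal _
  obtain ⟨s, hs, a, hsa⟩ := exists_of_forall_height_one_le (K := X.K) P u fun p hp hp1 hpP => by
    obtain ⟨x', hx', hμx, hφx⟩ := exists_isPointOf μ φ x hZ hY D hN hI hF hCD hint p hp hp1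
      fun d hd hd0 hdp => ((hPx d).1 (hpP hdp)).elim hd0 fun h => h hd
    obtain ⟨n, b, hn, hb⟩ := hdim p hp hp1
    have h1 : coheight (φ.f x') ≤ 1 := hx'.coheight_image μ φ hm hE D hint p b hn hb
      (fun f hf => locRing_le hμx (hZ.1 hf)) (fun f hf => locRing_le hφx (hY.1 hf))
    have h2 := hu x' (hx'.coheight hp1) hμx hφx h1
    obtain ⟨a, s, hs, has⟩ := hx'.frac u h2
    refine ⟨s, hs, a, ?_⟩
    rw [mul_comm]
    exact has
  rw [hPx, not_or, not_not] at hs
  have hs0 : (s : X.K) ≠ 0 := fun h => hs.1 (Subtype.ext h)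
  have h1 : u = a * (s : X.K)⁻¹ := by
    have h2 : (s : X.K) * u = a := hsa
    rw [← h2]
    field_simp
  rw [h1]
  exact (locRing X x).mul_mem (hDx a a.2) hs.2

end Vale.Agent.P299.Q
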