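import Mathlib.RingTheory.LocalRing.ResidueField.Basic
import Vale.Agent.P299.Q.FlDeg

/-!
# The residue fields
-/

open IsLocalRing

namespace Vale.Agent.P299.Q

theorem height_lt_two_of_relations {k L K B B' : Type} [Field k] [Field L] [Field K] [CommRing B]
    [IsDomain B] [IsLocalRing B] [CommRing B'] [IsLocalRing B'] [Algebra k L]
    [Algebra k K] [Algebra k B] [Algebra B L]
    [IsScalarTower k B L] [FaithfulSMul B L] [Algebra k B'] [Algebra B B']
    [IsLocalHom (algebraMap B B')] [IsScalarTower k B B'] {n m : ℕ}
    (hK : Algebra.trdeg k K = (n + 1 : ℕ)) (hm : Algebra.trdeg k L + m = Algebra.trdeg k K)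
    (a : Fin n → B')
    (ha : IndMod k (maximalIdeal B') a) (S : Set B')
    (hS : ∀ J : Fin (m + 1) → B', (∀ i, J i ∈ S) → ∃ F : MvPolynomial (Fin (m + 1)) B,
      (∃ e, F.coeff e = 1) ∧ MvPolynomial.aeval J F = 0)
    (hgen : ∀ t : B', ∃ c s : B', IsUnit s ∧ t * s = c ∧ IsIntegral (Algebra.adjoin B S) c ∧
      IsIntegral (Algebra.adjoin B S) s) : (maximalIdeal B).height < 2 := by
  let _ : Algebra (ResidueField B) (ResidueField B') :=
    (ResidueField.map (algebraMap B B')).toAlgebra
  have hres : ∀ b : B, algebraMap (ResidueField B) (ResidueField B') (residue B b) =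
      residue B' (algebraMap B B' b) := fun b => ResidueField.map_residue _ b
  have t1 : IsScalarTower k (ResidueField B) (ResidueField B') := by
    refine IsScalarTower.of_algebraMap_eq fun c => ?_
    have h1 : algebraMap k (ResidueField B) c = residue B (algebraMap k B c) := rfl
    have h2 : algebraMap k (ResidueField B') c = residue B' (algebraMap k B' c) := rfl
    rw [h1, h2, hres, ← IsScalarTower.algebraMap_apply]
  let S' : Set (ResidueField B') := residue B' '' S
  have hadj : ∀ c ∈ Algebra.adjoin B S, residue B' c ∈ Algebra.adjoin (ResidueField B) S' := by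
    intro c hc
    refine Algebra.adjoin_induction (fun x hx => Algebra.subset_adjoin ⟨x, hx, rfl⟩) (fun b => ?_)
      (fun x y _ _ hx hy => by rw [map_add]; exact add_mem hx hy)
      (fun x y _ _ hx hy => by rw [map_mul]; exact mul_mem hx hy) hc
    rw [← hres]
    exact Subalgebra.algebraMap_mem _ _
  have hint : ∀ c : B', IsIntegral (Algebra.adjoin B S) c →
      IsAlgebraic (Algebra.adjoin (ResidueField B) S') (residue B' c) := by
    rintro c ⟨P, hP, hPe⟩
    let g : Algebra.adjoin B S →+* Algebra.adjoin (ResidueField B) S' :=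
      ((residue B').comp (Algebra.adjoin B S).val.toRingHom).codRestrict
        (Algebra.adjoin (ResidueField B) S') (fun x => hadj x x.2)
    have h1 : IsIntegral (Algebra.adjoin (ResidueField B) S') (residue B' c) := by
      refine ⟨P.map g, hP.map _, ?_⟩
      rw [Polynomial.eval₂_map]
      have h2 := congrArg (residue B') hPe
      rw [Polynomial.hom_eval₂, map_zero] at h2
      exact h2
    exact h1.isAlgebraic
  have halg : Algebra.IsAlgebraic (Algebra.adjoin (ResidueField B) S') (ResidueField B') := by
    refine ⟨fun r => ?_⟩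
    obtain ⟨t, rfl⟩ := residue_surjective r
    obtain ⟨c, s, hs, hts, hc, hs'⟩ := hgen t
    have h1 : residue B' t = residue B' c * (residue B' s)⁻¹ := by
      rw [eq_mul_inv_iff_mul_eq₀ (hs.map (residue B')).ne_zero, ← map_mul, hts]
    rw [h1]
    exact (hint c hc).mul (hint s hs').inv
  refine height_lt_two (k := k) (L := L) (K := K) (B := B) (κ' := ResidueField B)
    (κ := ResidueField B') (maximalIdeal B) (fun b hb => ?_) residue_surjective hK hm ?_ ?_
  · exact (residue_eq_zero_iff b).2 hb
  · have h1 : AlgebraicIndependent k (fun i => residue B' (a i)) := by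
      refine algebraicIndependent_iff.2 fun F hF => ha F ?_
      rw [← residue_eq_zero_iff]
      have h2 := MvPolynomial.aeval_algebraMap_apply (R := k) (ResidueField B') a F
      exact h2.symm.trans hF
    have h2 := h1.cardinalMk_le_trdeg
    rwa [Cardinal.mk_fin] at h2
  · refine trdeg_le_of_dependent S' fun J hJ hind => ?_
    choose J' hJ'S hJ' using hJ
    obtain ⟨F, ⟨e, he⟩, hF⟩ := hS J' hJ'S
    have h1 : MvPolynomial.aeval J (F.map (residue B)) = 0 := by
      rw [MvPolynomial.aeval_def, MvPolynomial.eval₂_map]
      have h2 := congrArg (residue B') hF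
      rw [MvPolynomial.aeval_def, map_zero, MvPolynomial.eval₂_eq'] at h2
      rw [MvPolynomial.eval₂_eq', ← h2, map_sum]
      refine Finset.sum_congr rfl fun d _ => ?_
      rw [map_mul, map_prod, RingHom.comp_apply, hres]
      congr 1
      refine Finset.prod_congr rfl fun i _ => ?_
      rw [map_pow, hJ']
    have h2 := algebraicIndependent_iff.1 hind _ h1
    have h3 := congrArg (MvPolynomial.coeff e) h2
    rw [MvPolynomial.coeff_map, he, map_one, MvPolynomial.coeff_zero] at h3
    exact one_ne_zero h3

end Vale.Agent.P299.Q
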