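import Mathlib.RingTheory.Ideal.KrullsHeightTheorem
import Mathlib.RingTheory.Ideal.AssociatedPrime.Basic
import Vale.Agent.P299.G.LocEq
import Vale.Agent.P299.Q.EtaleNormal

/-!
# Rational functions without poles on normal schemes
-/

open AlgebraicGeometry Order TopologicalSpace CategoryTheory IsLocalRing

universe u

namespace Vale.Agent.P299.Q

open Vale.Agent.P299.G

/-- A Noetherian integrally closed domain is the intersection of its localizations at the prime
ideals of height one. -/
theorem exists_of_forall_height_one {R K : Type*} [CommRing R] [IsDomain R] [IsNoetherianRing R]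
    [IsIntegrallyClosed R] [Field K] [Algebra R K] [IsFractionRing R K] (u : K)
    (h : ∀ P : Ideal R, P.IsPrime → P.height = 1 → ∃ s ∉ P, ∃ a, algebraMap R K s * u =
      algebraMap R K a) : ∃ a, algebraMap R K a = u := by
  by_contra hu
  let N : Submodule R K := LinearMap.range (Algebra.linearMap R K)
  have hN : ∀ v : K, v ∈ N ↔ ∃ a, algebraMap R K a = v := fun v => Iff.rfl
  have hx : N.mkQ u ≠ 0 := by
    rw [Ne, Submodule.mkQ_apply, Submodule.Quotient.mk_eq_zero, hN]
    exact hu
  obtain ⟨P, hP, hle⟩ := exists_le_isAssociatedPrime_of_isNoetherianRing R (N.mkQ u) hx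
  rw [isAssociatedPrime_iff] at hP
  obtain ⟨hPp, m, hm⟩ := hP
  obtain ⟨v, rfl⟩ := N.mkQ_surjective m
  have hmem : ∀ r : R, r ∈ P ↔ ∃ a, algebraMap R K a = algebraMap R K r * v := by
    intro r
    rw [hm, Submodule.mem_colon_singleton, Submodule.mem_bot, ← map_smul, Submodule.mkQ_apply,
      Submodule.Quotient.mk_eq_zero, hN, Algebra.smul_def]
  have hmemu : ∀ r a : R, algebraMap R K r * u = algebraMap R K a → r ∈ P := by
    intro r a hra
    apply hle
    rw [Submodule.mem_colon_singleton, Submodule.mem_bot, ← map_smul, Submodule.mkQ_apply,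
      Submodule.Quotient.mk_eq_zero, hN, Algebra.smul_def]
    exact ⟨a, hra.symm⟩
  have hvN : ¬ ∃ a, algebraMap R K a = v := by
    rintro ⟨a, ha⟩
    apply hPp.ne_top
    rw [Ideal.eq_top_iff_one, hmem]
    exact ⟨a, by rw [map_one, one_mul, ha]⟩
  have hP0 : P ≠ ⊥ := by
    intro h0
    obtain ⟨a, b, hb, hab⟩ := IsFractionRing.div_surjective (A := R) v
    have hb0 : algebraMap R K b ≠ 0 := by
      simpa using nonZeroDivisors.ne_zero hb
    have h1 : b ∈ P := by
      rw [hmem]
      refine ⟨a, ?_⟩
      rw [← hab]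
      field_simp
    rw [h0, Ideal.mem_bot] at h1
    exact nonZeroDivisors.ne_zero hb h1
  -- some element of `P v` is not in `P`
  have key : ∃ p ∈ P, ∃ c : R, algebraMap R K c = algebraMap R K p * v ∧ c ∉ P := by
    by_contra hcon
    push Not at hcon
    apply hvN
    apply IsIntegrallyClosed.isIntegral_iff.1
    let M : Submodule R K := Submodule.map (Algebra.linearMap R K) P
    refine isIntegral_of_smul_mem_submodule (M := K) M ?_
      ((IsNoetherian.noetherian (R := R) (M := R) P).map _) v ?_
    · intro h0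
      apply hP0
      rw [eq_bot_iff]
      intro p hp
      have h1 : algebraMap R K p ∈ M := ⟨p, hp, rfl⟩
      rw [h0, Submodule.mem_bot] at h1
      rw [Ideal.mem_bot]
      simpa using h1
    · rintro _ ⟨p, hp, rfl⟩
      obtain ⟨c, hc⟩ := (hmem p).1 hp
      exact ⟨c, hcon p hp c hc, by rw [Algebra.linearMap_apply, hc, Algebra.linearMap_apply,
        smul_eq_mul, mul_comm]⟩
  obtain ⟨p, hp, c, hc, hcP⟩ := key
  have hmul : ∀ q ∈ P, ∃ d : R, c * q = p * d := by
    intro q hq
    obtain ⟨d, hd⟩ := (hmem q).1 hq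
    refine ⟨d, ?_⟩
    apply IsFractionRing.injective R K
    rw [map_mul, map_mul, hc, hd]
    ring
  have hmin : P ∈ (Ideal.span {p}).minimalPrimes := by
    refine ⟨⟨hPp, ?_⟩, ?_⟩
    · rw [Ideal.span_singleton_le_iff_mem]; exact hp
    · rintro Q ⟨hQ, hpQ⟩ hQP q hq
      obtain ⟨d, hd⟩ := hmul q hq
      have h1 : c * q ∈ Q := by
        rw [hd]
        exact Q.mul_mem_right _ (hpQ (Ideal.mem_span_singleton_self p))
      rcases hQ.mem_or_mem h1 with h2 | h2
      · exact absurd (hQP h2) hcP
      · exact h2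
  have hh1 : P.height ≤ 1 :=
    Ideal.height_le_one_of_isPrincipal_of_mem_minimalPrimes (Ideal.span {p}) P hmin
  have hh2 : P.height = 1 := by
    refine le_antisymm hh1 ?_
    rw [Order.one_le_iff_ne_zero]
    intro h0
    exact hP0 (Ideal.height_eq_zero_iff_eq_bot.1 h0)
  obtain ⟨s, hs, a, hsa⟩ := h P hPp hh2
  exact hs (hmemu s a hsa)

section Scheme

variable {X : Scheme.{u}} [IsIntegral X]

/-- The local ring at a generization is a localization. -/
theorem isLocalization_toStalk {y x : X} (h : y ⤳ x) :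
    letI := (toStalk h).toAlgebra
    IsLocalization.AtPrime (X.presheaf.stalk y) (primeAt h) := by
  let _ := (toStalk h).toAlgebra
  refine ⟨?_, ?_, ?_⟩
  · rintro ⟨s, hs⟩
    by_contra hcon
    exact hs ((mem_primeAt h s).2 hcon)
  · intro t
    obtain ⟨a, b, hb, hab⟩ := exists_frac h t
    refine ⟨⟨a, ⟨b, fun hbp => (mem_primeAt h b).1 hbp hb⟩⟩, hab⟩
  · intro a b hab
    exact ⟨1, by rw [toStalk_injective h hab]⟩

theorem coheight_eq_height {y x : X} (h : y ⤳ x) : coheight y = (primeAt h).height := by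
  let _ := (toStalk h).toAlgebra
  have := isLocalization_toStalk h
  have h1 := IsLocalization.AtPrime.ringKrullDim_eq_height (primeAt h) (X.presheaf.stalk y)
  rw [ringKrullDim_stalk_eq_coheight] at h1
  exact_mod_cast h1

variable [IsLocallyNoetherian X]

/-- The local rings of codimension one of a normal scheme are discrete valuation rings. -/
theorem dvr_of_normal (hn : ∀ x : X, IsIntegrallyClosed (X.presheaf.stalk x)) (y : X)
    (hy : coheight y = 1) : IsDiscreteValuationRing (X.presheaf.stalk y) := by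
  have := hn y
  refine isDiscreteValuationRing_of_dim_one _ ?_
  rw [ringKrullDim_stalk_eq_coheight, hy]
  rfl

/-- On a normal scheme a rational function without poles through `x` is regular at `x`. -/
theorem exists_of_forall_ord_nonneg_normal
    (hn : ∀ x : X, IsIntegrallyClosed (X.presheaf.stalk x)) (x : X) (u : X.functionField)
    (hu : u ≠ 0) (h : ∀ y : X, coheight y = 1 → y ⤳ x → 0 ≤ Scheme.ord u y) :
    ∃ a : X.presheaf.stalk x, toK x a = u := by
  have := hn x
  refine exists_of_forall_height_one (R := X.presheaf.stalk x) u fun P hP hPh => ?_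
  obtain ⟨y, hyx, rfl⟩ := exists_primeAt P
  have hy : coheight y = 1 := by rw [coheight_eq_height hyx, hPh]
  obtain ⟨t, ht⟩ := exists_of_ord_nonneg (dvr_of_normal hn) hy hu (h y hy hyx)
  obtain ⟨a, b, hb, hab⟩ := exists_frac hyx t
  refine ⟨b, fun hbp => (mem_primeAt hyx b).1 hbp hb, a, ?_⟩
  have h1 := congrArg (toK y) hab
  rw [map_mul, toK_toStalk, toK_toStalk, ht] at h1
  rw [mul_comm]
  exact h1

/-- [Krull] A nonzero nonunit of a local ring lies in the prime ideal of a generization of
codimension one. -/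
theorem exists_codim_one_of_mem {x : X} {a : X.presheaf.stalk x} (ha : a ≠ 0) (hu : ¬ IsUnit a) :
    ∃ y : X, ∃ h : y ⤳ x, coheight y = 1 ∧ a ∈ primeAt h := by
  obtain ⟨P, hP⟩ := (Ideal.span {a}).nonempty_minimalPrimes (by
    rwa [Ne, Ideal.span_singleton_eq_top])
  have hPp := hP.isPrime
  have haP : a ∈ P := hP.1.2 (Ideal.mem_span_singleton_self a)
  have h1 : P.height ≤ 1 :=
    Ideal.height_le_one_of_isPrincipal_of_mem_minimalPrimes (Ideal.span {a}) P hP
  obtain ⟨y, hyx, rfl⟩ := exists_primeAt P
  refine ⟨y, hyx, ?_, haP⟩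
  rw [coheight_eq_height hyx]
  refine le_antisymm h1 ?_
  rw [Order.one_le_iff_ne_zero]
  intro h0
  have h2 : primeAt hyx = ⊥ := Ideal.height_eq_zero_iff_eq_bot.1 h0
  rw [h2, Ideal.mem_bot] at haP
  exact ha haP

end Scheme

end Vale.Agent.P299.Q
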