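import Mathlib.RingTheory.Valuation.LocalSubring
import Vale.Agent.P299.Q.Hartogs
import Vale.Agent.P299.Q.FlRes

/-!
# Localizations of a normal domain at its prime ideals of height one
-/

open IsLocalRing

namespace Vale.Agent.P299.Q

section

variable {K : Type} [Field K]

theorem exists_valuation (D : Subring K) (p : Ideal D) [hp : p.IsPrime] :
    ∃ V : ValuationSubring K, (∀ d : D, (d : K) ∈ V) ∧ (∀ d : D, d ∉ p → (d : K)⁻¹ ∈ V) ∧
      ∀ d : D, d ∈ p → (d : K)⁻¹ ∈ V → d = 0 := by
  obtain ⟨V, hle, hloc⟩ := (LocalSubring.ofPrime D p).exists_le_valuationSubring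
  have hD : ∀ d : D, (d : K) ∈ (LocalSubring.ofPrime D p).toSubring := fun d =>
    LocalSubring.le_ofPrime D p d.2
  have hinc : ∀ d : D, algebraMap D (LocalSubring.ofPrime D p).toSubring d = ⟨d, hD d⟩ :=
    fun _ => rfl
  refine ⟨V, fun d => hle (hD d), fun d hd => ?_, fun d hd hdV => ?_⟩
  · have h1 : IsUnit (algebraMap D (LocalSubring.ofPrime D p).toSubring d) :=
      IsLocalization.map_units (M := p.primeCompl) _ ⟨d, hd⟩
    obtain ⟨e, he⟩ := h1.exists_right_inv
    rw [hinc] at he
    have h2 : (d : K) * (e : K) = 1 := congrArg Subtype.val he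
    rw [← eq_inv_of_mul_eq_one_right h2]
    exact hle e.2
  · by_contra hd0
    have hd0' : (d : K) ≠ 0 := fun h => hd0 (Subtype.ext h)
    have h1 : IsUnit (Subring.inclusion hle ⟨d, hD d⟩) := by
      refine IsUnit.of_mul_eq_one (⟨(d : K)⁻¹, hdV⟩ : V.toLocalSubring.toSubring)
        (Subtype.ext ?_)
      exact mul_inv_cancel₀ hd0'
    have h2 : IsUnit (⟨d, hD d⟩ : (LocalSubring.ofPrime D p).toSubring) :=
      hloc.map_nonunit _ h1
    have h3 : IsUnit (algebraMap D (LocalSubring.ofPrime D p).toSubring d) := h2
    rw [IsLocalization.AtPrime.isUnit_to_map_iff _ p] at h3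
    exact h3 hd

end

section

variable {D K : Type} [CommRing D] [IsDomain D] [IsNoetherianRing D] [IsIntegrallyClosed D]
  [Field K] [Algebra D K] [IsFractionRing D K]

theorem dvr_cases (p : Ideal D) [hp : p.IsPrime] (hh : p.height = 1) (w : K) :
    (∃ a s : D, s ∉ p ∧ w * algebraMap D K s = algebraMap D K a) ∨
      ∃ a s : D, s ∉ p ∧ a ∈ p ∧ w * algebraMap D K a = algebraMap D K s := by
  have hN : IsNoetherianRing (Localization.AtPrime p) :=
    IsLocalization.isNoetherianRing p.primeCompl _ inferInstance
  have hI : IsIntegrallyClosed (Localization.AtPrime p) :=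
    isIntegrallyClosed_of_isLocalization (R := D) (Localization.AtPrime p) p.primeCompl
      p.primeCompl_le_nonZeroDivisors
  have hD : IsDiscreteValuationRing (Localization.AtPrime p) := by
    refine isDiscreteValuationRing_of_dim_one _ ?_
    rw [IsLocalization.AtPrime.ringKrullDim_eq_height p, hh]
    rfl
  obtain ⟨a, b, hb, rfl⟩ := IsFractionRing.div_surjective (A := D) w
  have hb0 : b ≠ 0 := nonZeroDivisors.ne_zero hb
  have hbK : algebraMap D K b ≠ 0 := by simpa using hb0
  obtain ⟨c, hc⟩ := ValuationRing.cond (algebraMap D (Localization.AtPrime p) a)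
    (algebraMap D (Localization.AtPrime p) b)
  obtain ⟨⟨a', s'⟩, hc'⟩ := IsLocalization.surj p.primeCompl c
  have hinj : Function.Injective (algebraMap D (Localization.AtPrime p)) :=
    IsLocalization.injective _ p.primeCompl_le_nonZeroDivisors
  rcases hc with hc | hc
  · have h1 : a * a' = b * s'.1 := by
      apply hinj
      rw [map_mul, map_mul, ← hc']
      linear_combination (algebraMap D (Localization.AtPrime p) s'.1) * hc
    have h2 : algebraMap D K a / algebraMap D K b * algebraMap D K a' =
        algebraMap D K s'.1 := by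
      have h3 := congrArg (algebraMap D K) h1
      rw [map_mul, map_mul] at h3
      field_simp
      exact h3
    by_cases ha' : a' ∈ p
    · exact Or.inr ⟨a', s'.1, s'.2, ha', h2⟩
    · exact Or.inl ⟨s'.1, a', ha', h2⟩
  · have h1 : b * a' = a * s'.1 := by
      apply hinj
      rw [map_mul, map_mul, ← hc']
      linear_combination (algebraMap D (Localization.AtPrime p) s'.1) * hc
    refine Or.inl ⟨a', s'.1, s'.2, ?_⟩
    have h3 := congrArg (algebraMap D K) h1
    rw [map_mul, map_mul] at h3
    field_simp
    exact h3.symm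

/-- The localization of a normal domain at a prime ideal `P` is the intersection of its
localizations at the prime ideals of height one contained in `P`. -/
theorem exists_of_forall_height_one_le (P : Ideal D) [hP : P.IsPrime] (u : K)
    (h : ∀ p : Ideal D, p.IsPrime → p.height = 1 → p ≤ P →
      ∃ s ∉ p, ∃ a, algebraMap D K s * u = algebraMap D K a) :
    ∃ s ∉ P, ∃ a, algebraMap D K s * u = algebraMap D K a := by
  let R := Localization.AtPrime P
  have hN : IsNoetherianRing R := IsLocalization.isNoetherianRing P.primeCompl _ inferInstance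
  have hI : IsIntegrallyClosed R :=
    isIntegrallyClosed_of_isLocalization (R := D) R P.primeCompl P.primeCompl_le_nonZeroDivisors
  let _ : Algebra R K := IsLocalization.localizationAlgebraOfSubmonoidLe R K P.primeCompl
    (nonZeroDivisors D) P.primeCompl_le_nonZeroDivisors
  have t1 : IsScalarTower D R K := IsLocalization.localization_isScalarTower_of_submonoid_le R K
    P.primeCompl (nonZeroDivisors D) P.primeCompl_le_nonZeroDivisors
  have hF : IsFractionRing R K :=
    IsFractionRing.isFractionRing_of_isDomain_of_isLocalization P.primeCompl R K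
  obtain ⟨r, hr⟩ := exists_of_forall_height_one (R := R) u fun q hq hqh => by
    have h1 : (q.under D).height = 1 := by
      rw [← hqh]
      exact IsLocalization.height_under P.primeCompl q
    have h2 : q.under D ≤ P := by
      intro d hd
      by_contra hdP
      apply hq.ne_top
      exact Ideal.eq_top_of_isUnit_mem q hd
        (IsLocalization.map_units (M := P.primeCompl) R ⟨d, hdP⟩)
    obtain ⟨s, hs, a, hsa⟩ := h _ (Ideal.IsPrime.under D q) h1 h2
    refine ⟨algebraMap D R s, hs, algebraMap D R a, ?_⟩
    rw [← IsScalarTower.algebraMap_apply, ← IsScalarTower.algebraMap_apply]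
    exact hsa
  obtain ⟨⟨a, s⟩, has⟩ := IsLocalization.surj P.primeCompl r
  refine ⟨s.1, s.2, a, ?_⟩
  have h1 := congrArg (algebraMap R K) has
  rw [map_mul, hr, ← IsScalarTower.algebraMap_apply, ← IsScalarTower.algebraMap_apply] at h1
  rw [mul_comm]
  exact h1

end

end Vale.Agent.P299.Q
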