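import Vale.Agent.P299.Q.Jacob

/-!
# Bounds for the multiplicities of a divisor
-/

open CategoryTheory TopologicalSpace Opposite TopCat AlgebraicGeometry Order

namespace Vale.Agent.P299.Q

open Vale.Agent.P299.G

variable {X Y : Var}

/-- The functions whose derivatives of order at most `k` vanish at `y`. -/
noncomputable def hi (y : Y.X) : ℕ → AddSubgroup Y.K
  | 0 => ((IsLocalRing.maximalIdeal (Y.X.presheaf.stalk y)).toAddSubgroup).map
      (toK y).toAddMonoidHom
  | k + 1 => hi y k ⊓ ⨅ D : Y.Der, ⨅ _ : RegDer y D,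
      (hi y k).comap (D : Y.K →ₗ[ℂ] Y.K).toAddMonoidHom

theorem mem_hi_zero {y : Y.X} {c : Y.K} :
    c ∈ hi y 0 ↔ ∃ a ∈ IsLocalRing.maximalIdeal (Y.X.presheaf.stalk y), toK y a = c := Iff.rfl

theorem mem_hi_succ {y : Y.X} {k : ℕ} {c : Y.K} :
    c ∈ hi y (k + 1) ↔ c ∈ hi y k ∧ ∀ D : Y.Der, RegDer y D → D c ∈ hi y k := by
  change c ∈ hi y k ⊓ ⨅ D : Y.Der, ⨅ _ : RegDer y D,
      (hi y k).comap (D : Y.K →ₗ[ℂ] Y.K).toAddMonoidHom ↔ _
  rw [AddSubgroup.mem_inf]
  simp only [AddSubgroup.mem_iInf]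
  rfl

theorem mul_mem_hi {y : Y.X} {k : ℕ} {r c : Y.K} (hr : r ∈ locRing Y y) (hc : c ∈ hi y k) :
    r * c ∈ hi y k := by
  induction k generalizing r c with
  | zero =>
    rw [mem_hi_zero] at hc ⊢
    obtain ⟨a, ha, rfl⟩ := hc
    obtain ⟨b, rfl⟩ := hr
    exact ⟨b * a, Ideal.mul_mem_left _ _ ha, map_mul _ _ _⟩
  | succ k ih =>
    rw [mem_hi_succ] at hc ⊢
    refine ⟨ih hr hc.1, fun D hD => ?_⟩
    rw [Derivation.leibniz, smul_eq_mul, smul_eq_mul]
    refine add_mem (ih hr (hc.2 D hD)) ?_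
    rw [mul_comm]
    exact ih (regDer_iff_locRing.1 hD _ hr) hc.1

/-- Some derivative of order at most `k` of `c` is a unit at `y`. -/
def DerGood (y : Y.X) : ℕ → Y.K → Prop
  | 0, c => GenAt (0 : Div Y.X) c y
  | k + 1, c => DerGood y k c ∨ ∃ D : Y.Der, RegDer y D ∧ DerGood y k (D c)

theorem DerGood.mono {y : Y.X} {k l : ℕ} (hkl : k ≤ l) {c : Y.K} (h : DerGood y k c) : DerGood y l c := by
  induction l with
  | zero =>
    rwa [Nat.le_zero.1 hkl] at h
  | succ l ih =>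
    rcases Nat.le_succ_iff.1 hkl with h1 | h1
    · exact Or.inl (ih h1)
    · rwa [h1] at h

theorem DerGood.ne_zero {y : Y.X} {k : ℕ} {c : Y.K} (h : DerGood y k c) : c ≠ 0 := by
  induction k generalizing c with
  | zero => exact h.1
  | succ k ih =>
    rcases h with h | ⟨D, -, h⟩
    · exact ih h
    · intro h0
      apply ih h
      rw [h0, map_zero]

theorem good_of_notMem {y : Y.X} {k : ℕ} {c : Y.K} (hc : c ∈ locRing Y y) (h : c ∉ hi y k) :
    DerGood y k c := by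
  induction k generalizing c with
  | zero =>
    obtain ⟨a, rfl⟩ := hc
    have ha : IsUnit a := by
      by_contra hu
      exact h (mem_hi_zero.2 ⟨a, (IsLocalRing.mem_maximalIdeal _).2 hu, rfl⟩)
    refine ⟨toK_ne_zero ha.ne_zero, fun z hz hzy => ?_⟩
    have h1 : toK y a = toK z (toStalk hzy a) := (toK_toStalk hzy a).symm
    change Scheme.ord (toK y a) z + _ = 0
    rw [h1, ord_toK_of_isUnit (ha.map _), coef_zero, add_zero]
  | succ k ih =>
    by_cases hk : c ∈ hi y k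
    · rw [mem_hi_succ] at h
      push Not at h
      obtain ⟨D, hD, hDc⟩ := h hk
      exact Or.inr ⟨D, hD, ih (regDer_iff_locRing.1 hD _ hc) hDc⟩
    · exact Or.inl (ih hc hk)

/-- A nonzero regular function has a derivative which does not vanish at `y`. -/
theorem exists_good {y : Y.X} {c : Y.K} (hc : c ∈ locRing Y y) (hc0 : c ≠ 0) :
    ∃ k, DerGood y k c := by
  by_contra hcon
  push Not at hcon
  have hall : ∀ k, c ∈ hi y k := by
    intro k
    by_contra h
    exact hcon k (good_of_notMem hc h)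
  obtain ⟨t, w, h⟩ := exists_fr (X := Y) rfl y
  apply hc0
  refine eq_zero_of_stable_frame h.mem h.dual h.expand (I := {c | ∀ k, c ∈ hi y k}) ?_ ?_ ?_
    (c := c) hall hc
  · intro r hr c hc k
    exact mul_mem_hi hr (hc k)
  · intro i c hc k
    exact (mem_hi_succ.1 (hc (k + 1))).2 (w i) (h.reg i)
  · intro h1
    obtain ⟨a, ha, ha1⟩ := mem_hi_zero.1 (h1 0)
    have h2 : a = 1 := toK_injective y (by rw [ha1, map_one])
    rw [h2] at ha
    exact (IsLocalRing.mem_maximalIdeal _).1 ha isUnit_one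

/-- The set where a vector field is regular is open. -/
theorem RegDer.nhds (hFS : FactorialStalks) {y : Y.X} {D : Y.Der} (h : RegDer y D) :
    ∃ U : Y.X.Opens, y ∈ U ∧ ∀ z ∈ U, RegDer z D := by
  have hfin := finite_not_regDer D
  let F : Set Y.X := ⋃ z ∈ hfin.toFinset, closure {z}
  have hF : IsClosed F := isClosed_biUnion_finset fun _ _ => isClosed_closure
  refine ⟨⟨Fᶜ, hF.isOpen_compl⟩, ?_, ?_⟩
  · intro hyF
    obtain ⟨z, hz, hyz⟩ := Set.mem_iUnion₂.1 hyF
    rw [Set.Finite.mem_toFinset] at hz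
    exact hz.2 (h.of_specializes (specializes_iff_mem_closure.2 hyz))
  · intro z hz
    have hz' : ∀ z' : Y.X, coheight z' = 1 → z' ⤳ z → RegDer z' D := by
      intro z' hz1 hzz
      by_contra hcon
      apply hz
      refine Set.mem_iUnion₂.2 ⟨z', ?_, specializes_iff_mem_closure.1 hzz⟩
      rw [Set.Finite.mem_toFinset]
      exact ⟨hz1, hcon⟩
    rw [regDer_iff_locRing]
    intro f hf
    have := hFS Y z
    obtain ⟨a, ha⟩ := exists_of_forall_ord_nonneg Y.dvr z (D f) fun z' hz1 hzz =>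
      ord_nonneg_of_locRing (regDer_iff_locRing.1 (hz' z' hz1 hzz) _ (locRing_le hzz hf))
    exact ⟨a, ha⟩

theorem DerGood.nhds (hFS : FactorialStalks) {y : Y.X} {k : ℕ} {c : Y.K} (h : DerGood y k c) :
    ∃ U : Y.X.Opens, y ∈ U ∧ ∀ z ∈ U, DerGood z k c := by
  induction k generalizing c with
  | zero => exact exists_genAt_nhds 0 y h
  | succ k ih =>
    rcases h with h | ⟨D, hD, h⟩
    · obtain ⟨U, hyU, hU⟩ := ih h
      exact ⟨U, hyU, fun z hz => Or.inl (hU z hz)⟩
    · obtain ⟨U, hyU, hU⟩ := ih h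
      obtain ⟨V, hyV, hV⟩ := hD.nhds hFS
      exact ⟨U ⊓ V, ⟨hyU, hyV⟩, fun z hz => Or.inr ⟨D, hV z hz.2, hU z hz.1⟩⟩

/-- The multiplicities of an effective divisor are bounded. -/
theorem exists_mult_bound (hFS : FactorialStalks) {B : Div Y.X} (hB : 0 ≤ B) :
    ∃ m : ℕ, ∀ y : Y.X, ∃ c, GenAt (-B) c y ∧ DerGood y m c := by
  have key : ∀ y : Y.X, ∃ (c : Y.K) (k : ℕ) (U : Y.X.Opens), y ∈ U ∧
      ∀ z ∈ U, GenAt (-B) c z ∧ DerGood z k c := by
    intro y
    have := hFS Y y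
    obtain ⟨c, hc⟩ := exists_genAt (-B) y
    have hcO : c ∈ locRing Y y := by
      obtain ⟨a, ha⟩ := exists_of_forall_ord_nonneg Y.dvr y c fun z hz hzy => by
        have h1 := hc.2 z hz hzy
        have h2 : 0 ≤ coef B z := by
          rw [coef_mk hz]
          exact hB ⟨z, hz⟩
        rw [coef_neg] at h1
        linarith
      exact ⟨a, ha⟩
    obtain ⟨k, hk⟩ := exists_good hcO hc.1
    obtain ⟨U, hyU, hU⟩ := hk.nhds hFS
    obtain ⟨V, hyV, hV⟩ := exists_genAt_nhds (-B) y hc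
    exact ⟨c, k, U ⊓ V, ⟨hyU, hyV⟩, fun z hz => ⟨hV z hz.2, hU z hz.1⟩⟩
  choose c k U hyU hU using key
  obtain ⟨t, ht⟩ := isCompact_univ.elim_finite_subcover (fun y : Y.X => (U y : Set Y.X))
    (fun y => (U y).isOpen) (fun y _ => Set.mem_iUnion.2 ⟨y, hyU y⟩)
  refine ⟨t.sup k, fun y => ?_⟩
  obtain ⟨z, hz, hyz⟩ := Set.mem_iUnion₂.1 (ht (Set.mem_univ y))
  exact ⟨c z, (hU z y hyz).1, (hU z y hyz).2.mono (Finset.le_sup hz)⟩

/-- The order of the pull back of a function with bounded multiplicity. -/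
theorem DerGood.ord_le (hFS : FactorialStalks) {φ : DomHom X Y} (hφ : φ.Alg) {n : ℕ} {x : X.X} (hx : coheight x = 1)
    {s : Fin n → Y.K} {w : Fin n → Y.Der} {u : Fin n → X.K} {δ : Fin n → X.Der}
    (hsw : Fr (φ.f x) s w) (huδ : Fr x u δ) (h0 : (jac φ s δ).det ≠ 0) {k : ℕ} {c : Y.K}
    (h : DerGood (φ.f x) k c) :
    Scheme.ord (φ.pull c) x ≤ k * (Scheme.ord (jac φ s δ).det x + 1) := by
  have hR : 0 ≤ Scheme.ord (jac φ s δ).det x :=
    ord_nonneg_of_locRing (det_mem_locRing (jac_mem hsw huδ))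
  induction k generalizing c with
  | zero =>
    rw [(isPullback_zero φ).ord_pull hFS hx h, coef_zero]
    simp
  | succ k ih =>
    rcases h with h | ⟨D, hD, h⟩
    · have h1 := ih h
      push_cast
      nlinarith
    · have h1 := ih h
      have hc : c ≠ 0 := by
        rintro rfl
        exact h.ne_zero (map_zero _)
      have h2 := og_up hφ hx hsw huδ hD (φ.pull_ne_zero hc) h0
      rw [hφ.up_pull] at h2
      have h3 := h2 (φ.pull_ne_zero h.ne_zero)
      push_cast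
      linarith

end Vale.Agent.P299.Q
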