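import Mathlib.Analysis.SpecialFunctions.Log.Deriv
import Mathlib.Analysis.Calculus.ContDiff.RCLike
import Mathlib.Analysis.Complex.Basic
import Vale.Agent.P299.Q.SemiPos
import Vale.Agent.P299.Q.CM

/-!
# The Fubini–Study metric: base point free divisors are semipositive
-/

open CategoryTheory TopologicalSpace Opposite TopCat AlgebraicGeometry Order

namespace Vale.Agent.P299.Q

open Vale.Agent.P299.G

section Calculus

variable (N : ℕ)

/-- The real scalar product on `ℂ^N`. -/
noncomputable def sprod : (Fin N → ℂ) →L[ℝ] (Fin N → ℂ) →L[ℝ] ℝ :=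
  ∑ i, (((Complex.reCLM.comp (ContinuousLinearMap.proj (R := ℝ) (φ := fun _ : Fin N => ℂ) i)).smulRight
    (Complex.reCLM.comp (ContinuousLinearMap.proj (R := ℝ) (φ := fun _ : Fin N => ℂ) i))) +
    ((Complex.imCLM.comp (ContinuousLinearMap.proj (R := ℝ) (φ := fun _ : Fin N => ℂ) i)).smulRight
    (Complex.imCLM.comp (ContinuousLinearMap.proj (R := ℝ) (φ := fun _ : Fin N => ℂ) i))))

variable {N}

theorem sprod_apply (z w : Fin N → ℂ) :
    sprod N z w = ∑ i, ((z i).re * (w i).re + (z i).im * (w i).im) := by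
  unfold sprod
  simp

theorem sprod_self (z : Fin N → ℂ) : sprod N z z = ∑ i, ‖z i‖ ^ 2 := by
  rw [sprod_apply]
  refine Finset.sum_congr rfl fun i _ => ?_
  rw [← Complex.normSq_eq_norm_sq, Complex.normSq_apply]

theorem sprod_comm (z w : Fin N → ℂ) : sprod N z w = sprod N w z := by
  rw [sprod_apply, sprod_apply]
  exact Finset.sum_congr rfl fun i _ => by ring

/-- The Cauchy–Schwarz inequality. -/
theorem sprod_sq_le (z v : Fin N → ℂ) :
    sprod N z v ^ 2 + sprod N z (Complex.I • v) ^ 2 ≤ sprod N z z * sprod N v v := by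
  set c : ℂ := ∑ i, (starRingEnd ℂ) (z i) * v i with hc
  have h1 : sprod N z v = c.re := by
    rw [sprod_apply, hc, Complex.re_sum]
    exact Finset.sum_congr rfl fun i _ => by simp
  have h2 : sprod N z (Complex.I • v) = -c.im := by
    rw [sprod_apply, hc, Complex.im_sum, ← Finset.sum_neg_distrib]
    exact Finset.sum_congr rfl fun i _ => by simp; ring
  have h3 : c.re ^ 2 + (-c.im) ^ 2 = ‖c‖ ^ 2 := by
    rw [← Complex.normSq_eq_norm_sq, Complex.normSq_apply]
    ring
  have h4 : ‖c‖ ≤ ∑ i, ‖z i‖ * ‖v i‖ := by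
    refine (norm_sum_le _ _).trans (Finset.sum_le_sum fun i _ => ?_)
    rw [norm_mul, RCLike.norm_conj]
  have h5 := Finset.sum_mul_sq_le_sq_mul_sq Finset.univ (fun i => ‖z i‖) (fun i => ‖v i‖)
  rw [h1, h2, h3, sprod_self, sprod_self]
  refine le_trans ?_ h5
  exact pow_le_pow_left₀ (norm_nonneg _) h4 2

theorem sprod_I (v : Fin N → ℂ) :
    sprod N (Complex.I • v) (Complex.I • v) = sprod N v v := by
  rw [sprod_self, sprod_self]
  exact Finset.sum_congr rfl fun i _ => by simp

/-- The potential of the Fubini–Study metric. -/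
noncomputable def fsPot (N : ℕ) (z : Fin N → ℂ) : ℝ := Real.log (sprod N z z)

theorem hasFDerivAt_sprod (z : Fin N → ℂ) :
    HasFDerivAt (fun z => sprod N z z) ((2 : ℝ) • sprod N z) z := by
  have h := (sprod N).hasFDerivAt (x := z) |>.clm_apply (hasFDerivAt_id z)
  refine h.congr_fderiv ?_
  ext w
  simp only [id_eq, add_apply, ContinuousLinearMap.comp_apply, ContinuousLinearMap.flip_apply,
    ContinuousLinearMap.id_apply, smul_apply, smul_eq_mul]
  rw [sprod_comm w z]
  ring

theorem hasFDerivAt_fsPot {z : Fin N → ℂ} (hz : sprod N z z ≠ 0) :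
    HasFDerivAt (fsPot N) ((sprod N z z)⁻¹ • ((2 : ℝ) • sprod N z)) z :=
  (hasFDerivAt_sprod z).log hz

theorem contDiff_sprod : ContDiff ℝ ((⊤ : ℕ∞) : WithTop ℕ∞) (fun z => sprod N z z) :=
  (sprod N).contDiff.clm_apply contDiff_id

theorem isOpen_sprod : IsOpen {z : Fin N → ℂ | sprod N z z ≠ 0} :=
  isOpen_ne_fun contDiff_sprod.continuous continuous_const

theorem contDiffOn_fsPot : ContDiffOn ℝ ((⊤ : ℕ∞) : WithTop ℕ∞) (fsPot N)
    {z | sprod N z z ≠ 0} :=
  contDiff_sprod.contDiffOn.log fun _ hz => hz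

theorem iteratedFDeriv_fsPot {z : Fin N → ℂ} (hz : sprod N z z ≠ 0) (v : Fin N → ℂ) :
    iteratedFDeriv ℝ 2 (fsPot N) z ![v, v] =
      2 * sprod N v v / sprod N z z - (2 * sprod N z v / sprod N z z) ^ 2 := by
  rw [iteratedFDeriv_two_apply]
  have h1 : fderiv ℝ (fsPot N) =ᶠ[nhds z] fun z => (sprod N z z)⁻¹ • ((2 : ℝ) • sprod N z) := by
    filter_upwards [isOpen_sprod.mem_nhds hz] with w hw
    exact (hasFDerivAt_fsPot hw).fderiv
  have h2 : HasFDerivAt (fun z => (sprod N z z)⁻¹)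
      (-(sprod N z z ^ 2)⁻¹ • ((2 : ℝ) • sprod N z)) z := by
    exact HasDerivAt.comp_hasFDerivAt (h₂ := fun x : ℝ => x⁻¹) z (hasDerivAt_inv hz)
      (hasFDerivAt_sprod z)
  have h4 : HasFDerivAt (fun z => (2 : ℝ) • sprod N z) ((2 : ℝ) • sprod N) z :=
    ((2 : ℝ) • sprod N).hasFDerivAt
  have h5 : HasFDerivAt (fun z => (sprod N z z)⁻¹ • ((2 : ℝ) • sprod N z)) _ z := h2.smul h4
  rw [h1.fderiv_eq, h5.fderiv]
  simp only [Matrix.cons_val_zero, Matrix.cons_val_one, add_apply, smul_apply,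
    ContinuousLinearMap.smulRight_apply, smul_eq_mul]
  field_simp
  ring

/-- The Levi form of the Fubini–Study potential is semipositive. -/
theorem leviE_fsPot {z : Fin N → ℂ} (hz : sprod N z z ≠ 0) (v : Fin N → ℂ) :
    0 ≤ leviE (fsPot N) z v := by
  unfold leviE
  rw [iteratedFDeriv_fsPot hz, iteratedFDeriv_fsPot hz, sprod_I]
  have h1 := sprod_sq_le z v
  have h2 : 0 < sprod N z z := by
    refine lt_of_le_of_ne ?_ (Ne.symm hz)
    rw [sprod_self]
    positivity
  have h3 : 2 * sprod N v v / sprod N z z - (2 * sprod N z v / sprod N z z) ^ 2 +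
      (2 * sprod N v v / sprod N z z - (2 * sprod N z (Complex.I • v) / sprod N z z) ^ 2) =
      4 * (sprod N z z * sprod N v v - (sprod N z v ^ 2 + sprod N z (Complex.I • v) ^ 2)) /
        sprod N z z ^ 2 := by
    field_simp
    ring
  rw [h3]
  exact div_nonneg (by linarith) (by positivity)

end Calculus

section Metric

variable {X : Var}

/-- **Base point free divisors are semipositive** (the Fubini–Study metric). -/
theorem IsGenerated.semiPos (hAB : FactorialStalks) {A : Div X.X} (hA : IsGenerated A) :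
    SemiPos A := by
  classical
  obtain ⟨N, s, hs, hgen⟩ := exists_generators hA
  choose j hj using hgen
  -- the quotients of the sections
  have hquot : ∀ (x : X.X) (e : X.K), GenAt A e x → ∀ i, ∃ a : X.X.presheaf.stalk x,
      toK x a = s i / e := by
    intro x e he i
    have := hAB X x
    refine exists_of_forall_ord_nonneg X.dvr x (s i / e) fun y hy hyx => ?_
    by_cases hs0 : s i = 0
    · rw [hs0, zero_div, Scheme.ord_zero]
      simp
    rw [ord_div hs0 he.1]
    have h1 := he.2 y hy hyx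
    have h2 := mem_H0.1 (hs i) y hy hs0
    linarith
  have hval : ∀ (x : X.X), IsClosed {x} → ∀ (e : X.K), GenAt A e x → ∀ i, ∃ c,
      HasValue (s i / e) x c := by
    intro x hx e he i
    obtain ⟨a, ha⟩ := hquot x e he i
    obtain ⟨c, hc⟩ := exists_hasValue x hx a
    exact ⟨c, by rw [← ha]; exact hc⟩
  refine semiPos_of_local hAB (fun x => s (j x)) (fun x _ => hj x)
    (fun x => Real.log (∑ i, ‖valueAt (s i / s (j x)) x‖ ^ 2)) fun x hx => ?_
  -- a neighbourhood
  obtain ⟨U₀, hxU₀, hU₀⟩ := exists_genAt_nhds A x (hj x)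
  choose a ha using hquot x (s (j x)) (hj x)
  choose U hxU u hu using fun i => X.X.presheaf.exists_germ_eq (a i)
  have hopen : IsOpen ((U₀ : Set X.X) ∩ ⋂ i, (U i : Set X.X)) :=
    U₀.isOpen.inter (isOpen_iInter_of_finite fun i => (U i).isOpen)
  obtain ⟨V, hV, hxV, hVU⟩ := exists_affine_le
    (W := (⟨(U₀ : Set X.X) ∩ ⋂ i, (U i : Set X.X), hopen⟩ : X.X.Opens)) (x := x)
    ⟨hxU₀, Set.mem_iInter.2 hxU⟩
  have hVU₀ : V ≤ U₀ := fun y hy => (hVU hy).1
  have hVUi : ∀ i, V ≤ U i := fun i y hy => Set.mem_iInter.1 (hVU hy).2 i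
  have hneV : Nonempty V := ⟨⟨x, hxV⟩⟩
  have hneU : ∀ i, Nonempty (U i) := fun i => ⟨⟨x, hxU i⟩⟩
  obtain ⟨t, ht⟩ := exists_gens V hV
  let gg : Fin N ⊕ t → Γ(X.X, V) :=
    Sum.elim (fun i => X.X.presheaf.map (homOfLE (hVUi i)).op (u i)) (fun i => i.1)
  have hgg : ∀ i, X.X.germToFunctionField V (gg (Sum.inl i)) = s i / s (j x) := by
    intro i
    refine (germ_restrict (hVUi i) (u i)).trans ?_
    rw [← Scheme.algebraMap_germ_eq_germToFunctionField X.X (hxU i) (u i), hu i]
    exact ha i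
  let L : (Fin N ⊕ t → ℂ) →L[ℂ] (Fin N → ℂ) :=
    ContinuousLinearMap.pi fun i => ContinuousLinearMap.proj (Sum.inl i)
  have hL : ∀ u i, L u i = u (Sum.inl i) := fun u i => rfl
  have hsval : ∀ i : t, ∃ c, HasValue (X.X.germToFunctionField V i.1) x c := fun i =>
    exists_hasValue_germ i.1 hxV hx
  choose zs hzs using hsval
  choose z₀ hz₀ using hval x hx (s (j x)) (hj x)
  have hone : ∀ (y : X.X) (z : Fin N → ℂ), (∀ i, HasValue (s i / s (j x)) y (z i)) →
      sprod N z z ≠ 0 := by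
    intro y z hz
    have h1 : z (j x) = 1 := by
      have h2 := hz (j x)
      rw [div_self (hj x).1] at h2
      have h3 := hasValue_const y (1 : ℂ)
      rw [map_one] at h3
      exact h2.unique h3
    rw [sprod_self]
    have h4 : (0 : ℝ) < ∑ i, ‖z i‖ ^ 2 := by
      refine lt_of_lt_of_le ?_ (Finset.single_le_sum (f := fun i => ‖z i‖ ^ 2)
        (fun _ _ => by positivity) (Finset.mem_univ (j x)))
      rw [h1]
      norm_num
    exact h4.ne'
  refine ⟨Fin N ⊕ t, inferInstance, V, s (j x), gg, hneV, fsPot N ∘ L,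
    L ⁻¹' {z | sprod N z z ≠ 0}, hV, hxV, fun y hy => hU₀ y (hVU₀ hy),
    fun S h1 h2 => ht S h1 fun i hi => h2 (Sum.inr ⟨i, hi⟩), isOpen_sprod.preimage L.continuous,
    ?_, ⟨Sum.elim z₀ zs, ?_, ?_⟩, fun y hy hyc z hz hzv => ?_⟩
  · exact contDiffOn_fsPot.comp (L.restrictScalars ℝ).contDiff.contDiffOn fun u hu => hu
  · have : L (Sum.elim z₀ zs) = z₀ := by
      funext i
      simp [hL]
    change sprod N (L (Sum.elim z₀ zs)) (L (Sum.elim z₀ zs)) ≠ 0
    rw [this]
    exact hone x z₀ hz₀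
  · rintro (i | i)
    · rw [hgg]
      exact hz₀ i
    · exact hzs i
  · refine ⟨?_, fun v _ => ?_⟩
    · have hz' : ∀ i, HasValue (s i / s (j x)) y (L z i) := fun i => by
        rw [← hgg]
        exact hzv _
      obtain ⟨c, hc0, hc⟩ := exists_ratio hAB hyc (hj y) (hU₀ y (hVU₀ hy))
      have h1 : ∀ i, valueAt (s i / s (j y)) y = L z i * c := by
        intro i
        have h2 := (hz' i).mul hc
        rw [div_mul_div_cancel₀ (hj x).1] at h2
        exact h2.valueAt
      change Real.log (∑ i, ‖valueAt (s i / s (j y)) y‖ ^ 2) -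
        Real.log (‖valueAt (s (j x) / s (j y)) y‖ ^ 2) = Real.log (sprod N (L z) (L z))
      rw [hc.valueAt, sprod_self]
      have h2 : ∑ i, ‖valueAt (s i / s (j y)) y‖ ^ 2 = (∑ i, ‖L z i‖ ^ 2) * ‖c‖ ^ 2 := by
        rw [Finset.sum_mul]
        refine Finset.sum_congr rfl fun i _ => ?_
        rw [h1, norm_mul, mul_pow]
      have h3 := hone y (L z) hz'
      rw [sprod_self] at h3
      rw [h2, Real.log_mul h3 (pow_ne_zero 2 (norm_ne_zero_iff.2 hc0))]
      ring
    · rw [leviE_comp L isOpen_sprod contDiffOn_fsPot hz v]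
      exact leviE_fsPot hz (L v)

end Metric

end Vale.Agent.P299.Q
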