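import Vale.Agent.P299.Q.BB2
import Vale.Agent.P299.Q.Strict

/-!
# The case of the trivial torus
-/

open CategoryTheory TopologicalSpace Opposite TopCat AlgebraicGeometry Order

namespace Vale.Agent.P299.Q

variable {X Y : Var} (τ : TAct 0 X)

lemma TAct.act_zero (t : Fin 0 → ℂˣ) : (τ.act t).f = 𝟙 X.X := by
  rw [Subsingleton.elim t 1]
  exact τ.act_one

lemma TAct.act_zero' (t : Fin 0 → ℂˣ) : τ.act t = DomHom.id X :=
  DomHom.ext' (τ.act_zero t)

lemma TAct.inv_zero : τ.inv = ⊤ := by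
  rw [eq_top_iff]
  intro f _ t
  rw [τ.act_zero']
  exact DomHom.pull_id f

lemma TAct.invDiv_zero (D : Div X.X) : τ.InvDiv D := by
  intro t x
  rw [τ.act_zero]
  rfl

lemma TAct.invHom_zero (φ : DomHom X Y) : τ.InvHom φ := by
  intro t
  rw [τ.act_zero]
  exact Category.id_comp _

lemma TAct.invTensor_zero' {N : ℕ} (e : X.Ten N) : τ.InvTensor e := by
  intro t v v' hv
  have h1 : v' = v := by
    funext i
    ext f
    have h2 := hv i f
    rw [τ.act_zero'] at h2
    rw [DomHom.pull_id, DomHom.pull_id] at h2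
    exact h2
  rw [h1, τ.act_zero']
  exact (DomHom.pull_id _).symm

lemma TAct.isCanonical_zero {κ : Div X.X} : τ.IsCanonical κ ↔ IsCanonicalDivisor κ :=
  ⟨fun ⟨ω, h1, h2, _, h4⟩ => ⟨ω, h1, h2, h4⟩,
    fun ⟨ω, h1, h2, h4⟩ => ⟨ω, h1, h2, τ.invTensor_zero' ω, h4⟩⟩

lemma TAct.top_zero : τ.top = (inferInstance : TopologicalSpace X.X) := by
  ext U
  constructor
  · exact fun h => h.1
  · refine fun h => ⟨h, fun t => ?_⟩
    rw [τ.act_zero]
    rfl

lemma hh_congr_top {X : Var} (t t' : TopologicalSpace X.X) (ht : t = t')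
    (h1 : @PreirreducibleSpace X.X t) (h2 : @PreirreducibleSpace X.X t')
    (E : Submodule ℂ X.K) (D : Div X.X) (i : ℕ) :
    @hh X (@TopCat.of X.X t) h1 id E D i = @hh X (@TopCat.of X.X t') h2 id E D i := by
  subst ht
  rfl

/-- For the trivial torus `τ.h` is the dimension of the cohomology of `O_X(D)`. -/
lemma TAct.h_zero (D : Div X.X) (i : ℕ) :
    τ.h D i = hh (S := (X.X : TopCat.{0})) id ⊤ D i := by
  have h1 := hh_congr_top τ.top X.X.instTopologicalSpaceCarrierCarrier τ.top_zero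
    (inferInstanceAs (PreirreducibleSpace τ.space)) inferInstance ⊤ D i
  unfold TAct.h
  rw [τ.inv_zero]
  exact h1

lemma TAct.hY_zero (φ : DomHom X Y) (D : Div X.X) (i : ℕ) :
    τ.hY φ D i = hh (S := (Y.X : TopCat.{0})) φ.f ⊤ D i := by
  unfold TAct.hY
  rw [τ.inv_zero]

end Vale.Agent.P299.Q
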