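import Vale.Agent.P299.Q.BB0
import Vale.Agent.P299.Q.Plain
import Vale.Agent.P299.Q.Core

/-!
# The plain versions of the published theorems imply the versions for the trivial torus
-/

open CategoryTheory TopologicalSpace Opposite TopCat AlgebraicGeometry Order

namespace Vale.Agent.P299.Q

theorem snapperTheoremAt_zero (h : SnapperTheorem) : SnapperTheoremAt 0 := by
  intro X Y τ φ _ D M M' _ hM
  obtain ⟨p, hp⟩ := h X Y φ D M M' hM
  refine ⟨p, fun k => ?_⟩
  rw [← hp k]
  simp only [τ.hY_zero]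
  rfl

theorem kollarNadelVanishingAt_zero (h : KollarNadelVanishing) : KollarNadelVanishingAt 0 := by
  intro X Y τ φ _ κ S M A M' A' hκ _ _ hS hM hA hM' hA' hc i hi
  rw [τ.inv_zero]
  exact h X Y φ κ S M A M' A' (τ.isCanonical_zero.1 hκ) hS hM hA hM' hA' hc i hi

theorem hardLefschetzAt_zero (h : HardLefschetz) : HardLefschetzAt 0 := by
  intro X τ κ S hκ _ _ hS i hi
  rw [τ.h_zero] at hi
  obtain ⟨p, hp, e, he, h1, h2⟩ := h X κ S (τ.isCanonical_zero.1 hκ) hS i hi
  exact ⟨p, hp, e, he, h1, τ.invTensor_zero' e, h2⟩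

theorem kawamataViehwegAt_zero (h : KawamataViehweg) : KawamataViehwegAt 0 := by
  intro X τ κ S hκ _ _ hS hS' i hi
  rw [τ.h_zero]
  exact h X κ S (τ.isCanonical_zero.1 hκ) hS hS' i hi

theorem genericNefness_of_plain (h : GenericNefness0) : GenericNefness := by
  intro X τ κ hκ
  exact h X κ (τ.isCanonical_zero.1 hκ)

theorem flatModelsAt_zero (h : FlatModels) : FlatModelsAt 0 := by
  intro Z τ κ hκ _ k _
  obtain ⟨Y, Z', μ, φ, W, κ', κ₀, E, h1, h2, h3, h4, h5, h6, h7⟩ :=
    h Z κ (τ.isCanonical_zero.1 hκ) k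
  refine ⟨Y, Z', TAct.trivial Z', μ, φ, W, κ', κ₀, E, h1, fun t => ?_,
    (TAct.trivial Z').invHom_zero φ, h2, h3, h4, h5,
    (TAct.trivial Z').isCanonical_zero.2 h6, (TAct.trivial Z').invDiv_zero κ', h7⟩
  rw [τ.act_zero, (TAct.trivial Z').act_zero, Category.id_comp, Category.comp_id]

end Vale.Agent.P299.Q
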