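import Vale.Agent.P299.Q.AsymKV
import Vale.Agent.P299.Q.PoleDiv
import Vale.Agent.P299.Q.FubiniStudy
import Vale.Agent.P299.Q.Plain0
import Vale.Agent.P299.R.Stalks

/-!
# Divisors with a semipositive metric are nef
-/

open CategoryTheory TopologicalSpace Opposite TopCat AlgebraicGeometry Order

namespace Vale.Agent.P299.Q

open Vale.Agent.P299.G

variable {X : Var}

/-- Some positive multiple of an ample divisor is ample and base point free. -/
theorem exists_ample_generated (hAB : FactorialStalks) {A : Div X.X} (hA : IsAmple A) :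
    ∃ a : ℕ, 0 < a ∧ IsAmple (a • A) ∧ IsGenerated (a • A) := by
  obtain ⟨m₀, h⟩ := hA.forall_add (hAB X) 0
  have h1 := h (m₀ + 1) (by omega)
  rw [add_zero] at h1
  exact ⟨m₀ + 1, by omega, h1⟩

theorem poly_eq_zero_of_eval {V : Polynomial ℚ} {k₁ : ℕ} (h : ∀ k ≥ k₁, V.eval (k : ℚ) = 0) :
    V = 0 := by
  refine Polynomial.eq_zero_of_infinite_isRoot V ?_
  refine Set.infinite_of_injective_forall_mem (f := fun n : ℕ => ((n + k₁ : ℕ) : ℚ)) ?_ ?_
  · intro a b hab
    have h1 : ((a + k₁ : ℕ) : ℚ) = ((b + k₁ : ℕ) : ℚ) := hab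
    have h2 : a + k₁ = b + k₁ := by exact_mod_cast h1
    omega
  · intro n
    exact h _ (by omega)

/-- A divisor with a smooth semipositive metric is pseudo-effective. -/
theorem SemiPos.isPsef (hLef : HardLefschetz) (hKN : KollarNadelVanishing)
    (hSn : ∀ D M : Div X.X, ∃ p : Polynomial ℚ, ∀ k : ℕ, (chi (D + k • M) : ℚ) = p.eval (k : ℚ))
    (hAB : FactorialStalks)
    (hFin : ∀ D : Div X.X, FiniteDimensional ℂ (H0 (coef D))) {D : Div X.X} (hD : SemiPos D) :
    IsPsef D := by
  classical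
  intro A hA m
  by_contra hcon
  push Not at hcon
  obtain ⟨κ, hκ⟩ := exists_isCanonicalDivisor X
  obtain ⟨a₀, ha₀, hGa, hGg⟩ := exists_ample_generated hAB hA
  set G := a₀ • A with hG
  have hGS : SemiPos G := hGg.semiPos hAB
  obtain ⟨m₁, hm₁⟩ := hGa.forall_add (hAB X) κ
  obtain ⟨hM1, hM2⟩ := hm₁ (m₁ + 1) (by omega)
  set M := (m₁ + 1) • G with hM
  have hMa : IsAmple M := hGa.nsmul (by omega)
  have hMS : SemiPos M := semiPos_nsmul hAB hGS _
  -- the Euler characteristic of `κ + M`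
  have hchi : chi (κ + M) ≠ 0 := by
    rw [chi_canonical hKN hAB hκ hMa]
    have h1 : H0 (coef (κ + M)) ≠ ⊥ := by
      rw [add_comm]
      exact hM2.exists_section
    have := hFin (κ + M)
    have h2 : Module.finrank ℂ (H0 (coef (κ + M))) ≠ 0 := by
      rw [Ne, Submodule.finrank_eq_zero]
      exact h1
    exact_mod_cast h2
  obtain ⟨q, hq'⟩ := hSn (κ + M) (m • D)
  have hq : ∀ k : ℕ, ∑ i ∈ Finset.range (X.dim + 1),
      (-1 : ℚ) ^ i * hY (DomHom.id X) (κ + M + k • m • D) i = q.eval (k : ℚ) := by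
    intro k
    rw [← hq' k]
    unfold chi
    push_cast
    rfl
  -- no twisted tensors
  choose B hB using exists_section_of_twTensor X
  have hbound : ∀ p : ℕ, ∃ k₁ : ℕ, ∀ k ≥ k₁, IsGenerated (k • A + -(M + B p)) := fun p => by
    obtain ⟨k₁, hk₁⟩ := hA.forall_add (hAB X) (-(M + B p))
    exact ⟨k₁, fun k hk => (hk₁ k hk).2⟩
  choose k₁ hk₁ using hbound
  have hvan : ∀ k > ∑ p ∈ Finset.range (X.dim + 1), k₁ p, ∀ i, hX (κ + (M + k • m • D)) i = 0 := by
    intro k hk i
    by_contra hne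
    obtain ⟨p, hp, e, he, -, htw⟩ := hLef X κ (M + k • m • D) hκ
      (semiPos_add hAB hMS (semiPos_nsmul hAB (semiPos_nsmul hAB hD m) k)) i hne
    have hkp : k₁ p ≤ k := by
      have h1 : k₁ p ≤ ∑ p ∈ Finset.range (X.dim + 1), k₁ p :=
        Finset.single_le_sum (fun _ _ => Nat.zero_le _) (Finset.mem_range.2 (by omega))
      omega
    have h2 := H0_add_ne_bot (hB p _ e he htw) (hk₁ p k hkp).exists_section
    have h3 : M + k • m • D + B p + (k • A + -(M + B p)) = k • (m • D + A) := by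
      rw [smul_add]
      abel
    rw [h3] at h2
    exact h2 (hcon k (by omega))
  have hq0 : q = 0 := by
    refine poly_eq_zero_of_eval (k₁ := ∑ p ∈ Finset.range (X.dim + 1), k₁ p + 1) fun k hk => ?_
    rw [← hq k]
    refine Finset.sum_eq_zero fun i _ => ?_
    have h1 := hvan k (by omega) i
    have h2 : hY (DomHom.id X) (κ + M + k • m • D) i = hX (κ + (M + k • m • D)) i := by
      rw [← add_assoc]
      rfl
    rw [h2, h1]
    simp
  apply hchi
  have h1 := hq 0
  rw [hq0, Polynomial.eval_zero] at h1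
  have h2 : ((chi (κ + M) : ℤ) : ℚ) = 0 := by
    rw [← h1]
    unfold chi
    push_cast
    refine Finset.sum_congr rfl fun i _ => ?_
    rw [zero_smul, add_zero]
    rfl
  exact_mod_cast h2

/-- Castelnuovo–Mumford regularity for a divisor. -/
theorem isGenerated_of_vanishing (hAB : FactorialStalks) {A : Div X.X} (hA : IsAmple A) {N : ℕ}
    (s : Fin N → X.K) (hs : ∀ j, s j ∈ H0 (coef A)) (hgen : ∀ y, ∃ j, GenAt A (s j) y)
    (D : Div X.X)
    (hvan : ∀ k i : ℕ, 0 < i → i ≤ N →
      Subsingleton (Coh (secSheaf (S := (X.X : TopCat.{0})) id ⊤ (D + k • A - i • A)) i)) :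
    IsGenerated D := by
  intro y
  have hUFD := hAB X y
  obtain ⟨f, hf⟩ := exists_genAt D y
  obtain ⟨U, hyU, hU⟩ := exists_genAt_nhds D y hf
  obtain ⟨n, a, t, ht, hsum⟩ := castelnuovo_mumford hAB (TAct.trivial X) (DomHom.id X)
    ((TAct.trivial X).invHom_zero _) D (isPullback_id hAB A) s hs hgen (fun k i hi hiN => by
      have h := hvan k i hi hiN
      rw [(TAct.trivial X).inv_zero]
      exact h) hA y U hyU f (by rw [(TAct.trivial X).inv_zero]; trivial) (fun x hx => by
      rw [mem_polar]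
      intro hx1 _
      have h1 := (hU x hx).2 x hx1 (specializes_refl x)
      exact h1.ge)
  -- the quotients `t_j / f` are regular at `y`
  have hq : ∀ j, ∃ b : X.X.presheaf.stalk y, toK y b = t j / f := by
    intro j
    refine exists_of_forall_ord_nonneg X.dvr y (t j / f) fun z hz hzy => ?_
    by_cases ht0 : t j = 0
    · rw [ht0, zero_div, Scheme.ord_zero]
      simp
    rw [ord_div ht0 hf.1]
    have h1 := hf.2 z hz hzy
    have h2 := mem_H0.1 (ht j).2 z hz ht0
    linarith
  choose b hb using hq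
  have h1 : ∑ j, a j * b j = 1 := by
    apply toK_injective y
    rw [map_sum, map_one]
    have h2 : ∀ j, toK y (a j * b j) = (toK y (a j) * t j) / f := fun j => by
      rw [map_mul, hb]
      ring
    rw [Finset.sum_congr rfl fun j _ => h2 j, ← Finset.sum_div]
    have h3 : ∑ j, toK y (a j) * t j = f := by
      conv_rhs => rw [hsum]
      refine Finset.sum_congr rfl fun j _ => ?_
      rw [DomHom.pull_id]
    rw [h3, div_self hf.1]
  obtain ⟨j, hj⟩ : ∃ j, IsUnit (b j) := by
    by_contra hcon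
    push Not at hcon
    have h4 : ∑ j, a j * b j ∈ IsLocalRing.maximalIdeal (X.X.presheaf.stalk y) :=
      Ideal.sum_mem _ fun j _ => Ideal.mul_mem_left _ _ ((IsLocalRing.mem_maximalIdeal _).2
        (hcon j))
    rw [h1] at h4
    exact (IsLocalRing.mem_maximalIdeal _).1 h4 isUnit_one
  refine ⟨t j, (ht j).2, ?_⟩
  have htf : t j = toK y (b j) * f := by
    rw [hb, div_mul_cancel₀ _ hf.1]
  have hb0 : toK y (b j) ≠ 0 := toK_ne_zero hj.ne_zero
  refine ⟨by rw [htf]; exact mul_ne_zero hb0 hf.1, fun z hz hzy => ?_⟩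
  rw [htf, Scheme.ord_mul hb0 hf.1, ← toK_toStalk hzy, ord_toK_of_isUnit (hj.map (toStalk hzy)),
    zero_add]
  exact hf.2 z hz hzy

/-- [Kodaira; Demailly] **A divisor with a smooth semipositive metric is nef.** -/
theorem SemiPos.isNef (hLef : HardLefschetz) (hKN : KollarNadelVanishing)
    (hSn : ∀ D M : Div X.X, ∃ p : Polynomial ℚ, ∀ k : ℕ, (chi (D + k • M) : ℚ) = p.eval (k : ℚ))
    (hAB : FactorialStalks)
    (hFin : ∀ D : Div X.X, FiniteDimensional ℂ (H0 (coef D))) {D : Div X.X} (hD : SemiPos D) :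
    IsNef D := by
  intro A hA m
  obtain ⟨κ, hκ⟩ := exists_isCanonicalDivisor X
  obtain ⟨a₀, ha₀, hGa, hGg⟩ := exists_ample_generated hAB hA
  set G := a₀ • A with hG
  obtain ⟨N, s, hs, hgen⟩ := exists_generators hGg
  have hDm : SemiPos (m • D) := semiPos_nsmul hAB hD m
  have hgenk : ∀ k : ℕ, IsGenerated (κ + k • m • D + (N + 1) • G) := by
    intro k
    refine isGenerated_of_vanishing hAB hGa s hs hgen _ fun j i hi hiN => ?_
    obtain ⟨c, rfl⟩ := Nat.exists_eq_add_of_le hiN
    have e : κ + k • m • D + (i + c + 1) • G + j • G - i • G =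
        κ + k • m • D + (c + j + 1) • G := by
      rw [add_smul (i + c) 1, add_smul i c, add_smul (c + j) 1, add_smul c j]
      abel
    rw [e]
    refine hKN X X (DomHom.id X) κ (k • m • D) ((c + j + 1) • G) G ((c + j + 1) • G) G hκ
      (semiPos_nsmul hAB hDm k) (hGa.nsmul (by omega)).isNef hGa (isPullback_id hAB _)
      (isPullback_id hAB _) ⟨1, one_pos, ?_⟩ i hi
    have e2 : 1 • (k • m • D + (c + j + 1) • G) - G = k • m • D + (c + j) • G := by
      rw [one_smul, add_smul (c + j) 1, one_smul]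
      abel
    rw [e2]
    exact ((semiPos_nsmul hAB hDm k).isPsef hLef hKN hSn hAB hFin).add_nef
      (hGa.isNef.nsmul _)
  obtain ⟨k₂, hk₂⟩ := hA.forall_add (hAB X) (-(κ + (N + 1) • G))
  have h1 := (hk₂ (k₂ + 1) (by omega)).1.add_generated (hAB X) (hgenk (k₂ + 1))
  have e : κ + (k₂ + 1) • m • D + (N + 1) • G + ((k₂ + 1) • A + -(κ + (N + 1) • G)) =
      (k₂ + 1) • (m • D + A) := by
    rw [smul_add]
    abel
  rw [e] at h1
  exact IsAmple.of_nsmul (by omega) h1

/-- A divisor with a smooth semipositive metric is nef. -/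
theorem semiPosNef (hLef : HardLefschetz) (hKN : KollarNadelVanishing)
    (hSn : ∀ (X : Var) (D M : Div X.X), ∃ p : Polynomial ℚ, ∀ k : ℕ,
      (chi (D + k • M) : ℚ) = p.eval (k : ℚ))
    (hFin : ∀ (X : Var) (D : Div X.X), FiniteDimensional ℂ (H0 (coef D))) : SemiPosNef :=
  fun X _ hD => hD.isNef hLef hKN (hSn X) factorialStalks (hFin X)

end Vale.Agent.P299.Q
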