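import Mathlib.RingTheory.Trace.Basic
import Vale.Agent.P299.Q.CenterOver

/-!
# Traces of rational functions and of sections of the canonical bundle
-/

open CategoryTheory TopologicalSpace Opposite TopCat AlgebraicGeometry Order

namespace Vale.Agent.P299.Q

open Vale.Agent.P299.G

variable {X Y : Var}

/-- The trace of rational functions. -/
noncomputable def DomHom.tr (φ : DomHom X Y) (w : X.K) : Y.K :=
  letI := φ.pull.toAlgebra
  Algebra.trace Y.K X.K w

theorem DomHom.tr_add (φ : DomHom X Y) (v w : X.K) : φ.tr (v + w) = φ.tr v + φ.tr w :=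
  letI := φ.pull.toAlgebra
  map_add (Algebra.trace Y.K X.K) v w

theorem DomHom.tr_sum (φ : DomHom X Y) {ι : Type*} (s : Finset ι) (f : ι → X.K) :
    φ.tr (∑ i ∈ s, f i) = ∑ i ∈ s, φ.tr (f i) :=
  letI := φ.pull.toAlgebra
  map_sum (Algebra.trace Y.K X.K) f s

theorem DomHom.tr_mul (φ : DomHom X Y) (a : Y.K) (w : X.K) :
    φ.tr (φ.pull a * w) = a * φ.tr w :=
  letI := φ.pull.toAlgebra
  map_smul (Algebra.trace Y.K X.K) a w

/-- The function field of `X` is finite over the function field of `Y`. -/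
def DomHom.Fin (φ : DomHom X Y) : Prop :=
  letI := φ.pull.toAlgebra
  FiniteDimensional Y.K X.K

theorem DomHom.Fin.alg {φ : DomHom X Y} (hφ : φ.Fin) : φ.Alg := by
  let _ := φ.pull.toAlgebra
  have h : FiniteDimensional Y.K X.K := hφ
  exact (inferInstance : Algebra.IsAlgebraic Y.K X.K)

theorem DomHom.Fin.tr_pull {φ : DomHom X Y} (hφ : φ.Fin) : ∃ d : ℕ, 0 < d ∧
    ∀ a : Y.K, φ.tr (φ.pull a) = d * a := by
  let _ := φ.pull.toAlgebra
  have h : FiniteDimensional Y.K X.K := hφ
  refine ⟨Module.finrank Y.K X.K, Module.finrank_pos, fun a => ?_⟩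
  have h1 := Algebra.trace_algebraMap (R := Y.K) (S := X.K) a
  rw [nsmul_eq_mul] at h1
  exact h1

/-- The trace of a function which vanishes at all primes over `y` vanishes at `y`. -/
theorem og_tr (hFS : FactorialStalks) {φ : DomHom X Y} (hφ : φ.Fin) {y : Y.X}
    (hy : coheight y = 1) {w : X.K}
    (hw : ∀ z : X.X, coheight z = 1 → φ.f z = y → og z 1 w) : og y 1 (φ.tr w) := by
  classical
  obtain ⟨τ, hτ0, hτ⟩ := exists_unif hy
  have hτ0' := φ.pull_ne_zero hτ0
  let _ : Algebra Y.K X.K := φ.pull.toAlgebra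
  have hfin : FiniteDimensional Y.K X.K := hφ
  have hchar : CharZero Y.K := charZero_of_injective_algebraMap (algebraMap ℂ Y.K).injective
  intro htr0
  -- a bound for the ramification indices
  have hS : {z : X.X | Scheme.ord (φ.pull τ) z ≠ 0}.Finite := finite_ord_ne_zero _ hτ0'
  let N : ℕ := hS.toFinset.sup fun z => (Scheme.ord (φ.pull τ) z).toNat
  have hN : ∀ z : X.X, Scheme.ord (φ.pull τ) z ≤ N := by
    intro z
    by_cases hz : Scheme.ord (φ.pull τ) z = 0
    · rw [hz]
      exact Int.natCast_nonneg N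
    · have h1 : (Scheme.ord (φ.pull τ) z).toNat ≤ N :=
        Finset.le_sup (f := fun z => (Scheme.ord (φ.pull τ) z).toNat)
          ((Set.Finite.mem_toFinset hS).2 hz)
      have h2 := Int.self_le_toNat (Scheme.ord (φ.pull τ) z)
      have h3 : ((Scheme.ord (φ.pull τ) z).toNat : ℤ) ≤ N := by exact_mod_cast h1
      linarith
  have hint1 : (φ.pull.comp (toK y)).IsIntegralElem w :=
    isIntegral_of_ord_over' hFS hφ.alg hy fun z hz hzy => (hw z hz hzy).mono (by norm_num)
  have hint2 : (φ.pull.comp (toK y)).IsIntegralElem (w ^ N / φ.pull τ) := by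
    refine isIntegral_of_ord_over' hFS hφ.alg hy fun z hz hzy => ?_
    intro hne
    have hw0 : w ^ N ≠ 0 := fun h => hne (by rw [h, zero_div])
    rw [ord_div hw0 hτ0']
    have h1 : (N : ℤ) ≤ Scheme.ord (w ^ N) z := by
      rcases Nat.eq_zero_or_pos N with hN0 | hN0
      · rw [hN0, pow_zero, ord_one]
        norm_num
      · have hw0' : w ≠ 0 := by
          rintro rfl
          exact hw0 (zero_pow hN0.ne')
        rw [ord_pow hw0']
        have h2 := hw z hz hzy hw0'
        nlinarith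
    linarith [hN z]
  -- the conjugates
  let E := AlgebraicClosure Y.K
  let R := Y.X.presheaf.stalk y
  let _ : Algebra R X.K := (φ.pull.comp (toK y)).toAlgebra
  have hst : IsScalarTower R Y.K X.K := IsScalarTower.of_algebraMap_eq' rfl
  have hst' : IsScalarTower R Y.K E := inferInstance
  let τ' : R := ((og_iff hy).1 (show og y 0 τ from fun _ => by rw [hτ]; norm_num)).choose
  have hτ' : toK y τ' = τ :=
    ((og_iff hy).1 (show og y 0 τ from fun _ => by rw [hτ]; norm_num)).choose_spec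
  let O := integralClosure R E
  have hσ : ∀ (σ : X.K →ₐ[Y.K] E) (a : X.K), IsIntegral R a → IsIntegral R (σ a) :=
    fun σ a ha => ha.map (σ.restrictScalars R)
  let s : (X.K →ₐ[Y.K] E) → O := fun σ => ⟨σ w, hσ σ w hint1⟩
  let b : (X.K →ₐ[Y.K] E) → O := fun σ => ⟨σ (w ^ N / φ.pull τ), hσ σ _ hint2⟩
  have hsb : ∀ σ, s σ ^ N = algebraMap R O τ' * b σ := by
    intro σ
    apply Subtype.ext
    change (σ w) ^ N = algebraMap Y.K E (toK y τ') * σ (w ^ N / φ.pull τ)
    rw [hτ', ← map_pow]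
    have h1 : σ (φ.pull τ) = algebraMap Y.K E τ := σ.commutes τ
    rw [← h1, ← map_mul, mul_div_cancel₀ _ hτ0']
  have hrad : ∑ σ, s σ ∈ (Ideal.span {algebraMap R O τ'}).radical := by
    refine sum_mem fun σ _ => ⟨N, ?_⟩
    rw [hsb]
    exact Ideal.mul_mem_right _ _ (Ideal.mem_span_singleton_self _)
  obtain ⟨n, hn⟩ := hrad
  obtain ⟨c, hc⟩ := Ideal.mem_span_singleton'.1 hn
  have htr : algebraMap Y.K E (φ.tr w) = ((∑ σ, s σ : O) : E) := by
    have h1 := trace_eq_sum_embeddings (K := Y.K) (L := X.K) E (x := w)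
    refine h1.trans ?_
    rw [AddSubmonoidClass.coe_finsetSum]
  have hcE : (c : E) * algebraMap Y.K E τ = algebraMap Y.K E (φ.tr w ^ n) := by
    rw [map_pow, htr]
    have h1 := congrArg (fun a : O => (a : E)) hc
    have h2 : ((c * algebraMap R O τ' : O) : E) = (c : E) * algebraMap Y.K E τ := by
      rw [← hτ']
      rfl
    rw [← h2]
    exact h1
  have hc' : (c : E) = algebraMap Y.K E (φ.tr w ^ n / τ) := by
    have h1 : algebraMap Y.K E τ ≠ 0 := by simpa using hτ0
    rw [map_div₀, eq_div_iff h1, hcE]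
  have hint3 : IsIntegral R (φ.tr w ^ n / τ) := by
    have h1 : IsIntegral R (algebraMap Y.K E (φ.tr w ^ n / τ)) := by
      rw [← hc']
      exact c.2
    exact (isIntegral_algebraMap_iff (algebraMap Y.K E).injective).1 h1
  have hdvr := Y.dvr y hy
  obtain ⟨a, ha⟩ := IsIntegrallyClosed.isIntegral_iff.1 hint3
  have h1 : 0 ≤ Scheme.ord (φ.tr w ^ n / τ) y := by
    rw [← ha]
    exact ord_toK_nonneg a
  rw [ord_div (pow_ne_zero _ htr0) hτ0, hτ, ord_pow htr0] at h1
  by_contra hcon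
  have h2 : Scheme.ord (φ.tr w) y ≤ 0 := by omega
  nlinarith

/-- The divisor `E` is the ramification divisor of `φ`: its coefficients are the orders of the
determinants of the Jacobian matrices. -/
def IsRam (φ : DomHom X Y) (E : Div X.X) : Prop :=
  ∀ x : X.X, coheight x = 1 → ∀ (s : Fin Y.dim → Y.K) (w : Fin Y.dim → Y.Der)
    (u : Fin Y.dim → X.K) (δ : Fin Y.dim → X.Der), Fr (φ.f x) s w → Fr x u δ →
    (jac φ s δ).det ≠ 0 ∧ coef E x = Scheme.ord (jac φ s δ).det x

/-- **Traces of sections of the canonical bundle.** -/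
theorem tr_mem_H0 (hFS : FactorialStalks) {φ : DomHom X Y} (hφ : φ.Fin) {κ : Div Y.X}
    {κ' κ₀ E : Div X.X} (hκ : IsPullback φ κ κ₀) (hκ' : κ' = κ₀ + E) (hE : IsRam φ E)
    {D : Div Y.X} {D' : Div X.X} (hD : IsPullback φ D D') {f : X.K}
    (hf : f ∈ H0 (coef (κ' + D'))) : φ.tr f ∈ H0 (coef (κ + D)) := by
  rw [mem_H0]
  intro y hy htr0
  have := hFS Y y
  obtain ⟨g, hg⟩ := exists_genAt (κ + D) y
  have hg0 := φ.pull_ne_zero hg.1
  obtain ⟨τ, hτ0, hτ⟩ := exists_unif hy
  have h1 : og y 1 (φ.tr (φ.pull τ * (f / φ.pull g))) := by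
    refine og_tr hFS hφ hy fun z hz hzy hne => ?_
    have hfg : f / φ.pull g ≠ 0 := right_ne_zero_of_mul hne
    have hf0 : f ≠ 0 := fun h => hfg (by rw [h, zero_div])
    rw [Scheme.ord_mul (φ.pull_ne_zero hτ0) hfg, ord_div hf0 hg0]
    have hg' : GenAt (κ + D) g (φ.f z) := by rw [hzy]; exact hg
    have h2 := (hκ.add hD).ord_pull hFS hz hg'
    have h3 := mem_H0.1 hf z hz hf0
    obtain ⟨s, w, hsw⟩ := exists_fr (X := Y) rfl (φ.f z)
    obtain ⟨u, δ, huδ⟩ := exists_fr hφ.alg.dim_eq z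
    obtain ⟨h4, h5⟩ := hE z hz s w u δ hsw huδ
    have h6 := ramification_le hφ.alg hz (by rw [hzy]; exact hy) hsw huδ h4 hτ0
      (by rw [hzy]; exact hτ)
    rw [← h5] at h6
    rw [h2]
    rw [hκ'] at h3
    simp only [coef_add] at h3 ⊢
    linarith
  rw [φ.tr_mul] at h1
  have h2 := h1.of_mul hτ0
  rw [hτ, sub_self] at h2
  have h3 : φ.tr f = g * φ.tr (f / φ.pull g) := by
    rw [← φ.tr_mul, mul_div_cancel₀ _ hg0]
  have h4 : φ.tr (f / φ.pull g) ≠ 0 := by
    intro h
    rw [h3, h, mul_zero] at htr0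
    exact htr0 rfl
  rw [h3, Scheme.ord_mul hg.1 h4, hg.ord hy]
  have h5 := h2 h4
  linarith

end Vale.Agent.P299.Q
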