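import Mathlib.FieldTheory.SplittingField.Construction
import Vale.Agent.P299.Q.TrSec
import Vale.Agent.P299.Q.Mult
import Vale.Agent.P299.Q.Nef
import Vale.Agent.P299.Q.AsymSiu
import Vale.Agent.P299.Q.NefDef

/-!
# A criterion for nefness: bounded multiplicities of the base loci
-/

open CategoryTheory TopologicalSpace Opposite TopCat AlgebraicGeometry Order

namespace Vale.Agent.P299.Q

open Vale.Agent.P299.G

/-- [Hironaka] Resolution of singularities and principalization. Let `L` be a finite extension of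
the function field of the smooth projective variety `Y` and let `s_1, …, s_r ∈ L`, not all zero.
There is a smooth projective variety `W` with function field `L` and a morphism `W → Y`
such that at every point of `W` the fractional ideal generated by `s_1, …, s_r` is generated by one
of them. (`W` is obtained by principalization from a resolution of singularities of the
normalization of `Y` in `L`.) -/
def Hironaka : Prop :=
  ∀ (Y : Var) (L : Type) [Field L] [Algebra Y.K L] [FiniteDimensional Y.K L] (r : ℕ)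
    (s : Fin r → L), (∃ i, s i ≠ 0) →
    ∃ (W : Var) (φ : DomHom W Y) (e : L ≃+* W.K), (∀ a, e (algebraMap Y.K L a) = φ.pull a) ∧
      ∀ x : W.X, ∃ i, s i ≠ 0 ∧ ∀ j, ∃ b : W.X.presheaf.stalk x,
        algebraMap _ W.K b = e (s j) / e (s i)

variable {X Y : Var}

/-- If a local generator of `O(D)` is a combination of sections, then one of the sections
generates. -/
theorem exists_genAt_of_sum (hAB : FactorialStalks) {D : Div Y.X} {y : Y.X} {f : Y.K}
    (hf : GenAt D f y) {n : ℕ} (a : Fin n → Y.X.presheaf.stalk y) (t : Fin n → Y.K)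
    (ht : ∀ j, t j ∈ H0 (coef D)) (hsum : f = ∑ j, toK y (a j) * t j) :
    ∃ j, GenAt D (t j) y := by
  have := hAB Y y
  have hq : ∀ j, ∃ b : Y.X.presheaf.stalk y, toK y b = t j / f := by
    intro j
    refine exists_of_forall_ord_nonneg Y.dvr y (t j / f) fun z hz hzy => ?_
    by_cases ht0 : t j = 0
    · rw [ht0, zero_div, Scheme.ord_zero]
      simp
    rw [ord_div ht0 hf.1]
    have h1 := hf.2 z hz hzy
    have h2 := mem_H0.1 (ht j) z hz ht0
    linarith
  choose b hb using hq
  have h1 : ∑ j, a j * b j = 1 := by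
    apply toK_injective y
    rw [map_sum, map_one]
    have h2 : ∀ j, toK y (a j * b j) = (toK y (a j) * t j) / f := fun j => by
      rw [map_mul, hb]
      ring
    rw [Finset.sum_congr rfl fun j _ => h2 j, ← Finset.sum_div, ← hsum, div_self hf.1]
  obtain ⟨j, hj⟩ : ∃ j, IsUnit (b j) := by
    by_contra hcon
    push Not at hcon
    have h4 : ∑ j, a j * b j ∈ IsLocalRing.maximalIdeal (Y.X.presheaf.stalk y) :=
      Ideal.sum_mem _ fun j _ => Ideal.mul_mem_left _ _ ((IsLocalRing.mem_maximalIdeal _).2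
        (hcon j))
    rw [h1] at h4
    exact (IsLocalRing.mem_maximalIdeal _).1 h4 isUnit_one
  refine ⟨j, ?_⟩
  have htf : t j = toK y (b j) * f := by
    rw [hb, div_mul_cancel₀ _ hf.1]
  have hb0 : toK y (b j) ≠ 0 := toK_ne_zero hj.ne_zero
  refine ⟨by rw [htf]; exact mul_ne_zero hb0 hf.1, fun z hz hzy => ?_⟩
  rw [htf, Scheme.ord_mul hb0 hf.1, ← toK_toStalk hzy, ord_toK_of_isUnit (hj.map (toStalk hzy)),
    zero_add]
  exact hf.2 z hz hzy

/-- Radicals of finitely many rational functions on a model. -/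
theorem exists_radicals (hH : Hironaka) (Y : Var) {ι : Type} [Finite ι] (f : ι → Y.K)
    (hf : ∃ i, f i ≠ 0) {q : ℕ} (hq : 0 < q) :
    ∃ (W : Var) (φ : DomHom W Y) (v : ι → W.K), φ.Fin ∧ (∀ i, v i ^ q = φ.pull (f i)) ∧
      ∀ x : W.X, ∃ i, v i ≠ 0 ∧ ∀ j, v j / v i ∈ locRing W x := by
  classical
  obtain ⟨r, ⟨ε⟩⟩ := Finite.exists_equiv_fin ι
  have := Fintype.ofEquiv _ ε.symm
  let P : Polynomial Y.K := ∏ i, (Polynomial.X ^ q - Polynomial.C (f i))
  let L := P.SplittingField
  have hsplit : (P.map (algebraMap Y.K L)).Splits := Polynomial.SplittingField.splits P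
  have hroot : ∀ i, ∃ w : L, w ^ q = algebraMap Y.K L (f i) := by
    intro i
    have h1 : P.map (algebraMap Y.K L) ≠ 0 := by
      refine (Polynomial.map_ne_zero_iff (algebraMap Y.K L).injective).2 ?_
      exact Finset.prod_ne_zero_iff.2 fun i _ => Polynomial.X_pow_sub_C_ne_zero hq _
    have h2 : ((Polynomial.X ^ q - Polynomial.C (f i)).map (algebraMap Y.K L)).Splits := by
      refine hsplit.of_dvd h1 ?_
      exact Polynomial.map_dvd _ (Finset.dvd_prod_of_mem _ (Finset.mem_univ i))
    obtain ⟨w, hw⟩ := h2.exists_eval_eq_zero (by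
      rw [Polynomial.degree_map, Polynomial.degree_X_pow_sub_C hq]
      exact_mod_cast hq.ne')
    refine ⟨w, ?_⟩
    rw [Polynomial.map_sub, Polynomial.map_pow, Polynomial.map_X, Polynomial.map_C,
      Polynomial.eval_sub, Polynomial.eval_pow, Polynomial.eval_X, Polynomial.eval_C] at hw
    exact sub_eq_zero.1 hw
  choose w hw using hroot
  have hw0 : ∀ i, f i ≠ 0 → w i ≠ 0 := by
    intro i hi h0
    have h1 := hw i
    rw [h0, zero_pow hq.ne'] at h1
    exact hi ((map_eq_zero (algebraMap Y.K L)).1 h1.symm)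
  obtain ⟨i₀, hi₀⟩ := hf
  obtain ⟨W, φ, e, he, hx⟩ := hH Y L r (fun k => w (ε.symm k))
    ⟨ε i₀, by rw [Equiv.symm_apply_apply]; exact hw0 i₀ hi₀⟩
  refine ⟨W, φ, fun i => e (w i), ?_, fun i => ?_, fun x => ?_⟩
  · let _ := φ.pull.toAlgebra
    let e' : L ≃ₗ[Y.K] W.K :=
      { e with
        map_smul' := fun a b => by
          change e (a • b) = a • e b
          rw [Algebra.smul_def, Algebra.smul_def, map_mul, he]
          rfl }
    exact Module.Finite.equiv e'
  · rw [← map_pow, hw, he]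
  · obtain ⟨k, hk, hj⟩ := hx x
    refine ⟨ε.symm k, (map_ne_zero e).2 hk, fun j => ?_⟩
    obtain ⟨b, hb⟩ := hj (ε j)
    rw [Equiv.symm_apply_apply] at hb
    exact ⟨b, hb⟩

/-- The divisor of the poles of finitely many functions whose fractional ideal is principal. -/
theorem exists_principal_divisor {W : Var} {ι : Type} [Finite ι] {v : ι → W.K}
    (hv : ∀ x : W.X, ∃ i, v i ≠ 0 ∧ ∀ j, v j / v i ∈ locRing W x) :
    ∃ S : Div W.X, (∀ j, v j ∈ H0 (coef S)) ∧ ∀ x : W.X, ∃ i, GenAt S (v i) x := by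
  classical
  choose i hi0 hi using hv
  have hfin : {x : W.X | coheight x = 1 ∧ -Scheme.ord (v (i x)) x ≠ 0}.Finite := by
    refine (Set.finite_iUnion (ι := ι) (f := fun j => {x : W.X | v j ≠ 0 ∧
      Scheme.ord (v j) x ≠ 0}) fun j => ?_).subset ?_
    · by_cases h : v j = 0
      · exact Set.Finite.subset Set.finite_empty fun x hx => absurd h hx.1
      · exact (finite_ord_ne_zero _ h).subset fun x hx => hx.2
    · rintro x ⟨-, hx⟩
      exact Set.mem_iUnion.2 ⟨i x, hi0 x, fun h => hx (by rw [h, neg_zero])⟩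
  have hle : ∀ (x z : W.X), z ⤳ x → ∀ j, v j ≠ 0 →
      Scheme.ord (v (i x)) z ≤ Scheme.ord (v j) z := by
    intro x z hzx j hj
    have h1 := ord_nonneg_of_locRing (locRing_le hzx (hi x j))
    rw [ord_div hj (hi0 x)] at h1
    linarith
  refine ⟨mkDiv _ hfin, fun j => ?_, fun x => ⟨i x, hi0 x, fun z hz hzx => ?_⟩⟩
  · rw [mem_H0]
    intro x hx hj
    rw [coef_mkDiv _ hfin hx]
    have h1 := hle x x (specializes_refl x) j hj
    linarith
  · rw [coef_mkDiv _ hfin hz]
    have h1 := hle x z hzx (i z) (hi0 z)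
    have h2 := hle z z (specializes_refl z) (i x) (hi0 x)
    linarith

/-- A generically finite cover on which the moving part of `|q(jM + D)|` becomes divisible
by `q`, with fixed part bounded by the ramification divisor. -/
theorem exists_cover (hH : Hironaka) (hFS : FactorialStalks) {κ : Div Y.X}
    (hκ : IsCanonicalDivisor κ) {P R B : Div Y.X} {q m : ℕ} (hqm : m < q)
    (hm : ∀ y : Y.X, ∃ c, GenAt (-B) c y ∧ DerGood y m c)
    {N : Div Y.X} (hN : IsGenerated N) (hPR : P + N = q • R)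
    (hgen : ∀ (y : Y.X) (g : Y.K), GenAt (P - B) g y →
      ∃ (n : ℕ) (c : Fin n → Y.X.presheaf.stalk y) (t : Fin n → Y.K),
        (∀ i, t i ∈ H0 (coef P)) ∧ g = ∑ i, algebraMap _ Y.K (c i) * t i) :
    ∃ (W : Var) (φ : DomHom W Y) (κ' κ₀ E S R' : Div W.X), φ.Fin ∧ IsCanonicalDivisor κ' ∧
      IsPullback φ κ κ₀ ∧ κ' = κ₀ + E ∧ IsRam φ E ∧ IsGenerated S ∧ IsPullback φ R R' ∧
      (∀ x : W.X, coheight x = 1 → coef S x ≤ coef R' x) ∧
      (∀ x : W.X, coheight x = 1 → coef R' x ≤ coef S x + coef E x) := by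
  classical
  have hq : 0 < q := by omega
  -- a basis of the sections of `P` and generators of `N`
  have hfin := finite_H0 hFS P
  obtain ⟨r, t, ht⟩ := Submodule.fg_iff_exists_fin_generating_family.1
    (Module.Finite.iff_fg.1 hfin)
  have htP : ∀ i, t i ∈ H0 (coef P) := fun i => by
    rw [← ht]
    exact Submodule.subset_span ⟨i, rfl⟩
  obtain ⟨l, p, hp, hpgen⟩ := exists_generators hN
  let f : Fin r × Fin l → Y.K := fun a => t a.1 * p a.2
  have hf : ∀ a, f a ∈ H0 (coef (q • R)) := fun a => by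
    rw [← hPR]
    exact H0_mul (htP a.1) (hp a.2)
  have hf0 : ∃ a, f a ≠ 0 := by
    have := hFS Y (genericPoint Y.X)
    obtain ⟨g, hg⟩ := exists_genAt (P - B) (genericPoint Y.X)
    obtain ⟨n, c, t', ht', hgt⟩ := hgen _ g hg
    obtain ⟨b, hb⟩ := hpgen (genericPoint Y.X)
    by_contra hcon
    push Not at hcon
    have ht0 : ∀ i, t i = 0 := fun i =>
      (mul_eq_zero.1 (hcon (i, b))).resolve_right hb.1
    have hbot : ∀ u ∈ H0 (coef P), u = 0 := by
      intro u hu
      rw [← ht] at hu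
      have h1 : Set.range t ⊆ {0} := by
        rintro _ ⟨i, rfl⟩
        exact ht0 i
      have h2 := Submodule.span_mono h1 hu
      rwa [Submodule.span_zero_singleton, Submodule.mem_bot] at h2
    apply hg.1
    rw [hgt]
    exact Finset.sum_eq_zero fun i _ => by rw [hbot _ (ht' i), mul_zero]
  obtain ⟨W, φ, v, hφ, hv, hprin⟩ := exists_radicals hH Y f hf0 hq
  obtain ⟨S, hS, hSgen⟩ := exists_principal_divisor hprin
  obtain ⟨κ', κ₀, E, hκ', hκ₀, hE, hram⟩ := hφ.alg.exists_canonical hFS hκ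
  obtain ⟨R', hR'⟩ := exists_isPullback hFS φ R
  have hqR' := hR'.nsmul q
  -- the radicals are sections of `R'`
  have hvR : ∀ a, v a ∈ H0 (coef R') := by
    intro a
    rw [mem_H0]
    intro x hx hva
    have h1 : φ.pull (f a) ≠ 0 := by
      rw [← hv]
      exact pow_ne_zero _ hva
    have h2 := mem_H0.1 (hqR'.pull_mem_H0 hFS (hf a)) x hx h1
    rw [← hv, ord_pow hva, coef_nsmul] at h2
    have h3 : (0 : ℤ) < q := by exact_mod_cast hq
    by_contra hcon
    push Not at hcon
    nlinarith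
  refine ⟨W, φ, κ', κ₀, E, S, R', hφ, hκ', hκ₀, hE, hram, fun x => ?_, hR', fun x hx => ?_,
    fun x hx => ?_⟩
  · obtain ⟨a, ha⟩ := hSgen x
    exact ⟨v a, hS a, ha⟩
  · obtain ⟨a, ha⟩ := hSgen x
    have h1 := mem_H0.1 (hvR a) x hx ha.1
    rw [ha.ord hx] at h1
    linarith
  · -- the fixed part is bounded by the ramification divisor
    have hva : ∀ a, og x (-coef S x) (v a) := fun a ha => by
      have := mem_H0.1 (hS a) x hx ha
      linarith
    obtain ⟨N', hN'⟩ := exists_isPullback hFS φ N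
    obtain ⟨B', hB'⟩ := exists_isPullback hFS φ B
    have hfa : ∀ a, og x (-(q * coef S x)) (φ.pull (f a)) := by
      intro a hne
      rw [← hv] at hne ⊢
      have ha : v a ≠ 0 := fun h => hne (by rw [h, zero_pow hq.ne'])
      rw [ord_pow ha]
      have h1 := hva a ha
      have h3 : (0 : ℤ) < q := by exact_mod_cast hq
      nlinarith
    obtain ⟨b, hb⟩ := hpgen (φ.f x)
    have hpb := hN'.ord_pull hFS hx hb
    have hta : ∀ i, og x (-(q * coef S x) + coef N' x) (φ.pull (t i)) := by
      intro i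
      have h1 := hfa (i, b)
      change og x _ (φ.pull (t i * p b)) at h1
      rw [map_mul, mul_comm (φ.pull (t i))] at h1
      have h2 := h1.of_mul (φ.pull_ne_zero hb.1)
      rw [hpb] at h2
      exact h2.mono (by linarith)
    have hspan : ∀ u ∈ H0 (coef P), og x (-(q * coef S x) + coef N' x) (φ.pull u) := by
      intro u hu
      rw [← ht] at hu
      induction hu using Submodule.span_induction with
      | mem u hu =>
        obtain ⟨i, rfl⟩ := hu
        exact hta i
      | zero =>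
        rw [map_zero]
        exact og_zero x _
      | add u v _ _ h1 h2 =>
        rw [map_add]
        exact h1.add hx h2
      | smul c u _ h1 =>
        rw [Algebra.smul_def, map_mul]
        have h2 : og x 0 (φ.pull (algebraMap ℂ Y.K c)) := by
          rw [φ.pull_constant]
          exact (og_iff hx).2 (const_mem_locRing x c)
        exact (h2.mul h1).mono (by linarith)
    have := hFS Y (φ.f x)
    obtain ⟨g, hg⟩ := exists_genAt (P - B) (φ.f x)
    obtain ⟨n, c, t', ht', hgt⟩ := hgen _ g hg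
    have hog : og x (-(q * coef S x) + coef N' x) (φ.pull g) := by
      rw [hgt, map_sum]
      refine og_sum hx _ _ fun i _ => ?_
      rw [map_mul]
      have h2 : og x 0 (φ.pull (algebraMap _ Y.K (c i))) :=
        (og_iff hx).2 (pull_mem_locRing φ ⟨c i, rfl⟩)
      exact (h2.mul (hspan _ (ht' i))).mono (by linarith)
    have h1 := hog (φ.pull_ne_zero hg.1)
    -- the pull back of `P - B`
    have hPB : IsPullback φ (P - B) (q • R' - N' - B') := by
      have h2 := (hqR'.sub hN').sub hB'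
      have e : q • R - N - B = P - B := by
        rw [← hPR]
        abel
      rwa [e] at h2
    rw [hPB.ord_pull hFS hx hg, coef_sub, coef_sub, coef_nsmul] at h1
    -- the multiplicity of `B`
    obtain ⟨b', hb', hgood⟩ := hm (φ.f x)
    obtain ⟨s, w, hsw⟩ := exists_fr (X := Y) rfl (φ.f x)
    obtain ⟨u, δ, huδ⟩ := exists_fr hφ.alg.dim_eq x
    obtain ⟨h4, h5⟩ := hram x hx s w u δ hsw huδ
    have h6 := hgood.ord_le hFS hφ.alg hx hsw huδ h4
    rw [← h5, hB'.neg.ord_pull hFS hx hb', coef_neg, neg_neg] at h6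
    have hE0 : 0 ≤ coef E x := by
      rw [h5]
      exact ord_nonneg_of_locRing (det_mem_locRing (jac_mem hsw huδ))
    have h7 : (m : ℤ) + 1 ≤ q := by exact_mod_cast hqm
    have h8 : (q : ℤ) * (coef R' x - coef S x) ≤ m * (coef E x + 1) := by linarith
    by_contra hcon
    push Not at hcon
    have h9 : coef E x + 1 ≤ coef R' x - coef S x := by linarith
    have h10 : (0 : ℤ) < q := by omega
    nlinarith

/-- Generation of an adjoint divisor by the vanishing theorem on the cover. -/
theorem isGenerated_of_cover (hKN : KollarNadelVanishing) (hFS : FactorialStalks) {W Y : Var}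
    {φ : DomHom W Y} (hφ : φ.Fin) {κ R : Div Y.X} {κ' κ₀ E S R' : Div W.X}
    (hκ' : IsCanonicalDivisor κ') (hκ₀ : IsPullback φ κ κ₀) (hκE : κ' = κ₀ + E)
    (hE : IsRam φ E) (hS : IsGenerated S) (hR' : IsPullback φ R R')
    (h1 : ∀ x : W.X, coheight x = 1 → coef S x ≤ coef R' x)
    (h2 : ∀ x : W.X, coheight x = 1 → coef R' x ≤ coef S x + coef E x)
    {G : Div Y.X} (hG : IsAmple G) {N : ℕ} (s : Fin N → Y.K) (hs : ∀ j, s j ∈ H0 (coef G))
    (hgen : ∀ y, ∃ j, GenAt G (s j) y) : IsGenerated (κ + (R + (N + 1) • G)) := by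
  intro y
  have := hFS Y y
  obtain ⟨G', hG'⟩ := exists_isPullback hFS φ G
  have hGg : IsGenerated G := fun y => by
    obtain ⟨j, hj⟩ := hgen y
    exact ⟨s j, hs j, hj⟩
  have hGg' : IsGenerated G' := hG'.isGenerated hFS hGg
  obtain ⟨f, hf⟩ := exists_genAt (κ + (R + (N + 1) • G)) y
  obtain ⟨U, hyU, hU⟩ := exists_genAt_nhds _ y hf
  have hvan : ∀ k i : ℕ, 0 < i → i ≤ N → Subsingleton
      (Coh (secSheaf (S := (Y.X : TopCat.{0})) φ.f ⊤
        (κ' + S + (N + 1) • G' + k • G' - i • G')) i) := by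
    intro k i hi hiN
    obtain ⟨c, rfl⟩ := Nat.exists_eq_add_of_le hiN
    have e : κ' + S + (i + c + 1) • G' + k • G' - i • G' = κ' + S + (c + k + 1) • G' := by
      rw [add_smul (i + c) 1, add_smul i c, add_smul (c + k) 1, add_smul c k]
      abel
    rw [e]
    refine hKN W Y φ κ' S ((c + k + 1) • G) G ((c + k + 1) • G') G' hκ' (hS.semiPos hFS)
      (hG.nsmul (by omega)).isNef hG (hG'.nsmul _) hG' ⟨1, one_pos, ?_⟩ i hi
    have e2 : 1 • (S + (c + k + 1) • G') - G' = S + (c + k) • G' := by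
      rw [one_smul, add_smul (c + k) 1, one_smul]
      abel
    rw [e2]
    exact ((hS.add (hGg'.nsmul _)).isNef hFS).isPsef'
  have hle : ∀ x : W.X, coheight x = 1 → coef (κ₀ + (R' + (N + 1) • G')) x ≤
      coef (κ' + S + (N + 1) • G') x := by
    intro x hx
    rw [hκE]
    simp only [coef_add]
    linarith [h2 x hx]
  have hpull : IsPullback φ (κ + (R + (N + 1) • G)) (κ₀ + (R' + (N + 1) • G')) :=
    hκ₀.add (hR'.add (hG'.nsmul _))
  obtain ⟨n, a, t, ht, hsum⟩ := castelnuovo_mumford hFS (TAct.trivial W) φ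
    ((TAct.trivial W).invHom_zero _) (κ' + S + (N + 1) • G') hG' s hs hgen
    (fun k i hi hiN => by
      have h := hvan k i hi hiN
      rw [(TAct.trivial W).inv_zero]
      exact h) hG y U hyU (φ.pull f) (by rw [(TAct.trivial W).inv_zero]; trivial)
    (fun x hx => by
      rw [mem_polar]
      intro hx1 _
      rw [hpull.ord_pull hFS hx1 (hU _ hx)]
      linarith [hle x hx1])
  obtain ⟨d, hd, htr⟩ := hφ.tr_pull
  have hdC : (d : ℂ) ≠ 0 := by exact_mod_cast hd.ne'
  have hd' : toK y (cstStalk y (d : ℂ)⁻¹) * (d : Y.K) = 1 := by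
    have h3 : (d : Y.K) = toK y (cstStalk y (d : ℂ)) := by
      rw [map_natCast, map_natCast]
    rw [h3, ← map_mul, ← map_mul, inv_mul_cancel₀ hdC, map_one, map_one]
  obtain ⟨j, hj⟩ := exists_genAt_of_sum hFS hf (fun j => cstStalk y (d : ℂ)⁻¹ * a j)
    (fun j => φ.tr (t j)) (fun j => by
      refine tr_mem_H0 hFS hφ hκ₀ hκE hE (hR'.add (hG'.nsmul (N + 1))) ?_
      rw [mem_H0]
      intro x hx hne
      have h3 := mem_H0.1 (ht j).2 x hx hne
      have h4 := h1 x hx
      simp only [coef_add] at h3 ⊢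
      linarith) (by
      have h3 := congrArg φ.tr hsum
      rw [htr, φ.tr_sum] at h3
      have h4 : ∀ j, φ.tr (φ.pull (algebraMap _ Y.K (a j)) * t j) = toK y (a j) * φ.tr (t j) :=
        fun j => φ.tr_mul _ _
      rw [Finset.sum_congr rfl fun j _ => h4 j] at h3
      have h5 : ∀ j, toK y (cstStalk y (d : ℂ)⁻¹ * a j) * φ.tr (t j) =
          toK y (cstStalk y (d : ℂ)⁻¹) * (toK y (a j) * φ.tr (t j)) := fun j => by
        rw [map_mul]
        ring
      rw [Finset.sum_congr rfl fun j _ => h5 j, ← Finset.mul_sum, ← h3, ← mul_assoc, hd',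
        one_mul])
  exact ⟨φ.tr (t j), by
    refine tr_mem_H0 hFS hφ hκ₀ hκE hE (hR'.add (hG'.nsmul (N + 1))) ?_
    rw [mem_H0]
    intro x hx hne
    have h3 := mem_H0.1 (ht j).2 x hx hne
    have h4 := h1 x hx
    simp only [coef_add] at h3 ⊢
    linarith, hj⟩

/-- **Bounded multiplicities of the base loci imply nefness.** -/
theorem nefCriterion (hH : Hironaka) (hKN : KollarNadelVanishing) : NefCriterion := by
  intro Y M A B hB hgen A₂ hA₂ m'
  have hFS := factorialStalks
  obtain ⟨κ, hκ⟩ := exists_isCanonicalDivisor Y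
  obtain ⟨m, hm⟩ := exists_mult_bound hFS hB
  obtain ⟨a₀, ha₀, hGa, hGg⟩ := exists_ample_generated hFS hA₂
  set G := a₀ • A₂ with hGdef
  obtain ⟨N, s, hs, hsgen⟩ := exists_generators hGg
  obtain ⟨m₀, hm₀⟩ := hGa.forall_add (hFS Y) (-(A + B))
  -- the auxiliary divisor
  have hN : IsGenerated ((m + 1) • (m₀ • G) + -(A + B)) := by
    rw [smul_smul]
    exact (hm₀ _ (Nat.le_mul_of_pos_left m₀ (by omega))).2
  have hall : ∀ j : ℕ, IsGenerated (κ + (j • M + m₀ • G + (N + 1) • G)) := by
    intro j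
    obtain ⟨W, φ, κ', κ₀, E, S, R', hφ, hκ', hκ₀, hκE, hE, hS, hR', h1, h2⟩ :=
      exists_cover hH hFS hκ (P := ((m + 1) * j) • M + (A + B)) (R := j • M + m₀ • G)
        (q := m + 1) (m := m) (by omega) hm hN (by
          rw [smul_add, mul_smul (m + 1) j M]
          abel) (fun y g hg => by
          refine hgen _ y g ?_
          have e : ((m + 1) * j) • M + (A + B) - B = ((m + 1) * j) • M + A := by abel
          rwa [e] at hg)
    exact isGenerated_of_cover hKN hFS hφ hκ' hκ₀ hκE hE hS hR' h1 h2 hGa s hs hsgen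
  obtain ⟨k₂, hk₂⟩ := hA₂.forall_add (hFS Y) (-(κ + (m₀ • G + (N + 1) • G)))
  have h1 := (hk₂ (k₂ + 1) (by omega)).1.add_generated (hFS Y) (hall ((k₂ + 1) * m'))
  have e : κ + (((k₂ + 1) * m') • M + m₀ • G + (N + 1) • G) +
      ((k₂ + 1) • A₂ + -(κ + (m₀ • G + (N + 1) • G))) = (k₂ + 1) • (m' • M + A₂) := by
    rw [smul_add, mul_smul (k₂ + 1) m' M]
    abel
  rw [e] at h1
  exact IsAmple.of_nsmul (by omega) h1

end Vale.Agent.P299.Q
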