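import Vale.Agent.P299.Q.ResBB
import Vale.Agent.P299.Q.NefCrit
import Vale.Agent.P299.Q.TorCanon
import Vale.Agent.P299.Q.FlHartogs

/-!
# Flat models of rational fibrations, from resolution of singularities
-/

open CategoryTheory TopologicalSpace Opposite TopCat AlgebraicGeometry Order

namespace Vale.Agent.P299.Q

open Vale.Agent.P299.G

/-- Finitely many polynomials over `k` become nontrivial modulo every point of a suitable model. -/
theorem exists_model_of_polynomials (hR : Resolution) (k : Type) [Field k] [Algebra ℂ k]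
    (hk : Algebra.EssFiniteType ℂ k) {ι : Type} [Finite ι] {σ : Type} (F : ι → MvPolynomial σ k)
    (hF : ∀ i, F i ≠ 0) :
    ∃ (Y : Var) (e : k ≃ₐ[ℂ] Y.K), ∀ i, ∀ y : Y.X, ∃ a, (F i).coeff a ≠ 0 ∧
      ∀ b, e ((F i).coeff b) / e ((F i).coeff a) ∈ locRing Y y := by
  classical
  have := Fintype.ofFinite ι
  let A : Type := ∀ i : ι, {b // b ∈ (F i).support}
  have hA : Finite A := inferInstance
  have := Fintype.ofFinite A
  have hne : Nonempty A := by
    refine ⟨fun i => ⟨(MvPolynomial.support_nonempty.2 (hF i)).choose,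
      (MvPolynomial.support_nonempty.2 (hF i)).choose_spec⟩⟩
  let s' : A → k := fun a => ∏ i, (F i).coeff (a i)
  have hs' : ∀ a, s' a ≠ 0 := fun a =>
    Finset.prod_ne_zero_iff.2 fun i _ => MvPolynomial.mem_support_iff.1 (a i).2
  let n := Fintype.card A
  let eA : A ≃ Fin n := Fintype.equivFin A
  obtain ⟨Y, e, -, -, hY⟩ := hR k hk 0 (fun i => i.elim0) (fun i => i.elim0) n
    (fun i => s' (eA.symm i)) ⟨eA hne.some, hs' _⟩
  refine ⟨Y, e, fun i y => ?_⟩
  obtain ⟨i₀, -, hi₀⟩ := hY y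
  let a := eA.symm i₀
  refine ⟨a i, MvPolynomial.mem_support_iff.1 (a i).2, fun b => ?_⟩
  by_cases hb : b ∈ (F i).support
  · let a' : A := Function.update a i ⟨b, hb⟩
    have h1 := hi₀ (eA a')
    rw [Equiv.symm_apply_apply] at h1
    have h2 : s' a' * (F i).coeff (a i) = s' a * (F i).coeff b := by
      have h3 : s' a' = (F i).coeff b * ∏ j ∈ Finset.univ.erase i, (F j).coeff (a j) := by
        change ∏ j, (F j).coeff (a' j) = _
        rw [← Finset.mul_prod_erase Finset.univ _ (Finset.mem_univ i)]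
        congr 1
        · simp [a']
        · refine Finset.prod_congr rfl fun j hj => ?_
          rw [Finset.mem_erase] at hj
          simp [a', Function.update_of_ne hj.1]
      have h4 : s' a = (F i).coeff (a i) * ∏ j ∈ Finset.univ.erase i, (F j).coeff (a j) :=
        (Finset.mul_prod_erase Finset.univ _ (Finset.mem_univ i)).symm
      rw [h3, h4]
      ring
    have h5 : e ((F i).coeff b) / e ((F i).coeff (a i)) = e (s' a') / e (s' a) := by
      have h6 : e ((F i).coeff (a i)) ≠ 0 := by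
        rw [Ne, EmbeddingLike.map_eq_zero_iff]
        exact MvPolynomial.mem_support_iff.1 (a i).2
      have h7 : e (s' a) ≠ 0 := by
        rw [Ne, EmbeddingLike.map_eq_zero_iff]
        exact hs' a
      rw [div_eq_div_iff h6 h7, ← map_mul, ← map_mul, h2]
      congr 1
      ring
    rw [h5]
    exact h1
  · rw [MvPolynomial.notMem_support_iff.1 hb, map_zero, zero_div]
    exact (locRing Y y).zero_mem

theorem exists_charts (Z : Var) : ∃ (ι : Type) (_ : Finite ι) (S : ι → Set Z.K),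
    (∀ i, (S i).Finite) ∧ ∀ z : Z.X, ∃ i, IsChartAt Z (S i) z := by
  choose U S hU hS using exists_chart (X := Z)
  obtain ⟨F, hF⟩ := (isCompact_univ (X := Z.X)).elim_finite_subcover
    (fun x => (U x : Set Z.X)) (fun x => (U x).isOpen)
    (fun x _ => Set.mem_iUnion.2 ⟨x, hU x⟩)
  refine ⟨F, inferInstance, fun i => (S i : Set Z.K), fun i => (S i).finite_toSet, fun z => ?_⟩
  obtain ⟨x, hxF, hzx⟩ := Set.mem_iUnion₂.1 (hF (Set.mem_univ z))
  exact ⟨⟨x, hxF⟩, hS x z hzx⟩

/-- The model `Y` of a subfield `k` of the function field of `Z`, over which the closure of the graph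
of `Z ⇢ Y` is equidimensional. -/
theorem exists_base (hR : Resolution) (Z : Var) (k : IntermediateField ℂ Z.K) :
    ∃ (Y : Var) (ψ : Y.K →ₐ[ℂ] Z.K), (∀ g : Z.K, g ∈ k ↔ ∃ h, ψ h = g) ∧
      ∀ (X : Var) (μ : DomHom X Z) (φ : DomHom X Y), μ.Birational →
        (∀ a, φ.pull a = μ.pull (ψ a)) → ∀ (x : X.X) (u : X.K),
        (∀ x' : X.X, coheight x' = 1 → μ.f x' ⤳ μ.f x → φ.f x' ⤳ φ.f x →
          coheight (φ.f x') ≤ 1 → u ∈ locRing X x') → u ∈ locRing X x := by
  have hZess := essFiniteType Z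
  have hkess := essFiniteType_intermediateField k
  -- the relative dimension
  obtain ⟨m, hm⟩ : ∃ m : ℕ, Algebra.trdeg k Z.K = m := by
    have h1 : Algebra.EssFiniteType k Z.K := Algebra.EssFiniteType.of_comp ℂ k Z.K
    exact Cardinal.lt_aleph0.1 (trdeg_lt_aleph0 k Z.K)
  have htr : Algebra.trdeg ℂ k + m = Algebra.trdeg ℂ Z.K := by
    rw [← hm]
    exact trdeg_add_eq ℂ k
  obtain ⟨ι, hι, S, hSfin, hS⟩ := exists_charts Z
  have hSf : ∀ i, Finite (S i) := fun i => (hSfin i).to_subtype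
  -- the equations
  have hdep : ∀ p : (Σ i : ι, (Fin (m + 1) → S i)), ∃ F : MvPolynomial (Fin (m + 1)) k,
      F ≠ 0 ∧ MvPolynomial.aeval (fun l => (p.2 l : Z.K)) F = 0 := by
    intro p
    by_contra hcon
    push Not at hcon
    have h1 : AlgebraicIndependent k (fun l => (p.2 l : Z.K)) := by
      refine algebraicIndependent_iff.2 fun F hF => ?_
      by_contra hF0
      exact hcon F hF0 hF
    have h2 := h1.cardinalMk_le_trdeg
    rw [hm, Cardinal.mk_fin] at h2
    have h3 : m + 1 ≤ m := by exact_mod_cast h2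
    omega
  choose F hF0 hF using hdep
  obtain ⟨Y, e, hY⟩ := exists_model_of_polynomials hR k hkess F hF0
  let ψ : Y.K →ₐ[ℂ] Z.K := k.val.comp (e.symm : Y.K →ₐ[ℂ] k)
  have hψ : ∀ a : k, ψ (e a) = a := fun a => by
    change ((e.symm (e a) : k) : Z.K) = a
    rw [e.symm_apply_apply]
  refine ⟨Y, ψ, fun g => ⟨fun hg => ⟨e ⟨g, hg⟩, hψ _⟩, ?_⟩, ?_⟩
  · rintro ⟨h, rfl⟩
    exact (e.symm h).2
  · intro X μ φ hμ hφ x u hu
    obtain ⟨i, hi⟩ := hS (μ.f x)
    obtain ⟨ι', -, SY, hSYf, hSY⟩ := exists_charts Y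
    obtain ⟨i', hi'⟩ := hSY (φ.f x)
    have hμalg : Algebra.trdeg ℂ Z.K = Algebra.trdeg ℂ X.K := by
      let f : Z.K ≃ₐ[ℂ] X.K := AlgEquiv.ofRingEquiv
        (f := RingEquiv.ofBijective μ.pull hμ) fun c => μ.pull_constant c
      exact f.trdeg_eq
    have htr' : Algebra.trdeg ℂ Y.K + m = Algebra.trdeg ℂ X.K := by
      rw [← e.trdeg_eq, htr, hμalg]
    refine mem_locRing_of_equations hμ φ htr' x hi hi' (hSfin i) (hSYf i') ?_ u hu
    intro J hJ
    choose f hfS hfJ using hJ
    let p : (Σ i : ι, (Fin (m + 1) → S i)) := ⟨i, fun l => ⟨f l, hfS l⟩⟩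
    refine ⟨MvPolynomial.map (e : k →+* Y.K) (F p), ?_, fun y => ?_⟩
    · have h1 := congrArg μ.pull (hF p)
      rw [MvPolynomial.aeval_def, MvPolynomial.eval₂_comp_left, map_zero] at h1
      rw [MvPolynomial.eval₂_map, ← h1]
      congr 1
      · ext a
        change φ.pull (e a) = μ.pull a
        rw [hφ, hψ]
      · funext l
        exact (hfJ l).symm
    · obtain ⟨a, ha, hb⟩ := hY p y
      refine ⟨a, ?_, fun b => ?_⟩
      · rw [MvPolynomial.coeff_map]
        exact fun h => ha ((map_eq_zero_iff (e : k →+* Y.K) e.injective).1 h)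
      · rw [MvPolynomial.coeff_map, MvPolynomial.coeff_map]
        exact hb b

end Vale.Agent.P299.Q
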