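import Vale.Agent.P299.Q.FlStar

/-!
# The flattening theorem: the point of a prime ideal of height one
-/

open CategoryTheory TopologicalSpace Opposite TopCat AlgebraicGeometry Order IsLocalRing

namespace Vale.Agent.P299.Q

open Vale.Agent.P299.G

variable {X Z Y : Var}

/-- The point `x'` of the prime ideal `p` of height one of `D`. -/
structure IsPointOf (D : Subalgebra ℂ X.K) (p : Ideal D) (x' : X.X) : Prop where
  le : ∀ d ∈ D, d ∈ locRing X x'
  inv : ∀ d : D, d ∉ p → (d : X.K)⁻¹ ∈ locRing X x'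
  mem : ∀ d : D, d ∈ p → (d : X.K)⁻¹ ∈ locRing X x' → d = 0
  frac : ∀ w ∈ locRing X x', ∃ a s : D, s ∉ p ∧ w * s = a

theorem IsPointOf.isLocalization {D : Subalgebra ℂ X.K} {p : Ideal D} [p.IsPrime] {x' : X.X}
    (h : IsPointOf D p x') :
    letI := (liftStalk D h.le).toAlgebra
    IsLocalization.AtPrime (X.X.presheaf.stalk x') p := by
  let _ := (liftStalk D h.le).toAlgebra
  refine ⟨?_, ?_, ?_⟩
  · rintro ⟨s, hs⟩
    have h1 : s ≠ 0 := fun h0 => hs (h0 ▸ p.zero_mem)
    have h2 : liftStalk D h.le s ≠ 0 := by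
      intro h3
      apply h1
      apply Subtype.ext
      rw [← toK_liftStalk D h.le, h3, map_zero]
      rfl
    change IsUnit (liftStalk D h.le s)
    rw [isUnit_iff_inv_mem h2, toK_liftStalk]
    exact h.inv s hs
  · intro t
    obtain ⟨a, s, hs, has⟩ := h.frac (toK x' t) ⟨t, rfl⟩
    refine ⟨⟨a, ⟨s, hs⟩⟩, toK_injective x' ?_⟩
    change toK x' (t * liftStalk D h.le s) = toK x' (liftStalk D h.le a)
    rw [map_mul, toK_liftStalk, toK_liftStalk, has]
  · intro a b hab
    refine ⟨1, ?_⟩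
    have h1 : liftStalk D h.le a = liftStalk D h.le b := hab
    have h2 := congrArg (toK x') h1
    rw [toK_liftStalk, toK_liftStalk] at h2
    rw [Subtype.ext h2]

theorem IsPointOf.coheight {D : Subalgebra ℂ X.K} {p : Ideal D} [p.IsPrime] (hp : p.height = 1)
    {x' : X.X} (h : IsPointOf D p x') : coheight x' = 1 := by
  let _ := (liftStalk D h.le).toAlgebra
  have := h.isLocalization
  have h1 := IsLocalization.AtPrime.ringKrullDim_eq_height p (X.X.presheaf.stalk x')
  rw [ringKrullDim_stalk_eq_coheight, hp] at h1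
  exact_mod_cast h1

theorem exists_isPointOf (μ : DomHom X Z) (φ : DomHom X Y) (x : X.X) {SZ : Set Z.K}
    {SY : Set Y.K} (hZ : IsChartAt Z SZ (μ.f x)) (hY : IsChartAt Y SY (φ.f x))
    (D : Subalgebra ℂ X.K) (hN : IsNoetherianRing D) (hI : IsIntegrallyClosed D)
    (hF : IsFractionRing D X.K) (hCD : coordAlg μ φ SZ SY ≤ D)
    (hint : ∀ u ∈ D, IsIntegral (coordAlg μ φ SZ SY) u) (p : Ideal D) (hp : p.IsPrime)
    (hp1 : p.height = 1) (hpx : ∀ d : D, (d : X.K)⁻¹ ∈ locRing X x → d ≠ 0 → d ∉ p) :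
    ∃ x' : X.X, IsPointOf D p x' ∧ μ.f x' ⤳ μ.f x ∧ φ.f x' ⤳ φ.f x := by
  obtain ⟨V, hV1, hV2, hV3⟩ := exists_valuation D.toSubring p
  obtain ⟨x', hx'⟩ := exists_isCenter X V fun c => hV1 ⟨_, D.algebraMap_mem c⟩
  have hVi : ∀ d ∈ D, d ≠ 0 → d⁻¹ ∈ locRing X x → d⁻¹ ∈ V := fun d hd hd0 hdi =>
    hV2 ⟨d, hd⟩ (hpx ⟨d, hd⟩ hdi fun h => hd0 (congrArg Subtype.val h))
  have hμ : μ.f x' ⤳ μ.f x := hx'.specializes fun a =>
    pull_mem_valuation hZ (D := D) (fun d hd => hV1 ⟨d, hd⟩) hVi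
      (fun a ha => hCD (pull_mem_coordAlg_left ha)) a
  have hφ : φ.f x' ⤳ φ.f x := hx'.specializes fun a =>
    pull_mem_valuation hY (D := D) (fun d hd => hV1 ⟨d, hd⟩) hVi
      (fun a ha => hCD (pull_mem_coordAlg_right ha)) a
  have hC : ∀ c ∈ coordAlg μ φ SZ SY, c ∈ locRing X x' :=
    coordAlg_le (fun f hf => locRing_le hμ (hZ.1 hf)) (fun f hf => locRing_le hφ (hY.1 hf))
  have hD : ∀ d ∈ D, d ∈ locRing X x' := fun d hd => mem_locRing_of_isIntegral _ hC (hint d hd)
  refine ⟨x', ⟨hD, fun d hd => hx'.2 _ (hD d d.2) (hV2 d hd),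
    fun d hd hdi => hV3 d hd (hx'.1 _ hdi), fun w hw => ?_⟩, hμ, hφ⟩
  rcases dvr_cases p hp1 w with ⟨a, s, hs, h⟩ | ⟨a, s, hs, ha, h⟩
  · exact ⟨a, s, hs, h⟩
  · exfalso
    have h' : w * (a : X.K) = s := h
    have hs0 : (s : X.K) ≠ 0 := fun h0 => hs (by
      have : s = 0 := Subtype.ext h0
      rw [this]
      exact p.zero_mem)
    have ha0 : (a : X.K) ≠ 0 := by
      intro h0
      rw [h0, mul_zero] at h'
      exact hs0 h'.symm
    have h1 : (a : X.K)⁻¹ ∈ V := by
      have h2 : (a : X.K)⁻¹ = w * (s : X.K)⁻¹ := by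
        rw [← h']
        have hw0 : w ≠ 0 := by
          intro h0
          rw [h0, zero_mul] at h'
          exact hs0 h'.symm
        field_simp
      rw [h2]
      exact V.mul_mem _ _ (hx'.1 w hw) (hV2 s hs)
    exact ha0 (congrArg Subtype.val (hV3 a ha h1))

theorem IsPointOf.coheight_image (μ : DomHom X Z) (φ : DomHom X Y) {SZ : Set Z.K}
    {SY : Set Y.K} {m : ℕ} (hm : Algebra.trdeg ℂ Y.K + m = Algebra.trdeg ℂ X.K)
    (hE : HasEquations φ (μ.pull '' SZ) m)
    (D : Subalgebra ℂ X.K) (hint : ∀ u ∈ D, IsIntegral (coordAlg μ φ SZ SY) u) (p : Ideal D)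
    {n : ℕ} (a : Fin n → D) (hn : Algebra.trdeg ℂ X.K = (n + 1 : ℕ))
    (ha : IndMod ℂ p a) {x' : X.X} (h : IsPointOf D p x')
    (hZ : SZ ⊆ locRing Z (μ.f x')) (hY : SY ⊆ locRing Y (φ.f x')) :
    Order.coheight (φ.f x') ≤ 1 := by
  let _ : Algebra ℂ (Y.X.presheaf.stalk (φ.f x')) := (constHom (φ.f x')).toAlgebra
  let _ : Algebra ℂ (X.X.presheaf.stalk x') := (constHom x').toAlgebra
  let _ : Algebra (Y.X.presheaf.stalk (φ.f x')) (X.X.presheaf.stalk x') :=
    (φ.f.stalkMap x').hom.toAlgebra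
  have t2 : IsScalarTower ℂ (Y.X.presheaf.stalk (φ.f x')) Y.K :=
    IsScalarTower.of_algebraMap_eq fun c => (toK_constHom (φ.f x') c).symm
  have t3 : IsScalarTower ℂ (Y.X.presheaf.stalk (φ.f x')) (X.X.presheaf.stalk x') := by
    refine IsScalarTower.of_algebraMap_eq fun c => toK_injective x' ?_
    change toK x' (constHom x' c) = toK x' (φ.f.stalkMap x' (constHom (φ.f x') c))
    rw [toK_constHom]
    have h1 := φ.pull_stalk x' (constHom (φ.f x') c)
    refine Eq.trans ?_ h1
    change _ = φ.pull (toK (φ.f x') (constHom (φ.f x') c))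
    rw [toK_constHom, φ.pull_constant]
  have hloc : IsLocalHom (algebraMap (Y.X.presheaf.stalk (φ.f x')) (X.X.presheaf.stalk x')) :=
    inferInstanceAs (IsLocalHom (φ.f.stalkMap x').hom)
  have hfaith : FaithfulSMul (Y.X.presheaf.stalk (φ.f x')) Y.K :=
    (faithfulSMul_iff_algebraMap_injective _ _).2 (toK_injective (φ.f x'))
  have hpull : ∀ b : Y.X.presheaf.stalk (φ.f x'),
      toK x' (algebraMap _ (X.X.presheaf.stalk x') b) = φ.pull (toK (φ.f x') b) := fun b =>
    (φ.pull_stalk x' b).symm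
  let S : Set (X.X.presheaf.stalk x') := {s | toK x' s ∈ μ.pull '' SZ}
  have hC : ∀ c ∈ coordAlg μ φ SZ SY, c ∈ locRing X x' := coordAlg_le hZ hY
  have hadj : ∀ (c : X.K) (hc : c ∈ coordAlg μ φ SZ SY), ∀ t : X.X.presheaf.stalk x',
      toK x' t = c → t ∈ Algebra.adjoin (Y.X.presheaf.stalk (φ.f x')) S := by
    intro c hc
    refine Algebra.adjoin_induction (fun c hc t ht => ?_) (fun c t ht => ?_)
      (fun x y hx hy h1 h2 t ht => ?_) (fun x y hx hy h1 h2 t ht => ?_) hc
    · rcases hc with hc | ⟨f, hf, rfl⟩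
      · exact Algebra.subset_adjoin (show toK x' t ∈ μ.pull '' SZ by rw [ht]; exact hc)
      · obtain ⟨b, hb⟩ := hY hf
        have h1 : t = algebraMap _ (X.X.presheaf.stalk x') b := by
          apply toK_injective x'
          rw [hpull, ht]
          exact congrArg φ.pull hb.symm
        rw [h1]
        exact Subalgebra.algebraMap_mem _ _
    · have h1 : t = algebraMap (Y.X.presheaf.stalk (φ.f x')) (X.X.presheaf.stalk x')
          (constHom (φ.f x') c) := by
        apply toK_injective x'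
        rw [hpull, ht, toK_constHom, φ.pull_constant]
      rw [h1]
      exact Subalgebra.algebraMap_mem _ _
    · obtain ⟨t₁, ht₁⟩ := hC x hx
      obtain ⟨t₂, ht₂⟩ := hC y hy
      have h3 : t = t₁ + t₂ := by
        apply toK_injective x'
        rw [ht, map_add]
        exact congrArg₂ (· + ·) ht₁.symm ht₂.symm
      rw [h3]
      exact add_mem (h1 t₁ ht₁) (h2 t₂ ht₂)
    · obtain ⟨t₁, ht₁⟩ := hC x hx
      obtain ⟨t₂, ht₂⟩ := hC y hy
      have h3 : t = t₁ * t₂ := by
        apply toK_injective x'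
        rw [ht, map_mul]
        exact congrArg₂ (· * ·) ht₁.symm ht₂.symm
      rw [h3]
      exact mul_mem (h1 t₁ ht₁) (h2 t₂ ht₂)
  have hintS : ∀ d : D, IsIntegral (Algebra.adjoin (Y.X.presheaf.stalk (φ.f x')) S)
      (liftStalk D h.le d) := by
    intro d
    obtain ⟨P, hP, hPe⟩ := hint d d.2
    let g : coordAlg μ φ SZ SY →+* Algebra.adjoin (Y.X.presheaf.stalk (φ.f x')) S :=
      (liftStalk (coordAlg μ φ SZ SY) hC).codRestrict
        (Algebra.adjoin (Y.X.presheaf.stalk (φ.f x')) S)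
        (fun c => hadj c c.2 _ (toK_liftStalk _ hC c))
    refine ⟨P.map g, hP.map _, toK_injective x' ?_⟩
    rw [Polynomial.eval₂_map, Polynomial.hom_eval₂, toK_liftStalk, map_zero, ← hPe]
    congr 1
    ext c
    exact toK_liftStalk _ hC c
  have hfin := height_lt_two_of_relations (k := ℂ) (L := Y.K) (K := X.K)
    (B := Y.X.presheaf.stalk (φ.f x')) (B' := X.X.presheaf.stalk x') hn hm
    (fun i => liftStalk D h.le (a i)) ?_ S ?_ ?_
  · have h1 := IsLocalRing.maximalIdeal_height_eq_ringKrullDim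
      (R := Y.X.presheaf.stalk (φ.f x'))
    rw [ringKrullDim_stalk_eq_coheight] at h1
    have h2 : (IsLocalRing.maximalIdeal (Y.X.presheaf.stalk (φ.f x'))).height =
        Order.coheight (φ.f x') := by exact_mod_cast h1
    rw [h2] at hfin
    by_contra h3
    rw [not_le] at h3
    have h4 := Order.add_one_le_of_lt h3
    rw [one_add_one_eq_two] at h4
    exact absurd hfin (not_lt.2 h4)
  · intro F hF
    refine ha F ?_
    by_contra hcon
    let l : D →ₐ[ℂ] X.X.presheaf.stalk x' :=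
      { liftStalk D h.le with
        commutes' := fun c => toK_injective x' (by
          change toK x' (liftStalk D h.le (algebraMap ℂ D c)) = toK x' (constHom x' c)
          rw [toK_liftStalk, toK_constHom]
          rfl) }
    have h1 : MvPolynomial.aeval (fun i => liftStalk D h.le (a i)) F =
        liftStalk D h.le (MvPolynomial.aeval a F) :=
      (MvPolynomial.comp_aeval_apply a l F).symm
    rw [h1] at hF
    refine (IsLocalRing.mem_maximalIdeal _).1 hF ?_
    have h2 : liftStalk D h.le (MvPolynomial.aeval a F) ≠ 0 := by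
      intro h3
      apply hcon
      have h4 : MvPolynomial.aeval a F = 0 := by
        apply Subtype.ext
        rw [← toK_liftStalk D h.le, h3, map_zero]
        rfl
      rw [h4]
      exact p.zero_mem
    rw [isUnit_iff_inv_mem h2, toK_liftStalk]
    exact h.inv _ hcon
  · intro J hJ
    obtain ⟨F, hF, hFy⟩ := hE (fun i => toK x' (J i)) hJ
    obtain ⟨e, he, hb⟩ := hFy (φ.f x')
    have h1 : (MvPolynomial.C (F.coeff e)⁻¹ * F) ∈
        Set.range (MvPolynomial.map (toK (φ.f x'))) := by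
      rw [MvPolynomial.mem_range_map_iff_coeffs_subset]
      intro c hc
      rw [Finset.mem_coe, MvPolynomial.mem_coeffs_iff] at hc
      obtain ⟨b, -, rfl⟩ := hc
      rw [MvPolynomial.coeff_C_mul, inv_mul_eq_div]
      exact hb b
    obtain ⟨G, hG⟩ := h1
    refine ⟨G, ⟨e, toK_injective (φ.f x') ?_⟩, toK_injective x' ?_⟩
    · rw [← MvPolynomial.coeff_map, hG, MvPolynomial.coeff_C_mul, inv_mul_cancel₀ he, map_one]
    · have h2 : toK x' (MvPolynomial.aeval J G) =
          MvPolynomial.eval₂ φ.pull (fun i => toK x' (J i)) (MvPolynomial.map (toK (φ.f x')) G) := by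
        rw [MvPolynomial.eval₂_map, MvPolynomial.aeval_def, MvPolynomial.eval₂_comp_left]
        congr 1
        ext b
        exact hpull b
      rw [h2, hG, MvPolynomial.eval₂_mul, hF, mul_zero, map_zero]
  · intro t
    obtain ⟨b, s, hs, hbs⟩ := h.frac (toK x' t) ⟨t, rfl⟩
    have h1 : s ≠ 0 := fun h0 => hs (h0 ▸ p.zero_mem)
    have h2 : liftStalk D h.le s ≠ 0 := by
      intro h3
      apply h1
      apply Subtype.ext
      rw [← toK_liftStalk D h.le, h3, map_zero]
      rfl
    refine ⟨liftStalk D h.le b, liftStalk D h.le s, ?_, ?_, hintS b, hintS s⟩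
    · rw [isUnit_iff_inv_mem h2, toK_liftStalk]
      exact h.inv s hs
    · apply toK_injective x'
      rw [map_mul, toK_liftStalk, toK_liftStalk, hbs]

end Vale.Agent.P299.Q
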