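import Vale.Agent.P299.Q.Canon
import Vale.Agent.P299.Q.FlCenter
import Vale.Agent.P299.Q.FlLoc

/-!
# The flattening theorem: images of prime divisors
-/

open CategoryTheory TopologicalSpace Opposite TopCat AlgebraicGeometry Order IsLocalRing

namespace Vale.Agent.P299.Q

open Vale.Agent.P299.G

variable {X : Var}

/-- The local ring as a subring of the function field. -/
noncomputable def stalkHom (x : X.X) : locRing X x →+* X.X.presheaf.stalk x :=
  (RingEquiv.ofBijective (toK x).rangeRestrict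
    ⟨fun _ _ h => toK_injective x (congrArg Subtype.val h),
      (toK x).rangeRestrict_surjective⟩).symm.toRingHom

theorem toK_stalkHom (x : X.X) (a : locRing X x) : toK x (stalkHom x a) = a := by
  have h1 := (RingEquiv.ofBijective (toK x).rangeRestrict
    ⟨fun _ _ h => toK_injective x (congrArg Subtype.val h),
      (toK x).rangeRestrict_surjective⟩).apply_symm_apply a
  exact congrArg Subtype.val h1

/-- The embedding in a local ring. -/
noncomputable def liftStalk {x : X.X} (D : Subalgebra ℂ X.K) (h : ∀ d ∈ D, d ∈ locRing X x) :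
    D →+* X.X.presheaf.stalk x :=
  (stalkHom x).comp (D.val.toRingHom.codRestrict (locRing X x) fun d => h d d.2)

theorem toK_liftStalk {x : X.X} (D : Subalgebra ℂ X.K) (h : ∀ d ∈ D, d ∈ locRing X x) (d : D) :
    toK x (liftStalk D h d) = d := toK_stalkHom x _

theorem mem_locRing_of_isIntegral {x : X.X} (C : Subalgebra ℂ X.K)
    (h : ∀ d ∈ C, d ∈ locRing X x) {u : X.K} (hu : IsIntegral C u) : u ∈ locRing X x := by
  have h1 := isIntegrallyClosed_stalk_of_smooth X.X x
  obtain ⟨P, hP, hPe⟩ := hu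
  have h2 : IsIntegral (X.X.presheaf.stalk x) u := by
    refine ⟨P.map (liftStalk C h), hP.map _, ?_⟩
    rw [Polynomial.eval₂_map, ← hPe]
    congr 1
    ext d
    exact toK_liftStalk C h d
  exact IsIntegrallyClosed.isIntegral_iff.1 h2

/-- The constants in the local ring. -/
noncomputable def constHom (x : X.X) : ℂ →+* X.X.presheaf.stalk x :=
  (stalkHom x).comp ((algebraMap ℂ X.K).codRestrict (locRing X x) (const_mem_locRing x))

theorem toK_constHom (x : X.X) (c : ℂ) : toK x (constHom x c) = algebraMap ℂ X.K c :=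
  toK_stalkHom x _

/-- The field of fractions of the image of a chart. -/
theorem isFractionRing_of_chart {Z : Var} {μ : DomHom X Z} (hμ : μ.Birational) {x : X.X}
    {S : Set Z.K} (hS : IsChartAt Z S (μ.f x)) (C : Subalgebra ℂ X.K)
    (hC : ∀ a ∈ S, μ.pull a ∈ C) : IsFractionRing C X.K := by
  have hadj : ∀ a ∈ Algebra.adjoin ℂ S, μ.pull a ∈ C := by
    intro a ha
    refine Algebra.adjoin_induction hC (fun c => ?_)
      (fun x y _ _ hx hy => by rw [map_add]; exact add_mem hx hy)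
      (fun x y _ _ hx hy => by rw [map_mul]; exact mul_mem hx hy) ha
    rw [μ.pull_constant]
    exact C.algebraMap_mem c
  refine IsFractionRing.of_field C X.K fun w => ?_
  obtain ⟨g, rfl⟩ := hμ.2 w
  obtain ⟨a, b, hb, rfl⟩ := IsFractionRing.div_surjective (A := Z.X.presheaf.stalk (μ.f x)) g
  obtain ⟨a₁, ha₁, b₁, hb₁, -, hb₁0, hab₁⟩ := hS.2 (algebraMap _ Z.K a) ⟨a, rfl⟩
  obtain ⟨a₂, ha₂, b₂, hb₂, -, hb₂0, hab₂⟩ := hS.2 (algebraMap _ Z.K b) ⟨b, rfl⟩
  refine ⟨⟨μ.pull (a₁ * b₂), hadj _ (mul_mem ha₁ hb₂)⟩, ⟨μ.pull (b₁ * a₂),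
    hadj _ (mul_mem hb₁ ha₂)⟩, ?_⟩
  change _ = μ.pull (a₁ * b₂) / μ.pull (b₁ * a₂)
  rw [← map_div₀ μ.pull, hab₁, hab₂]
  congr 1
  rw [div_div_div_eq]

/-- A system of equations for the fibres of `Z' → Y`: any `m + 1` elements of the chart satisfy
an equation over the function field of `Y` which is nontrivial modulo every point. -/
def HasEquations {X Y : Var} (φ : DomHom X Y) (S : Set X.K) (m : ℕ) : Prop :=
  ∀ J : Fin (m + 1) → X.K, (∀ i, J i ∈ S) → ∃ F : MvPolynomial (Fin (m + 1)) Y.K,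
    F.eval₂ φ.pull J = 0 ∧ ∀ y : Y.X, ∃ a, F.coeff a ≠ 0 ∧
      ∀ b, F.coeff b / F.coeff a ∈ locRing Y y

section Star

variable {X Z Y : Var} {μ : DomHom X Z} (hμ : μ.Birational) (φ : DomHom X Y) (x : X.X)
  {SZ : Set Z.K} {SY : Set Y.K}

/-- The subalgebra generated by the coordinates of `Z` and `Y`. -/
noncomputable def coordAlg (μ : DomHom X Z) (φ : DomHom X Y) (SZ : Set Z.K) (SY : Set Y.K) :
    Subalgebra ℂ X.K := Algebra.adjoin ℂ (μ.pull '' SZ ∪ φ.pull '' SY)

theorem coordAlg_le {μ : DomHom X Z} {φ : DomHom X Y} {x : X.X}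
    (hZ : SZ ⊆ locRing Z (μ.f x)) (hY : SY ⊆ locRing Y (φ.f x)) :
    ∀ c ∈ coordAlg μ φ SZ SY, c ∈ locRing X x := by
  intro c hc
  refine adjoin_subset_locRing ?_ hc
  rintro _ (⟨f, hf, rfl⟩ | ⟨f, hf, rfl⟩)
  · exact pull_mem_locRing μ (hZ hf)
  · exact pull_mem_locRing φ (hY hf)

theorem pull_mem_coordAlg_left {μ : DomHom X Z} {φ : DomHom X Y} {a : Z.K}
    (ha : a ∈ Algebra.adjoin ℂ SZ) : μ.pull a ∈ coordAlg μ φ SZ SY := by
  refine Algebra.adjoin_induction (fun a ha => Algebra.subset_adjoin (Or.inl ⟨a, ha, rfl⟩))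
    (fun c => ?_) (fun x y _ _ hx hy => by rw [map_add]; exact add_mem hx hy)
    (fun x y _ _ hx hy => by rw [map_mul]; exact mul_mem hx hy) ha
  rw [μ.pull_constant]
  exact (coordAlg μ φ SZ SY).algebraMap_mem c

theorem pull_mem_coordAlg_right {μ : DomHom X Z} {φ : DomHom X Y} {a : Y.K}
    (ha : a ∈ Algebra.adjoin ℂ SY) : φ.pull a ∈ coordAlg μ φ SZ SY := by
  refine Algebra.adjoin_induction (fun a ha => Algebra.subset_adjoin (Or.inr ⟨a, ha, rfl⟩))
    (fun c => ?_) (fun x y _ _ hx hy => by rw [map_add]; exact add_mem hx hy)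
    (fun x y _ _ hx hy => by rw [map_mul]; exact mul_mem hx hy) ha
  rw [φ.pull_constant]
  exact (coordAlg μ φ SZ SY).algebraMap_mem c

/-- A valuation ring which contains `D` and in which the elements of `D` which are units at `x` are
units contains the local rings of the images of `x`. -/
theorem pull_mem_valuation {W : Var} {ψ : DomHom X W} {SW : Set W.K} {x : X.X}
    (hW : IsChartAt W SW (ψ.f x)) {D : Subalgebra ℂ X.K} {V : ValuationSubring X.K}
    (hV : ∀ d ∈ D, d ∈ V) (hVi : ∀ d ∈ D, d ≠ 0 → d⁻¹ ∈ locRing X x → d⁻¹ ∈ V)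
    (hD : ∀ a ∈ Algebra.adjoin ℂ SW, ψ.pull a ∈ D) (a : W.X.presheaf.stalk (ψ.f x)) :
    ψ.pull (toK (ψ.f x) a) ∈ V := by
  obtain ⟨b, hb, c, hc, hci, hc0, habc⟩ := hW.2 (toK (ψ.f x) a) ⟨a, rfl⟩
  rw [habc, map_div₀, div_eq_mul_inv]
  refine V.mul_mem _ _ (hV _ (hD b hb)) (hVi _ (hD c hc) (ψ.pull_ne_zero hc0) ?_)
  rw [← map_inv₀]
  exact pull_mem_locRing ψ hci

end Star

end Vale.Agent.P299.Q
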