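import Mathlib.AlgebraicGeometry.Morphisms.Proper
import Vale.Agent.P299.Q.Dom
import Vale.Agent.P299.Q.Hartogs

/-!
# Strict transforms of prime divisors under proper birational morphisms of schemes
-/

open CategoryTheory TopologicalSpace AlgebraicGeometry Order

universe u

namespace Vale.Agent.P299.Q

open Vale.Agent.P299.G

variable {X Y : Scheme.{u}} [IsIntegral X] [IsIntegral Y] (f : X ⟶ Y) [IsDominant f]

/-- For a birational morphism the local ring at a point over a prime divisor `y` is the local ring
at `y`. -/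
theorem stalkMap_bijective_of_fieldMap (hb : Function.Bijective (fieldMap f)) (x : X)
    [IsDiscreteValuationRing (Y.presheaf.stalk (f x))] :
    Function.Bijective (f.stalkMap x).hom := by
  refine ⟨Q.stalkMap_injective f x, fun b => ?_⟩
  obtain ⟨g, hg⟩ := hb.2 (algebraMap (X.presheaf.stalk x) X.functionField b)
  rcases ValuationRing.isInteger_or_isInteger (Y.presheaf.stalk (f x)) g with h | h
  · obtain ⟨a, ha⟩ := h
    refine ⟨a, ?_⟩
    have h1 := fieldMap_algebraMap f x a
    rw [ha, hg] at h1
    exact (FaithfulSMul.algebraMap_injective _ _ h1).symm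
  · obtain ⟨a, ha⟩ := h
    by_cases hg0 : g = 0
    · refine ⟨0, ?_⟩
      rw [hg0, map_zero] at hg
      rw [map_zero]
      exact (FaithfulSMul.algebraMap_injective _ _ (by rw [← hg, map_zero])).symm.symm
    have h1 := fieldMap_algebraMap f x a
    rw [ha, map_inv₀, hg] at h1
    have hb0 : algebraMap (X.presheaf.stalk x) X.functionField b ≠ 0 := by
      rw [← hg]; exact fieldMap_ne_zero f hg0
    have h2 : (f.stalkMap x).hom a * b = 1 := by
      apply FaithfulSMul.algebraMap_injective (X.presheaf.stalk x) X.functionField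
      rw [map_mul, map_one]
      have h3 : algebraMap (X.presheaf.stalk x) X.functionField ((f.stalkMap x).hom a) =
        (algebraMap (X.presheaf.stalk x) X.functionField b)⁻¹ := h1.symm
      rw [h3, inv_mul_cancel₀ hb0]
    have hu : IsUnit ((f.stalkMap x).hom a) := IsUnit.of_mul_eq_one _ h2
    have hu' : IsUnit a := isUnit_of_map_unit (f.stalkMap x).hom a hu
    obtain ⟨c, hc⟩ := hu'.exists_right_inv
    refine ⟨c, ?_⟩
    have h4 : (f.stalkMap x).hom a * (f.stalkMap x).hom c = 1 := by
      rw [← map_mul, hc, map_one]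
    calc (f.stalkMap x).hom c = ((f.stalkMap x).hom a * b) * (f.stalkMap x).hom c := by
          rw [h2, one_mul]
      _ = ((f.stalkMap x).hom a * (f.stalkMap x).hom c) * b := by ring
      _ = b := by rw [h4, one_mul]

/-- A point over a prime divisor of `Y` under a birational morphism is a prime divisor of `X` with
the same valuation. -/
theorem ord_fieldMap_of_birational [IsLocallyNoetherian X] [IsLocallyNoetherian Y]
    (hb : Function.Bijective (fieldMap f)) (x : X) (hy : coheight (f x) = 1)
    [IsDiscreteValuationRing (Y.presheaf.stalk (f x))] :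
    coheight x = 1 ∧ ∀ g : Y.functionField,
      Scheme.ord (fieldMap f g) x = Scheme.ord g (f x) := by
  have hbij := stalkMap_bijective_of_fieldMap f hb x
  let e : Y.presheaf.stalk (f x) ≃+* X.presheaf.stalk x :=
    RingEquiv.ofBijective (f.stalkMap x).hom hbij
  have hx : coheight x = 1 := by
    have h1 := ringKrullDim_eq_of_ringEquiv e
    rw [ringKrullDim_stalk_eq_coheight, ringKrullDim_stalk_eq_coheight, hy] at h1
    exact_mod_cast h1.symm
  refine ⟨hx, ?_⟩
  have hdvr : IsDiscreteValuationRing (X.presheaf.stalk x) :=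
    IsDiscreteValuationRing.RingEquivClass.isDiscreteValuationRing e
  obtain ⟨m, hm, h⟩ := exists_mult f x hx hy
  obtain ⟨ϖ, hϖ⟩ := IsDiscreteValuationRing.exists_irreducible (Y.presheaf.stalk (f x))
  have hϖ' : Irreducible ((f.stalkMap x).hom ϖ) := (MulEquiv.irreducible_iff e).2 hϖ
  have hϖ0 : algebraMap (Y.presheaf.stalk (f x)) Y.functionField ϖ ≠ 0 := by
    simpa using hϖ.ne_zero
  have hϖ0' : algebraMap (X.presheaf.stalk x) X.functionField ((f.stalkMap x).hom ϖ) ≠ 0 := by
    simpa using hϖ'.ne_zero
  have h1 := h _ hϖ0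
  have h2 : Scheme.ord (algebraMap (Y.presheaf.stalk (f x)) Y.functionField ϖ) (f x) = 1 := by
    rw [Scheme.ord_eq_iff hy hϖ0]
    exact Ring.ordFrac_irreducible hϖ
  have h3 : Scheme.ord (fieldMap f (algebraMap (Y.presheaf.stalk (f x)) Y.functionField ϖ)) x
      = 1 := by
    rw [fieldMap_algebraMap]
    exact (Scheme.ord_eq_iff hx hϖ0').2 (Ring.ordFrac_irreducible hϖ')
  rw [h2, h3] at h1
  intro g
  by_cases hg : g = 0
  · subst hg
    rw [map_zero]; simp
  · rw [h g hg]
    have : m = 1 := by linarith
    rw [this, one_mul]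

/-- Strict transforms of prime divisors. -/
theorem exists_strict_scheme [IsProper f] [IsLocallyNoetherian X] [IsLocallyNoetherian Y]
    (hb : Function.Bijective (fieldMap f)) (y : Y) (hy : coheight y = 1)
    [IsDiscreteValuationRing (Y.presheaf.stalk y)] :
    ∃ x : X, coheight x = 1 ∧ f x = y ∧
      ∀ g : Y.functionField, Scheme.ord (fieldMap f g) x = Scheme.ord g y := by
  have h : Surjective f := inferInstance
  obtain ⟨x, rfl⟩ := h.surj y
  obtain ⟨h1, h2⟩ := ord_fieldMap_of_birational f hb x hy
  exact ⟨x, h1, rfl, h2⟩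

end Vale.Agent.P299.Q
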