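import Vale.Agent.P299.Q.Canon
import Vale.Agent.P299.Q.StrictScheme
import Vale.Agent.P299.Q.BB0
import Vale.Agent.P299.Q.Flattening

/-!
# Flat models of rational fibrations
-/

open CategoryTheory TopologicalSpace Opposite TopCat AlgebraicGeometry Order

namespace Vale.Agent.P299.Q

open Vale.Agent.P299.G

/-- The properties of an equidimensional model. -/
theorem exists_flatSet (hFS : FactorialStalks) {Y Z Z' : Var} {Z₁ : Scheme.{0}} [IsIntegral Z₁]
    {a : Z'.X ⟶ Z₁} {b : Z₁ ⟶ Z.X} {c : Z₁ ⟶ Y.X} {μ : DomHom Z' Z} {φ : DomHom Z' Y}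
    (hn : ∀ z : Z₁, IsIntegrallyClosed (Z₁.presheaf.stalk z)) (hb : IsProper b)
    (ha : IsDominant a) (hμf : μ.f = a ≫ b) (hφf : φ.f = a ≫ c) (hμ : μ.Birational)
    (hflat : ∀ z : Z₁, coheight z = 1 → coheight (c z) ≤ 1) :
    ∃ W : Set Z'.X, (∀ x ∈ W, coheight x = 1 ∧ coheight (φ.f x) ≤ 1) ∧
      (∀ y : Y.X, coheight y = 1 → ∃ x ∈ W, φ.f x = y) ∧
      (∀ (s : Div Z.X) (s' : Div Z'.X) (R : Div Y.X) (R' : Div Z'.X), IsPullback μ s s' →
        IsPullback φ R R' → (∀ x ∈ W, coef R' x ≤ coef s' x) → R' ≤ s') := by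
  have hlN : IsLocallyNoetherian Z₁ := LocallyOfFiniteType.isLocallyNoetherian b
  -- the morphism `a` is proper and birational
  have hμd := μ.isDominant
  have hφd := φ.isDominant
  have hab : IsDominant (a ≫ b) := by rw [← hμf]; exact hμd
  have hac : IsDominant (a ≫ c) := by rw [← hφf]; exact hφd
  have hbd : IsDominant b := IsDominant.of_comp a b
  have hcd : IsDominant c := IsDominant.of_comp a c
  have hap : IsProper a := by
    have h1 : IsProper (a ≫ b) := by
      rw [← hμf]
      infer_instance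
    exact IsProper.of_comp a b
  have hpullμ : ∀ g : Z.K, μ.pull g = fieldMap a (fieldMap b g) := by
    intro g
    rw [← fieldMap_comp]
    have h1 : ∀ (f : Z'.X ⟶ Z.X) (hf : IsDominant f), μ.f = f → μ.pull g = fieldMap f g := by
      intro f hf h
      subst h
      rfl
    exact h1 _ _ hμf
  have hpullφ : ∀ g : Y.K, φ.pull g = fieldMap a (fieldMap c g) := by
    intro g
    rw [← fieldMap_comp]
    have h1 : ∀ (f : Z'.X ⟶ Y.X) (hf : IsDominant f), φ.f = f → φ.pull g = fieldMap f g := by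
      intro f hf h
      subst h
      rfl
    exact h1 _ _ hφf
  have habij : Function.Bijective (fieldMap a) := by
    refine ⟨fieldMap_injective a, fun u => ?_⟩
    obtain ⟨g, hg⟩ := hμ.2 u
    exact ⟨fieldMap b g, by rw [← hpullμ, hg]⟩
  have hdvr : ∀ z : Z₁, coheight z = 1 → IsDiscreteValuationRing (Z₁.presheaf.stalk z) :=
    dvr_of_normal hn
  -- strict transforms of the prime divisors of `Z₁`
  have hstrict : ∀ z : Z₁, coheight z = 1 → ∃ x : Z'.X, coheight x = 1 ∧ a x = z ∧
      ∀ g : Z₁.functionField, Scheme.ord (fieldMap a g) x = Scheme.ord g z := by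
    intro z hz
    have := hdvr z hz
    exact exists_strict_scheme a habij z hz
  have hφx : ∀ x : Z'.X, φ.f x = c (a x) := by
    intro x
    rw [hφf]
    simp
  have hμx : ∀ x : Z'.X, μ.f x = b (a x) := by
    intro x
    rw [hμf]
    simp
  refine ⟨{x | coheight x = 1 ∧ coheight (a x) = 1}, ?_, ?_, ?_⟩
  · rintro x ⟨hx, hax⟩
    refine ⟨hx, ?_⟩
    rw [hφx]
    exact hflat _ hax
  · intro y hy
    obtain ⟨x₀, hx₀⟩ := φ.surjective y
    have hcz : c (a x₀) = y := by rw [← hφx, hx₀]
    subst hcz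
    have := Y.dvr _ hy
    obtain ⟨ϖ, hϖ⟩ := IsDiscreteValuationRing.exists_irreducible
      (Y.X.presheaf.stalk (c (a x₀)))
    have h1 : c.stalkMap (a x₀) ϖ ≠ 0 := by
      intro h0
      apply hϖ.ne_zero
      apply Q.stalkMap_injective c (a x₀)
      rw [h0]
      exact (map_zero (c.stalkMap (a x₀)).hom).symm
    have h2 : ¬ IsUnit ((c.stalkMap (a x₀)).hom ϖ) := fun hu =>
      hϖ.not_isUnit (isUnit_of_map_unit (c.stalkMap (a x₀)).hom ϖ hu)
    obtain ⟨w, hw, hw1, hmem⟩ := exists_codim_one_of_mem h1 h2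
    have hcw : c w ⤳ c (a x₀) := hw.map c.continuous
    have hcw2 : c w = c (a x₀) := by
      by_contra hne
      -- then `c w` is the generic point and `ϖ` is a unit there
      have h3 : primeAt hcw = ⊥ := by
        by_contra h0
        have h4 : (primeAt hcw) = IsLocalRing.maximalIdeal _ :=
          IsLocalRing.eq_maximalIdeal (Ideal.IsPrime.isMaximal inferInstance h0)
        have h5 : primeAt (specializes_refl (c (a x₀))) = IsLocalRing.maximalIdeal _ := by
          ext t
          rw [mem_primeAt, IsLocalRing.mem_maximalIdeal]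
          have h6 : toStalk (specializes_refl (c (a x₀))) t = t := by
            apply toK_injective
            rw [toK_toStalk]
          rw [h6]
          rfl
        exact hne (eq_of_primeAt_eq hcw (specializes_refl _) (h4.trans h5.symm))
      have h4 : ϖ ∉ primeAt hcw := by
        rw [h3, Ideal.mem_bot]
        exact hϖ.ne_zero
      rw [mem_primeAt, not_not] at h4
      have h5 : (c.stalkMap w).hom (toStalk hcw ϖ) = toStalk hw ((c.stalkMap (a x₀)).hom ϖ) := by
        have h6 := Scheme.Hom.stalkSpecializes_stalkMap c w (a x₀) hw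
        exact congrArg (fun F => F.hom ϖ) h6
      rw [mem_primeAt] at hmem
      apply hmem
      have h7 := h4.map (c.stalkMap w).hom
      rw [h5] at h7
      exact h7
    obtain ⟨x, hx1, hx2, -⟩ := hstrict w hw1
    refine ⟨x, ⟨hx1, by rw [hx2]; exact hw1⟩, ?_⟩
    rw [hφx, hx2, hcw2]
  · intro s s' R R' hs hR hle x
    have hFZ := hFS Z (μ.f x.1)
    have hFY := hFS Y (φ.f x.1)
    obtain ⟨l, hl⟩ := exists_genAt (-s) (μ.f x.1)
    obtain ⟨r, hr⟩ := exists_genAt (-R) (φ.f x.1)
    have hl0 := hl.ne_zero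
    have hr0 := hr.ne_zero
    have hcs : ∀ x' : Z'.X, coheight x' = 1 → μ.f x' ⤳ μ.f x.1 →
        coef s' x' = Scheme.ord (μ.pull l) x' := by
      intro x' hx' hsp
      have h1 := hs.neg.ord_pull hFS hx' (hl.of_specializes hsp)
      rw [coef_neg] at h1
      linarith
    have hcR : ∀ x' : Z'.X, coheight x' = 1 → φ.f x' ⤳ φ.f x.1 →
        coef R' x' = Scheme.ord (φ.pull r) x' := by
      intro x' hx' hsp
      have h1 := hR.neg.ord_pull hFS hx' (hr.of_specializes hsp)
      rw [coef_neg] at h1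
      linarith
    have hbl0 : fieldMap b l ≠ 0 := fieldMap_ne_zero b hl0
    have hcr0 : fieldMap c r ≠ 0 := fieldMap_ne_zero c hr0
    have hu0 : fieldMap b l / fieldMap c r ≠ 0 := div_ne_zero hbl0 hcr0
    have hu : ∀ x' : Z'.X, coheight x' = 1 → μ.f x' ⤳ μ.f x.1 → φ.f x' ⤳ φ.f x.1 →
        Scheme.ord (fieldMap a (fieldMap b l / fieldMap c r)) x' = coef s' x' - coef R' x' := by
      intro x' hx' h1 h2
      rw [map_div₀, ord_div (fieldMap_ne_zero a hbl0) (fieldMap_ne_zero a hcr0), ← hpullμ,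
        ← hpullφ, hcs x' hx' h1, hcR x' hx' h2]
    obtain ⟨v, hv⟩ := exists_of_forall_ord_nonneg_normal hn (a x.1)
      (fieldMap b l / fieldMap c r) hu0 fun w hw hwx => by
        obtain ⟨x', hx1, hx2, hx3⟩ := hstrict w hw
        have hax : a x' ⤳ a x.1 := by rw [hx2]; exact hwx
        have h1 : μ.f x' ⤳ μ.f x.1 := by
          rw [hμx, hμx]
          exact hax.map b.continuous
        have h2 : φ.f x' ⤳ φ.f x.1 := by
          rw [hφx, hφx]
          exact hax.map c.continuous
        have h3 := hu x' hx1 h1 h2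
        rw [hx3] at h3
        have h4 := hle x' ⟨hx1, by rw [hx2]; exact hw⟩
        rw [h3]
        linarith
    have h1 := ord_fieldMap_nonneg a x.1 v
    have h2 := hu x.1 x.2 (specializes_refl _) (specializes_refl _)
    have h3 : algebraMap (Z₁.presheaf.stalk (a x.1)) Z₁.functionField v =
        fieldMap b l / fieldMap c r := hv
    rw [h3, h2, coef_val, coef_val] at h1
    change R' x ≤ s' x
    linarith

/-- The models `Z' → Z`, `Z' → Y` given by the flattening theorem. -/
theorem flatModels (hFS : FactorialStalks) (hFl : Flattening) : FlatModels := by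
  intro Z κ hκ k
  obtain ⟨Y, Z', Z₁, hint, a, b, c, μ, φ, hn, hb, ha, hμf, hφf, hμ, hk, hflat⟩ := hFl Z k
  obtain ⟨κ', κ₀, E, hE⟩ := exists_relative_canonical hFS hμ hκ
  obtain ⟨W, h1, h2, h3⟩ := exists_flatSet hFS hn hb ha hμf hφf hμ hflat
  exact ⟨Y, Z', μ, φ, W, κ', κ₀, E, hμ, hk, h1, h2, h3, hE⟩

end Vale.Agent.P299.Q
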