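import Vale.Agent.P299.Q.Core
import Vale.Agent.P299.Q.Norm
import Vale.Agent.P299.Q.BB2
import Vale.Agent.P299.Q.Const

/-!
# Anticanonical nonvanishing
-/

open CategoryTheory TopologicalSpace Opposite TopCat AlgebraicGeometry Order

namespace Vale.Agent.P299.Q

lemma TAct.one_mem_inv {r : ℕ} {X : Var} (τ : TAct r X) : (1 : X.K) ∈ τ.inv := fun t => map_one _

/-- `p(0) = 1` in the index theorem, when the higher cohomology of `O_X` has no invariants. -/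
lemma index_at_zero (hFS : FactorialStalks) {r : ℕ} {X : Var} (τ : TAct r X) {N : ℕ}
    (L : Div X.X) {p : Polynomial ℚ}
    (hp : ∀ k : ℕ, ∑ i ∈ Finset.range (X.dim + 1),
      (-1 : ℚ) ^ i * τ.h (k • (N • L)) i = p.eval (k : ℚ)) (h0 : ∀ i > 0, τ.h 0 i = 0) :
    p.eval 0 = 1 := by
  have h1 := hp 0
  rw [zero_smul, Finset.sum_range_succ'] at h1
  have h2 : τ.h 0 0 = 1 := hh_zero_zero X (hFS X) (S := τ.space) id τ.inv τ.one_mem_inv
  rw [h2, Finset.sum_eq_zero] at h1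
  · simpa using h1.symm
  · intro i _
    rw [h0 _ (Nat.succ_pos i)]
    simp

/-- **Anticanonical nonvanishing** (Q1), from the published theorems listed as hypotheses. -/
theorem anticanonicalNonvanishing (hFS : FactorialStalks) (hInt : IntersectionTheory)
    (hSiu : SiuCriterion) (hLef : ∀ r, HardLefschetzAt r) (hKV : ∀ r, KawamataViehwegAt r)
    (hSPN : SemiPosNef) (hGN : GenericNefness) (hKN : ∀ r, KollarNadelVanishingAt r)
    (hNak : NakayamaCriterion) (hSn : ∀ r, SnapperTheoremAt r) (hFM : ∀ r, FlatModelsAt r)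
    (hST : StructureTheorem) (hII : InvariantIndex) :
    AnticanonicalNonvanishing := by
  intro X κ hκ hSP
  obtain ⟨Xc, π, Z, r, τ, κZ, κc, ι, g, hfin, -, hpb, heff, hcan, hinv, hSPZ, hh0, hιinj, hg,
    hιsec⟩ := hST X κ hκ hSP
  obtain ⟨N, p, hN, hp⟩ := hII r Z τ κZ heff hcan hinv (hSPN _ _ hSPZ)
  have hp0 : p.eval 0 ≠ 0 := by
    rw [index_at_zero hFS τ (-κZ) hp hh0]
    exact one_ne_zero
  obtain ⟨m, hm, f, hf, hf0, hfs⟩ := core hFS hInt hSiu (hLef r) (hKV r) hSPN hGN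
    (hKN r) hNak (hSn r) (hFM r) τ hcan hinv hSPZ hN hp0 hp
  have h1 : g ^ m * ι ⟨f, hf⟩ ∈ H0 (coef (m • -κc)) := hιsec m ⟨f, hf⟩ hfs
  have h2 : g ^ m * ι ⟨f, hf⟩ ≠ 0 := by
    refine mul_ne_zero (pow_ne_zero _ hg) fun h0 => hf0 ?_
    exact congrArg Subtype.val (hιinj _ h0)
  obtain ⟨d, hd, hnorm⟩ := exists_norm π hFS
  obtain ⟨s, hs, hs0⟩ := hnorm (m • -κ) (m • -κc) (hpb.neg.nsmul m) _ h1 h2
  refine ⟨d * m, Nat.mul_pos hd hm, H0_ne_bot_iff.2 ⟨s, ?_, hs0⟩⟩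
  rwa [mul_smul]

end Vale.Agent.P299.Q
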