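import Mathlib.RingTheory.NoetherNormalization
import Mathlib.RingTheory.DedekindDomain.IntegralClosure
import Mathlib.RingTheory.Valuation.LocalSubring
import Mathlib.RingTheory.Localization.FractionRing
import Mathlib.RingTheory.Polynomial.RationalRoot
import Mathlib.FieldTheory.IntermediateField.Adjoin.Algebra
import Mathlib.FieldTheory.Separable
import Mathlib.FieldTheory.Perfect
import Mathlib.RingTheory.Polynomial.UniqueFactorization
import Mathlib.Data.Complex.Basic

/-!
# Finiteness of the homogeneous parts of a graded ring of sections (the algebra)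
-/

namespace Vale.Agent.P299.Q

open Polynomial

/-- Let `K` be an extension field of `k`, `s_1, …, s_N ∈ K`, such that the elements `s_j X`
generate the field `K(X)`. Let `V ⊆ K` be a subspace such that, for all `f ∈ V`, the element
`f X^e` belongs to all the valuation rings of `K(X)` which contain `k` and the `s_j X`. Then `V` has
finite dimension. -/
theorem finiteDimensional_of_valuation {k K : Type} [Field k] [CharZero k] [Field K] [Algebra k K]
    {T : Type} [Finite T] (s : T → K)
    (hgen : ∀ S : Subfield (FractionRing K[X]),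
      (∀ c : k, algebraMap K[X] (FractionRing K[X]) (C (algebraMap k K c)) ∈ S) →
      (∀ j, algebraMap K[X] (FractionRing K[X]) (C (s j) * X) ∈ S) → S = ⊤)
    (e : ℕ) (V : Submodule k K)
    (hV : ∀ f ∈ V, ∀ W : ValuationSubring (FractionRing K[X]),
      (∀ c : k, algebraMap K[X] (FractionRing K[X]) (C (algebraMap k K c)) ∈ W) →
      (∀ j, algebraMap K[X] (FractionRing K[X]) (C (s j) * X) ∈ W) →
      algebraMap K[X] (FractionRing K[X]) (C f * X ^ e) ∈ W) :
    Module.Finite k V := by
  classical
  set L := FractionRing K[X] with hL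
  set ι : K[X] →+* L := algebraMap K[X] L with hι
  have hιinj : Function.Injective ι := IsFractionRing.injective K[X] L
  have hcst : ∀ c : k, algebraMap k L c = ι (C (algebraMap k K c)) := by
    intro c
    rw [IsScalarTower.algebraMap_apply k K[X] L]
    rfl
  -- the algebra generated by the `s_j X`
  set P : Subalgebra k L := Algebra.adjoin k (Set.range fun j => ι (C (s j) * X)) with hP
  have hPfg : P.FG := Subalgebra.fg_def.2 ⟨_, Set.finite_range _, rfl⟩
  have hPft : Algebra.FiniteType k P := (Subalgebra.fg_iff_finiteType P).1 hPfg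
  obtain ⟨d, g, hg, hgfin⟩ := exists_finite_inj_algHom_of_fg k P
  set A := MvPolynomial (Fin d) k with hA
  let ψ : A →ₐ[k] L := P.val.comp g
  have hψinj : Function.Injective ψ := Subtype.val_injective.comp hg
  let algAL : Algebra A L := ψ.toRingHom.toAlgebra
  have hAL : ∀ a : A, algebraMap A L a = (g a : L) := fun a => rfl
  have : FaithfulSMul A L := (faithfulSMul_iff_algebraMap_injective A L).2 hψinj
  have : IsScalarTower k A L := IsScalarTower.of_algebraMap_eq fun c => by
    rw [hAL]
    have : g (algebraMap k A c) = algebraMap k P c := g.commutes c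
    rw [this]
    rfl
  -- elements of `P` are integral over `A`
  have hPint : ∀ p : P, IsIntegral A (p : L) := by
    intro p
    have h1 : g.toRingHom.IsIntegralElem p := hgfin.to_isIntegral p
    obtain ⟨q, hq, hqp⟩ := h1
    refine ⟨q, hq, ?_⟩
    have h3 : eval₂ g.toRingHom p q = 0 := hqp
    have h4 := Polynomial.hom_eval₂ q g.toRingHom (P.val : P →+* L) p
    rw [h3, map_zero] at h4
    exact h4.symm
  have hmemP : ∀ j, ι (C (s j) * X) ∈ P := fun j => Algebra.subset_adjoin ⟨j, rfl⟩
  let F := FractionRing A
  let algFL : Algebra F L := FractionRing.liftAlgebra A L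
  have : IsScalarTower A F L := FractionRing.isScalarTower_liftAlgebra A L
  have hfin : FiniteDimensional F L := by
    let E : IntermediateField F L := IntermediateField.adjoin F (Set.range fun j => ι (C (s j) * X))
    have hE : E = ⊤ := by
      have h1 : E.toSubfield = ⊤ := by
        refine hgen E.toSubfield (fun c => ?_) fun j => ?_
        · have h2 : ι (C (algebraMap k K c)) = algebraMap F L (algebraMap A F (algebraMap k A c)) := by
            rw [← hcst, ← IsScalarTower.algebraMap_apply A F L, ← IsScalarTower.algebraMap_apply k A L]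
          rw [h2]
          exact E.algebraMap_mem _
        · exact IntermediateField.subset_adjoin F _ ⟨j, rfl⟩
      rw [eq_top_iff]
      intro x _
      have : x ∈ E.toSubfield := by rw [h1]; trivial
      exact this
    have h3 : FiniteDimensional F E := by
      refine IntermediateField.finiteDimensional_adjoin ?_
      rintro _ ⟨j, rfl⟩
      exact (hPint ⟨_, hmemP j⟩).tower_top
    rw [hE] at h3
    exact Module.Finite.equiv (IntermediateField.topEquiv (F := F) (E := L)).toLinearEquiv
  have hnoeth : IsNoetherian A (integralClosure A L) :=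
    IsIntegralClosure.isNoetherian A F L (integralClosure A L)
  -- the elements `f X^e` are integral over `A`
  have hint : ∀ f ∈ V, IsIntegral A (ι (C f * X ^ e)) := by
    intro f hf
    by_contra hcon
    have h1 : ι (C f * X ^ e) ∉ (integralClosure A L).toSubring := hcon
    have : IsIntegrallyClosedIn (integralClosure A L).toSubring L :=
      inferInstanceAs (IsIntegrallyClosedIn (integralClosure A L) L)
    obtain ⟨W, hW, hfW⟩ := Subring.exists_le_valuationSubring_of_isIntegrallyClosedIn h1
    refine hfW (hV f hf W (fun c => hW ?_) fun j => hW ?_)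
    · change IsIntegral A (ι (C (algebraMap k K c)))
      rw [← hcst]
      exact hPint (algebraMap k P c)
    · exact hPint ⟨_, hmemP j⟩
  -- elements of `P` are polynomials with constant coefficient in `k`
  let Q₀ : Subalgebra k K[X] :=
    { carrier := {p | ∃ c : k, p.coeff 0 = algebraMap k K c}
      mul_mem' := by
        rintro p q ⟨c, hc⟩ ⟨c', hc'⟩
        exact ⟨c * c', by rw [Polynomial.mul_coeff_zero, hc, hc', map_mul]⟩
      add_mem' := by
        rintro p q ⟨c, hc⟩ ⟨c', hc'⟩
        exact ⟨c + c', by rw [Polynomial.coeff_add, hc, hc', map_add]⟩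
      algebraMap_mem' := fun c => ⟨c, by
        change (C (algebraMap k K c)).coeff 0 = _
        rw [Polynomial.coeff_C_zero]⟩ }
  have hPQ : ∀ p ∈ P, ∃ q : K[X], (∃ c : k, q.coeff 0 = algebraMap k K c) ∧ ι q = p := by
    intro p hp
    have h1 : P ≤ Q₀.map (IsScalarTower.toAlgHom k K[X] L) := by
      refine Algebra.adjoin_le ?_
      rintro _ ⟨j, rfl⟩
      exact ⟨C (s j) * X, ⟨0, by simp⟩, rfl⟩
    obtain ⟨q, hq, hqp⟩ := h1 hp
    exact ⟨q, hq, hqp⟩
  -- finite generation
  let S : Set L := {x | ∃ f ∈ V, x = ι (C f * X ^ e)}
  have hle : Submodule.span A S ≤ Subalgebra.toSubmodule (integralClosure A L) := by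
    rw [Submodule.span_le]
    rintro _ ⟨f, hf, rfl⟩
    exact hint f hf
  have hfg : (Submodule.span A S).FG := by
    have h1 : IsNoetherian A (Subalgebra.toSubmodule (integralClosure A L)) := hnoeth
    exact (isNoetherian_of_le hle).noetherian ⊤ |> fun h => by
      have := Submodule.fg_top (Submodule.span A S)
      exact this.1 h
  obtain ⟨S', hS'S, hS'⟩ := (Submodule.fg_span_iff_fg_span_finset_subset S).1 hfg
  choose! φ hφV hφ using fun (x : L) (hx : x ∈ (S' : Set L)) => hS'S hx
  have hspan : V ≤ Submodule.span k (φ '' (S' : Set L)) := by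
    intro f hf
    have h1 : ι (C f * X ^ e) ∈ Submodule.span A (S' : Set L) := by
      rw [← hS']
      exact Submodule.subset_span ⟨f, hf, rfl⟩
    obtain ⟨a, -, ha⟩ := Submodule.mem_span_finset.1 h1
    choose q hq hqa using fun x : L => hPQ (g (a x)) (g (a x)).2
    choose c hc using hq
    have h2 : C f * X ^ e = ∑ x ∈ S', q x * (C (φ x) * X ^ e) := by
      apply hιinj
      rw [← ha, map_sum]
      refine Finset.sum_congr rfl fun x hx => ?_
      rw [map_mul, hqa, Algebra.smul_def, hAL, ← hφ x hx]
    have h3 := congrArg (fun p : K[X] => p.coeff e) h2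
    simp only [Polynomial.finsetSum_coeff] at h3
    rw [Polynomial.coeff_C_mul_X_pow, if_pos rfl] at h3
    rw [h3]
    refine Submodule.sum_mem _ fun x hx => ?_
    have h4 : (q x * (C (φ x) * X ^ e)).coeff e = c x • φ x := by
      have h5 := Polynomial.coeff_mul_X_pow (q x * C (φ x)) e 0
      rw [zero_add] at h5
      rw [← mul_assoc, h5, Polynomial.coeff_mul_C, hc, Algebra.smul_def]
    rw [h4]
    exact Submodule.smul_mem _ _ (Submodule.subset_span ⟨x, hx, rfl⟩)
  have hfinspan : Module.Finite k (Submodule.span k (φ '' (S' : Set L))) :=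
    Module.Finite.span_of_finite k ((S'.finite_toSet).image φ)
  exact Submodule.finiteDimensional_of_le hspan

end Vale.Agent.P299.Q
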