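import Vale.Agent.P299.Q.BB0

/-!
# Intersection numbers: the published theorems
-/

open CategoryTheory TopologicalSpace Opposite TopCat AlgebraicGeometry Order

namespace Vale.Agent.P299.Q

/-- [Kleiman, Toward a numerical theory of ampleness] If `D_i` is effective and the other divisors
are nef, then `D_1 ⋯ D_n ≥ 0`; and `H^n > 0` if `H` is ample. -/
def IntersectionPositivity : Prop :=
  (∀ (X : Var) (D : Fin X.dim → Div X.X) (i : Fin X.dim), 0 ≤ D i → (∀ j ≠ i, IsNef (D j)) →
    0 ≤ inter D) ∧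
  ∀ (X : Var) (H : Div X.X), IsAmple H → 0 < inter (fun _ : Fin X.dim => H)

/-- [Kleiman, Ch. I, Prop. 6; Debarre, Prop. 1.10] The projection formula for a birational
morphism `μ : X → Y`: `D_1 · μ^*B_2 ⋯ μ^*B_n = (μ_* D_1) · B_2 ⋯ B_n`. -/
def ProjectionFormula : Prop :=
  ∀ (X Y : Var) (μ : DomHom X Y), μ.Birational → ∀ (h : X.dim = Y.dim)
    (D : Fin X.dim → Div X.X) (B : Fin Y.dim → Div Y.X) (i : Fin X.dim),
    (∀ x : X.X, coheight (μ.f x) = 1 → coef (D i) x = coef (B (Fin.cast h i)) (μ.f x)) →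
    (∀ j ≠ i, IsPullback μ (B (Fin.cast h j)) (D j)) → inter D = inter B

end Vale.Agent.P299.Q
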