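import Mathlib.LinearAlgebra.Alternating.Uncurry.Fin
import Vale.Agent.P299.Q.ConstExact

/-!
# The Koszul complex of subsheaves of a constant sheaf
-/

open CategoryTheory TopologicalSpace Opposite TopCat

namespace Vale.Agent.P299.Q

section Algebra

variable {N : ℕ} {K : Type} [Field K] [Algebra ℂ K]

/-- The `p`-th term of the Koszul complex: the alternating `p`-forms on `ℂ^N` with values
in `K`. -/
abbrev Kz (N p : ℕ) (K : Type) [Field K] [Algebra ℂ K] : Type :=
  (Fin N → ℂ) [⋀^Fin p]→ₗ[ℂ] K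

/-- The Koszul differential: contraction with `s ∈ K^N`. -/
noncomputable def contr (s : Fin N → K) (p : ℕ) : Kz N (p + 1) K →ₗ[ℂ] Kz N p K where
  toFun ω := ∑ j, s j • ω.curryLeft (Pi.single j 1)
  map_add' ω ω' := by
    simp only [AlternatingMap.curryLeft_add, LinearMap.add_apply, smul_add, Finset.sum_add_distrib]
  map_smul' c ω := by
    simp only [AlternatingMap.curryLeft_smul, LinearMap.smul_apply, RingHom.id_apply,
      Finset.smul_sum]
    exact Finset.sum_congr rfl fun j _ => smul_comm _ _ _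

theorem alt_sum_apply {ι : Type} {p : ℕ} (S : Finset ι) (f : ι → Kz N p K)
    (w : Fin p → Fin N → ℂ) : (∑ j ∈ S, f j) w = ∑ j ∈ S, f j w := by
  classical
  induction S using Finset.induction_on with
  | empty => simp
  | insert a S ha ih => rw [Finset.sum_insert ha, Finset.sum_insert ha, AlternatingMap.add_apply, ih]

theorem contr_apply (s : Fin N → K) (p : ℕ) (ω : Kz N (p + 1) K) (w : Fin p → Fin N → ℂ) :
    contr s p ω w = ∑ j, s j * ω (Matrix.vecCons (Pi.single j 1) w) := by
  unfold contr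
  change (∑ j, s j • ω.curryLeft (Pi.single j 1)) w = _
  rw [alt_sum_apply]
  rfl

theorem contr_contr (s : Fin N → K) (p : ℕ) (ω : Kz N (p + 2) K) :
    contr s p (contr s (p + 1) ω) = 0 := by
  ext w
  rw [contr_apply]
  simp only [contr_apply, AlternatingMap.zero_apply, Finset.mul_sum]
  have h1 : ∀ j k : Fin N, ω (Matrix.vecCons (Pi.single k 1) (Matrix.vecCons (Pi.single j 1) w)) =
      - ω (Matrix.vecCons (Pi.single j 1) (Matrix.vecCons (Pi.single k 1) w)) := by
    intro j k
    have h := ω.map_swap (Matrix.vecCons (Pi.single j 1) (Matrix.vecCons (Pi.single k 1) w))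
      (i := 0) (j := 1) (by simp)
    rw [← h]
    congr 1
    funext i
    refine Fin.cases ?_ (fun i => Fin.cases ?_ (fun i => ?_) i) i
    · simp
    · simp
    · rw [Function.comp_apply, Equiv.swap_apply_of_ne_of_ne]
      · simp
      · simp [Fin.ext_iff]
      · simp [Fin.ext_iff]
  set S := ∑ j, ∑ k, s j * (s k * ω (Matrix.vecCons (Pi.single k 1)
    (Matrix.vecCons (Pi.single j 1) w))) with hS
  have h2 : S = -S := by
    conv_lhs => rw [hS, Finset.sum_comm]
    rw [hS, ← Finset.sum_neg_distrib]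
    refine Finset.sum_congr rfl fun j _ => ?_
    rw [← Finset.sum_neg_distrib]
    refine Finset.sum_congr rfl fun k _ => ?_
    rw [h1 k j]
    ring
  have h3 : (2 : K) * S = 0 := by linear_combination h2
  have : CharZero K := charZero_of_injective_algebraMap (algebraMap ℂ K).injective
  exact (mul_eq_zero.1 h3).resolve_left two_ne_zero

/-- The contracting homotopy, where the `j₀`-th section is invertible. -/
noncomputable def homot (c : K) (j₀ : Fin N) {p : ℕ} (ω : Kz N p K) : Kz N (p + 1) K :=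
  AlternatingMap.alternatizeUncurryFin
    ((LinearMap.proj j₀ : (Fin N → ℂ) →ₗ[ℂ] ℂ).smulRight (c • ω))

theorem homot_apply (c : K) (j₀ : Fin N) {p : ℕ} (ω : Kz N p K) (w : Fin (p + 1) → Fin N → ℂ) :
    homot c j₀ ω w = ∑ i : Fin (p + 1), (-1) ^ (i : ℕ) • (w i j₀ • (c * ω (i.removeNth w))) := by
  unfold homot
  rw [AlternatingMap.alternatizeUncurryFin_apply]
  simp

theorem homot_zero (c : K) (j₀ : Fin N) {p : ℕ} : homot c j₀ (0 : Kz N p K) = 0 := by
  ext w
  simp [homot_apply]

theorem contr_homot_zero (s : Fin N → K) (c : K) (j₀ : Fin N) (ω : Kz N 0 K) :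
    contr s 0 (homot c j₀ ω) = (s j₀ * c) • ω := by
  ext w
  rw [contr_apply]
  simp only [homot_apply]
  rw [Finset.sum_eq_single j₀]
  · simp [Subsingleton.elim _ w]
    ring
  · intro j _ hj
    simp [Pi.single_apply, hj.symm]
  · intro h
    exact absurd (Finset.mem_univ _) h

theorem contr_homot (s : Fin N → K) (c : K) (j₀ : Fin N) {p : ℕ} (ω : Kz N (p + 1) K) :
    contr s (p + 1) (homot c j₀ ω) = (s j₀ * c) • ω - homot c j₀ (contr s p ω) := by
  ext w
  rw [contr_apply]
  simp only [homot_apply, AlternatingMap.sub_apply, AlternatingMap.smul_apply, contr_apply]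
  have h1 : ∀ (j : Fin N) (k : Fin (p + 1)),
      (k.succ).removeNth (Matrix.vecCons (Pi.single j (1 : ℂ)) w) =
        Matrix.vecCons (Pi.single j 1) (k.removeNth w) := by
    intro j k
    funext i
    refine Fin.cases ?_ (fun i => ?_) i
    · simp [Fin.removeNth]
    · simp [Fin.removeNth, Fin.succ_succAbove_succ]
  have h2 : ∀ j : Fin N, (0 : Fin (p + 2)).removeNth (Matrix.vecCons (Pi.single j (1 : ℂ)) w) = w := by
    intro j
    funext i
    simp [Fin.removeNth]
  simp only [Fin.sum_univ_succ (n := p + 1), h1, h2, Matrix.cons_val_zero, Matrix.cons_val_succ,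
    Fin.val_zero, pow_zero, one_smul, Fin.val_succ, mul_add, Finset.sum_add_distrib]
  rw [sub_eq_add_neg]
  congr 1
  · rw [Finset.sum_eq_single j₀]
    · simp
      ring
    · intro j _ hj
      simp [hj.symm]
    · intro h
      exact absurd (Finset.mem_univ _) h
  · simp only [Finset.mul_sum]
    rw [Finset.sum_comm, ← Finset.sum_neg_distrib]
    refine Finset.sum_congr rfl fun k _ => ?_
    rw [Finset.smul_sum, Finset.smul_sum, ← Finset.sum_neg_distrib]
    refine Finset.sum_congr rfl fun j _ => ?_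
    simp only [pow_succ, Algebra.smul_def, zsmul_eq_mul]
    push_cast
    ring

end Algebra

section Retract

variable {T : TopCat.{0}} [PreirreducibleSpace T] {K₁ K₂ : Type} [AddCommGroup K₁] [Module ℂ K₁]
  [AddCommGroup K₂] [Module ℂ K₂]

/-- If the identity of `(K₁, M₁)` is a sum of maps which factor through `(K₂, M₂)`, then the
vanishing of the cohomology of the second sheaf implies that of the first. -/
theorem subsingleton_coh_of_retract {M₁ : T → Submodule ℂ K₁} {M₂ : T → Submodule ℂ K₂}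
    {B : Type} [Fintype B] (π : B → K₁ →ₗ[ℂ] K₂) (ι : B → K₂ →ₗ[ℂ] K₁)
    (hπ : ∀ b x, ∀ f ∈ M₁ x, π b f ∈ M₂ x) (hι : ∀ b x, ∀ f ∈ M₂ x, ι b f ∈ M₁ x)
    (hid : ∀ f, ∑ b, ι b (π b f) = f) {n : ℕ} (h : Subsingleton (Coh (constSheaf M₂) n)) :
    Subsingleton (Coh (constSheaf M₁) n) := by
  have h1 : 𝟙 (constSheaf M₁) = ∑ b, constMap (π b) M₁ M₂ (hπ b) ≫ constMap (ι b) M₂ M₁ (hι b) := by
    apply CategoryTheory.Sheaf.hom_ext
    apply NatTrans.ext
    funext U
    apply ModuleCat.hom_ext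
    apply LinearMap.ext
    intro t
    let ev : (constSheaf M₁ ⟶ constSheaf M₁) →+ constSec M₁ U.unop :=
      { toFun := fun f => (f.hom.app U).hom t
        map_zero' := rfl
        map_add' := fun _ _ => rfl }
    change t = ev (∑ b, constMap (π b) M₁ M₂ (hπ b) ≫ constMap (ι b) M₂ M₁ (hι b))
    rw [map_sum]
    apply Subtype.ext
    funext x
    rw [AddSubmonoidClass.coe_finset_sum, Finset.sum_apply]
    exact (hid (t.1 x)).symm
  have h2 : ∀ x : Coh (constSheaf M₁) n, x = 0 := by
    intro x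
    rw [← Abelian.Ext.comp_mk₀_id x, h1, Abelian.Ext.mk₀_sum, Abelian.Ext.comp_sum]
    refine Finset.sum_eq_zero fun b _ => ?_
    rw [← Abelian.Ext.mk₀_comp_mk₀, ← Abelian.Ext.comp_assoc_of_third_deg_zero,
      Subsingleton.elim (α := Coh (constSheaf M₂) n)
        (x.comp (Abelian.Ext.mk₀ (constMap (π b) M₁ M₂ (hπ b))) (add_zero n)) 0,
      Abelian.Ext.zero_comp]
  exact ⟨fun x y => (h2 x).trans (h2 y).symm⟩

end Retract

section Koszul

variable {T : TopCat.{0}} {N : ℕ} {K : Type} [Field K] [Algebra ℂ K]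

/-- The alternating forms with values in `M x`. -/
def KzM (N p : ℕ) (M : T → Submodule ℂ K) (x : T) : Submodule ℂ (Kz N p K) where
  carrier := {ω | ∀ w, ω w ∈ M x}
  zero_mem' := fun _ => (M x).zero_mem
  add_mem' := fun h h' w => (M x).add_mem (h w) (h' w)
  smul_mem' := fun c _ h w => (M x).smul_mem c (h w)

theorem mem_KzM {p : ℕ} {M : T → Submodule ℂ K} {x : T} {ω : Kz N p K} :
    ω ∈ KzM N p M x ↔ ∀ w, ω w ∈ M x := Iff.rfl

/-- A form of degree `0` is a constant. -/
def ev0 (N : ℕ) (K : Type) [Field K] [Algebra ℂ K] : Kz N 0 K →ₗ[ℂ] K where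
  toFun ω := ω ![]
  map_add' _ _ := rfl
  map_smul' _ _ := rfl

/-- The form of degree `0` with a given value. -/
def const0 (N : ℕ) (K : Type) [Field K] [Algebra ℂ K] : K →ₗ[ℂ] Kz N 0 K where
  toFun g := AlternatingMap.constOfIsEmpty ℂ (Fin N → ℂ) (Fin 0) g
  map_add' _ _ := rfl
  map_smul' _ _ := rfl

/-- Contraction with the `j`-th basis vector. -/
def plug (j : Fin N) (p : ℕ) : Kz N (p + 1) K →ₗ[ℂ] Kz N p K where
  toFun ω := ω.curryLeft (Pi.single j 1)
  map_add' _ _ := rfl
  map_smul' _ _ := rfl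

/-- The wedge product with the `j`-th coordinate, divided by `p + 1`. -/
noncomputable def wedge (j : Fin N) (p : ℕ) : Kz N p K →ₗ[ℂ] Kz N (p + 1) K where
  toFun ω := ((p + 1 : ℕ) : ℂ)⁻¹ • homot (1 : K) j ω
  map_add' ω ω' := by
    rw [← smul_add]
    congr 1
    ext w
    simp only [homot_apply, AlternatingMap.add_apply, one_mul, smul_add, Finset.sum_add_distrib]
  map_smul' c ω := by
    rw [RingHom.id_apply, smul_comm c]
    congr 1
    ext w
    simp only [homot_apply, AlternatingMap.smul_apply, one_mul, Finset.smul_sum]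
    refine Finset.sum_congr rfl fun i _ => ?_
    rw [smul_comm (w i j) c, smul_comm ((-1 : ℤ) ^ (i : ℕ)) c]

theorem sum_wedge_plug (p : ℕ) (ω : Kz N (p + 1) K) : ∑ j, wedge j p (plug j p ω) = ω := by
  have h1 : ∑ j, homot (1 : K) j (plug j p ω) = (p + 1) • ω := by
    rw [← AlternatingMap.alternatizeUncurryFin_curryLeft]
    ext w
    rw [alt_sum_apply, AlternatingMap.alternatizeUncurryFin_apply]
    simp only [homot_apply, one_mul]
    rw [Finset.sum_comm]
    refine Finset.sum_congr rfl fun i _ => ?_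
    rw [← Finset.smul_sum]
    congr 1
    have h2 : w i = ∑ j, w i j • (Pi.single j (1 : ℂ) : Fin N → ℂ) := by
      funext k
      simp [Finset.sum_apply, Pi.single_apply]
    conv_rhs => rw [h2, map_sum, alt_sum_apply]
    refine Finset.sum_congr rfl fun j _ => ?_
    rw [map_smul]
    rfl
  have h3 : ∑ j, wedge j p (plug j p ω) = ((p + 1 : ℕ) : ℂ)⁻¹ • ∑ j, homot (1 : K) j (plug j p ω) := by
    rw [Finset.smul_sum]
    rfl
  rw [h3, h1, ← Nat.cast_smul_eq_nsmul ℂ, smul_smul, inv_mul_cancel₀, one_smul]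
  exact Nat.cast_ne_zero.2 (Nat.succ_ne_zero p)

variable [PreirreducibleSpace T]

/-- The sheaf of alternating forms with values in a sheaf `F` with `H^n(F) = 0` has no `H^n`. -/
theorem subsingleton_coh_KzM (M : T → Submodule ℂ K) (p n : ℕ)
    (h : Subsingleton (Coh (constSheaf M) n)) :
    Subsingleton (Coh (constSheaf (KzM N p M)) n) := by
  induction p with
  | zero =>
    refine subsingleton_coh_of_retract (B := Unit) (M₁ := KzM N 0 M) (M₂ := M)
      (fun _ => ev0 N K) (fun _ => const0 N K)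
      (fun _ x f hf => hf _) (fun _ x f hf w => hf) (fun f => ?_) h
    ext w
    rw [Finset.univ_unique, Finset.sum_singleton]
    exact congrArg f (Subsingleton.elim _ _)
  | succ p ih =>
    refine subsingleton_coh_of_retract (B := Fin N) (M₁ := KzM N (p + 1) M) (M₂ := KzM N p M)
      (fun j => plug j p) (fun j => wedge j p)
      (fun j x f hf w => hf _) (fun j x f hf w => ?_) (fun f => sum_wedge_plug p f) ih
    refine (M x).smul_mem _ ?_
    change homot (1 : K) j f w ∈ M x
    rw [homot_apply]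
    refine (M x).sum_mem fun i _ => ?_
    refine zsmul_mem ((M x).smul_mem _ ?_) _
    rw [one_mul]
    exact hf _

theorem subsingleton_coh_of_subsingleton {V : Type} [AddCommGroup V] [Module ℂ V] [Subsingleton V]
    (M : T → Submodule ℂ V) (n : ℕ) : Subsingleton (Coh (constSheaf M) n) := by
  have h1 : 𝟙 (constSheaf M) = 0 := by
    apply CategoryTheory.Sheaf.hom_ext
    apply NatTrans.ext
    funext U
    apply ModuleCat.hom_ext
    apply LinearMap.ext
    intro t
    exact Subtype.ext (funext fun x => Subsingleton.elim _ _)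
  have h2 : ∀ x : Coh (constSheaf M) n, x = 0 := by
    intro x
    rw [← Abelian.Ext.comp_mk₀_id x, h1, Abelian.Ext.mk₀_zero, Abelian.Ext.comp_zero]
  exact ⟨fun x y => (h2 x).trans (h2 y).symm⟩

theorem Kz_subsingleton {p : ℕ} (hp : N < p) : Subsingleton (Kz N p K) := by
  have h : ∀ ω : Kz N p K, ω = 0 := by
    intro ω
    ext w
    rw [AlternatingMap.zero_apply]
    have : Module.IsTorsionFree ℂ K := inferInstance
    refine ω.map_linearDependent w fun hw => ?_
    have := hw.fintype_card_le_finrank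
    simp at this
    omega
  exact ⟨fun x y => (h x).trans (h y).symm⟩

variable (s : Fin N → K) (M : ℕ → T → Submodule ℂ K)

/-- The space of the cycles of the Koszul complex. -/
def Cyc (p : ℕ) : Type := LinearMap.ker (contr s p)

noncomputable instance (p : ℕ) : AddCommGroup (Cyc s p) :=
  inferInstanceAs (AddCommGroup (LinearMap.ker (contr s p)))

noncomputable instance (p : ℕ) : Module ℂ (Cyc s p) :=
  inferInstanceAs (Module ℂ (LinearMap.ker (contr s p)))

/-- The inclusion of the cycles. -/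
noncomputable def cycIncl (p : ℕ) : Cyc s p →ₗ[ℂ] Kz N (p + 1) K :=
  (LinearMap.ker (contr s p)).subtype

/-- The cycles of the Koszul complex. -/
noncomputable def ZM (p : ℕ) (x : T) : Submodule ℂ (Cyc s p) :=
  (KzM N (p + 1) (M (p + 1)) x).comap (cycIncl s p)

/-- The Koszul differential onto the cycles. -/
noncomputable def contrZ (p : ℕ) : Kz N (p + 2) K →ₗ[ℂ] Cyc s p :=
  (contr s (p + 1)).codRestrict (LinearMap.ker (contr s p)) fun ω => contr_contr s p ω

omit [PreirreducibleSpace T] in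
theorem cyc_subsingleton {s : Fin N → K} {p : ℕ} (hp : N < p + 1) : Subsingleton (Cyc s p) := by
  have : Subsingleton (Kz N (p + 1) K) := Kz_subsingleton hp
  exact ⟨fun x y => Subtype.ext (Subsingleton.elim (cycIncl s p x) (cycIncl s p y))⟩

variable {s M}
  (hmul : ∀ p x, ∀ f ∈ M (p + 1) x, ∀ j, s j * f ∈ M p x)
  (hdiv : ∀ x₀ : T, ∃ V : Opens T, x₀ ∈ V ∧ ∃ j, s j ≠ 0 ∧ ∀ p, ∀ x ∈ V, ∀ f ∈ M p x,
    (s j)⁻¹ * f ∈ M (p + 1) x)

omit [PreirreducibleSpace T] in
include hmul in
theorem contr_mem (p : ℕ) (x : T) (ω : Kz N (p + 1) K) (h : ω ∈ KzM N (p + 1) (M (p + 1)) x) :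
    contr s p ω ∈ KzM N p (M p) x := by
  intro w
  rw [contr_apply]
  exact (M p x).sum_mem fun j _ => hmul p x _ (h _) j

omit [PreirreducibleSpace T] in
theorem homot_mem {p : ℕ} {x : T} {j : Fin N} (h : ∀ f ∈ M p x, (s j)⁻¹ * f ∈ M (p + 1) x)
    {ω : Kz N p K} (hω : ω ∈ KzM N p (M p) x) :
    homot (s j)⁻¹ j ω ∈ KzM N (p + 1) (M (p + 1)) x := by
  intro w
  rw [homot_apply]
  refine (M (p + 1) x).sum_mem fun i _ => ?_
  exact zsmul_mem ((M (p + 1) x).smul_mem _ (h _ (hω _))) _

/-- The complex `0 → Z_{p+2} → K_{p+2} → Z_{p+1} → 0`. -/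
noncomputable def cxA (p : ℕ) :
    ShortComplex (Sheaf (Opens.grothendieckTopology T) (ModuleCat.{0} ℂ)) :=
  constComplex (M₁ := ZM s M (p + 1)) (M₂ := KzM N (p + 2) (M (p + 2))) (M₃ := ZM s M p)
    (i := cycIncl s (p + 1)) (q := contrZ s p)
    (fun _ _ hf => hf) (fun x f hf => contr_mem hmul (p + 1) x f hf)
    (fun f => Subtype.ext (Subtype.prop (p := fun f => f ∈ LinearMap.ker (contr s (p + 1))) f))

/-- The complex `0 → Z_1 → K_1 → K_0 → 0`. -/
noncomputable def cxB :
    ShortComplex (Sheaf (Opens.grothendieckTopology T) (ModuleCat.{0} ℂ)) :=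
  constComplex (M₁ := ZM s M 0) (M₂ := KzM N 1 (M 1)) (M₃ := KzM N 0 (M 0))
    (i := cycIncl s 0) (q := contr s 0)
    (fun _ _ hf => hf) (fun x f hf => contr_mem hmul 0 x f hf)
    (fun f => Subtype.prop (p := fun f => f ∈ LinearMap.ker (contr s 0)) f)

include hdiv in
theorem cxA_shortExact (p : ℕ) : (cxA hmul p).ShortExact := by
  refine constComplex_shortExact _ _ _ Subtype.val_injective ?_ ?_
  · intro f hf
    exact ⟨(⟨f, congrArg Subtype.val hf⟩ : LinearMap.ker (contr s (p + 1))), rfl, fun x hx => hx⟩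
  · intro U x₀ hx₀ f hf
    obtain ⟨V, hxV, j, hj, hV⟩ := hdiv x₀
    refine ⟨U ⊓ V, inf_le_left, ⟨hx₀, hxV⟩, homot (s j)⁻¹ j (cycIncl s p f), ?_, fun x hx => ?_⟩
    · apply Subtype.ext
      change contr s (p + 1) (homot (s j)⁻¹ j (cycIncl s p f)) = cycIncl s p f
      have h0 : contr s p (cycIncl s p f) = 0 :=
        Subtype.prop (p := fun f => f ∈ LinearMap.ker (contr s p)) f
      rw [contr_homot, mul_inv_cancel₀ hj, one_smul, h0, homot_zero, sub_zero]
    · exact homot_mem (hV _ x hx.2) (hf x hx.1)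

include hdiv in
theorem cxB_shortExact : (cxB hmul).ShortExact := by
  refine constComplex_shortExact _ _ _ Subtype.val_injective ?_ ?_
  · intro f hf
    exact ⟨(⟨f, hf⟩ : LinearMap.ker (contr s 0)), rfl, fun x hx => hx⟩
  · intro U x₀ hx₀ f hf
    obtain ⟨V, hxV, j, hj, hV⟩ := hdiv x₀
    refine ⟨U ⊓ V, inf_le_left, ⟨hx₀, hxV⟩, homot (s j)⁻¹ j f, ?_, fun x hx => ?_⟩
    · rw [contr_homot_zero, mul_inv_cancel₀ hj, one_smul]
    · exact homot_mem (hV _ x hx.2) (hf x hx.1)

include hmul hdiv in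
theorem subsingleton_coh_ZM
    (hvan : ∀ i, 0 < i → i ≤ N → Subsingleton (Coh (constSheaf (M (i + 1))) i)) (p : ℕ) :
    Subsingleton (Coh (constSheaf (ZM s M p)) (p + 1)) := by
  -- descending induction on `p`
  have key : ∀ m p : ℕ, N ≤ p + m → Subsingleton (Coh (constSheaf (ZM s M p)) (p + 1)) := by
    intro m
    induction m with
    | zero =>
      intro p hp
      have : Subsingleton (Cyc s p) := cyc_subsingleton (by omega)
      exact subsingleton_coh_of_subsingleton _ _
    | succ m ih =>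
      intro p hp
      by_cases hpN : N ≤ p
      · have : Subsingleton (Cyc s p) := cyc_subsingleton (by omega)
        exact subsingleton_coh_of_subsingleton _ _
      · exact subsingleton_coh_of_shortExact (cxA_shortExact hmul hdiv p)
          (subsingleton_coh_KzM _ _ _ (hvan (p + 1) (by omega) (by omega)))
          (ih (p + 1) (by omega))
  exact key N p (by omega)

include hmul hdiv in
/-- The multiplication map `H^0(F(-1))^N → H^0(F)` is surjective. -/
theorem koszul_surjective
    (hvan : ∀ i, 0 < i → i ≤ N → Subsingleton (Coh (constSheaf (M (i + 1))) i))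
    (f : K) (hf : ∀ x, f ∈ M 0 x) [Nonempty T] :
    ∃ g : Fin N → K, (∀ j x, g j ∈ M 1 x) ∧ f = ∑ j, s j * g j := by
  obtain ⟨t, ht⟩ := exists_global_of_shortExact (cxB_shortExact hmul hdiv)
    (subsingleton_coh_ZM hmul hdiv hvan 0)
    (⟨fun _ => const0 N K f, fun _ _ => rfl, fun x w => hf x.1⟩ :
      constSec (KzM N 0 (M 0)) ⊤)
  obtain ⟨x₀⟩ := ‹Nonempty T›
  let t' : constSec (KzM N 1 (M 1)) ⊤ := t
  refine ⟨fun j => t'.1 ⟨x₀, trivial⟩ ![Pi.single j 1], fun j x => ?_, ?_⟩
  · have h1 := t'.2.2 ⟨x, trivial⟩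
    rw [t'.2.1 ⟨x, trivial⟩ ⟨x₀, trivial⟩] at h1
    exact h1 _
  · have h1 := congrArg (fun u : constSec (KzM N 0 (M 0)) ⊤ => u.1 ⟨x₀, trivial⟩ ![]) ht
    change contr s 0 (t'.1 ⟨x₀, trivial⟩) ![] = f at h1
    rw [← h1, contr_apply]

end Koszul

end Vale.Agent.P299.Q
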