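import Vale.Agent.P299.Q.SemiPos

/-!
# The Levi form by restriction to lines
-/

namespace Vale.Agent.P299.Q

section

variable {E : Type*} [NormedAddCommGroup E] [NormedSpace ℝ E]

/-- The second derivative in a direction is the second derivative along the line. -/
theorem iteratedDeriv_line {Φ : E → ℝ} {W : Set E} (hW : IsOpen W)
    (hΦ : ContDiffOn ℝ ((⊤ : ℕ∞) : WithTop ℕ∞) Φ W) {z : E} (hz : z ∈ W) (v : E) :
    iteratedDeriv 2 (fun t : ℝ => Φ (z + t • v)) 0 = iteratedFDeriv ℝ 2 Φ z ![v, v] := by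
  have h0 : (fun t : ℝ => Φ (z + t • v)) =
      (fun u => Φ (z + u)) ∘ ((ContinuousLinearMap.id ℝ ℝ).smulRight v) := by
    funext t
    simp
  have hcont : Continuous (fun u : E => z + u) := continuous_const.add continuous_id
  have hW' : IsOpen ((fun u : E => z + u) ⁻¹' W) := hW.preimage hcont
  have hΦ' : ContDiffOn ℝ ((⊤ : ℕ∞) : WithTop ℕ∞) (fun u => Φ (z + u))
      ((fun u : E => z + u) ⁻¹' W) :=
    hΦ.comp (contDiff_const.add contDiff_id).contDiffOn fun u hu => hu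
  have hz' : ((ContinuousLinearMap.id ℝ ℝ).smulRight v) (0 : ℝ) ∈
      ((fun u : E => z + u) ⁻¹' W) := by
    simpa using hz
  have hV : IsOpen (((ContinuousLinearMap.id ℝ ℝ).smulRight v) ⁻¹'
      ((fun u : E => z + u) ⁻¹' W)) :=
    hW'.preimage ((ContinuousLinearMap.id ℝ ℝ).smulRight v).continuous
  have h1 := ((ContinuousLinearMap.id ℝ ℝ).smulRight v).iteratedFDerivWithin_comp_right
    (i := 2) hΦ' hW'.uniqueDiffOn hV.uniqueDiffOn hz' two_le_infty
  have h2 : iteratedFDeriv ℝ 2 ((fun u => Φ (z + u)) ∘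
      ((ContinuousLinearMap.id ℝ ℝ).smulRight v)) 0 =
      (iteratedFDeriv ℝ 2 (fun u => Φ (z + u))
        (((ContinuousLinearMap.id ℝ ℝ).smulRight v) 0)).compContinuousLinearMap
      fun _ => (ContinuousLinearMap.id ℝ ℝ).smulRight v := by
    rw [← iteratedFDerivWithin_of_isOpen 2 hV (show (0 : ℝ) ∈ _ from hz'),
      ← iteratedFDerivWithin_of_isOpen 2 hW' hz']
    exact h1
  rw [h0, iteratedDeriv_eq_iteratedFDeriv, h2, iteratedFDeriv_comp_add_left]
  simp only [ContinuousMultilinearMap.compContinuousLinearMap_apply]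
  congr 1
  · congr 1
    simp
  · funext i
    fin_cases i <;> simp

end

theorem leviE_eq_line {E : Type*} [NormedAddCommGroup E] [NormedSpace ℂ E] {Φ : E → ℝ} {W : Set E}
    (hW : IsOpen W) (hΦ : ContDiffOn ℝ ((⊤ : ℕ∞) : WithTop ℕ∞) Φ W) {z : E} (hz : z ∈ W) (v : E) :
    leviE Φ z v = iteratedDeriv 2 (fun t : ℝ => Φ (z + (t : ℂ) • v)) 0 +
      iteratedDeriv 2 (fun t : ℝ => Φ (z + (t * Complex.I : ℂ) • v)) 0 := by
  unfold leviE
  rw [← iteratedDeriv_line hW hΦ hz v, ← iteratedDeriv_line hW hΦ hz (Complex.I • v)]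
  simp only [Complex.coe_smul, mul_smul]

end Vale.Agent.P299.Q
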