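import Mathlib.AlgebraicGeometry.Morphisms.Proper
import Mathlib.RingTheory.Polynomial.IntegralNormalization
import Mathlib.Algebra.Polynomial.Lifts
import Vale.Agent.P299.Q.Norm
import Vale.Agent.P299.Q.Strict
import Vale.Agent.P299.Q.Numeric

/-!
# Integrality over the base of a generically finite morphism
-/

open CategoryTheory TopologicalSpace Opposite TopCat AlgebraicGeometry Order

namespace Vale.Agent.P299.Q

open Vale.Agent.P299.G

/-- A rational function which is regular at every point of `U` is a section over `U`. -/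
theorem exists_section_of_regular_open {X : Scheme.{0}} [IsIntegral X] (U : X.Opens) [hU : Nonempty U]
    (u : X.functionField)
    (h : ∀ x ∈ U, ∃ a : X.presheaf.stalk x, algebraMap _ X.functionField a = u) :
    ∃ s : Γ(X, U), X.germToFunctionField U s = u := by
  have h1 : ∀ x : U, ∃ (V : X.Opens) (_ : x.1 ∈ V) (_ : V ≤ U) (s : Γ(X, V)) (_ : Nonempty V),
      X.germToFunctionField V s = u := by
    intro x
    obtain ⟨a, ha⟩ := h x.1 x.2
    obtain ⟨V, hV, s, hs⟩ := X.presheaf.exists_germ_eq a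
    have hxV : x.1 ∈ V ⊓ U := ⟨hV, x.2⟩
    have : Nonempty (V ⊓ U : X.Opens) := ⟨⟨x.1, hxV⟩⟩
    refine ⟨V ⊓ U, hxV, inf_le_right, X.presheaf.map (Opens.infLELeft V U).op s, this, ?_⟩
    rw [← ha, ← hs]
    have h2 := Scheme.algebraMap_germ_eq_germToFunctionField X hxV
      (X.presheaf.map (Opens.infLELeft V U).op s)
    rw [← h2]
    congr 1
    exact X.presheaf.germ_res_apply (Opens.infLELeft V U) x.1 hxV s
  choose V hV hVU s hne hs using h1
  have hgen : ∀ x, genericPoint X ∈ V x := fun x =>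
    ((genericPoint_spec X).mem_open_set_iff (V x).isOpen).mpr (by simpa using hne x)
  have hcomp : TopCat.Presheaf.IsCompatible X.sheaf.1 V s := by
    intro x y
    have hη : genericPoint X ∈ V x ⊓ V y := ⟨hgen x, hgen y⟩
    have : Nonempty (V x ⊓ V y : X.Opens) := ⟨⟨_, hη⟩⟩
    apply X.germToFunctionField_injective (V x ⊓ V y)
    have e1 : X.germToFunctionField (V x ⊓ V y) (X.presheaf.map (Opens.infLELeft _ _).op (s x)) =
        X.germToFunctionField (V x) (s x) :=
      X.presheaf.germ_res_apply (Opens.infLELeft _ _) (genericPoint X) hη (s x)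
    have e2 : X.germToFunctionField (V x ⊓ V y) (X.presheaf.map (Opens.infLERight _ _).op (s y)) =
        X.germToFunctionField (V y) (s y) :=
      X.presheaf.germ_res_apply (Opens.infLERight _ _) (genericPoint X) hη (s y)
    exact e1.trans ((hs x).trans ((hs y).symm.trans e2.symm))
  obtain ⟨t, ht, -⟩ := X.sheaf.existsUnique_gluing' V U (fun x => homOfLE (hVU x))
    (fun x hx => Opens.mem_iSup.2 ⟨⟨x, hx⟩, hV ⟨x, hx⟩⟩) s hcomp
  refine ⟨t, ?_⟩
  obtain ⟨x⟩ := hU
  rw [← hs x, ← ht x]
  exact (X.presheaf.germ_res_apply (homOfLE (hVU x)) (genericPoint X) (hgen x) t).symm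

lemma isIntegral_of_comp_injective {A B C : Type*} [CommRing A] [CommRing B] [CommRing C]
    (f : A →+* B) (g : B →+* C) (hg : Function.Injective g) (h : (g.comp f).IsIntegral) :
    f.IsIntegral := by
  intro s
  obtain ⟨P, hP, hP0⟩ := h (g s)
  refine ⟨P, hP, hg ?_⟩
  rw [map_zero, Polynomial.hom_eval₂]
  exact hP0

/-- Sections over the preimage of an affine open set under a universally closed morphism are
integral. -/
theorem isIntegral_app_of_universallyClosed {X Y : Scheme.{0}} (f : X ⟶ Y) [UniversallyClosed f]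
    {V : Y.Opens} (hV : IsAffineOpen V) : (f.app V).hom.IsIntegral := by
  have : IsAffine V := hV
  have h := isIntegral_appTop_of_universallyClosed (f ∣_ V)
  rw [morphismRestrict_appTop] at h
  have key : ∀ V' : Y.Opens, V' = V → (f.app V').hom.IsIntegral → (f.app V).hom.IsIntegral := by
    rintro _ rfl h
    exact h
  have hinj : Function.Injective (X.presheaf.map
      (eqToHom (image_morphismRestrict_preimage f V ⊤)).op).hom :=
    (ConcreteCategory.bijective_of_isIso (X.presheaf.map
      (eqToHom (image_morphismRestrict_preimage f V ⊤)).op)).1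
  exact key (V.ι ''ᵁ ⊤) V.ι_image_top (isIntegral_of_comp_injective (f.app (V.ι ''ᵁ ⊤)).hom _
    hinj h)

lemma exists_of_integral_range {K A L : Type*} [Field K] [CommRing A] [IsDomain A]
    [IsIntegrallyClosed A] [Field L] [Algebra A L] [IsFractionRing A L] (p : K →+* L)
    (hp : ∀ a : K, ∃ b : A, algebraMap A L b = p a) {u : L} (hu : p.IsIntegralElem u) :
    ∃ a : A, algebraMap A L a = u := by
  obtain ⟨P, hP, hP0⟩ := hu
  have hl : P.map p ∈ Polynomial.lifts (algebraMap A L) := by
    rw [Polynomial.lifts_iff_coeff_lifts]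
    intro n
    rw [Polynomial.coeff_map]
    exact hp _
  obtain ⟨q, hq, -, hqm⟩ := Polynomial.lifts_and_natDegree_eq_and_monic hl (hP.map p)
  refine IsIntegrallyClosed.isIntegral_iff.1 (⟨q, hqm, ?_⟩ : IsIntegral A u)
  rw [← Polynomial.eval_map, hq, Polynomial.eval_map]
  exact hP0

variable {X Y : Var} (φ : DomHom X Y)

/-- Primes of codimension one do not dominate the base of a generically finite morphism. -/
theorem ne_generic_of_integral (halg : φ.pull.IsIntegral) {z : X.X} (hz : coheight z = 1) :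
    φ.f z ≠ genericPoint Y.X := by
  intro h0
  have := X.dvr z hz
  obtain ⟨a, ha, ha1⟩ := exists_uniformizer X.dvr hz
  have ha0 : toK z a ≠ 0 := toK_ne_zero ha
  obtain ⟨b, hb⟩ := exists_of_integral_range (A := X.X.presheaf.stalk z) φ.pull (fun c => by
    by_cases hc : c = 0
    · exact ⟨0, by rw [hc, map_zero, map_zero]⟩
    · exact exists_of_ord_nonneg X.dvr hz (φ.pull_ne_zero hc)
        (φ.ord_pull_of_generic z h0 hc).ge) (halg (toK z a)⁻¹)
  have h1 := ord_toK_nonneg (y := z) b
  have h2 : toK z b = (toK z a)⁻¹ := hb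
  rw [h2, Q.ord_inv ha0, ha1] at h1
  exact absurd h1 (by decide)

/-- A rational function without poles at the primes over the prime divisor `y` of `Y` is integral
over the local ring of `y`. -/
theorem isIntegral_over (halg : φ.pull.IsIntegral) (hFS : FactorialStalks) {y : Y.X}
    (hy : coheight y = 1) {w : X.K}
    (hw : ∀ z : X.X, coheight z = 1 → φ.f z = y → 0 ≤ Scheme.ord w z) :
    (φ.pull.comp (toK y)).IsIntegralElem w := by
  by_cases hw0 : w = 0
  · subst hw0
    exact ⟨Polynomial.X, Polynomial.monic_X, by simp⟩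
  -- the polar primes
  have hfin : {z : X.X | coheight z = 1 ∧ Scheme.ord w z < 0}.Finite :=
    (finite_ord_ne_zero w hw0).subset fun z hz => hz.2.ne
  let Z : Set Y.X := ⋃ z ∈ {z : X.X | coheight z = 1 ∧ Scheme.ord w z < 0}, closure {φ.f z}
  have hZ : IsClosed Z := hfin.isClosed_biUnion fun z _ => isClosed_closure
  have hyZ : y ∉ Z := by
    intro h
    obtain ⟨z, hz, hyz⟩ := Set.mem_iUnion₂.1 h
    have h1 : φ.f z ⤳ y := specializes_iff_mem_closure.2 hyz
    rcases eq_or_eq_generic hy h1 with h2 | h2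
    · exact absurd (hw z hz.1 h2) (not_le.2 hz.2)
    · exact ne_generic_of_integral φ halg hz.1 h2
  obtain ⟨_, ⟨V, hV, rfl⟩, hyV, hVZ⟩ :=
    Y.X.isBasis_affineOpens.exists_subset_of_mem_open (a := y) (u := Zᶜ) hyZ hZ.isOpen_compl
  have hVne : Nonempty V := ⟨⟨_, hyV⟩⟩
  have hgV : genericPoint Y.X ∈ V :=
    ((genericPoint_spec Y.X).mem_open_set_iff V.isOpen).mpr (by simpa using hVne)
  have hgU : genericPoint X.X ∈ φ.f ⁻¹ᵁ V := by
    change φ.f (genericPoint X.X) ∈ V
    rw [φ.dominant]
    exact hgV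
  have hUne : Nonempty (φ.f ⁻¹ᵁ V) := ⟨⟨_, hgU⟩⟩
  have hpole : ∀ z : X.X, coheight z = 1 → φ.f z ∈ V → 0 ≤ Scheme.ord w z := by
    intro z hz hzV
    by_contra hc
    exact hVZ hzV (Set.mem_iUnion₂.2 ⟨z, ⟨hz, not_le.1 hc⟩, subset_closure rfl⟩)
  obtain ⟨s, hs⟩ := exists_section_of_regular_open (φ.f ⁻¹ᵁ V) w fun x hx => by
    have := hFS X x
    refine exists_of_forall_ord_nonneg X.dvr x w fun z hz hzx => hpole z hz ?_
    exact (hzx.map φ.f.continuous).mem_open V.isOpen hx
  obtain ⟨P, hP, hP0⟩ := isIntegral_app_of_universallyClosed φ.f hV s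
  have hbK : ∀ e : Γ(Y.X, V), (φ.pull.comp (toK y)) (Y.X.presheaf.germ V y hyV e) =
      X.X.germToFunctionField (φ.f ⁻¹ᵁ V) (φ.f.app V e) := by
    intro e
    rw [RingHom.comp_apply]
    have h1 : toK y (Y.X.presheaf.germ V y hyV e) = Y.X.germToFunctionField V e :=
      Scheme.algebraMap_germ_eq_germToFunctionField Y.X hyV e
    rw [h1]
    exact φ.pull_germ_of_mem V hgV hgU e
  refine ⟨P.map (Y.X.presheaf.germ V y hyV).hom, hP.map _, ?_⟩
  have h1 : (φ.pull.comp (toK y)).comp (Y.X.presheaf.germ V y hyV).hom =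
      (X.X.germToFunctionField (φ.f ⁻¹ᵁ V)).hom.comp (φ.f.app V).hom := RingHom.ext hbK
  rw [Polynomial.eval₂_map, h1]
  have h2 := congrArg (X.X.germToFunctionField (φ.f ⁻¹ᵁ V)).hom hP0
  rw [Polynomial.hom_eval₂, map_zero] at h2
  rw [← hs]
  exact h2

end Vale.Agent.P299.Q
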