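import Mathlib.RingTheory.Derivation.Basic
import Vale.Agent.P299.Q.Frame
import Vale.Agent.P299.Q.TraceInt

/-!
# Logarithmic vector fields
-/

open CategoryTheory TopologicalSpace Opposite TopCat AlgebraicGeometry Order

namespace Vale.Agent.P299.Q

open Vale.Agent.P299.G

variable {X Y : Var}

/-- `f` is zero or of order at least `c` at `z`. -/
def Ge (z : X.X) (c : ℤ) (f : X.K) : Prop := f ≠ 0 → c ≤ Scheme.ord f z

theorem Ge.mono {z : X.X} {c d : ℤ} {f : X.K} (h : Ge z c f) (hd : d ≤ c) : Ge z d f :=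
  fun hf => hd.trans (h hf)

theorem ge_zero (z : X.X) (c : ℤ) : Ge z c (0 : X.K) := fun h => absurd rfl h

theorem Ge.add {z : X.X} (hz : coheight z = 1) {c : ℤ} {f g : X.K} (hf : Ge z c f)
    (hg : Ge z c g) : Ge z c (f + g) := by
  intro h0
  have h1 : f + g ∈ polar (X := X.X) (fun _ => -c) z := by
    refine Submodule.add_mem _ ?_ ?_
    · rw [mem_polar]
      intro _ hne
      have := hf hne
      linarith
    · rw [mem_polar]
      intro _ hne
      have := hg hne
      linarith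
  rw [mem_polar] at h1
  have := h1 hz h0
  linarith

theorem Ge.mul {z : X.X} {c d : ℤ} {f g : X.K} (hf : Ge z c f) (hg : Ge z d g) :
    Ge z (c + d) (f * g) := by
  intro h0
  have h1 := left_ne_zero_of_mul h0
  have h2 := right_ne_zero_of_mul h0
  rw [Scheme.ord_mul h1 h2]
  exact add_le_add (hf h1) (hg h2)

theorem ge_ord (z : X.X) (f : X.K) : Ge z (Scheme.ord f z) f := fun _ => le_refl _

theorem ge_of_locRing {z : X.X} {f : X.K} (hf : f ∈ locRing X z) : Ge z 0 f :=
  fun _ => ord_nonneg_of_locRing hf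

theorem Ge.locRing {z : X.X} (hz : coheight z = 1) {f : X.K} (hf : Ge z 0 f) :
    f ∈ locRing X z := locRing_of_ord_nonneg hz hf

theorem ge_const (z : X.X) (c : ℂ) : Ge z 0 (algebraMap ℂ X.K c) :=
  ge_of_locRing (const_mem_locRing z c)

theorem ge_neg {z : X.X} {c : ℤ} {f : X.K} (hf : Ge z c f) : Ge z c (-f) := by
  have h : -f = algebraMap ℂ X.K (-1) * f := by rw [map_neg, map_one, neg_one_mul]
  rw [h]
  have := (ge_const z (-1)).mul hf
  rwa [zero_add] at this

theorem Ge.sub {z : X.X} (hz : coheight z = 1) {c : ℤ} {f g : X.K} (hf : Ge z c f)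
    (hg : Ge z c g) : Ge z c (f - g) := by
  rw [sub_eq_add_neg]
  exact hf.add hz (ge_neg hg)

theorem Ge.sum {z : X.X} (hz : coheight z = 1) {c : ℤ} {ι : Type*} (s : Finset ι) {f : ι → X.K}
    (hf : ∀ i ∈ s, Ge z c (f i)) : Ge z c (∑ i ∈ s, f i) := by
  classical
  induction s using Finset.induction_on with
  | empty => exact ge_zero z c
  | insert a s ha ih =>
    rw [Finset.sum_insert ha]
    exact (hf a (Finset.mem_insert_self a s)).add hz
      (ih fun i hi => hf i (Finset.mem_insert_of_mem hi))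

theorem ge_zpow (z : X.X) {f : X.K} (hf : f ≠ 0) (n : ℤ) :
    Ge z (n * Scheme.ord f z) (f ^ n) := fun _ => (Q.ord_zpow hf n z).ge

theorem ge_natCast (z : X.X) (n : ℕ) : Ge z 0 ((n : ℕ) : X.K) := by
  have := ge_const z (n : ℂ)
  rwa [map_natCast] at this

theorem ge_intCast (z : X.X) (n : ℤ) : Ge z 0 ((n : ℤ) : X.K) := by
  have := ge_const z (n : ℂ)
  rwa [map_intCast] at this

/-- The order of `v f` is at least the order of `f` minus `N`. -/
def Bdd (z : X.X) (N : ℤ) (v : X.Der) : Prop :=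
  ∀ f : X.K, f ≠ 0 → Ge z (Scheme.ord f z - N) (v f)

/-- A bound for the derivatives of units and of a uniformizer. -/
theorem bdd_of_unit {z : X.X} (hz : coheight z = 1) {N : ℤ} {v : X.Der} {τ : X.K} (hτ : τ ≠ 0)
    (hτ1 : Scheme.ord τ z = 1) (hu : ∀ u : X.K, u ≠ 0 → Scheme.ord u z = 0 → Ge z (-N) (v u))
    (hvτ : Ge z (1 - N) (v τ)) : Bdd z N v := by
  intro f hf
  set k := Scheme.ord f z with hk
  have hτk : τ ^ k ≠ 0 := zpow_ne_zero _ hτ
  set u := f / τ ^ k with hu'
  have hu0 : u ≠ 0 := div_ne_zero hf hτk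
  have huo : Scheme.ord u z = 0 := by
    rw [hu', Q.ord_div hf hτk, Q.ord_zpow hτ, hτ1, ← hk, mul_one, sub_self]
  have hfu : f = u * τ ^ k := by rw [hu', div_mul_cancel₀ _ hτk]
  have h1 : v f = u * ((k : X.K) * (τ ^ (k - 1) * v τ)) + τ ^ k * v u := by
    conv_lhs => rw [hfu]
    rw [Derivation.leibniz, Derivation.leibniz_zpow, smul_eq_mul, smul_eq_mul, smul_eq_mul,
      zsmul_eq_mul]
  rw [h1]
  refine Ge.add hz ?_ ?_
  · have h2 := (ge_ord z u).mul ((ge_intCast z k).mul ((ge_zpow z hτ (k - 1)).mul hvτ))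
    refine h2.mono ?_
    rw [huo, hτ1]
    linarith
  · have h2 := (ge_zpow z hτ k).mul (hu u hu0 huo)
    refine h2.mono ?_
    rw [hτ1]
    linarith

theorem exists_uniformizer' {z : X.X} (hz : coheight z = 1) :
    ∃ τ : X.K, τ ≠ 0 ∧ Scheme.ord τ z = 1 := by
  obtain ⟨a, ha, ha1⟩ := exists_uniformizer X.dvr hz
  exact ⟨toK z a, toK_ne_zero ha, ha1⟩

/-- A regular vector field decreases orders by at most one. -/
theorem RegDer.bdd {z : X.X} (hz : coheight z = 1) {v : X.Der} (hv : RegDer z v) : Bdd z 1 v := by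
  obtain ⟨τ, hτ, hτ1⟩ := exists_uniformizer' hz
  rw [regDer_iff_locRing] at hv
  refine bdd_of_unit hz hτ hτ1 (fun u hu hu0 => ?_) ?_
  · have h1 : Ge z 0 (v u) := ge_of_locRing (hv u (locRing_of_ord_nonneg hz fun _ => hu0.ge))
    exact h1.mono (by norm_num)
  · have h1 : Ge z 0 (v τ) := ge_of_locRing (hv τ (locRing_of_ord_nonneg hz fun _ => by
      rw [hτ1]; norm_num))
    rwa [sub_self]

/-- The order of `v f` is bounded below in terms of the order of `f`. -/
theorem exists_bdd (v : X.Der) {z : X.X} (hz : coheight z = 1) : ∃ N : ℕ, Bdd z N v := by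
  obtain ⟨_, ⟨V, hV, rfl⟩, hxV, -⟩ :=
    X.X.isBasis_affineOpens.exists_subset_of_mem_open (Set.mem_univ z) isOpen_univ
  have hne : Nonempty V := ⟨⟨z, hxV⟩⟩
  obtain ⟨s, hs⟩ := exists_gens V hV
  obtain ⟨a, ha0, ha⟩ := exists_smul_regDer hV hs hxV v
  refine ⟨(1 + Scheme.ord a z).toNat, fun f hf h0 => ?_⟩
  have h1 : (a • v) f ≠ 0 := by
    rw [Derivation.smul_apply, smul_eq_mul]
    exact mul_ne_zero ha0 h0
  have h2 := ha.bdd hz f hf h1
  rw [Derivation.smul_apply, smul_eq_mul, Scheme.ord_mul ha0 h0] at h2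
  have h3 := Int.self_le_toNat (1 + Scheme.ord a z)
  linarith

theorem Ge.of_mul {z : X.X} {c : ℤ} {f g : X.K} (hg : g ≠ 0) (h : Ge z c (g * f)) :
    Ge z (c - Scheme.ord g z) f := by
  intro hf
  have h1 := h (mul_ne_zero hg hf)
  rw [Scheme.ord_mul hg hf] at h1
  linarith

/-! ### Extension of logarithmic vector fields -/

section Ext

variable (φ : DomHom X Y) {z : X.X}

/-- The local ring at `φ(z)` acting on the function field of `X`. -/
noncomputable abbrev baseMap (z : X.X) : Y.X.presheaf.stalk (φ.f z) →+* X.K :=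
  φ.pull.comp (toK (φ.f z))

theorem baseMap_mem (a : Y.X.presheaf.stalk (φ.f z)) : baseMap φ z a ∈ locRing X z :=
  ⟨φ.f.stalkMap z a, (φ.pull_stalk z a).symm⟩

theorem eval₂_mem_locRing {w : X.K} (hw : w ∈ locRing X z)
    (P : Polynomial (Y.X.presheaf.stalk (φ.f z))) : P.eval₂ (baseMap φ z) w ∈ locRing X z := by
  rw [Polynomial.eval₂_eq_sum_range]
  exact sum_mem fun i _ => mul_mem (baseMap_mem φ _) (pow_mem hw i)

theorem baseMap_isUnit {a : Y.X.presheaf.stalk (φ.f z)} (ha : IsUnit a) :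
    baseMap φ z a ≠ 0 ∧ Scheme.ord (baseMap φ z a) z = 0 :=
  ⟨(ha.map (baseMap φ z)).ne_zero, φ.ord_pull_of_isUnit z ha⟩

/-- A non unit of the base has positive order. -/
theorem baseMap_not_isUnit (hz : coheight z = 1) (hy : coheight (φ.f z) = 1)
    {a : Y.X.presheaf.stalk (φ.f z)} (ha : ¬ IsUnit a) : Ge z 1 (baseMap φ z a) := by
  intro h0
  have ha0 : a ≠ 0 := by
    rintro rfl
    exact h0 (map_zero _)
  have hK : toK (φ.f z) a ≠ 0 := toK_ne_zero ha0
  obtain ⟨m, hm, h⟩ := φ.exists_mult z hz hy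
  have h1 : Scheme.ord (baseMap φ z a) z = m * Scheme.ord (toK (φ.f z) a) (φ.f z) := h _ hK
  have h2 : Scheme.ord (toK (φ.f z) a) (φ.f z) ≠ 0 := fun hc =>
    ha (G.isUnit_of_ord_eq_zero Y.dvr hy ha0 hc)
  have h3 := ord_toK_nonneg (y := φ.f z) a
  have h4 : 1 ≤ Scheme.ord (toK (φ.f z) a) (φ.f z) := by omega
  rw [h1]
  nlinarith

/-- The residue field at `z` is algebraic over that at `φ(z)`. -/
theorem exists_poly (halg : φ.pull.IsIntegral) (hy : coheight (φ.f z) = 1) (w : X.K) :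
    ∃ P : Polynomial (Y.X.presheaf.stalk (φ.f z)), (∃ j, IsUnit (P.coeff j)) ∧
      Ge z 1 (P.eval₂ (baseMap φ z) w) := by
  obtain ⟨R, hQ, hQ0⟩ := halg w
  have hne : R.support.Nonempty := Polynomial.support_nonempty.2 hQ.ne_zero
  obtain ⟨j, hj, hmin⟩ := Finset.exists_min_image R.support
    (fun j => Scheme.ord (R.coeff j) (φ.f z)) hne
  have hj0 : R.coeff j ≠ 0 := Polynomial.mem_support_iff.1 hj
  have hl : Polynomial.C (R.coeff j)⁻¹ * R ∈ Polynomial.lifts (toK (φ.f z)) := by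
    rw [Polynomial.lifts_iff_coeff_lifts]
    intro n
    rw [Polynomial.coeff_C_mul]
    by_cases hn : R.coeff n = 0
    · exact ⟨0, by rw [map_zero, hn, mul_zero]⟩
    · refine exists_of_ord_nonneg Y.dvr hy (mul_ne_zero (inv_ne_zero hj0) hn) ?_
      rw [Scheme.ord_mul (inv_ne_zero hj0) hn, Q.ord_inv hj0]
      have := hmin n (Polynomial.mem_support_iff.2 hn)
      linarith
  obtain ⟨P, hP⟩ := (Polynomial.mem_lifts _).1 hl
  refine ⟨P, ⟨j, ?_⟩, ?_⟩
  · have h1 : toK (φ.f z) (P.coeff j) = toK (φ.f z) 1 := by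
      rw [← Polynomial.coeff_map, hP, Polynomial.coeff_C_mul, inv_mul_cancel₀ hj0, map_one]
    rw [toK_injective _ h1]
    exact isUnit_one
  · have h1 : P.eval₂ (baseMap φ z) w = 0 := by
      rw [baseMap, ← Polynomial.eval₂_map, hP, Polynomial.eval₂_mul, hQ0, mul_zero]
    rw [h1]
    exact ge_zero z 1

omit φ in
theorem isUnit_natCast_add_one {y : Y.X} (hy : coheight y = 1) (n : ℕ) :
    IsUnit ((n : Y.X.presheaf.stalk y) + 1) := by
  have h0 : (n : ℂ) + 1 ≠ 0 := Nat.cast_add_one_ne_zero n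
  have h1 : toK y ((n : Y.X.presheaf.stalk y) + 1) = algebraMap ℂ Y.K ((n : ℂ) + 1) := by
    rw [map_add, map_natCast, map_one, map_add, map_natCast, map_one]
  have h2 : (algebraMap ℂ Y.K ((n : ℂ) + 1)) ≠ 0 := by
    rwa [Ne, map_eq_zero]
  refine G.isUnit_of_ord_eq_zero Y.dvr hy (fun h => h2 ?_) ?_
  · rw [← h1, h, map_zero]
  · rw [h1]
    exact ord_constant _ h0 y

/-- The same with separability. -/
theorem exists_poly_sep (halg : φ.pull.IsIntegral) (hz : coheight z = 1)
    (hy : coheight (φ.f z) = 1) {w : X.K} (hw : w ∈ locRing X z) :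
    ∃ P : Polynomial (Y.X.presheaf.stalk (φ.f z)), Ge z 1 (P.eval₂ (baseMap φ z) w) ∧
      P.derivative.eval₂ (baseMap φ z) w ≠ 0 ∧
      Scheme.ord (P.derivative.eval₂ (baseMap φ z) w) z = 0 := by
  classical
  let S : ℕ → Prop := fun d => ∃ P : Polynomial (Y.X.presheaf.stalk (φ.f z)),
    P.natDegree = d ∧ (∃ j, IsUnit (P.coeff j)) ∧ Ge z 1 (P.eval₂ (baseMap φ z) w)
  have hS : ∃ d, S d := by
    obtain ⟨P, hP1, hP2⟩ := exists_poly φ halg hy w
    exact ⟨P.natDegree, P, rfl, hP1, hP2⟩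
  obtain ⟨P, hPd, ⟨j, hj⟩, hP⟩ := Nat.find_spec hS
  have hmin : ∀ P' : Polynomial (Y.X.presheaf.stalk (φ.f z)), (∃ j, IsUnit (P'.coeff j)) →
      P'.natDegree < P.natDegree → ¬ Ge z 1 (P'.eval₂ (baseMap φ z) w) := by
    intro P' h1 h2 h3
    rw [hPd] at h2
    exact Nat.find_min hS h2 ⟨P', rfl, h1, h3⟩
  have hlc : IsUnit (P.coeff P.natDegree) := by
    by_contra hlc
    have hjd : j ≠ P.natDegree := by
      rintro h
      rw [h] at hj
      exact hlc hj
    have hlt : j < P.natDegree :=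
      lt_of_le_of_ne (Polynomial.le_natDegree_of_ne_zero hj.ne_zero) hjd
    refine hmin P.eraseLead ⟨j, ?_⟩ ?_ ?_
    · rw [Polynomial.eraseLead_coeff_of_ne _ hjd]
      exact hj
    · exact lt_of_le_of_lt P.eraseLead_natDegree_le (by omega)
    · have h1 := P.eraseLead_add_C_mul_X_pow
      have h2 : P.eraseLead.eval₂ (baseMap φ z) w = P.eval₂ (baseMap φ z) w -
          baseMap φ z P.leadingCoeff * w ^ P.natDegree := by
        conv_rhs => rw [← h1]
        rw [Polynomial.eval₂_add, Polynomial.eval₂_mul, Polynomial.eval₂_C, Polynomial.eval₂_pow,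
          Polynomial.eval₂_X, h1, add_sub_cancel_right]
      rw [h2]
      refine hP.sub hz ?_
      have h3 := (baseMap_not_isUnit φ hz hy hlc).mul
        (ge_of_locRing (pow_mem hw P.natDegree))
      rwa [add_zero] at h3
  have hd : P.natDegree ≠ 0 := by
    intro hd
    have h1 : P = Polynomial.C (P.coeff P.natDegree) := by
      rw [hd]
      exact Polynomial.eq_C_of_natDegree_eq_zero hd
    rw [h1, Polynomial.eval₂_C] at hP
    obtain ⟨h2, h3⟩ := baseMap_isUnit φ hlc
    have h4 := hP h2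
    rw [h3] at h4
    exact absurd h4 (by decide)
  have hn := hmin P.derivative ⟨P.natDegree - 1, by
    rw [Polynomial.coeff_derivative]
    have h1 : P.natDegree - 1 + 1 = P.natDegree := by omega
    rw [h1]
    exact hlc.mul (isUnit_natCast_add_one hy _)⟩ (Polynomial.natDegree_derivative_lt hd)
  refine ⟨P, hP, ?_, ?_⟩
  · intro h0
    exact hn (h0 ▸ ge_zero z 1)
  · have h1 := ord_nonneg_of_locRing (eval₂_mem_locRing φ hw P.derivative)
    by_contra hc
    exact hn fun _ => by omega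

/-- The derivative of a polynomial expression. -/
theorem deriv_eval₂ {v : Y.Der} {v' : X.Der} (hv : RegDer (φ.f z) v)
    (hvv : ∀ a, v' (φ.pull a) = φ.pull (v a)) {w : X.K} (hw : w ∈ locRing X z)
    (P : Polynomial (Y.X.presheaf.stalk (φ.f z))) :
    v' (P.eval₂ (baseMap φ z) w) - P.derivative.eval₂ (baseMap φ z) w * v' w ∈ locRing X z := by
  induction P using Polynomial.induction_on' with
  | add p q hp hq =>
    rw [Polynomial.eval₂_add, Polynomial.derivative_add, Polynomial.eval₂_add, map_add]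
    have h : v' (p.eval₂ (baseMap φ z) w) + v' (q.eval₂ (baseMap φ z) w) -
        (p.derivative.eval₂ (baseMap φ z) w + q.derivative.eval₂ (baseMap φ z) w) * v' w =
        (v' (p.eval₂ (baseMap φ z) w) - p.derivative.eval₂ (baseMap φ z) w * v' w) +
        (v' (q.eval₂ (baseMap φ z) w) - q.derivative.eval₂ (baseMap φ z) w * v' w) := by ring
    rw [h]
    exact add_mem hp hq
  | monomial n a =>
    have h1 : v' (baseMap φ z a) ∈ locRing X z := by
      obtain ⟨b, hb⟩ := hv a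
      have h2 : v' (baseMap φ z a) = baseMap φ z b := by
        change v' (φ.pull (toK (φ.f z) a)) = φ.pull (toK (φ.f z) b)
        rw [hvv]
        exact congrArg φ.pull hb
      rw [h2]
      exact baseMap_mem φ b
    rw [Polynomial.derivative_monomial, Polynomial.eval₂_monomial, Polynomial.eval₂_monomial,
      Derivation.leibniz, Derivation.leibniz_pow, map_mul, map_natCast, smul_eq_mul, smul_eq_mul,
      smul_eq_mul, nsmul_eq_mul]
    have h3 : baseMap φ z a * ((n : X.K) * (w ^ (n - 1) * v' w)) + w ^ n * v' (baseMap φ z a) -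
        baseMap φ z a * (n : X.K) * w ^ (n - 1) * v' w = w ^ n * v' (baseMap φ z a) := by ring
    rw [h3]
    exact mul_mem (pow_mem hw n) h1

/-- The bound for the orders of the derivatives improves. -/
theorem bdd_descend (halg : φ.pull.IsIntegral) (hz : coheight z = 1)
    (hy : coheight (φ.f z) = 1) {v : Y.Der} {v' : X.Der} (hv : RegDer (φ.f z) v)
    (hvv : ∀ a, v' (φ.pull a) = φ.pull (v a)) {t : Y.K} (ht : t ≠ 0)
    (ht1 : Scheme.ord t (φ.f z) = 1) (hvt : Ge (φ.f z) 1 (v t)) {N : ℕ}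
    (hN : Bdd z ((N + 1 : ℕ) : ℤ) v') : Bdd z (N : ℤ) v' := by
  obtain ⟨m, hm, hmult⟩ := φ.exists_mult z hz hy
  obtain ⟨τ, hτ, hτ1⟩ := exists_uniformizer' hz
  have hunit : ∀ u : X.K, u ≠ 0 → Scheme.ord u z = 0 → Ge z (-(N : ℤ)) (v' u) := by
    intro u hu hu0
    have hul : u ∈ locRing X z := locRing_of_ord_nonneg hz fun _ => hu0.ge
    obtain ⟨P, hP, hP1, hP2⟩ := exists_poly_sep φ halg hz hy hul
    have h1 : Ge z (-(N : ℤ)) (v' (P.eval₂ (baseMap φ z) u)) := by
      by_cases h0 : P.eval₂ (baseMap φ z) u = 0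
      · rw [h0, map_zero]
        exact ge_zero z _
      · refine (hN _ h0).mono ?_
        have := hP h0
        push_cast
        linarith
    have h2 : Ge z (-(N : ℤ)) (P.derivative.eval₂ (baseMap φ z) u * v' u) := by
      have h3 := h1.sub hz ((ge_of_locRing (deriv_eval₂ φ hv hvv hul P)).mono
        (by have : (0 : ℤ) ≤ N := Int.natCast_nonneg N
            linarith : -(N : ℤ) ≤ 0))
      rwa [sub_sub_cancel] at h3
    have h3 := h2.of_mul hP1
    rwa [hP2, sub_zero] at h3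
  refine bdd_of_unit hz hτ hτ1 hunit ?_
  -- the uniformizer
  have hT0 : φ.pull t ≠ 0 := φ.pull_ne_zero ht
  have hT1 : Scheme.ord (φ.pull t) z = m := by rw [hmult t ht, ht1, mul_one]
  have hτm : τ ^ m ≠ 0 := zpow_ne_zero _ hτ
  set u := φ.pull t / τ ^ m with hu
  have hu0 : u ≠ 0 := div_ne_zero hT0 hτm
  have huo : Scheme.ord u z = 0 := by
    rw [hu, Q.ord_div hT0 hτm, Q.ord_zpow hτ, hτ1, hT1, mul_one, sub_self]
  have hTu : φ.pull t = u * τ ^ m := by rw [hu, div_mul_cancel₀ _ hτm]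
  have h1 : v' (φ.pull t) = u * ((m : X.K) * (τ ^ (m - 1) * v' τ)) + τ ^ m * v' u := by
    conv_lhs => rw [hTu]
    rw [Derivation.leibniz, Derivation.leibniz_zpow, smul_eq_mul, smul_eq_mul, smul_eq_mul,
      zsmul_eq_mul]
  have h2 : Ge z m (v' (φ.pull t)) := by
    intro h0
    rw [hvv] at h0 ⊢
    have h3 : v t ≠ 0 := by
      intro h4
      rw [h4, map_zero] at h0
      exact h0 rfl
    rw [hmult _ h3]
    have h4 := hvt h3
    nlinarith
  have h3 : Ge z (m - N) (u * ((m : X.K) * τ ^ (m - 1)) * v' τ) := by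
    have h4 : u * ((m : X.K) * τ ^ (m - 1)) * v' τ = v' (φ.pull t) - τ ^ m * v' u := by
      rw [h1]
      ring
    rw [h4]
    refine (h2.mono ?_).sub hz (((ge_zpow z hτ m).mul (hunit u hu0 huo)).mono ?_)
    · have : (0 : ℤ) ≤ N := Int.natCast_nonneg N
      linarith
    · rw [hτ1]
      linarith
  have hmC : (m : ℂ) ≠ 0 := by
    have : m ≠ 0 := by omega
    exact_mod_cast this
  have hmK : (m : X.K) = algebraMap ℂ X.K (m : ℂ) := (map_intCast _ m).symm
  have hm0 : (m : X.K) ≠ 0 := by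
    rw [hmK]
    exact (map_ne_zero _).2 hmC
  have hmo : Scheme.ord (m : X.K) z = 0 := by
    rw [hmK]
    exact ord_constant _ hmC z
  have hτm' : τ ^ (m - 1) ≠ 0 := zpow_ne_zero _ hτ
  have h4 := h3.of_mul (mul_ne_zero hu0 (mul_ne_zero hm0 hτm'))
  rw [Scheme.ord_mul hu0 (mul_ne_zero hm0 hτm'), Scheme.ord_mul hm0 hτm', huo, hmo,
    Q.ord_zpow hτ, hτ1] at h4
  refine h4.mono ?_
  linarith

/-- **Logarithmic vector fields extend to logarithmic vector fields.** -/
theorem bdd_zero_of_log (halg : φ.pull.IsIntegral) (hz : coheight z = 1)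
    (hy : coheight (φ.f z) = 1) {v : Y.Der} {v' : X.Der} (hv : RegDer (φ.f z) v)
    (hvv : ∀ a, v' (φ.pull a) = φ.pull (v a)) {t : Y.K} (ht : t ≠ 0)
    (ht1 : Scheme.ord t (φ.f z) = 1) (hvt : Ge (φ.f z) 1 (v t)) : Bdd z 0 v' := by
  obtain ⟨N, hN⟩ := exists_bdd v' hz
  induction N with
  | zero => exact hN
  | succ N ih => exact ih (bdd_descend φ halg hz hy hv hvv ht ht1 hvt hN)

end Ext

end Vale.Agent.P299.Q
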