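import Vale.Agent.P299.Q.ConstExact
import Mathlib.Algebra.Homology.DerivedCategory.Ext.EnoughInjectives

/-!
# Local cohomology classes: the sheaves `ℂ_U` and the Mayer–Vietoris argument
-/

open CategoryTheory TopologicalSpace Opposite TopCat

namespace Vale.Agent.P299.Q

/-- The sheaves of complex vector spaces. -/
abbrev ShC (T : TopCat.{0}) : Type 1 := Sheaf (Opens.grothendieckTopology T) (ModuleCat.{0} ℂ)

section Abs

open Abelian

variable {C : Type 1} [Category.{0} C] [Abelian C] [HasExt.{0} C]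

/-- A class which vanishes on the summands vanishes. -/
theorem comp_eq_zero_of_decomp {M A B Z F : C} {n : ℕ} {g : M ⟶ Z} {p₁ : M ⟶ A} {p₂ : M ⟶ B}
    {i₁ : A ⟶ M} {i₂ : B ⟶ M} (hid : p₁ ≫ i₁ + p₂ ≫ i₂ = 𝟙 M) {α : Ext.{0} Z F n}
    (h1 : (Ext.mk₀ (i₁ ≫ g)).comp α (zero_add n) = 0)
    (h2 : (Ext.mk₀ (i₂ ≫ g)).comp α (zero_add n) = 0) :
    (Ext.mk₀ g).comp α (zero_add n) = 0 := by
  rw [← Category.id_comp g, ← hid, Preadditive.add_comp, Category.assoc, Category.assoc,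
    Ext.mk₀_add, Ext.add_comp, ← Ext.mk₀_comp_mk₀_assoc p₁ (i₁ ≫ g),
    ← Ext.mk₀_comp_mk₀_assoc p₂ (i₂ ≫ g), h1, h2,
    Ext.comp_zero, Ext.comp_zero, add_zero]

end Abs

section ZU

variable {T : TopCat.{0}}

/-- The condition `z = 0` outside `U`. -/
def zM (U : Opens T) (x : T) : Submodule ℂ ℂ where
  carrier := {z | x ∉ U → z = 0}
  zero_mem' := fun _ => rfl
  add_mem' := fun ha hb h => by rw [ha h, hb h, add_zero]
  smul_mem' := fun c _ ha h => by rw [ha h, smul_zero]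

theorem mem_zM {U : Opens T} {x : T} {z : ℂ} : z ∈ zM U x ↔ (x ∉ U → z = 0) := Iff.rfl

theorem subsingleton_bot (F : ShC T) {V : Opens T} (hV : ¬ Nonempty V) (s t : F.obj.obj (op V)) :
    s = t := by
  have h1 : V = ⊥ := by
    ext x
    simp only [Opens.coe_bot, Set.mem_empty_iff_false, iff_false]
    exact fun hx => hV ⟨⟨x, hx⟩⟩
  have h2 : Limits.IsZero (F.obj.obj (op V)) :=
    Limits.IsZero.of_iso (Limits.isZero_zero (ModuleCat.{0} ℂ))
      ((TopCat.Sheaf.isTerminalOfEqEmpty F h1).uniqueUpToIso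
        (Limits.isZero_zero (ModuleCat.{0} ℂ)).isTerminal)
  have h3 := ModuleCat.subsingleton_of_isZero h2
  exact Subsingleton.elim _ _

variable [PreirreducibleSpace T]

/-- The extension by zero of the constant sheaf on `U`. -/
def Zc (U : Opens T) : ShC T := constSheaf (K := ℂ) (zM U)

/-- The inclusion of these sheaves. -/
def Zmap {U V : Opens T} (h : U ≤ V) : Zc U ⟶ Zc V :=
  constMap LinearMap.id (zM U) (zM V) fun _ _ hz hx => hz fun hxU => hx (h hxU)

theorem Zmap_comp {U V W : Opens T} (h : U ≤ V) (h' : V ≤ W) :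
    Zmap h ≫ Zmap h' = Zmap (h.trans h') := rfl

/-- The section `1` of `Zc U` over `U`. -/
def oneS (U : Opens T) : constSec (zM U) U :=
  ⟨fun _ => 1, fun _ _ => rfl, fun x hx => absurd x.2 hx⟩

/-- The section `1` of `Zc U` over `U`. -/
def oneU (U : Opens T) : (Zc U).obj.obj (op U) := oneS U

open Classical in
/-- The value of a section of `Zc U`, with value zero on the empty set. -/
noncomputable def valZ (U V : Opens T) : constSec (zM U) V →ₗ[ℂ] ℂ where
  toFun t := if h : Nonempty V then t.1 h.some else 0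
  map_add' s t := by
    split_ifs with h
    · rfl
    · rw [add_zero]
  map_smul' c t := by
    split_ifs with h
    · rfl
    · rw [smul_zero]

theorem valZ_eq {U V : Opens T} (t : constSec (zM U) V) (x : V) : valZ U V t = t.1 x := by
  have h : Nonempty V := ⟨x⟩
  have h1 : valZ U V t = t.1 h.some := dif_pos h
  rw [h1]
  exact t.2.1 _ _

theorem valZ_of_not_le {U V : Opens T} (h : ¬ V ≤ U) (t : constSec (zM U) V) : valZ U V t = 0 := by
  obtain ⟨x, hx, hxU⟩ := Set.not_subset.1 h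
  rw [valZ_eq t ⟨x, hx⟩]
  exact t.2.2 ⟨x, hx⟩ hxU

theorem sec_ext {U V : Opens T} {t t' : constSec (zM U) V} (h : valZ U V t = valZ U V t') :
    t = t' := by
  apply Subtype.ext
  funext x
  rw [← valZ_eq t x, h, valZ_eq]

open Classical in
/-- The map `Zc U → F` given by a section over `U`. -/
noncomputable def homZapp (F : ShC T) {U : Opens T} (s : F.obj.obj (op U)) (V : Opens T) :
    constSec (zM U) V →ₗ[ℂ] F.obj.obj (op V) :=
  if h : V ≤ U then (valZ U V).smulRight ((F.obj.map (homOfLE h).op).hom s) else 0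

/-- The morphism `Zc U → F` given by a section over `U`. -/
noncomputable def homZ (F : ShC T) {U : Opens T} (s : F.obj.obj (op U)) : Zc U ⟶ F :=
  ⟨{ app := fun V => ModuleCat.ofHom (homZapp F s V.unop)
     naturality := by
      intro V W i
      apply ModuleCat.hom_ext
      apply LinearMap.ext
      intro t
      let t' : constSec (zM U) V.unop := t
      change homZapp F s W.unop (constRes (zM U) i.unop.le t') =
        (F.obj.map i).hom (homZapp F s V.unop t')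
      by_cases hW : Nonempty W.unop
      · have hval : valZ U W.unop (constRes (zM U) i.unop.le t') = valZ U V.unop t' := by
          obtain ⟨x⟩ := hW
          rw [valZ_eq _ x, valZ_eq t' ⟨x.1, i.unop.le x.2⟩]
          rfl
        by_cases hV : V.unop ≤ U
        · have hWU : W.unop ≤ U := i.unop.le.trans hV
          rw [homZapp, homZapp, dif_pos hV, dif_pos hWU, LinearMap.smulRight_apply,
            LinearMap.smulRight_apply, hval, map_smul]
          congr 1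
          have h1 : F.obj.map (homOfLE hWU).op = F.obj.map (homOfLE hV).op ≫ F.obj.map i := by
            rw [← F.obj.map_comp]
            rfl
          rw [h1]
          rfl
        · have h0 := valZ_of_not_le hV t'
          rw [homZapp, homZapp, dif_neg hV, LinearMap.zero_apply, map_zero]
          split_ifs with hWU
          · rw [LinearMap.smulRight_apply, hval, h0, zero_smul]
          · rfl
      · exact subsingleton_bot F hW _ _ }⟩

theorem homZ_one (F : ShC T) {U : Opens T} (s : F.obj.obj (op U)) :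
    ((homZ F s).hom.app (op U)).hom (oneU U) = s := by
  by_cases hU : Nonempty U
  · change homZapp F s U (oneS U) = s
    obtain ⟨x⟩ := hU
    rw [homZapp, dif_pos le_rfl, LinearMap.smulRight_apply, valZ_eq _ x]
    have h1 : (homOfLE (le_refl U)).op = 𝟙 (op U) := rfl
    rw [h1, F.obj.map_id]
    exact one_smul _ _
  · exact subsingleton_bot F hU _ _

/-- A morphism `Zc U → F` is determined by the image of `1`. -/
theorem hom_ext_one (F : ShC T) {U : Opens T} {f g : Zc U ⟶ F}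
    (h : (f.hom.app (op U)).hom (oneU U) = (g.hom.app (op U)).hom (oneU U)) : f = g := by
  apply CategoryTheory.Sheaf.hom_ext
  apply NatTrans.ext
  funext V
  apply ModuleCat.hom_ext
  apply LinearMap.ext
  intro t
  let t' : constSec (zM U) V.unop := t
  by_cases hV : Nonempty V.unop
  · by_cases hVU : V.unop ≤ U
    · have h1 : t = valZ U V.unop t' • ((Zc U).obj.map (homOfLE hVU).op).hom (oneU U) := by
        have h3 : t' = valZ U V.unop t' • constRes (zM U) hVU (oneS U) := by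
          apply sec_ext
          obtain ⟨x⟩ := hV
          rw [map_smul, valZ_eq (constRes (zM U) hVU (oneS U)) x, valZ_eq t' x]
          exact (mul_one _).symm
        exact h3
      have h2 : ∀ f : Zc U ⟶ F, (f.hom.app V).hom (((Zc U).obj.map (homOfLE hVU).op).hom (oneU U)) =
          (F.obj.map (homOfLE hVU).op).hom ((f.hom.app (op U)).hom (oneU U)) := fun f =>
        congrArg (fun φ => φ.hom (oneU U)) (f.hom.naturality (homOfLE hVU).op)
      rw [h1, map_smul, map_smul, h2 f, h2 g, h]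
    · have h1 : t = (0 : constSec (zM U) V.unop) := sec_ext (by
        rw [map_zero]
        exact valZ_of_not_le hVU t')
      rw [h1]
      exact (map_zero _).trans (map_zero _).symm
  · exact subsingleton_bot F hV _ _

theorem Zmap_one {U V : Opens T} (h : U ≤ V) :
    ((Zmap h).hom.app (op U)).hom (oneU U) = ((Zc V).obj.map (homOfLE h).op).hom (oneU V) := rfl

/-- Restriction of morphisms corresponds to restriction of sections. -/
theorem Zmap_comp_one (F : ShC T) {U V : Opens T} (h : U ≤ V) (f : Zc V ⟶ F) :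
    ((Zmap h ≫ f).hom.app (op U)).hom (oneU U) =
      (F.obj.map (homOfLE h).op).hom ((f.hom.app (op V)).hom (oneU V)) := by
  have h1 : ((Zmap h ≫ f).hom.app (op U)).hom (oneU U) =
      (f.hom.app (op U)).hom (((Zmap h).hom.app (op U)).hom (oneU U)) := rfl
  rw [h1, Zmap_one]
  exact congrArg (fun φ => φ.hom (oneU V)) (f.hom.naturality (homOfLE h).op)

theorem Zmap_comp_homZ (F : ShC T) {U V : Opens T} (h : U ≤ V) (s : F.obj.obj (op V)) :
    Zmap h ≫ homZ F s = homZ F ((F.obj.map (homOfLE h).op).hom s) := by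
  apply hom_ext_one
  rw [Zmap_comp_one, homZ_one, homZ_one]

/-! ### Mayer–Vietoris -/

/-- The values of the pairs. -/
def zM2 (V₁ V₂ : Opens T) (x : T) : Submodule ℂ (ℂ × ℂ) := (zM V₁ x).prod (zM V₂ x)

/-- The map `z ↦ (z, -z)`. -/
def mvi : ℂ →ₗ[ℂ] ℂ × ℂ := LinearMap.prod LinearMap.id (-LinearMap.id)

/-- The map `(a, b) ↦ a + b`. -/
def mvq : ℂ × ℂ →ₗ[ℂ] ℂ := LinearMap.coprod LinearMap.id LinearMap.id

theorem mvi_apply (z : ℂ) : mvi z = (z, -z) := rfl

theorem mvq_apply (z : ℂ × ℂ) : mvq z = z.1 + z.2 := rfl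

theorem mvi_mem (V₁ V₂ : Opens T) (x : T) (z : ℂ) (hz : z ∈ zM (V₁ ⊓ V₂) x) :
    mvi z ∈ zM2 V₁ V₂ x := by
  rw [mvi_apply]
  refine ⟨fun h => hz fun h' => h h'.1, fun h => ?_⟩
  change -z = 0
  rw [hz fun h' => h h'.2, neg_zero]

theorem mvq_mem (V₁ V₂ : Opens T) (x : T) (z : ℂ × ℂ) (hz : z ∈ zM2 V₁ V₂ x) :
    mvq z ∈ zM (V₁ ⊔ V₂) x := by
  intro h
  rw [mvq_apply, hz.1 fun h' => h (Or.inl h'), hz.2 fun h' => h (Or.inr h'), add_zero]

/-- The Mayer–Vietoris complex. -/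
noncomputable def mvComplex (V₁ V₂ : Opens T) : ShortComplex (ShC T) :=
  constComplex (i := mvi) (q := mvq) (mvi_mem V₁ V₂) (mvq_mem V₁ V₂) fun z => by
    rw [mvi_apply, mvq_apply]
    exact add_neg_cancel z

theorem mv_shortExact (V₁ V₂ : Opens T) : (mvComplex V₁ V₂).ShortExact := by
  refine constComplex_shortExact _ _ _ (fun a b h => congrArg Prod.fst h) (fun f hf => ?_)
    (fun U x₀ hx₀ f hf => ?_)
  · rw [mvq_apply] at hf
    refine ⟨f.1, ?_, fun x hx h => ?_⟩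
    · rw [mvi_apply]
      exact Prod.ext rfl (neg_eq_of_add_eq_zero_right hf)
    · by_cases h1 : x ∈ V₁
      · have h2 : f.2 = 0 := hx.2 fun h2 => h ⟨h1, h2⟩
        rwa [h2, add_zero] at hf
      · exact hx.1 h1
  · by_cases h1 : x₀ ∈ V₁
    · exact ⟨U ⊓ V₁, inf_le_left, ⟨hx₀, h1⟩, (f, 0), add_zero f, fun x hx =>
        ⟨fun h => absurd hx.2 h, fun _ => rfl⟩⟩
    · by_cases h2 : x₀ ∈ V₂
      · exact ⟨U ⊓ V₂, inf_le_left, ⟨hx₀, h2⟩, (0, f), zero_add f, fun x hx =>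
          ⟨fun _ => rfl, fun h => absurd hx.2 h⟩⟩
      · have h0 : f = 0 := hf x₀ hx₀ fun h => h.elim h1 h2
        exact ⟨U, le_rfl, hx₀, (0, 0), by rw [h0]; exact add_zero 0, fun x _ =>
          ⟨fun _ => rfl, fun _ => rfl⟩⟩

/-- The middle term of the Mayer–Vietoris complex. -/
noncomputable def mvM (V₁ V₂ : Opens T) : ShC T := constSheaf (zM2 V₁ V₂)

/-- The first map. -/
noncomputable def mvf (V₁ V₂ : Opens T) : Zc (V₁ ⊓ V₂) ⟶ mvM V₁ V₂ :=
  constMap mvi (zM (V₁ ⊓ V₂)) (zM2 V₁ V₂) (mvi_mem V₁ V₂)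

/-- The second map. -/
noncomputable def mvg (V₁ V₂ : Opens T) : mvM V₁ V₂ ⟶ Zc (V₁ ⊔ V₂) :=
  constMap mvq (zM2 V₁ V₂) (zM (V₁ ⊔ V₂)) (mvq_mem V₁ V₂)

/-- The class of the Mayer–Vietoris extension. -/
noncomputable def mvClass (V₁ V₂ : Opens T) :
    Abelian.Ext.{0} (Zc (V₁ ⊔ V₂)) (Zc (V₁ ⊓ V₂)) 1 := (mv_shortExact V₁ V₂).extClass

theorem mvClass_comp {F : ShC T} (V₁ V₂ : Opens T) {n : ℕ} (γ : Abelian.Ext.{0} (mvM V₁ V₂) F n) :
    (mvClass V₁ V₂).comp ((Abelian.Ext.mk₀ (mvf V₁ V₂)).comp γ (zero_add n)) (add_comm 1 n) = 0 :=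
  (mv_shortExact V₁ V₂).extClass_comp_assoc γ

theorem exists_mvClass {F : ShC T} {V₁ V₂ : Opens T} {n : ℕ}
    (α : Abelian.Ext.{0} (Zc (V₁ ⊔ V₂)) F (n + 1))
    (h : (Abelian.Ext.mk₀ (mvg V₁ V₂)).comp α (zero_add _) = 0) :
    ∃ β : Abelian.Ext.{0} (Zc (V₁ ⊓ V₂)) F n, (mvClass V₁ V₂).comp β (add_comm 1 n) = α :=
  Abelian.Ext.contravariant_sequence_exact₃ (mv_shortExact V₁ V₂) F α h (n₀ := n) (add_comm 1 n)

/-- The first projection of the middle term. -/
noncomputable def mvp₁ (V₁ V₂ : Opens T) : mvM V₁ V₂ ⟶ Zc V₁ :=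
  constMap (LinearMap.fst ℂ ℂ ℂ) (zM2 V₁ V₂) (zM V₁) fun _ _ h => h.1

/-- The second projection of the middle term. -/
noncomputable def mvp₂ (V₁ V₂ : Opens T) : mvM V₁ V₂ ⟶ Zc V₂ :=
  constMap (LinearMap.snd ℂ ℂ ℂ) (zM2 V₁ V₂) (zM V₂) fun _ _ h => h.2

/-- The first inclusion of the middle term. -/
noncomputable def mvi₁ (V₁ V₂ : Opens T) : Zc V₁ ⟶ mvM V₁ V₂ :=
  constMap (LinearMap.inl ℂ ℂ ℂ) (zM V₁) (zM2 V₁ V₂) fun _ _ h => ⟨h, fun _ => rfl⟩

/-- The second inclusion of the middle term. -/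
noncomputable def mvi₂ (V₁ V₂ : Opens T) : Zc V₂ ⟶ mvM V₁ V₂ :=
  constMap (LinearMap.inr ℂ ℂ ℂ) (zM V₂) (zM2 V₁ V₂) fun _ _ h => ⟨fun _ => rfl, h⟩

theorem mv_hom_ext {K₁ K₂ : Type} [AddCommGroup K₁] [Module ℂ K₁] [AddCommGroup K₂] [Module ℂ K₂]
    {M₁ : T → Submodule ℂ K₁} {M₂ : T → Submodule ℂ K₂} {f g : constSheaf M₁ ⟶ constSheaf M₂}
    (h : ∀ (U : Opens T) (t : constSec M₁ U) (x : U),
      ((f.hom.app (op U)).hom t : constSec M₂ U).1 x =
        ((g.hom.app (op U)).hom t : constSec M₂ U).1 x) : f = g := by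
  apply CategoryTheory.Sheaf.hom_ext
  apply NatTrans.ext
  funext U
  apply ModuleCat.hom_ext
  apply LinearMap.ext
  intro t
  exact Subtype.ext (funext fun x => h U.unop t x)

theorem mv_id (V₁ V₂ : Opens T) :
    mvp₁ V₁ V₂ ≫ mvi₁ V₁ V₂ + mvp₂ V₁ V₂ ≫ mvi₂ V₁ V₂ = 𝟙 (mvM V₁ V₂) := by
  refine mv_hom_ext (M₁ := zM2 V₁ V₂) (M₂ := zM2 V₁ V₂) fun U t x => ?_
  change (((t.1 x).1, 0) : ℂ × ℂ) + (0, (t.1 x).2) = t.1 x
  exact Prod.ext (add_zero _) (zero_add _)

theorem mvi₁_g (V₁ V₂ : Opens T) :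
    mvi₁ V₁ V₂ ≫ mvg V₁ V₂ = Zmap (le_sup_left : V₁ ≤ V₁ ⊔ V₂) := by
  refine mv_hom_ext (M₁ := zM V₁) (M₂ := zM (V₁ ⊔ V₂)) fun U t x => ?_
  change t.1 x + 0 = t.1 x
  exact add_zero _

theorem mvi₂_g (V₁ V₂ : Opens T) :
    mvi₂ V₁ V₂ ≫ mvg V₁ V₂ = Zmap (le_sup_right : V₂ ≤ V₁ ⊔ V₂) := by
  refine mv_hom_ext (M₁ := zM V₂) (M₂ := zM (V₁ ⊔ V₂)) fun U t x => ?_
  change 0 + t.1 x = t.1 x
  exact zero_add _

theorem mvf_p₁ (V₁ V₂ : Opens T) :
    mvf V₁ V₂ ≫ mvp₁ V₁ V₂ = Zmap (inf_le_left : V₁ ⊓ V₂ ≤ V₁) := rfl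

theorem mvf_p₂ (V₁ V₂ : Opens T) :
    mvf V₁ V₂ ≫ mvp₂ V₁ V₂ = -Zmap (inf_le_right : V₁ ⊓ V₂ ≤ V₂) := rfl

open Abelian in
/-- A class on `V₁ ∪ V₂` which vanishes on `V₁` and on `V₂` comes from `V₁ ∩ V₂`. -/
theorem mv_zero {F : ShC T} {V₁ V₂ : Opens T} {n : ℕ}
    (α : Ext.{0} (Zc (V₁ ⊔ V₂)) F (n + 1))
    (h1 : (Ext.mk₀ (Zmap (le_sup_left : V₁ ≤ V₁ ⊔ V₂))).comp α (zero_add _) = 0)
    (h2 : (Ext.mk₀ (Zmap (le_sup_right : V₂ ≤ V₁ ⊔ V₂))).comp α (zero_add _) = 0)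
    (h : ∀ β : Ext.{0} (Zc (V₁ ⊓ V₂)) F n, ∃ γ : Ext.{0} (mvM V₁ V₂) F n,
      (Ext.mk₀ (mvf V₁ V₂)).comp γ (zero_add _) = β) : α = 0 := by
  have h3 : (Ext.mk₀ (mvg V₁ V₂)).comp α (zero_add _) = 0 := by
    refine comp_eq_zero_of_decomp (mv_id V₁ V₂) ?_ ?_
    · rw [mvi₁_g]
      exact h1
    · rw [mvi₂_g]
      exact h2
  obtain ⟨β, hβ⟩ := exists_mvClass α h3
  obtain ⟨γ, hγ⟩ := h β
  rw [← hβ, ← hγ]
  exact mvClass_comp V₁ V₂ γ

/-- If `F(V₁) ⊕ F(V₂) → F(V₁ ∩ V₂)` is surjective, then so is the map on morphisms. -/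
theorem mv_surj {F : ShC T} {V₁ V₂ : Opens T}
    (hs : ∀ s : F.obj.obj (op (V₁ ⊓ V₂)), ∃ (s₁ : F.obj.obj (op V₁)) (s₂ : F.obj.obj (op V₂)),
      s = (F.obj.map (homOfLE (inf_le_left : V₁ ⊓ V₂ ≤ V₁)).op).hom s₁ +
        (F.obj.map (homOfLE (inf_le_right : V₁ ⊓ V₂ ≤ V₂)).op).hom s₂)
    (β : Abelian.Ext.{0} (Zc (V₁ ⊓ V₂)) F 0) : ∃ γ : Abelian.Ext.{0} (mvM V₁ V₂) F 0,
      (Abelian.Ext.mk₀ (mvf V₁ V₂)).comp γ (zero_add _) = β := by
  obtain ⟨b, rfl⟩ := (Abelian.Ext.mk₀_bijective _ _).2 β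
  obtain ⟨s₁, s₂, hs⟩ := hs ((b.hom.app (op (V₁ ⊓ V₂))).hom (oneU (V₁ ⊓ V₂)))
  refine ⟨Abelian.Ext.mk₀ (mvp₁ V₁ V₂ ≫ homZ F s₁ - mvp₂ V₁ V₂ ≫ homZ F s₂), ?_⟩
  rw [Abelian.Ext.mk₀_comp_mk₀]
  congr 1
  rw [Preadditive.comp_sub, ← Category.assoc, ← Category.assoc, mvf_p₁, mvf_p₂,
    Preadditive.neg_comp, sub_neg_eq_add, Zmap_comp_homZ, Zmap_comp_homZ]
  apply hom_ext_one
  rw [hs]
  have h1 := homZ_one F ((F.obj.map (homOfLE (inf_le_left : V₁ ⊓ V₂ ≤ V₁)).op).hom s₁)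
  have h2 := homZ_one F ((F.obj.map (homOfLE (inf_le_right : V₁ ⊓ V₂ ≤ V₂)).op).hom s₂)
  exact congrArg₂ (· + ·) h1 h2

/-! ### Restriction of classes -/

/-- The restriction of a class to a smaller open set. -/
noncomputable def resE {F : ShC T} {U V : Opens T} (h : V ≤ U) {n : ℕ}
    (α : Abelian.Ext.{0} (Zc U) F n) : Abelian.Ext.{0} (Zc V) F n :=
  (Abelian.Ext.mk₀ (Zmap h)).comp α (zero_add n)

theorem resE_resE {F : ShC T} {U V W : Opens T} (h : V ≤ U) (h' : W ≤ V) {n : ℕ}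
    (α : Abelian.Ext.{0} (Zc U) F n) : resE h' (resE h α) = resE (h'.trans h) α := by
  unfold resE
  rw [Abelian.Ext.mk₀_comp_mk₀_assoc, Zmap_comp]

theorem resE_zero {F : ShC T} {U V : Opens T} (h : V ≤ U) {n : ℕ} :
    resE h (0 : Abelian.Ext.{0} (Zc U) F n) = 0 := Abelian.Ext.comp_zero _ _ _ _ _

theorem resE_comp {F G : ShC T} {U V : Opens T} (h : V ≤ U) {m n k : ℕ}
    (α : Abelian.Ext.{0} (Zc U) F m) (β : Abelian.Ext.{0} F G n) (hk : m + n = k) :
    resE h (α.comp β hk) = (resE h α).comp β hk := by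
  unfold resE
  rw [Abelian.Ext.comp_assoc _ _ _ (zero_add m) hk (by omega)]

end ZU

/-! ### Dimension shifting -/

section Inj

variable {T : TopCat.{0}}

/-- A sheaf as a subsheaf of an injective sheaf. -/
noncomputable def injComplex (F : ShC T) : ShortComplex (ShC T) :=
  ShortComplex.mk (Injective.ι F) (Limits.cokernel.π (Injective.ι F)) (Limits.cokernel.condition _)

theorem injComplex_shortExact (F : ShC T) : (injComplex F).ShortExact where
  exact := ShortComplex.exact_cokernel _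
  mono_f := inferInstanceAs (Mono (Injective.ι F))
  epi_g := inferInstanceAs (Epi (Limits.cokernel.π (Injective.ι F)))

/-- The injective sheaf. -/
noncomputable def injI (F : ShC T) : ShC T := Injective.under F

instance (F : ShC T) : Injective (injI F) := inferInstanceAs (Injective (Injective.under F))

/-- The inclusion. -/
noncomputable def injι (F : ShC T) : F ⟶ injI F := Injective.ι F

/-- The quotient. -/
noncomputable def injQ (F : ShC T) : ShC T := Limits.cokernel (Injective.ι F)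

/-- The projection. -/
noncomputable def injπ (F : ShC T) : injI F ⟶ injQ F := Limits.cokernel.π (Injective.ι F)

instance (F : ShC T) : Epi (injπ F) := inferInstanceAs (Epi (Limits.cokernel.π (Injective.ι F)))

/-- The class of the extension. -/
noncomputable def injδ (F : ShC T) : Abelian.Ext.{0} (injQ F) F 1 :=
  (injComplex_shortExact F).extClass

theorem injπ_injδ (F : ShC T) : (Abelian.Ext.mk₀ (injπ F)).comp (injδ F) (zero_add 1) = 0 :=
  (injComplex_shortExact F).comp_extClass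

theorem exists_of_injδ (F : ShC T) {Z : ShC T} {n : ℕ} (α : Abelian.Ext.{0} Z F (n + 1)) :
    ∃ β : Abelian.Ext.{0} Z (injQ F) n, β.comp (injδ F) rfl = α :=
  Abelian.Ext.covariant_sequence_exact₁ Z (injComplex_shortExact F) α
    (Abelian.Ext.eq_zero_of_injective (I := injI F) _) rfl

theorem exists_of_comp_injδ (F : ShC T) {Z : ShC T} {n : ℕ} (β : Abelian.Ext.{0} Z (injQ F) n)
    (h : β.comp (injδ F) rfl = 0) :
    ∃ γ : Abelian.Ext.{0} Z (injI F) n, γ.comp (Abelian.Ext.mk₀ (injπ F)) (add_zero n) = β :=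
  Abelian.Ext.covariant_sequence_exact₃ Z (injComplex_shortExact F) β rfl h

end Inj

section Loc

variable {T : TopCat.{0}} [PreirreducibleSpace T]

/-- A class of positive degree vanishes locally. -/
theorem exists_resE_zero {n : ℕ} : ∀ {F : ShC T} {U : Opens T}
    (α : Abelian.Ext.{0} (Zc U) F (n + 1)) {x : T} (_ : x ∈ U),
    ∃ (V : Opens T) (h : V ≤ U), x ∈ V ∧ resE h α = 0 := by
  induction n with
  | zero =>
    intro F U α x hx
    obtain ⟨β, rfl⟩ := exists_of_injδ F α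
    obtain ⟨b, rfl⟩ := (Abelian.Ext.mk₀_bijective _ _).2 β
    have h2 := (CategoryTheory.Sheaf.isLocallySurjective_iff_epi' (A := ModuleCat.{0} ℂ)
      (φ := injπ F)).2 inferInstance
    have h3 := (TopCat.Presheaf.isLocallySurjective_iff (injπ F).hom).1 h2
    obtain ⟨V, hVU, ⟨t, ht⟩, hxV⟩ := h3 U ((b.hom.app (op U)).hom (oneU U)) x hx
    refine ⟨V, hVU, hxV, ?_⟩
    rw [resE_comp]
    have h4 : resE hVU (Abelian.Ext.mk₀ b) = Abelian.Ext.mk₀ (homZ (injI F) t ≫ injπ F) := by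
      unfold resE
      rw [Abelian.Ext.mk₀_comp_mk₀]
      congr 1
      apply hom_ext_one
      rw [Zmap_comp_one]
      have h5 : ((homZ (injI F) t ≫ injπ F).hom.app (op V)).hom (oneU V) =
          ((injπ F).hom.app (op V)).hom (((homZ (injI F) t).hom.app (op V)).hom (oneU V)) := rfl
      rw [h5, homZ_one]
      exact ht.symm
    rw [h4, ← Abelian.Ext.mk₀_comp_mk₀,
      Abelian.Ext.comp_assoc _ _ _ (zero_add 0) (zero_add 1) (by omega),
      injπ_injδ, Abelian.Ext.comp_zero]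
  | succ n ih =>
    intro F U α x hx
    obtain ⟨β, rfl⟩ := exists_of_injδ F α
    obtain ⟨V, h, hxV, hV⟩ := ih β hx
    refine ⟨V, h, hxV, ?_⟩
    rw [resE_comp, hV, Abelian.Ext.zero_comp]

end Loc

end Vale.Agent.P299.Q
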