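import Vale.Agent.P299.Q.OrbA
import Vale.Agent.P299.Q.Ample
import Vale.Agent.P299.Q.BB

/-!
# Vanishing of cohomology on affine open sets, by the Mayer–Vietoris argument
-/

open CategoryTheory TopologicalSpace Opposite TopCat AlgebraicGeometry Order

namespace Vale.Agent.P299.Q

open Vale.Agent.P299.G

variable {X : Var}

/-- The rational function `g` has no pole at the point `x` of codimension one. -/
def RegOn {S : TopCat.{0}} (q : X.X → S) (V : Opens S) (g : X.K) : Prop :=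
  ∀ x, q x ∈ V → g ∈ polar (coef (0 : Div X.X)) x

theorem regOn_iff {S : TopCat.{0}} {q : X.X → S} {V : Opens S} {g : X.K} :
    RegOn q V g ↔ ∀ x, q x ∈ V → coheight x = 1 → g ≠ 0 → 0 ≤ Scheme.ord g x := by
  unfold RegOn
  refine forall_congr' fun x => forall_congr' fun _ => ?_
  rw [mem_polar, coef_zero, add_zero]

theorem orbPolar_mul {D D' : Div X.X} {x : X.X} {f g : X.K} (hf : f ∈ polar (coef D) x)
    (hg : g ∈ polar (coef D') x) : f * g ∈ polar (coef (D + D')) x := by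
  intro hx hfg
  have hf0 := left_ne_zero_of_mul hfg
  have hg0 := right_ne_zero_of_mul hfg
  have h1 := hf hx hf0
  have h2 := hg hx hg0
  rw [Scheme.ord_mul hf0 hg0, coef_add]
  omega

theorem polar_mul_reg {D : Div X.X} {x : X.X} {f g : X.K} (hf : f ∈ polar (coef (0 : Div X.X)) x)
    (hg : g ∈ polar (coef D) x) : f * g ∈ polar (coef D) x := by
  have := orbPolar_mul hf hg
  rwa [zero_add] at this

/-- The ring of the functions in `Inv` without poles over `V`. -/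
def regRing {S : TopCat.{0}} (q : X.X → S) (Inv : Subfield X.K) (V : Opens S) : Subring X.K where
  carrier := {g | g ∈ Inv ∧ RegOn q V g}
  mul_mem' := fun {a b} ha hb => ⟨Inv.mul_mem ha.1 hb.1, fun x hx =>
    polar_mul_reg (ha.2 x hx) (hb.2 x hx)⟩
  one_mem' := ⟨Inv.one_mem, fun x _ _ _ => by rw [ord_one, coef_zero, add_zero]⟩
  add_mem' := fun {a b} ha hb => ⟨Inv.add_mem ha.1 hb.1, fun x hx =>
    (polar _ x).add_mem (ha.2 x hx) (hb.2 x hx)⟩
  zero_mem' := ⟨Inv.zero_mem, fun x _ => (polar _ x).zero_mem⟩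
  neg_mem' := fun {a} ha => ⟨Inv.neg_mem ha.1, fun x hx => (polar _ x).neg_mem (ha.2 x hx)⟩

theorem mem_regRing {S : TopCat.{0}} {q : X.X → S} {Inv : Subfield X.K} {V : Opens S} {g : X.K} :
    g ∈ regRing q Inv V ↔ g ∈ Inv ∧ RegOn q V g := Iff.rfl

/-- A family of open sets which behaves like the affine ones. -/
structure NiceOpens {S : TopCat.{0}} (q : X.X → S) (Inv : Subfield X.K) (𝓑 : Set (Opens S)) :
    Prop where
  surj : Function.Surjective q
  gen : ∀ V ∈ 𝓑, ∀ x y : X.X, y ⤳ x → q x ∈ V → q y ∈ V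
  basic : ∀ V ∈ 𝓑, ∀ g ∈ regRing q Inv V, g ≠ 0 →
    ∃ W ∈ 𝓑, ∀ x, q x ∈ W ↔ q x ∈ V ∧ GenAt (0 : Div X.X) g x
  cover : ∀ V ∈ 𝓑, ∀ P : Opens S → Prop, (∀ s ∈ V, ∃ W, s ∈ W ∧ P W) →
    ∃ L : List X.K, L.sum = 1 ∧ ∀ g ∈ L, g ∈ regRing q Inv V ∧
      ∃ W, P W ∧ ∀ x, q x ∈ V → GenAt (0 : Div X.X) g x → q x ∈ W

/-- Of `g` and `1 - g` one is a unit. -/
theorem genAt_or (hFS : FactorialStalks) {x : X.X} {g : X.K}
    (h : ∀ y : X.X, coheight y = 1 → y ⤳ x → g ≠ 0 → 0 ≤ Scheme.ord g y) :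
    GenAt (0 : Div X.X) g x ∨ GenAt (0 : Div X.X) (1 - g) x := by
  have := hFS X x
  obtain ⟨a, ha⟩ := exists_of_forall_ord_nonneg X.dvr x g fun y hy hyx => by
    by_cases hg : g = 0
    · rw [hg, Scheme.ord_zero]
      simp
    · exact h y hy hyx hg
  have key : ∀ b : X.X.presheaf.stalk x, IsUnit b → GenAt (0 : Div X.X) (toK x b) x := by
    intro b hb
    refine ⟨toK_ne_zero hb.ne_zero, fun z hz hzx => ?_⟩
    rw [← toK_toStalk hzx, ord_toK_of_isUnit (hb.map (toStalk hzx)), coef_zero, add_zero]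
  rcases IsLocalRing.isUnit_or_isUnit_one_sub_self a with h1 | h1
  · left
    rw [← ha]
    exact key a h1
  · right
    have h2 := key _ h1
    rwa [map_sub, map_one, ha] at h2

theorem genAt_zero_mul_iff {x : X.X} {f g : X.K}
    (hf : ∀ y : X.X, coheight y = 1 → y ⤳ x → f ≠ 0 → 0 ≤ Scheme.ord f y)
    (hg : ∀ y : X.X, coheight y = 1 → y ⤳ x → g ≠ 0 → 0 ≤ Scheme.ord g y) :
    GenAt (0 : Div X.X) (f * g) x ↔ GenAt (0 : Div X.X) f x ∧ GenAt (0 : Div X.X) g x := by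
  constructor
  · rintro ⟨h1, h2⟩
    have hf0 := left_ne_zero_of_mul h1
    have hg0 := right_ne_zero_of_mul h1
    constructor
    · refine ⟨hf0, fun y hy hyx => ?_⟩
      have h3 := h2 y hy hyx
      rw [Scheme.ord_mul hf0 hg0, coef_zero] at h3
      have h4 := hf y hy hyx hf0
      have h5 := hg y hy hyx hg0
      rw [coef_zero]
      omega
    · refine ⟨hg0, fun y hy hyx => ?_⟩
      have h3 := h2 y hy hyx
      rw [Scheme.ord_mul hf0 hg0, coef_zero] at h3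
      have h4 := hf y hy hyx hf0
      have h5 := hg y hy hyx hg0
      rw [coef_zero]
      omega
  · rintro ⟨h1, h2⟩
    have := h1.mul h2
    rwa [add_zero] at this

section Sec

variable {S : TopCat.{0}} {q : X.X → S} {E : Submodule ℂ X.K} {D : Div X.X}

/-- The condition on the sections of `secSheaf q E D` at the point `s`. -/
noncomputable def orbM (q : X.X → S) (E : Submodule ℂ X.K) (D : Div X.X) (s : S) :
    Submodule ℂ X.K := E ⊓ ⨅ x, ⨅ _ : q x = s, polar (coef D) x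

theorem mem_orbM {s : S} {f : X.K} :
    f ∈ orbM q E D s ↔ f ∈ E ∧ ∀ x, q x = s → f ∈ polar (coef D) x := by
  simp only [orbM, Submodule.mem_inf, Submodule.mem_iInf]

theorem forall_mem_orbM (hq : Function.Surjective q) {V : Opens S} (hV : Nonempty V) {f : X.K} :
    (∀ s ∈ V, f ∈ orbM q E D s) ↔ f ∈ E ∧ ∀ x, q x ∈ V → f ∈ polar (coef D) x := by
  simp only [mem_orbM]
  constructor
  · intro h
    obtain ⟨s, hs⟩ := hV
    exact ⟨(h s hs).1, fun x hx => (h (q x) hx).2 x rfl⟩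
  · rintro ⟨h1, h2⟩ s hs
    exact ⟨h1, fun x hx => h2 x (by rwa [hx])⟩

variable [PreirreducibleSpace S]

theorem coheight_one_eq {x y : X.X} (hx : coheight x = 1) (hy : coheight y = 1) (h : y ⤳ x) :
    y = x := by
  have h3 : x ≤ y := h
  by_cases h4 : y ≤ x
  · have h5 : x ⤳ y := h4
    exact (h5.antisymm h).eq.symm
  · exfalso
    have h5 := coheight_add_one_le (lt_of_le_not_ge h3 h4)
    rw [hx, hy] at h5
    exact absurd h5 (by decide)

/-- Clearing the denominator. -/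
theorem exists_pow_mul {g f : X.K} (hg0 : g ≠ 0) (hf0 : f ≠ 0) {V : Opens S}
    (hg : RegOn q V g) (hf : ∀ x, q x ∈ V → GenAt (0 : Div X.X) g x → f ∈ polar (coef D) x) :
    ∃ N : ℕ, ∀ x, q x ∈ V → g ^ N * f ∈ polar (coef D) x := by
  obtain ⟨N, -, hN⟩ := exists_bound (g := fun z => Scheme.ord f z + coef D z)
    (((G.finite_ord_ne_zero f hf0).union (finite_coef D)).subset fun z hz => by
      by_contra h
      simp only [Set.mem_union, Set.mem_setOf_eq, not_or, not_not] at h hz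
      exact hz (by rw [h.1, h.2, add_zero]))
  refine ⟨N, fun x hx hx1 _ => ?_⟩
  rw [Scheme.ord_mul (pow_ne_zero _ hg0) hf0, ord_pow hg0]
  have h1 := hN x
  have h2 : 0 ≤ Scheme.ord g x := regOn_iff.1 hg x hx hx1 hg0
  by_cases h3 : Scheme.ord g x = 0
  · have h4 := hf x hx ⟨hg0, fun y hy hyx => by
      rw [coheight_one_eq hx1 hy hyx, h3, coef_zero, add_zero]⟩ hx1 hf0
    rw [h3]
    omega
  · have h4 : (N : ℤ) * 1 ≤ N * Scheme.ord g x :=
      mul_le_mul_of_nonneg_left (by omega) (by positivity)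
    linarith

/-- A constant section. -/
def mkSec {V : Opens S} (f : X.K) (hf : ∀ s ∈ V, f ∈ orbM q E D s) :
    (secSheaf q E D).obj.obj (op V) :=
  (⟨fun _ => f, fun _ _ => rfl, fun s => hf s.1 s.2⟩ : constSec (orbM q E D) V)

theorem pow_mem_polar {x : X.X} {g : X.K} (hg : g ∈ polar (coef (0 : Div X.X)) x) (n : ℕ) :
    g ^ n ∈ polar (coef (0 : Div X.X)) x := by
  induction n with
  | zero =>
    intro _ _
    rw [pow_zero, ord_one, coef_zero, add_zero]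
  | succ n ih =>
    rw [pow_succ]
    exact polar_mul_reg ih hg

theorem inv_mem_polar {x : X.X} {g : X.K} (hg : GenAt (0 : Div X.X) g x) :
    g⁻¹ ∈ polar (coef (0 : Div X.X)) x := by
  intro hx _
  have h1 := hg.2 x hx specializes_rfl
  rw [coef_zero, add_zero] at h1
  rw [ord_inv hg.1, h1, coef_zero]
  simp

theorem sec_split (hq : Function.Surjective q) {Inv : Subfield X.K}
    (hE : ∀ g ∈ Inv, ∀ f ∈ E, g * f ∈ E) {V V₁ V₂ : Opens S} {g : X.K}
    (hg : g ∈ regRing q Inv V) (hg0 : g ≠ 0) (hg1 : 1 - g ≠ 0)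
    (h1 : ∀ x, q x ∈ V₁ ↔ q x ∈ V ∧ GenAt (0 : Div X.X) g x)
    (h2 : ∀ x, q x ∈ V₂ ↔ q x ∈ V ∧ GenAt (0 : Div X.X) (1 - g) x)
    (s : (secSheaf q E D).obj.obj (op (V₁ ⊓ V₂))) :
    ∃ (s₁ : (secSheaf q E D).obj.obj (op V₁)) (s₂ : (secSheaf q E D).obj.obj (op V₂)),
      s = ((secSheaf q E D).obj.map (homOfLE (inf_le_left : V₁ ⊓ V₂ ≤ V₁)).op).hom s₁ +
        ((secSheaf q E D).obj.map (homOfLE (inf_le_right : V₁ ⊓ V₂ ≤ V₂)).op).hom s₂ := by
  by_cases hne : Nonempty (V₁ ⊓ V₂ : Opens S)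
  swap
  · exact ⟨0, 0, subsingleton_bot _ hne _ _⟩
  have hne₁ : Nonempty V₁ := by
    obtain ⟨x, hx⟩ := hne
    exact ⟨⟨x, hx.1⟩⟩
  have hne₂ : Nonempty V₂ := by
    obtain ⟨x, hx⟩ := hne
    exact ⟨⟨x, hx.2⟩⟩
  let t : constSec (orbM q E D) (V₁ ⊓ V₂) := s
  obtain ⟨s₀, hs₀⟩ := hne
  set f := t.1 ⟨s₀, hs₀⟩ with hf
  have hft : ∀ y, t.1 y = f := fun y => t.2.1 _ _
  have hfM : ∀ s ∈ V₁ ⊓ V₂, f ∈ orbM q E D s := fun s hs => by
    rw [← hft ⟨s, hs⟩]
    exact t.2.2 ⟨s, hs⟩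
  rw [forall_mem_orbM hq ⟨⟨s₀, hs₀⟩⟩] at hfM
  obtain ⟨hfE, hfM⟩ := hfM
  have h1g : 1 - g ∈ regRing q Inv V := (regRing q Inv V).sub_mem (one_mem _) hg
  obtain ⟨N, hN⟩ : ∃ N : ℕ, ∀ x, q x ∈ V → (g * (1 - g)) ^ N * f ∈ polar (coef D) x := by
    by_cases hf0 : f = 0
    · refine ⟨0, fun x _ => ?_⟩
      rw [hf0, mul_zero]
      exact (polar _ x).zero_mem
    · refine exists_pow_mul (V := V) (mul_ne_zero hg0 hg1) hf0
        ((regRing q Inv V).mul_mem hg h1g).2 fun x hx hgx hx1 hf0 => ?_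
      have h3 : GenAt (0 : Div X.X) g x ∧ GenAt (0 : Div X.X) (1 - g) x := by
        refine (genAt_zero_mul_iff (fun y hy hyx h0 => ?_) (fun y hy hyx h0 => ?_)).1 hgx
        · rw [coheight_one_eq hx1 hy hyx]
          exact regOn_iff.1 hg.2 x hx hx1 hg0
        · rw [coheight_one_eq hx1 hy hyx]
          exact regOn_iff.1 h1g.2 x hx hx1 hg1
      exact hfM x ⟨(h1 x).2 ⟨hx, h3.1⟩, (h2 x).2 ⟨hx, h3.2⟩⟩ hx1 hf0
  -- a partition of unity
  obtain ⟨a, ha, b, hb, hab⟩ : ∃ a ∈ regRing q Inv V, ∃ b ∈ regRing q Inv V,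
      a * g ^ N + b * (1 - g) ^ N = 1 := by
    have h3 : IsCoprime (⟨g, hg⟩ : regRing q Inv V) ⟨1 - g, h1g⟩ := ⟨1, 1, by
      apply Subtype.ext
      simp⟩
    obtain ⟨a, b, hab⟩ := h3.pow (m := N) (n := N)
    exact ⟨a, a.2, b, b.2, congrArg Subtype.val hab⟩
  have hm₁ : ∀ s ∈ V₁, b * (1 - g) ^ N * f ∈ orbM q E D s := by
    rw [forall_mem_orbM hq hne₁]
    refine ⟨hE _ (Inv.mul_mem hb.1 (Inv.pow_mem h1g.1 N)) f hfE, fun x hx => ?_⟩
    obtain ⟨hxV, hgx⟩ := (h1 x).1 hx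
    have h3 := polar_mul_reg (pow_mem_polar (inv_mem_polar hgx) N) (hN x hxV)
    have h4 : g⁻¹ ^ N * ((g * (1 - g)) ^ N * f) = (1 - g) ^ N * f := by
      rw [mul_pow, ← mul_assoc, ← mul_assoc, ← mul_pow, inv_mul_cancel₀ hg0, one_pow, one_mul]
    rw [h4] at h3
    have h5 := polar_mul_reg (hb.2 x hxV) h3
    rwa [← mul_assoc] at h5
  have hm₂ : ∀ s ∈ V₂, a * g ^ N * f ∈ orbM q E D s := by
    rw [forall_mem_orbM hq hne₂]
    refine ⟨hE _ (Inv.mul_mem ha.1 (Inv.pow_mem hg.1 N)) f hfE, fun x hx => ?_⟩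
    obtain ⟨hxV, hgx⟩ := (h2 x).1 hx
    have h3 := polar_mul_reg (pow_mem_polar (inv_mem_polar hgx) N) (hN x hxV)
    have h4 : (1 - g)⁻¹ ^ N * ((g * (1 - g)) ^ N * f) = g ^ N * f := by
      rw [mul_pow, mul_comm (g ^ N), ← mul_assoc, ← mul_assoc, ← mul_pow, inv_mul_cancel₀ hg1,
        one_pow, one_mul]
    rw [h4] at h3
    have h5 := polar_mul_reg (ha.2 x hxV) h3
    rwa [← mul_assoc] at h5
  refine ⟨mkSec _ hm₁, mkSec _ hm₂, ?_⟩
  change t = (⟨fun _ => b * (1 - g) ^ N * f + a * g ^ N * f, _⟩ : constSec (orbM q E D) _)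
  apply Subtype.ext
  funext y
  change t.1 y = b * (1 - g) ^ N * f + a * g ^ N * f
  rw [hft y, ← add_mul, add_comm, hab, one_mul]

theorem resE_rfl {F : ShC S} {V : Opens S} {n : ℕ} (α : Abelian.Ext.{0} (Zc V) F n) :
    resE (le_refl V) α = α := by
  have h : Zmap (le_refl V) = 𝟙 (Zc V) := rfl
  unfold resE
  rw [h, Abelian.Ext.mk₀_id_comp]

theorem opens_ext {S : TopCat.{0}} {q : X.X → S} (hq : Function.Surjective q) {V W : Opens S}
    (h : ∀ x, q x ∈ V ↔ q x ∈ W) : V = W := by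
  ext s
  obtain ⟨x, rfl⟩ := hq s
  exact h x

/-- A class which vanishes on the sets `D(g)` for functions `g` with sum `1` vanishes. -/
theorem NiceOpens.list_zero (hFS : FactorialStalks) {Inv : Subfield X.K} {𝓑 : Set (Opens S)}
    (hN : NiceOpens q Inv 𝓑) (hE : ∀ g ∈ Inv, ∀ f ∈ E, g * f ∈ E) {n : ℕ}
    (ih : ∀ W ∈ 𝓑, ∀ m, m + 1 = n → Subsingleton (Abelian.Ext.{0} (Zc W) (secSheaf q E D) n))
    (L : List X.K) : ∀ V ∈ 𝓑, ∀ α : Abelian.Ext.{0} (Zc V) (secSheaf q E D) (n + 1), L.sum = 1 →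
      (∀ g ∈ L, g ∈ regRing q Inv V ∧ ∃ (W : Opens S) (h : W ≤ V), resE h α = 0 ∧
        ∀ x, q x ∈ V → GenAt (0 : Div X.X) g x → q x ∈ W) → α = 0 := by
  induction hk : L.length generalizing L with
  | zero =>
    intro V _ α hL _
    rw [List.length_eq_zero_iff.1 hk, List.sum_nil] at hL
    exact absurd hL zero_ne_one
  | succ k ihk =>
    intro V hV α hL hα
    obtain ⟨g, L', rfl⟩ : ∃ g L', L = g :: L' := by
      cases L with
      | nil => simp at hk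
      | cons g L' => exact ⟨g, L', rfl⟩
    rw [List.length_cons, Nat.add_right_cancel_iff] at hk
    rw [List.sum_cons] at hL
    obtain ⟨hgR, W, hWV, hW, hgW⟩ := hα g (List.mem_cons_self)
    by_cases hg0 : g = 0
    · rw [hg0, zero_add] at hL
      exact ihk L' hk V hV α hL fun g' hg' => hα g' (List.mem_cons_of_mem _ hg')
    by_cases hg1 : 1 - g = 0
    · have hg : g = 1 := (sub_eq_zero.1 hg1).symm
      have hVW : V ≤ W := by
        intro s hs
        obtain ⟨x, rfl⟩ := hN.surj s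
        exact hgW x hs (by rw [hg]; exact genAt_zero_one x)
      have h1 := congrArg (resE hVW) hW
      rw [resE_resE, resE_zero] at h1
      rwa [resE_rfl] at h1
    have h1gR : 1 - g ∈ regRing q Inv V := (regRing q Inv V).sub_mem (one_mem _) hgR
    have hreg : ∀ g' ∈ regRing q Inv V, ∀ x, q x ∈ V → ∀ y : X.X, coheight y = 1 → y ⤳ x →
        g' ≠ 0 → 0 ≤ Scheme.ord g' y := fun g' hg' x hx y hy hyx h0 =>
      regOn_iff.1 hg'.2 y (hN.gen V hV x y hyx hx) hy h0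
    obtain ⟨V₁, hV₁B, hV₁⟩ := hN.basic V hV g hgR hg0
    obtain ⟨V₂, hV₂B, hV₂⟩ := hN.basic V hV (1 - g) h1gR hg1
    obtain ⟨V₃, hV₃B, hV₃⟩ := hN.basic V hV (g * (1 - g)) ((regRing q Inv V).mul_mem hgR h1gR)
      (mul_ne_zero hg0 hg1)
    have h3 : V₃ = V₁ ⊓ V₂ := opens_ext hN.surj fun x => by
      change q x ∈ V₃ ↔ q x ∈ V₁ ∧ q x ∈ V₂
      rw [hV₃, hV₁, hV₂]
      constructor
      · rintro ⟨h1, h2⟩
        have h4 := (genAt_zero_mul_iff (hreg g hgR x h1) (hreg _ h1gR x h1)).1 h2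
        exact ⟨⟨h1, h4.1⟩, h1, h4.2⟩
      · rintro ⟨⟨h1, h2⟩, -, h4⟩
        exact ⟨h1, (genAt_zero_mul_iff (hreg g hgR x h1) (hreg _ h1gR x h1)).2 ⟨h2, h4⟩⟩
    have h12 : V = V₁ ⊔ V₂ := opens_ext hN.surj fun x => by
      change q x ∈ V ↔ q x ∈ V₁ ∨ q x ∈ V₂
      rw [hV₁, hV₂]
      constructor
      · intro hx
        rcases genAt_or hFS (hreg g hgR x hx) with h | h
        · exact Or.inl ⟨hx, h⟩
        · exact Or.inr ⟨hx, h⟩
      · rintro (h | h)
        · exact h.1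
        · exact h.1
    have hV₁V : V₁ ≤ V := by rw [h12]; exact le_sup_left
    have hV₂V : V₂ ≤ V := by rw [h12]; exact le_sup_right
    have hα₁ : resE hV₁V α = 0 := by
      have hVW : V₁ ≤ W := by
        intro s hs
        obtain ⟨x, rfl⟩ := hN.surj s
        exact hgW x ((hV₁ x).1 hs).1 ((hV₁ x).1 hs).2
      have h1 := congrArg (resE hVW) hW
      rwa [resE_resE, resE_zero] at h1
    have hα₂ : resE hV₂V α = 0 := by
      refine ihk (L'.map fun g' => g' * (1 - g)⁻¹) (by rw [List.length_map, hk]) V₂ hV₂B _ ?_ ?_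
      · rw [List.sum_map_mul_right, List.map_id']
        have h4 : L'.sum = 1 - g := by rw [← hL]; ring
        rw [h4, mul_inv_cancel₀ hg1]
      · intro g' hg'
        obtain ⟨g'', hg'', rfl⟩ := List.mem_map.1 hg'
        obtain ⟨hgR', W', hWV', hW', hgW'⟩ := hα g'' (List.mem_cons_of_mem _ hg'')
        refine ⟨⟨Inv.mul_mem hgR'.1 (Inv.inv_mem h1gR.1), fun x hx => ?_⟩, W' ⊓ V₂, inf_le_right,
          ?_, fun x hx hgx => ?_⟩
        · obtain ⟨hxV, hx1⟩ := (hV₂ x).1 hx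
          exact polar_mul_reg (hgR'.2 x hxV) (inv_mem_polar hx1)
        · rw [resE_resE]
          have h4 := congrArg (resE (inf_le_left : W' ⊓ V₂ ≤ W')) hW'
          rwa [resE_resE, resE_zero] at h4
        · obtain ⟨hxV, hx1⟩ := (hV₂ x).1 hx
          refine ⟨hgW' x hxV ?_, hx⟩
          have h4 := hgx.mul hx1
          rwa [add_zero, mul_assoc, inv_mul_cancel₀ hg1, mul_one] at h4
    have key : ∀ (V' : Opens S) (_ : V' = V₁ ⊔ V₂) (h1 : V₁ ≤ V') (h2 : V₂ ≤ V')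
        (α : Abelian.Ext.{0} (Zc V') (secSheaf q E D) (n + 1)), resE h1 α = 0 → resE h2 α = 0 →
        α = 0 := by
      rintro V' rfl h1 h2 α hα₁ hα₂
      refine mv_zero α hα₁ hα₂ fun β => ?_
      rcases Nat.eq_zero_or_pos n with hn | hn
      · subst hn
        exact mv_surj (sec_split hN.surj hE hgR hg0 hg1 hV₁ hV₂) β
      · have h4 := ih (V₁ ⊓ V₂) (h3 ▸ hV₃B) (n - 1) (by omega)
        exact ⟨0, Subsingleton.elim _ _⟩
    exact key V h12 hV₁V hV₂V α hα₁ hα₂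

/-- **Vanishing of cohomology on affine open sets.** -/
theorem NiceOpens.subsingleton_ext (hFS : FactorialStalks) {Inv : Subfield X.K}
    {𝓑 : Set (Opens S)} (hN : NiceOpens q Inv 𝓑) (hE : ∀ g ∈ Inv, ∀ f ∈ E, g * f ∈ E) (n : ℕ) :
    ∀ V ∈ 𝓑, Subsingleton (Abelian.Ext.{0} (Zc V) (secSheaf q E D) (n + 1)) := by
  induction n with
  | zero =>
    intro V hV
    refine subsingleton_of_forall_eq 0 fun α => ?_
    obtain ⟨L, hL, hg⟩ := hN.cover V hV (fun W => ∃ h : W ≤ V, resE h α = 0) fun s hs => by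
      obtain ⟨W, h, hsW, hW⟩ := exists_resE_zero α hs
      exact ⟨W, hsW, h, hW⟩
    refine hN.list_zero hFS hE (n := 0) (fun W _ m hm => absurd hm (by omega)) L V hV α hL ?_
    intro g hg'
    obtain ⟨h1, W, ⟨hWV, hW⟩, h2⟩ := hg g hg'
    exact ⟨h1, W, hWV, hW, h2⟩
  | succ n ih =>
    intro V hV
    refine subsingleton_of_forall_eq 0 fun α => ?_
    obtain ⟨L, hL, hg⟩ := hN.cover V hV (fun W => ∃ h : W ≤ V, resE h α = 0) fun s hs => by
      obtain ⟨W, h, hsW, hW⟩ := exists_resE_zero α hs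
      exact ⟨W, hsW, h, hW⟩
    refine hN.list_zero hFS hE (n := n + 1) (fun W hW m hm => ih W hW) L V hV α hL ?_
    intro g hg'
    obtain ⟨h1, W, ⟨hWV, hW⟩, h2⟩ := hg g hg'
    exact ⟨h1, W, hWV, hW, h2⟩

end Sec

end Vale.Agent.P299.Q
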