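import Mathlib.AlgebraicGeometry.ValuativeCriterion
import Mathlib.RingTheory.Valuation.LocalSubring
import Vale.Agent.P299.Q.OrbB
import Vale.Agent.P299.Q.TorRat

/-!
# Partitions of unity on the complement of an ample divisor
-/

open CategoryTheory TopologicalSpace Opposite TopCat AlgebraicGeometry Order

namespace Vale.Agent.P299.Q

open Vale.Agent.P299.G

variable {X : Var}

/-- The valuative criterion of properness: a valuation ring of the function field which contains
the constants dominates some local ring. -/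
theorem exists_center_val (X : Var) (V : ValuationSubring X.K)
    (hV : ∀ c : ℂ, algebraMap ℂ X.K c ∈ V) :
    ∃ x : X.X, (∀ a : X.X.presheaf.stalk x, toK x a ∈ V) ∧
      ∀ a : X.X.presheaf.stalk x, toK x a ∉ V.nonunits → IsUnit a := by
  have hex : ValuativeCriterion.Existence (X.X ↘ SpecC) := by
    have h1 : UniversallyClosed (X.X ↘ SpecC) := inferInstance
    rw [UniversallyClosed.eq_valuativeCriterion] at h1
    exact h1.1
  let cV : ℂ →+* V := (algebraMap ℂ X.K).codRestrict V.toSubring hV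
  let j : CommRingCat.of V ⟶ CommRingCat.of X.K := CommRingCat.ofHom (algebraMap V X.K)
  let i₁ : Spec (CommRingCat.of X.K) ⟶ X.X := genPt X
  let i₂ : Spec (CommRingCat.of V) ⟶ SpecC := Spec.map (CommRingCat.ofHom cV)
  have hj : CommRingCat.ofHom cV ≫ j = CommRingCat.ofHom (algebraMap ℂ X.K) := by
    ext c
    rfl
  have hsq : i₁ ≫ (X.X ↘ SpecC) = Spec.map j ≫ i₂ := by
    rw [← Spec.map_comp, hj]
    exact genPt_over X
  let S : ValuativeCommSq (X.X ↘ SpecC) :=
    { R := V
      K := X.K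
      i₁ := i₁
      i₂ := i₂
      commSq := ⟨hsq⟩ }
  have hl : ∃ l : Spec (CommRingCat.of V) ⟶ X.X, Spec.map j ≫ l = i₁ := by
    obtain ⟨⟨⟨l, hl1, -⟩⟩⟩ := hex S
    exact ⟨l, hl1⟩
  obtain ⟨l, hl1⟩ := hl
  have h1 : Spec.map (Scheme.stalkClosedPointTo l) ≫
      X.X.fromSpecStalk (l (IsLocalRing.closedPoint V)) = l :=
    Scheme.Spec_stalkClosedPointTo_fromSpecStalk l
  have h2 : Spec.map (X.X.presheaf.stalkSpecializes ((genericPoint_spec X.X).specializes
      (Set.mem_univ (l (IsLocalRing.closedPoint V))))) ≫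
      X.X.fromSpecStalk (l (IsLocalRing.closedPoint V)) = i₁ :=
    Scheme.SpecMap_stalkSpecializes_fromSpecStalk _
  rw [← h2] at hl1
  have h3 : Spec.map (Scheme.stalkClosedPointTo l ≫ j) ≫
      X.X.fromSpecStalk (l (IsLocalRing.closedPoint V)) =
      Spec.map (X.X.presheaf.stalkSpecializes ((genericPoint_spec X.X).specializes
      (Set.mem_univ (l (IsLocalRing.closedPoint V))))) ≫
      X.X.fromSpecStalk (l (IsLocalRing.closedPoint V)) := by
    rw [Spec.map_comp, Category.assoc, h1]
    exact hl1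
  have h4 := Spec.map_injective ((cancel_mono _).1 h3)
  have key : ∀ a : X.X.presheaf.stalk (l (IsLocalRing.closedPoint V)),
      toK _ a = ((Scheme.stalkClosedPointTo l).hom a : V) := by
    intro a
    have h5 := congrArg (fun f => f.hom a) h4
    change (algebraMap V X.K ((Scheme.stalkClosedPointTo l).hom a)) = _ at h5
    exact h5.symm
  refine ⟨l (IsLocalRing.closedPoint V), fun a => ?_, fun a ha => ?_⟩
  · rw [key]
    exact ((Scheme.stalkClosedPointTo l).hom a : V).2
  · rw [key] at ha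
    have h6 : IsUnit ((Scheme.stalkClosedPointTo l).hom a : V) := by
      by_contra hcon
      exact ha ((ValuationSubring.coe_mem_nonunits_iff).2 hcon)
    exact isUnit_of_map_unit (Scheme.stalkClosedPointTo l).hom a h6

/-- The complement of the support of an effective divisor. -/
def UB (B : Div X.X) : Opens (X.X : TopCat.{0}) where
  carrier := {x : X.X | GenAt B 1 x}
  is_open' := by
    rw [isOpen_iff_forall_mem_open]
    intro y hy
    obtain ⟨U, hyU, hU⟩ := exists_genAt_nhds B y hy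
    exact ⟨U, fun z hz => hU z hz, U.isOpen, hyU⟩

theorem mem_UB {B : Div X.X} {x : X.X} : x ∈ UB B ↔ GenAt B 1 x := Iff.rfl

/-- The ring of the functions without poles on the complement of `B`. -/
noncomputable abbrev RB (B : Div X.X) : Subring X.K :=
  regRing (S := (X.X : TopCat.{0})) id ⊤ (UB B)

theorem mem_RB {B : Div X.X} {g : X.K} :
    g ∈ RB B ↔ ∀ x, GenAt B 1 x → coheight x = 1 → g ≠ 0 → 0 ≤ Scheme.ord g x := by
  rw [mem_regRing, regOn_iff]
  exact ⟨fun h => h.2, fun h => ⟨trivial, h⟩⟩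

theorem RB_of_H0 {B : Div X.X} {g : X.K} {k : ℕ} (hg : g ∈ H0 (coef (k • B))) : g ∈ RB B := by
  rw [mem_RB]
  intro x hx hx1 hg0
  have h1 := mem_H0.1 hg x hx1 hg0
  have h2 := hx.ord hx1
  rw [ord_one] at h2
  rw [coef_nsmul] at h1
  have h3 : coef B x = 0 := by linarith
  rw [h3] at h1
  simpa using h1

/-- Elements of `RB B` are regular at the points of `UB B`. -/
theorem RB_exists (hFS : FactorialStalks) {B : Div X.X} {g : X.K} (hg : g ∈ RB B) {x : X.X}
    (hx : GenAt B 1 x) : ∃ a : X.X.presheaf.stalk x, toK x a = g := by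
  have := hFS X x
  refine exists_of_forall_ord_nonneg X.dvr x g fun y hy hyx => ?_
  by_cases hg0 : g = 0
  · rw [hg0, Scheme.ord_zero]
    simp
  · exact mem_RB.1 hg y (hx.of_specializes hyx) hy hg0

/-- **Nullstellensatz** on the complement of an ample divisor. -/
theorem nullstellensatz (hFS : FactorialStalks) {B : Div X.X} (hB : IsAmple B)
    (h1 : (1 : X.K) ∈ H0 (coef B)) (J : Ideal (RB B))
    (hJ : ∀ x, GenAt B 1 x → ∃ h ∈ J, GenAt (0 : Div X.X) (h : X.K) x) : J = ⊤ := by
  by_contra hcon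
  obtain ⟨V, hRV, hJV⟩ := J.image_subset_nonunits_valuationSubring hcon
  obtain ⟨x, hx, hxu⟩ := exists_center_val X V fun c => hRV (by
    change algebraMap ℂ X.K c ∈ RB B
    rw [mem_RB]
    intro x _ _ hc
    rw [ord_constant c (fun h => hc (by rw [h, map_zero]))])
  have hxB : GenAt B 1 x := by
    obtain ⟨m, hm, t, ht, U, -, hxU, hU⟩ := hB x
    have htx := (hU x).1 hxU
    have htV : t ∈ V := hRV (RB_of_H0 ht)
    have := hFS X x
    have h2 : (1 : X.K) ∈ H0 (coef (m • B)) := by
      have := H0_pow h1 m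
      rwa [one_pow] at this
    obtain ⟨a, ha⟩ := exists_of_forall_ord_nonneg X.dvr x (t⁻¹) fun z hz hzx => by
      rw [ord_inv htx.1]
      have h3 := htx.2 z hz hzx
      have h4 := mem_H0.1 h2 z hz one_ne_zero
      rw [ord_one] at h4
      linarith
    have h5 : IsUnit a := by
      apply hxu
      rw [ha, ValuationSubring.inv_mem_nonunits_iff]
      push Not
      exact ⟨htx.1, htV⟩
    have h6 : GenAt (m • B) 1 x := by
      refine ⟨one_ne_zero, fun z hz hzx => ?_⟩
      have h7 : Scheme.ord (t⁻¹) z = 0 := by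
        rw [← ha, ← toK_toStalk hzx, ord_toK_of_isUnit (h5.map (toStalk hzx))]
      rw [ord_inv htx.1] at h7
      have h3 := htx.2 z hz hzx
      rw [ord_one]
      linarith
    have h7 : GenAt (m • B) ((1 : X.K) ^ m) x := by rwa [one_pow]
    exact (genAt_pow_iff hm).1 h7
  obtain ⟨h, hh, hgen⟩ := hJ x hxB
  have h2 : (h : X.K) ∈ V.nonunits := hJV ⟨h, hh, rfl⟩
  have := hFS X x
  obtain ⟨a, ha, hah⟩ := exists_unit_of_forall_ord_eq_zero X.dvr x (h : X.K) hgen.1
    fun z hz hzx => by
      have := hgen.2 z hz hzx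
      rwa [coef_zero, add_zero] at this
  rw [ValuationSubring.mem_nonunits_iff_or] at h2
  rcases h2 with h2 | h2
  · exact hgen.1 h2
  · apply h2
    obtain ⟨b, hb⟩ := ha.exists_right_inv
    have h3 : toK x b = (h : X.K)⁻¹ := by
      rw [← hah]
      refine eq_inv_of_mul_eq_one_right ?_
      rw [← map_mul, hb, map_one]
    rw [← h3]
    exact hx b

/-- Units of the local ring. -/
theorem genAt_zero_iff (hFS : FactorialStalks) {x : X.X} (a : X.X.presheaf.stalk x) :
    GenAt (0 : Div X.X) (toK x a) x ↔ IsUnit a := by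
  constructor
  · intro h
    have := hFS X x
    obtain ⟨b, hb, hba⟩ := exists_unit_of_forall_ord_eq_zero X.dvr x (toK x a) h.1
      fun z hz hzx => by
        have := h.2 z hz hzx
        rwa [coef_zero, add_zero] at this
    rwa [← toK_injective x hba]
  · intro ha
    refine ⟨toK_ne_zero ha.ne_zero, fun z hz hzx => ?_⟩
    rw [← toK_toStalk hzx, ord_toK_of_isUnit (ha.map (toStalk hzx)), coef_zero, add_zero]

/-- The functions which vanish outside `W`. -/
noncomputable def idealW (hFS : FactorialStalks) (B : Div X.X) (W : Opens (X.X : TopCat.{0})) :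
    Ideal (RB B) where
  carrier := {h | ∀ x, GenAt B 1 x → GenAt (0 : Div X.X) (h : X.K) x → x ∈ W}
  zero_mem' := fun _ _ h => (h.1 rfl).elim
  add_mem' := by
    intro a b ha hb x hx hab
    obtain ⟨a', ha'⟩ := RB_exists hFS a.2 hx
    obtain ⟨b', hb'⟩ := RB_exists hFS b.2 hx
    have h1 : IsUnit (a' + b') := by
      rw [← genAt_zero_iff hFS, map_add, ha', hb']
      exact hab
    rcases IsLocalRing.isUnit_or_isUnit_of_isUnit_add h1 with h2 | h2
    · refine ha x hx ?_
      rw [← ha']
      exact (genAt_zero_iff hFS a').2 h2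
    · refine hb x hx ?_
      rw [← hb']
      exact (genAt_zero_iff hFS b').2 h2
  smul_mem' := by
    intro c a ha x hx hca
    obtain ⟨a', ha'⟩ := RB_exists hFS a.2 hx
    obtain ⟨c', hc'⟩ := RB_exists hFS c.2 hx
    have h1 : IsUnit (c' * a') := by
      rw [← genAt_zero_iff hFS, map_mul, ha', hc']
      exact hca
    refine ha x hx ?_
    rw [← ha']
    exact (genAt_zero_iff hFS a').2 (isUnit_of_mul_isUnit_right h1)

/-- Where `B` is trivial. -/
theorem coef_of_genAt_one {B : Div X.X} {x z : X.X} (hx : GenAt B 1 x) (hz : coheight z = 1)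
    (hzx : z ⤳ x) : coef B z = 0 := by
  have := hx.2 z hz hzx
  rwa [ord_one, zero_add] at this

/-- A partition of unity. -/
theorem exists_partition (hFS : FactorialStalks) {B : Div X.X} (hB : IsAmple B)
    (h1 : (1 : X.K) ∈ H0 (coef B)) (P : Opens (X.X : TopCat.{0}) → Prop)
    (hP : ∀ x, GenAt B 1 x → ∃ W, x ∈ W ∧ P W) :
    ∃ (L : List (X.K × Opens (X.X : TopCat.{0}))), (L.map Prod.fst).sum = 1 ∧ ∀ p ∈ L,
      p.1 ∈ RB B ∧ P p.2 ∧ ∀ x, GenAt B 1 x → GenAt (0 : Div X.X) p.1 x → x ∈ p.2 := by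
  have hJ : (⨆ W : {W // P W}, idealW hFS B W.1) = ⊤ := by
    refine nullstellensatz hFS hB h1 _ fun x hx => ?_
    obtain ⟨W, hxW, hW⟩ := hP x hx
    obtain ⟨m, hm, s, hs, U, hUa, hxU, hUW, hU⟩ := hB.exists_small (hFS X) x W hxW
    have key : ∀ y, GenAt B 1 y → (GenAt (0 : Div X.X) s y ↔ GenAt (m • B) s y) := by
      intro y hy
      refine and_congr_right fun _ => forall_congr' fun z => forall_congr' fun hz =>
        forall_congr' fun hzy => ?_
      rw [coef_zero, coef_nsmul, coef_of_genAt_one hy hz hzy, mul_zero]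
    refine ⟨⟨s, RB_of_H0 hs⟩, ?_, (key x hx).2 ((hU x).1 hxU)⟩
    refine (le_iSup (fun W : {W // P W} => idealW hFS B W.1) ⟨W, hW⟩) ?_
    intro y hy hsy
    exact hUW ((hU y).2 ((key y hy).1 hsy))
  have h2 : (1 : RB B) ∈ ⨆ W : {W // P W}, idealW hFS B W.1 := by
    rw [hJ]
    trivial
  have h3 : ∃ (L : List (X.K × Opens (X.X : TopCat.{0}))), (L.map Prod.fst).sum = ((1 : RB B) : X.K) ∧
      ∀ p ∈ L, p.1 ∈ RB B ∧ P p.2 ∧
        ∀ x, GenAt B 1 x → GenAt (0 : Div X.X) p.1 x → x ∈ p.2 := by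
    refine Submodule.iSup_induction (fun W : {W // P W} => idealW hFS B W.1)
      (motive := fun j : RB B => ∃ (L : List (X.K × Opens (X.X : TopCat.{0}))),
        (L.map Prod.fst).sum = (j : X.K) ∧ ∀ p ∈ L, p.1 ∈ RB B ∧ P p.2 ∧
          ∀ x, GenAt B 1 x → GenAt (0 : Div X.X) p.1 x → x ∈ p.2) h2 ?_ ?_ ?_
    · intro W j hj
      refine ⟨[((j : X.K), W.1)], by simp, fun p hp => ?_⟩
      rw [List.mem_singleton] at hp
      subst hp
      exact ⟨j.2, W.2, hj⟩
    · exact ⟨[], by simp, by simp⟩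
    · rintro j j' ⟨L, hL, hL'⟩ ⟨M, hM, hM'⟩
      refine ⟨L ++ M, ?_, fun p hp => ?_⟩
      · rw [List.map_append, List.sum_append, hL, hM]
        rfl
      · rcases List.mem_append.1 hp with hp | hp
        · exact hL' p hp
        · exact hM' p hp
  exact h3

end Vale.Agent.P299.Q
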