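import Vale.Agent.P299.Q.OrbC
import Vale.Agent.P299.Q.TorEff

/-!
# The complements of effective ample divisors behave like affine open sets
-/

open CategoryTheory TopologicalSpace Opposite TopCat AlgebraicGeometry Order

namespace Vale.Agent.P299.Q

open Vale.Agent.P299.G

variable {X : Var}

/-- Points of codimension one outside `B`. -/
theorem genAt_one_of_coef {B : Div X.X} {x : X.X} (hx : coheight x = 1) (h : coef B x = 0) :
    GenAt B 1 x := by
  refine ⟨one_ne_zero, fun y hy hyx => ?_⟩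
  rw [coheight_one_eq hx hy hyx, ord_one, h, add_zero]

/-- Bounding the poles along `B`. -/
theorem exists_mem_H0_add {B D : Div X.X} (h1 : (1 : X.K) ∈ H0 (coef B)) {f : X.K}
    (hf : ∀ x, GenAt B 1 x → f ∈ polar (coef D) x) :
    ∃ k : ℕ, f ∈ H0 (coef (D + k • B)) := by
  by_cases hf0 : f = 0
  · exact ⟨0, by rw [hf0]; exact Submodule.zero_mem _⟩
  obtain ⟨N, -, hN⟩ := exists_bound (g := fun z => Scheme.ord f z + coef D z)
    (((G.finite_ord_ne_zero f hf0).union (finite_coef D)).subset fun z hz => by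
      by_contra h
      simp only [Set.mem_union, Set.mem_setOf_eq, not_or, not_not] at h hz
      exact hz (by rw [h.1, h.2, add_zero]))
  refine ⟨N, mem_H0.2 fun z hz _ => ?_⟩
  rw [coef_add, coef_nsmul]
  have h2 := mem_H0.1 h1 z hz one_ne_zero
  rw [ord_one, zero_add] at h2
  have h3 := hN z
  by_cases h4 : coef B z = 0
  · have h5 := hf z (genAt_one_of_coef hz h4) hz hf0
    rw [h4]
    linarith
  · have h6 : (N : ℤ) * 1 ≤ N * coef B z :=
      mul_le_mul_of_nonneg_left (by omega) (by positivity)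
    linarith

/-- Conversely. -/
theorem polar_of_mem_H0_add {B D : Div X.X} {f : X.K} {k : ℕ}
    (hf : f ∈ H0 (coef (D + k • B))) {x : X.X} (hx : GenAt B 1 x) : f ∈ polar (coef D) x := by
  intro hx1 hf0
  have h1 := mem_H0.1 hf x hx1 hf0
  rw [coef_add, coef_nsmul, coef_of_genAt_one hx hx1 specializes_rfl] at h1
  linarith

/-- The open subset `g ≠ 0` of the complement of `B`. -/
theorem exists_basic_compl {B : Div X.X} (hB : IsAmple B) (h1 : (1 : X.K) ∈ H0 (coef B)) {g : X.K}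
    (hg : g ∈ RB B) (hg0 : g ≠ 0) : ∃ (N : ℕ) (P : Div X.X), IsDivOf g P ∧
      IsAmple (P + (N + 1) • B) ∧ (1 : X.K) ∈ H0 (coef (P + (N + 1) • B)) ∧
      ∀ x, GenAt (P + (N + 1) • B) 1 x ↔ GenAt B 1 x ∧ GenAt (0 : Div X.X) g x := by
  obtain ⟨P, hP⟩ := exists_isDivOf hg0
  obtain ⟨N, hN⟩ := exists_mem_H0_add (D := 0) h1 (f := g) fun x hx hx1 _ => by
    rw [coef_zero, add_zero]
    exact mem_RB.1 hg x hx hx1 hg0
  rw [zero_add] at hN
  have hN' : ∀ z, coheight z = 1 → 0 ≤ Scheme.ord g z + N * coef B z := fun z hz => by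
    have := mem_H0.1 hN z hz hg0
    rwa [coef_nsmul] at this
  have hB' : ∀ z, coheight z = 1 → 0 ≤ coef B z := fun z hz => by
    have h2 := mem_H0.1 h1 z hz one_ne_zero
    rwa [ord_one, zero_add] at h2
  have hc : ∀ z, coheight z = 1 → coef (P + (N + 1) • B) z =
      (Scheme.ord g z + N * coef B z) + coef B z := fun z hz => by
    rw [coef_add, coef_nsmul, hP.2 z hz]
    push_cast
    ring
  refine ⟨N, P, hP, ?_, ?_, fun x => ⟨fun h => ⟨⟨one_ne_zero, fun y hy hyx => ?_⟩,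
    ⟨hg0, fun y hy hyx => ?_⟩⟩, fun h => ⟨one_ne_zero, fun y hy hyx => ?_⟩⟩⟩
  · rw [add_comm]
    exact (hB.nsmul (Nat.succ_pos N)).add_isDivOf hP
  · refine mem_H0.2 fun z hz _ => ?_
    rw [ord_one, zero_add, hc z hz]
    exact add_nonneg (hN' z hz) (hB' z hz)
  · have h2 := coef_of_genAt_one h hy hyx
    rw [hc y hy] at h2
    rw [ord_one]
    linarith [hN' y hy, hB' y hy]
  · have h2 := coef_of_genAt_one h hy hyx
    rw [hc y hy] at h2
    have h3 : coef B y = 0 := by linarith [hN' y hy, hB' y hy]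
    rw [h3] at h2
    rw [coef_zero]
    linarith
  · have h2 := coef_of_genAt_one h.1 hy hyx
    have h3 := h.2.2 y hy hyx
    rw [coef_zero, add_zero] at h3
    rw [ord_one, hc y hy, h2, h3]
    simp

/-- The complements of the effective ample divisors. -/
def xBasis (X : Var) : Set (Opens (X.X : TopCat.{0})) :=
  {V | ∃ B : Div X.X, IsAmple B ∧ (1 : X.K) ∈ H0 (coef B) ∧ ∀ x : X.X, x ∈ V ↔ GenAt B 1 x}

theorem xBasis_nice (hFS : FactorialStalks) (X : Var) :
    NiceOpens (S := (X.X : TopCat.{0})) id ⊤ (xBasis X) where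
  surj := Function.surjective_id
  gen := fun V _ x y hyx hx => hyx.mem_open V.isOpen hx
  basic := by
    rintro V ⟨B, hB, h1, hV⟩ g hg hg0
    have hg' : g ∈ RB B := by
      rw [mem_RB]
      intro x hx hx1 hne
      exact regOn_iff.1 hg.2 x ((hV x).2 hx) hx1 hne
    obtain ⟨N, P, hP, h2, h3, h4⟩ := exists_basic_compl hB h1 hg' hg0
    refine ⟨UB (P + (N + 1) • B), ⟨_, h2, h3, fun x => Iff.rfl⟩, fun x => ?_⟩
    change GenAt (P + (N + 1) • B) 1 x ↔ _
    rw [h4, ← hV]
    rfl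
  cover := by
    rintro V ⟨B, hB, h1, hV⟩ P hP
    obtain ⟨L, hL, hL'⟩ := exists_partition hFS hB h1 P fun x hx => hP x ((hV x).2 hx)
    refine ⟨L.map Prod.fst, hL, fun g hg => ?_⟩
    obtain ⟨p, hp, rfl⟩ := List.mem_map.1 hg
    obtain ⟨h2, h3, h4⟩ := hL' p hp
    refine ⟨⟨trivial, regOn_iff.2 fun x hx hx1 hne => mem_RB.1 h2 x ((hV x).1 hx) hx1 hne⟩,
      p.2, h3, fun x hx hgx => h4 x ((hV x).1 hx) hgx⟩

/-- The higher cohomology of `O(D)` vanishes on the complements of effective ample divisors. -/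
theorem xBasis_vanish (hFS : FactorialStalks) {V : Opens (X.X : TopCat.{0})} (hV : V ∈ xBasis X)
    (D : Div X.X) (n : ℕ) :
    Subsingleton (Abelian.Ext.{0} (Zc V) (secSheaf (S := (X.X : TopCat.{0})) id ⊤ D) (n + 1)) :=
  NiceOpens.subsingleton_ext hFS (xBasis_nice hFS X) (fun _ _ _ _ => Submodule.mem_top) n V hV

end Vale.Agent.P299.Q
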