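import Vale.Agent.P299.Q.OrbA
import Mathlib.Topology.Sheaves.Functors
import Mathlib.Algebra.Homology.DerivedCategory.Ext.Map
import Mathlib.CategoryTheory.Functor.Flat
import Mathlib.CategoryTheory.Adjunction.Additive
import Mathlib.CategoryTheory.Adjunction.Evaluation

/-!
# The edge map of the Leray spectral sequence
-/

open CategoryTheory TopologicalSpace Opposite TopCat

namespace Vale.Agent.P299.Q

section Abs

open Abelian

variable {C D : Type 1} [Category.{0} C] [Category.{0} D] [Abelian C] [Abelian D]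
  [HasExt.{0} C] [HasExt.{0} D] {L : D ⥤ C} {R : C ⥤ D} (adj : L ⊣ R) [L.Additive]
  [Limits.PreservesFiniteLimits L] [Limits.PreservesFiniteColimits L]

/-- The edge map. -/
noncomputable def edge {Z : D} {W : C} (u : W ⟶ L.obj Z) (F : C) {n : ℕ}
    (α : Ext.{0} Z (R.obj F) n) : Ext.{0} W F n :=
  (Ext.mk₀ u).comp ((α.mapExactFunctor L).comp (Ext.mk₀ (adj.counit.app F)) (add_zero n))
    (zero_add n)

variable {Z : D} {W : C} (u : W ⟶ L.obj Z)

theorem edge_mk₀ {F : C} (φ : Z ⟶ R.obj F) :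
    edge adj u F (Ext.mk₀ φ) = Ext.mk₀ (u ≫ L.map φ ≫ adj.counit.app F) := by
  unfold edge
  rw [Ext.mapExactFunctor_mk₀, Ext.mk₀_comp_mk₀, Ext.mk₀_comp_mk₀]

theorem edge_add {F : C} {n : ℕ} (α β : Ext.{0} Z (R.obj F) n) :
    edge adj u F (α + β) = edge adj u F α + edge adj u F β := by
  unfold edge
  rw [Ext.mapExactFunctor_add, Ext.add_comp, Ext.comp_add]

theorem edge_zero {F : C} {n : ℕ} : edge adj u F (0 : Ext.{0} Z (R.obj F) n) = 0 := by
  unfold edge
  rw [Ext.mapExactFunctor_zero, Ext.zero_comp, Ext.comp_zero]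

theorem edge_eq_of_sub {F : C} {n : ℕ} {α β : Ext.{0} Z (R.obj F) n}
    (h : ∀ γ : Ext.{0} Z (R.obj F) n, edge adj u F γ = 0 → γ = 0)
    (hab : edge adj u F α = edge adj u F β) : α = β := by
  rw [← sub_eq_zero]
  apply h
  have h1 : edge adj u F (α - β) + edge adj u F β = edge adj u F α := by
    rw [← edge_add, sub_add_cancel]
  rw [hab] at h1
  exact (add_eq_right).1 h1

/-- Naturality. -/
theorem edge_comp_mk₀ {F G : C} (g : F ⟶ G) {n : ℕ} (α : Ext.{0} Z (R.obj F) n) :
    edge adj u G (α.comp (Ext.mk₀ (R.map g)) (add_zero n)) =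
      (edge adj u F α).comp (Ext.mk₀ g) (add_zero n) := by
  unfold edge
  rw [Ext.mapExactFunctor_comp, Ext.mapExactFunctor_mk₀,
    Ext.comp_assoc (α.mapExactFunctor L) (Ext.mk₀ (L.map (R.map g))) (Ext.mk₀ (adj.counit.app G))
      (add_zero n) (add_zero 0) (by omega), Ext.mk₀_comp_mk₀, adj.counit_naturality g,
    Ext.comp_assoc (Ext.mk₀ u) _ (Ext.mk₀ g) (zero_add n) (add_zero n) (by omega),
    Ext.comp_assoc (α.mapExactFunctor L) (Ext.mk₀ (adj.counit.app F)) (Ext.mk₀ g)
      (add_zero n) (add_zero 0) (by omega), Ext.mk₀_comp_mk₀]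

/-- Compatibility with the connecting homomorphisms. -/
theorem counit_extClass {F I Q : C} {i : F ⟶ I} {π : I ⟶ Q} {w : i ≫ π = 0} [R.Additive]
    (hS : (ShortComplex.mk i π w).ShortExact) (hRS : ((ShortComplex.mk i π w).map R).ShortExact) :
    (Ext.mapExactFunctor L (hRS.extClass : Ext.{0} (R.obj Q) (R.obj F) 1)).comp
        (Ext.mk₀ (adj.counit.app F)) (add_zero 1) =
      (Ext.mk₀ (adj.counit.app Q)).comp (hS.extClass : Ext.{0} Q F 1) (zero_add 1) := by
  have h2 := hRS.map_of_exact L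
  let φ : ((ShortComplex.mk i π w).map R).map L ⟶ ShortComplex.mk i π w :=
    { τ₁ := adj.counit.app F
      τ₂ := adj.counit.app I
      τ₃ := adj.counit.app Q
      comm₁₂ := (adj.counit_naturality i).symm
      comm₂₃ := (adj.counit_naturality π).symm }
  have h1 := ShortComplex.ShortExact.extClass_naturality h2 hS φ
  have h3 : Ext.mapExactFunctor L hRS.extClass = h2.extClass := Ext.mapExactFunctor_extClass L hRS
  rw [← h3] at h1
  exact h1

theorem edge_comp_δ {F Q : C} {δ' : Ext.{0} (R.obj Q) (R.obj F) 1} {δ : Ext.{0} Q F 1}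
    (h : (δ'.mapExactFunctor L).comp (Ext.mk₀ (adj.counit.app F)) (add_zero 1) =
      (Ext.mk₀ (adj.counit.app Q)).comp δ (zero_add 1)) {n : ℕ} (β : Ext.{0} Z (R.obj Q) n) :
    edge adj u F (β.comp δ' rfl) = (edge adj u Q β).comp δ rfl := by
  unfold edge
  rw [Ext.mapExactFunctor_comp,
    Ext.comp_assoc (β.mapExactFunctor L) _ (Ext.mk₀ (adj.counit.app F)) rfl (add_zero 1)
      (by omega), h,
    Ext.comp_assoc (Ext.mk₀ u) _ δ (zero_add n) rfl (by omega),
    Ext.comp_assoc (β.mapExactFunctor L) (Ext.mk₀ (adj.counit.app Q)) δ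
      (add_zero n) (zero_add 1) (by omega)]

/-- **Injectivity of the edge map**, by dimension shifting. -/
theorem edge_injective [R.Additive] (P : C → Prop)
    (hu : ∀ F, Function.Bijective fun φ : Z ⟶ R.obj F => u ≫ L.map φ ≫ adj.counit.app F)
    (hP : ∀ F, P F → ∃ (I Q : C) (i : F ⟶ I) (π : I ⟶ Q) (w : i ≫ π = 0)
      (_ : (ShortComplex.mk i π w).ShortExact) (_ : ((ShortComplex.mk i π w).map R).ShortExact),
      Injective I ∧ Injective (R.obj I) ∧ P Q) :
    ∀ (n : ℕ) (F : C), P F → ∀ α : Ext.{0} Z (R.obj F) n, edge adj u F α = 0 → α = 0 := by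
  intro n
  induction n with
  | zero =>
    intro F _ α hα
    obtain ⟨φ, rfl⟩ := (Ext.mk₀_bijective _ _).2 α
    rw [edge_mk₀, ← Ext.mk₀_zero] at hα
    have h1 := (Ext.mk₀_bijective _ _).1 hα
    have h2 : φ = 0 := (hu F).1 (by
      simp only
      rw [h1, L.map_zero, Limits.zero_comp, Limits.comp_zero])
    rw [h2, Ext.mk₀_zero]
  | succ n ih =>
    intro F hF α hα
    obtain ⟨I, Q, i, π, w, hS, hRS, hI, hRI, hQ⟩ := hP F hF
    obtain ⟨δ', hδ'⟩ : ∃ δ' : Ext.{0} (R.obj Q) (R.obj F) 1, δ' = hRS.extClass := ⟨_, rfl⟩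
    obtain ⟨δ, hδ⟩ : ∃ δ : Ext.{0} Q F 1, δ = hS.extClass := ⟨_, rfl⟩
    have hc : (δ'.mapExactFunctor L).comp (Ext.mk₀ (adj.counit.app F)) (add_zero 1) =
        (Ext.mk₀ (adj.counit.app Q)).comp δ (zero_add 1) := by
      rw [hδ', hδ]
      exact counit_extClass adj hS hRS
    obtain ⟨β, hβ⟩ : ∃ β : Ext.{0} Z (R.obj Q) n, β.comp δ' rfl = α := by
      rw [hδ']
      exact Ext.covariant_sequence_exact₁ Z hRS α
        (Ext.eq_zero_of_injective (I := R.obj I) _) rfl
    have hcomp : (Ext.mk₀ (R.map π)).comp δ' (zero_add 1) = 0 := by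
      rw [hδ']
      exact hRS.comp_extClass
    have hex : ∀ x : Ext.{0} W Q n, x.comp δ rfl = 0 →
        ∃ γ : Ext.{0} W I n, γ.comp (Ext.mk₀ π) (add_zero n) = x := fun x hx => by
      rw [hδ] at hx
      exact Ext.covariant_sequence_exact₃ W hS x rfl hx
    clear hδ hδ'
    subst hβ
    rw [edge_comp_δ adj u hc] at hα
    obtain ⟨γ, hγ⟩ := hex _ hα
    cases n with
    | zero =>
      obtain ⟨g, rfl⟩ := (Ext.mk₀_bijective _ _).2 γ
      obtain ⟨g', hg'⟩ := (hu I).2 g
      have h1 : β = (Ext.mk₀ g').comp (Ext.mk₀ (R.map π)) (add_zero 0) := by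
        apply edge_eq_of_sub adj u (ih Q hQ)
        rw [edge_comp_mk₀, edge_mk₀, ← hγ]
        exact congrArg (fun g => (Ext.mk₀ g).comp (Ext.mk₀ π) (add_zero 0)) hg'.symm
      rw [h1, Ext.comp_assoc (Ext.mk₀ g') (Ext.mk₀ (R.map π)) δ' (add_zero 0)
        (zero_add 1) (by omega), hcomp, Ext.comp_zero]
    | succ m =>
      have h1 : γ = 0 := Ext.eq_zero_of_injective (I := I) γ
      rw [h1, Ext.zero_comp] at hγ
      rw [ih Q hQ β hγ.symm, Ext.zero_comp]

end Abs

/-! ### Direct and inverse images -/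

section Top

variable {T T' : TopCat.{0}} (f : T ⟶ T')

/-- The inverse image. -/
noncomputable def pb : ShC T' ⥤ ShC T := TopCat.Sheaf.pullback (ModuleCat.{0} ℂ) f

/-- The direct image. -/
noncomputable def pf : ShC T ⥤ ShC T' := TopCat.Sheaf.pushforward (ModuleCat.{0} ℂ) f

/-- Their adjunction. -/
noncomputable def pbAdj : pb f ⊣ pf f := TopCat.Sheaf.pullbackPushforwardAdjunction _ f

instance : (pb f).IsLeftAdjoint := (pbAdj f).isLeftAdjoint

instance : (pf f).IsRightAdjoint := (pbAdj f).isRightAdjoint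

attribute [local instance] Limits.reflectsLimits_of_reflectsIsomorphisms in
noncomputable instance : Limits.PreservesFiniteLimits (pb f) := by
  have : Limits.PreservesFiniteLimits
      (Functor.op (Opens.map f)).lan (C := (Opens T')ᵒᵖ ⥤ ModuleCat.{0} ℂ) :=
    lan_preservesFiniteLimits_of_flat _ (Opens.map f)
  exact Functor.sheafPullbackConstruction.preservesFiniteLimits (Opens.map f) (ModuleCat.{0} ℂ)
    (Opens.grothendieckTopology T') (Opens.grothendieckTopology T)

noncomputable instance : Limits.PreservesFiniteColimits (pb f) := inferInstance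

instance : (pf f).Additive := ⟨rfl⟩

instance : (pf f).Linear ℂ := ⟨fun _ _ => rfl⟩

instance : (pb f).Additive := (pbAdj f).left_adjoint_additive

theorem injective_pf (I : ShC T) [Injective I] : Injective ((pf f).obj I) :=
  (pbAdj f).map_injective I inferInstance

/-- Sections of the direct image. -/
theorem pf_obj (F : ShC T) (V : Opens T') :
    ((pf f).obj F).obj.obj (op V) = F.obj.obj (op ((Opens.map f).obj V)) := rfl

variable [PreirreducibleSpace T] [PreirreducibleSpace T']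

/-- The section corresponding to a morphism from `Zc U`. -/
noncomputable def secOf {F : ShC T} {U : Opens T} (φ : Zc U ⟶ F) : F.obj.obj (op U) :=
  (φ.hom.app (op U)).hom (oneU U)

theorem secOf_homZ {F : ShC T} {U : Opens T} (s : F.obj.obj (op U)) : secOf (homZ F s) = s :=
  homZ_one F s

theorem secOf_injective {F : ShC T} {U : Opens T} {φ ψ : Zc U ⟶ F} (h : secOf φ = secOf ψ) :
    φ = ψ := hom_ext_one F h

theorem secOf_comp {F G : ShC T} {U : Opens T} (φ : Zc U ⟶ F) (g : F ⟶ G) :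
    secOf (φ ≫ g) = (g.hom.app (op U)).hom (secOf φ) := rfl

/-- Sections of the direct image. -/
noncomputable def pfSec (F : ShC T) (V : Opens T') (s : ((pf f).obj F).obj.obj (op V)) :
    F.obj.obj (op ((Opens.map f).obj V)) := s

/-- Sections of the direct image. -/
noncomputable def pfSec' (F : ShC T) (V : Opens T')
    (s : F.obj.obj (op ((Opens.map f).obj V))) : ((pf f).obj F).obj.obj (op V) := s

theorem pfSec_pfSec' (F : ShC T) (V : Opens T') (s : F.obj.obj (op ((Opens.map f).obj V))) :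
    pfSec f F V (pfSec' f F V s) = s := rfl

theorem pfSec_map {F G : ShC T} (g : F ⟶ G) (V : Opens T')
    (s : ((pf f).obj F).obj.obj (op V)) :
    pfSec f G V ((((pf f).map g).hom.app (op V)).hom s) =
      (g.hom.app (op ((Opens.map f).obj V))).hom (pfSec f F V s) := rfl

/-- The comparison map. -/
noncomputable def uZ (V : Opens T') : Zc ((Opens.map f).obj V) ⟶ (pb f).obj (Zc V) :=
  homZ _ (pfSec f _ V (secOf ((pbAdj f).unit.app (Zc V))))

theorem secOf_uZ_comp {V : Opens T'} {F : ShC T} (φ : Zc V ⟶ (pf f).obj F) :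
    secOf (uZ f V ≫ (pb f).map φ ≫ (pbAdj f).counit.app F) = pfSec f F V (secOf φ) := by
  rw [secOf_comp, uZ, secOf_homZ]
  have h2 : (pbAdj f).unit.app (Zc V) ≫
      (pf f).map ((pb f).map φ ≫ (pbAdj f).counit.app F) = φ := by
    have := (pbAdj f).homEquiv_unit (X := Zc V) (Y := F)
      (f := (pb f).map φ ≫ (pbAdj f).counit.app F)
    rw [← this, ← (pbAdj f).homEquiv_counit, Equiv.apply_symm_apply]
  have h3 := congrArg (fun ψ => pfSec f F V (secOf ψ)) h2
  refine Eq.trans ?_ h3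
  rfl

theorem uZ_bijective (V : Opens T') (F : ShC T) : Function.Bijective
    fun φ : Zc V ⟶ (pf f).obj F => uZ f V ≫ (pb f).map φ ≫ (pbAdj f).counit.app F := by
  constructor
  · intro φ ψ h
    have h1 := congrArg secOf h
    simp only [secOf_uZ_comp] at h1
    exact secOf_injective h1
  · intro χ
    refine ⟨homZ _ (pfSec' f F V (secOf χ)), ?_⟩
    apply secOf_injective
    simp only [secOf_uZ_comp, secOf_homZ]
    rfl

/-- Acyclicity over a basis. -/
def AcyclicOver (𝓑 : Set (Opens T')) (F : ShC T) : Prop :=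
  ∀ V ∈ 𝓑, ∀ k, Subsingleton (Abelian.Ext.{0} (Zc ((Opens.map f).obj V)) F (k + 1))

variable {f}

theorem AcyclicOver.injQ {𝓑 : Set (Opens T')} {F : ShC T} (h : AcyclicOver f 𝓑 F) :
    AcyclicOver f 𝓑 (injQ F) := by
  intro V hV k
  have key : ∀ α : Abelian.Ext.{0} (Zc ((Opens.map f).obj V)) (Q.injQ F) (k + 1), α = 0 := by
    intro α
    obtain ⟨γ, rfl⟩ := exists_of_comp_injδ F α (have := h V hV (k + 1); Subsingleton.elim _ _)
    rw [Abelian.Ext.eq_zero_of_injective γ, Abelian.Ext.zero_comp]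
  exact ⟨fun α β => (key α).trans (key β).symm⟩

theorem AcyclicOver.epi {𝓑 : Set (Opens T')} (hB : ∀ (W : Opens T') (x : T'), x ∈ W →
    ∃ V ∈ 𝓑, x ∈ V ∧ V ≤ W) {F : ShC T} (h : AcyclicOver f 𝓑 F) :
    Epi ((pf f).map (injπ F)) := by
  refine (CategoryTheory.Sheaf.isLocallySurjective_iff_epi' (A := ModuleCat.{0} ℂ)
      (φ := (pf f).map (injπ F))).1 ?_
  refine (TopCat.Presheaf.isLocallySurjective_iff ((pf f).map (injπ F)).hom).2 ?_
  intro U t x₀ hx₀
  obtain ⟨V, hV, hxV, hVU⟩ := hB U x₀ hx₀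
  let t' : (Q.injQ F).obj.obj (op ((Opens.map f).obj V)) :=
    (((pf f).obj (Q.injQ F)).obj.map (homOfLE hVU).op).hom t
  obtain ⟨γ, hγ⟩ := exists_of_comp_injδ F (Abelian.Ext.mk₀ (homZ _ t'))
    (have := h V hV 0; Subsingleton.elim _ _)
  obtain ⟨g, rfl⟩ := (Abelian.Ext.mk₀_bijective _ _).2 γ
  rw [Abelian.Ext.mk₀_comp_mk₀] at hγ
  have h1 := (Abelian.Ext.mk₀_bijective _ _).1 hγ
  refine ⟨V, hVU, ⟨(g.hom.app (op ((Opens.map f).obj V))).hom (oneU _), ?_⟩, hxV⟩
  have h2 := congrArg (fun χ => (χ.hom.app (op ((Opens.map f).obj V))).hom (oneU _)) h1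
  simp only [homZ_one] at h2
  exact h2

/-- **The edge map is injective.** -/
theorem edge_zero_of_acyclic {𝓑 : Set (Opens T')} (hB : ∀ (W : Opens T') (x : T'), x ∈ W →
    ∃ V ∈ 𝓑, x ∈ V ∧ V ≤ W) {F : ShC T} (h : AcyclicOver f 𝓑 F) (V : Opens T') {n : ℕ}
    (α : Abelian.Ext.{0} (Zc V) ((pf f).obj F) n) (hα : edge (pbAdj f) (uZ f V) F α = 0) :
    α = 0 := by
  refine edge_injective (pbAdj f) (uZ f V) (AcyclicOver f 𝓑) (uZ_bijective f V) ?_ n F h α hα
  intro F hF
  have hepi := hF.epi hB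
  refine ⟨injI F, Q.injQ F, injι F, injπ F, Limits.cokernel.condition _, injComplex_shortExact F,
    ?_, inferInstance, injective_pf f _, hF.injQ⟩
  have hpl : Limits.PreservesFiniteLimits (pf f) := by
    have : Limits.PreservesLimitsOfSize.{0, 0} (pf f) := (pbAdj f).rightAdjoint_preservesLimits
    exact Limits.PreservesLimits.preservesFiniteLimits _
  have hS := injComplex_shortExact F
  have := hS.mono_f
  exact
    { exact := hS.exact.map_of_mono_of_preservesKernel (pf f) inferInstance inferInstance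
      mono_f := inferInstanceAs (Mono ((pf f).map (injComplex F).f))
      epi_g := hepi }

end Top

end Vale.Agent.P299.Q
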