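import Vale.Agent.P299.Q.OrbD
import Vale.Agent.P299.Q.OrbRey

/-!
# The complements of effective invariant ample divisors behave like affine open sets
-/

open CategoryTheory TopologicalSpace Opposite TopCat AlgebraicGeometry Order

namespace Vale.Agent.P299.Q

open Vale.Agent.P299.G

variable {r : ℕ} {X : Var} (τ : TAct r X)

/-- (R2) -/
theorem torBasis_nice : NiceOpens (S := τ.space) id τ.invField.toSubfield τ.torBasis where
  surj := Function.surjective_id
  gen := by
    rintro V ⟨B, -, -, -, hV⟩ x y hyx hx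
    exact (hV y).2 (((hV x).1 hx).of_specializes hyx)
  basic := by
    rintro V ⟨B, hBi, hB, h1, hV⟩ g hg hg0
    have hg' : g ∈ RB B := by
      rw [mem_RB]
      intro x hx hx1 hne
      exact regOn_iff.1 hg.2 x ((hV x).2 hx) hx1 hne
    obtain ⟨N, P, hP, h2, h3, h4⟩ := exists_basic_compl hB h1 hg' hg0
    have hPi : τ.InvDiv P := fun σ y => by
      by_cases hy : coheight y = 1
      · rw [← hP.2 _ (by rw [τ.coheight_act, hy]), ← hP.2 y hy, ← τ.ord_act,
          show (τ.act σ).pull g = g from hg.1 σ]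
      · rw [coef_of_ne hy, coef_of_ne (by rwa [τ.coheight_act])]
    have hi : τ.InvDiv (P + (N + 1) • B) :=
      TAct.InvDiv.add τ hPi (TAct.InvDiv.nsmul τ hBi (N + 1))
    refine ⟨τ.genOpens (s := 1) hi fun σ => ⟨1, one_ne_zero, by rw [map_one, one_smul]⟩,
      ⟨_, hi, h2, h3, fun x => Iff.rfl⟩, fun x => ?_⟩
    change GenAt (P + (N + 1) • B) 1 x ↔ _
    rw [h4, ← hV]
    rfl
  cover := by
    rintro V ⟨B, hBi, hB, h1, hV⟩ P hP
    obtain ⟨ρ, hρ0, hρ⟩ := τ.exists_reynolds
    obtain ⟨L, hL, hL'⟩ := exists_partition factorialStalks hB h1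
      (fun W => ∃ W' : Opens τ.space, P W' ∧ ∀ x : X.X, x ∈ W ↔ (show τ.space from x) ∈ W')
      fun x hx => by
        obtain ⟨W, hxW, hW⟩ := hP x ((hV x).2 hx)
        exact ⟨⟨{y : X.X | (show τ.space from y) ∈ W}, W.2.1⟩, hxW, W, hW, fun y => Iff.rfl⟩
    refine ⟨L.map fun p => ρ p.1, ?_, fun g hg => ?_⟩
    · have h2 : (L.map fun p => ρ p.1).sum = ρ (L.map Prod.fst).sum := by
        rw [map_list_sum, List.map_map]
        rfl
      rw [h2, hL, hρ0 1 (fun σ => map_one _)]
    · obtain ⟨p, hp, rfl⟩ := List.mem_map.1 hg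
      obtain ⟨hpB, ⟨W', hW', hWW'⟩, hpW⟩ := hL' p hp
      have hWinv : ∀ (σ : Fin r → ℂˣ) (y : X.X), (show τ.space from (τ.act σ).f y) ∈ W' ↔
          (show τ.space from y) ∈ W' := by
        intro σ y
        have h1 := W'.2.2 σ
        have h2 := congrArg (fun s => y ∈ s) h1
        exact h2.to_iff
      have hpol : ∀ x, GenAt B 1 x → p.1 ∈ polar (coef (0 : Div X.X)) x := fun x hx hx1 hne => by
        rw [coef_zero, add_zero]
        exact mem_RB.1 hpB x hx hx1 hne
      obtain ⟨k, hk⟩ := exists_mem_H0_add (D := 0) h1 hpol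
      rw [zero_add] at hk
      have h1s : ∀ σ, ∃ c : ℂ, c ≠ 0 ∧ (τ.act σ).pull (1 : X.K) = c • (1 : X.K) := fun σ =>
        ⟨1, one_ne_zero, by rw [map_one, one_smul]⟩
      have hki : τ.InvDiv (k • B) := TAct.InvDiv.nsmul τ hBi k
      -- units and generators
      have key : ∀ (f : X.K) (y : X.X), GenAt B 1 y →
          (GenAt (0 : Div X.X) f y ↔ GenAt (k • B) f y) := by
        intro f y hy
        refine and_congr_right fun _ => forall_congr' fun z => forall_congr' fun hz =>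
          forall_congr' fun hzy => ?_
        rw [coef_zero, coef_nsmul, coef_of_genAt_one hy hz hzy, mul_zero]
      let C : Set X.X := {y | GenAt B 1 y ∧ (show τ.space from y) ∉ W'}
      have hC : ∀ σ, ∀ y ∈ C, (τ.act σ).f y ∈ C := fun σ y hy =>
        ⟨(τ.genAt_act hBi h1s σ y).2 hy.1, fun h => hy.2 ((hWinv σ y).1 h)⟩
      have hmem : p.1 ∈ vanSub (k • B) C := ⟨hk, fun y hy h =>
        hy.2 ((hWW' y).1 (hpW y hy.1 ((key _ y hy.1).2 h)))⟩
      obtain ⟨h2, h3⟩ := hρ (vanSub (k • B) C) (finite_vanSub _ _)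
        (fun σ f hf => τ.vanSub_stable hki hC σ hf) p.1 hmem
      refine ⟨⟨h3, regOn_iff.2 fun x hx hx1 hne => ?_⟩, W', hW', fun x hx hgx => ?_⟩
      · have h4 := mem_H0.1 h2.1 x hx1 hne
        rwa [coef_nsmul, coef_of_genAt_one ((hV x).1 hx) hx1 specializes_rfl, mul_zero,
          add_zero] at h4
      · by_contra hxW
        exact h2.2 x ⟨(hV x).1 hx, hxW⟩ ((key _ x ((hV x).1 hx)).1 hgx)

end Vale.Agent.P299.Q
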