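import Vale.Agent.P299.Q.OrbE
import Vale.Agent.P299.Q.OrbTor
import Vale.Agent.P299.Q.BunData
import Vale.Agent.P299.Q.CohZero

/-!
# The cohomology of the invariant sheaves injects in the cohomology of the bundle
-/

open CategoryTheory TopologicalSpace Opposite TopCat AlgebraicGeometry Order

namespace Vale.Agent.P299.Q

open Vale.Agent.P299.G

/-! ### The constant sheaf -/

section Const

variable {T : TopCat.{0}} [PreirreducibleSpace T]

/-- The constant sheaf. -/
noncomputable abbrev cS (T : TopCat.{0}) : ShC T :=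
  (constantSheaf (Opens.grothendieckTopology T) (ModuleCat.{0} ℂ)).obj (ModuleCat.of ℂ ℂ)

theorem evalTop_comp {F G : ShC T} (φ : cS T ⟶ F) (g : F ⟶ G) :
    evalTop G (φ ≫ g) = (g.hom.app (op ⊤)).hom (evalTop F φ) := rfl

/-- The constant sheaf is `Zc ⊤`. -/
noncomputable def cIso : cS T ≅ Zc (⊤ : Opens T) where
  hom := (Equiv.ofBijective _ (evalTop_bijective (Zc (⊤ : Opens T)))).symm (oneU ⊤)
  inv := homZ _ (evalTop _ (𝟙 _))
  hom_inv_id := by
    apply (evalTop_bijective _).1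
    rw [evalTop_comp, ← Equiv.ofBijective_apply _ (hf := evalTop_bijective (Zc (⊤ : Opens T))),
      Equiv.apply_symm_apply, homZ_one]
  inv_hom_id := by
    apply hom_ext_one
    have h1 : ((homZ (cS T) (evalTop _ (𝟙 _)) ≫ (Equiv.ofBijective _
        (evalTop_bijective (Zc (⊤ : Opens T)))).symm (oneU ⊤)).hom.app (op ⊤)).hom (oneU ⊤) =
      (((Equiv.ofBijective _ (evalTop_bijective (Zc (⊤ : Opens T)))).symm
        (oneU ⊤)).hom.app (op ⊤)).hom (((homZ (cS T) (evalTop _ (𝟙 _))).hom.app (op ⊤)).hom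
          (oneU ⊤)) := rfl
    rw [h1, homZ_one, ← evalTop_comp, Category.id_comp,
      ← Equiv.ofBijective_apply _ (hf := evalTop_bijective (Zc (⊤ : Opens T))),
      Equiv.apply_symm_apply]
    rfl

/-- Precomposition with the isomorphism. -/
noncomputable def cEq (F : ShC T) (n : ℕ) : Coh F n ≃ₗ[ℂ] Abelian.Ext.{0} (Zc (⊤ : Opens T)) F n where
  toFun α := (Abelian.Ext.mk₀ cIso.inv).comp α (zero_add n)
  map_add' α β := Abelian.Ext.comp_add _ _ _ _
  map_smul' c α := Abelian.Ext.comp_smul _ _ _ _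
  invFun β := (Abelian.Ext.mk₀ cIso.hom).comp β (zero_add n)
  left_inv α := by
    beta_reduce
    rw [Abelian.Ext.mk₀_comp_mk₀_assoc, Iso.hom_inv_id, Abelian.Ext.mk₀_id_comp]
  right_inv α := by
    beta_reduce
    rw [Abelian.Ext.mk₀_comp_mk₀_assoc, Iso.inv_hom_id, Abelian.Ext.mk₀_id_comp]

end Const

/-- Postcomposition. -/
noncomputable def postL {T : TopCat.{0}} {F G : ShC T} (Z : ShC T) (g : F ⟶ G) (n : ℕ) :
    Abelian.Ext.{0} Z F n →ₗ[ℂ] Abelian.Ext.{0} Z G n where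
  toFun α := α.comp (Abelian.Ext.mk₀ g) (add_zero n)
  map_add' _ _ := Abelian.Ext.add_comp _ _ _ _
  map_smul' _ _ := Abelian.Ext.smul_comp _ _ _ _

theorem postL_comp {T : TopCat.{0}} {F G H : ShC T} (Z : ShC T) (g : F ⟶ G) (h : G ⟶ H) (n : ℕ)
    (α : Abelian.Ext.{0} Z F n) : postL Z (g ≫ h) n α = postL Z h n (postL Z g n α) := by
  unfold postL
  change α.comp (Abelian.Ext.mk₀ (g ≫ h)) (add_zero n) =
    (α.comp (Abelian.Ext.mk₀ g) (add_zero n)).comp (Abelian.Ext.mk₀ h) (add_zero n)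
  rw [Abelian.Ext.comp_assoc α (Abelian.Ext.mk₀ g) (Abelian.Ext.mk₀ h) (add_zero n) (add_zero 0)
    (by omega), Abelian.Ext.mk₀_comp_mk₀]

theorem postL_id {T : TopCat.{0}} {F : ShC T} (Z : ShC T) (n : ℕ)
    (α : Abelian.Ext.{0} Z F n) : postL Z (𝟙 F) n α = α :=
  Abelian.Ext.comp_mk₀_id α

/-! ### Linearity -/

section Lin

variable {T T' : TopCat.{0}} (f : T ⟶ T')

instance instPbLinear : @Functor.Linear ℂ _ (ShC T') (ShC T) _ _ Abelian.toPreadditive
    Abelian.toPreadditive (instLinearSheaf T') (instLinearSheaf T) (pb f) where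
  map_smul {F G} φ c := by
    apply ((pbAdj f).homEquiv _ _).injective
    rw [Adjunction.homEquiv_unit, Adjunction.homEquiv_unit]
    have h1 : (pf f).map (c • (pb f).map φ) = c • (pf f).map ((pb f).map φ) := rfl
    have h2 : ∀ ψ : F ⟶ G, (pbAdj f).unit.app F ≫ (pf f).map ((pb f).map ψ) =
        ψ ≫ (pbAdj f).unit.app G := fun ψ => (pbAdj f).unit_naturality ψ
    rw [h1, Linear.comp_smul, h2, h2, Linear.smul_comp]

variable [PreirreducibleSpace T] [PreirreducibleSpace T']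

/-- The edge map is linear. -/
noncomputable def edgeL (V : Opens T') (F : ShC T) (n : ℕ) :
    Abelian.Ext.{0} (Zc V) ((pf f).obj F) n →ₗ[ℂ]
      Abelian.Ext.{0} (Zc ((Opens.map f).obj V)) F n where
  toFun := edge (pbAdj f) (uZ f V) F
  map_add' := edge_add _ _
  map_smul' c α := by
    unfold edge
    rw [Functor.mapExactFunctor_smul (pb f) _ _ _ ℂ c α, Abelian.Ext.smul_comp, Abelian.Ext.comp_smul]
    rfl

/-- The edge map on global cohomology. -/
noncomputable def edgeTop (F : ShC T) (n : ℕ) :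
    Abelian.Ext.{0} (Zc (⊤ : Opens T')) ((pf f).obj F) n →ₗ[ℂ]
      Abelian.Ext.{0} (Zc (⊤ : Opens T)) F n := edgeL f ⊤ F n

theorem edgeTop_postL {F G : ShC T} (g : F ⟶ G) (n : ℕ)
    (α : Abelian.Ext.{0} (Zc (⊤ : Opens T')) ((pf f).obj F) n) :
    edgeTop f G n (postL _ ((pf f).map g) n α) = postL _ g n (edgeTop f F n α) :=
  edge_comp_mk₀ (pbAdj f) (uZ f ⊤) g α

/-- **Comparison**: if `F` is acyclic over `T'` then the edge map is injective. -/
theorem edgeTop_injective {𝓑 : Set (Opens T')} (hB : ∀ (W : Opens T') (x : T'), x ∈ W →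
    ∃ V ∈ 𝓑, x ∈ V ∧ V ≤ W) {F : ShC T} (h : AcyclicOver f 𝓑 F) (n : ℕ) :
    Function.Injective (edgeTop f F n) := by
  rw [injective_iff_map_eq_zero]
  intro α hα
  exact edge_zero_of_acyclic hB h ⊤ α hα

/-- The map `H^n(T', F') → H^n(T, F)` given by `F' → f_* F`. -/
noncomputable def lerayMap {F' : ShC T'} {F : ShC T} (φ : F' ⟶ (pf f).obj F) (n : ℕ) :
    Coh F' n →ₗ[ℂ] Coh F n :=
  (cEq F n).symm.toLinearMap ∘ₗ edgeTop f F n ∘ₗ postL _ φ n ∘ₗ (cEq F' n).toLinearMap

/-- The abstract form of the comparison. -/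
theorem lerayMap_injective {𝓑 : Set (Opens T')} (hB : ∀ (W : Opens T') (x : T'), x ∈ W →
    ∃ V ∈ 𝓑, x ∈ V ∧ V ≤ W) {F' : ShC T'} {F G : ShC T} (φ : F' ⟶ (pf f).obj F) (g : F ⟶ G)
    (h : AcyclicOver f 𝓑 G) (R : (pf f).obj G ⟶ F') (hR : φ ≫ (pf f).map g ≫ R = 𝟙 _) (n : ℕ) :
    Function.Injective (lerayMap f φ n) := by
  refine (cEq F n).symm.injective.comp ?_
  refine Function.Injective.comp (g := fun α => edgeTop f F n (postL _ φ n α)) ?_
    (cEq F' n).injective
  intro α β hαβ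
  have h1 := congrArg (postL _ g n) hαβ
  simp only at h1
  rw [← edgeTop_postL, ← edgeTop_postL, ← postL_comp, ← postL_comp] at h1
  have h2 := congrArg (postL _ R n) (edgeTop_injective f hB h n h1)
  rw [← postL_comp, ← postL_comp, Category.assoc, hR, postL_id, postL_id] at h2
  exact h2

end Lin

/-! ### Maps between the sheaves -/

section Maps

variable {K K' : Type} [AddCommGroup K] [Module ℂ K] [AddCommGroup K'] [Module ℂ K']
  {T T' : TopCat.{0}} [PreirreducibleSpace T] [PreirreducibleSpace T'] (f : T ⟶ T')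

/-- Pulling back. -/
noncomputable def pullMap (M' : T' → Submodule ℂ K') (M : T → Submodule ℂ K) (L : K' →ₗ[ℂ] K)
    (h : ∀ (V : Opens T') (g : K'), (∀ t ∈ V, g ∈ M' t) → ∀ x, f x ∈ V → L g ∈ M x) :
    constSheaf M' ⟶ (pf f).obj (constSheaf M) :=
  ⟨{ app := fun V => ModuleCat.ofHom (Y := (((pf f).obj (constSheaf M)).obj.obj V))
      { toFun := fun s : constSec M' V.unop => (show constSec M ((Opens.map f).obj V.unop) from
          ⟨fun x => L (s.1 ⟨f x.1, x.2⟩), fun x y => congrArg L (s.2.1 _ _), fun x =>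
            h V.unop _ (fun t ht => by
              rw [s.2.1 ⟨f x.1, x.2⟩ ⟨t, ht⟩]
              exact s.2.2 ⟨t, ht⟩) x.1 x.2⟩)
        map_add' := fun s t => Subtype.ext (funext fun x => L.map_add _ _)
        map_smul' := fun c s => Subtype.ext (funext fun x => L.map_smul _ _) }
     naturality := fun _ _ _ => rfl }⟩

end Maps

theorem isZero_Zc_bot {T : TopCat.{0}} [PreirreducibleSpace T] :
    Limits.IsZero (Zc (⊥ : Opens T)) := by
  rw [Limits.IsZero.iff_id_eq_zero]
  apply hom_ext_one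
  exact subsingleton_bot _ (fun ⟨x⟩ => x.2) _ _

theorem subsingleton_ext_bot {T : TopCat.{0}} [PreirreducibleSpace T] (F : ShC T) {U : Opens T}
    (hU : U = ⊥) (n : ℕ) : Subsingleton (Abelian.Ext.{0} (Zc U) F n) := by
  subst hU
  have h : ∀ α : Abelian.Ext.{0} (Zc (⊥ : Opens T)) F n, α = 0 := by
    intro α
    rw [← Abelian.Ext.mk₀_id_comp α, (Limits.IsZero.iff_id_eq_zero _).1 isZero_Zc_bot,
      Abelian.Ext.mk₀_zero, Abelian.Ext.zero_comp]
  exact ⟨fun α β => (h α).trans (h β).symm⟩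

end Vale.Agent.P299.Q
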