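import Vale.Agent.P299.Q.OrbF

/-!
# The cohomology of the fibre injects in the cohomology of the bundle
-/

open CategoryTheory TopologicalSpace Opposite TopCat AlgebraicGeometry Order

namespace Vale.Agent.P299.Q

open Vale.Agent.P299.G

/-! ### The comparison -/

section Bun

variable {r : ℕ} {X Z : Var} {τ : TAct r Z} {D : Div Z.X} {D' : Div X.X} (h : BunData τ D D')

/-- The map to the space of orbits. -/
def BunData.fa : (X.X : TopCat.{0}) ⟶ τ.space :=
  @TopCat.ofHom X.X Z.X _ τ.top (@ContinuousMap.mk X.X Z.X _ τ.top h.a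
    (@Continuous.mk _ _ _ τ.top _ fun U hU => h.a_cont ⟨U, hU⟩))

/-- The inclusion of the fibre. -/
def BunData.fi : (Z.X : TopCat.{0}) ⟶ (X.X : TopCat.{0}) := TopCat.ofHom ⟨h.i, h.i_cont⟩

/-- The sheaf of invariant sections on the fibre. -/
noncomputable abbrev shT (τ : TAct r Z) (D : Div Z.X) : ShC τ.space :=
  secSheaf (S := τ.space) id τ.inv D

/-- The sheaf `O_X(D)`. -/
noncomputable abbrev shO {X : Var} (D : Div X.X) : ShC (X.X : TopCat.{0}) :=
  secSheaf (S := (X.X : TopCat.{0})) id ⊤ D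

theorem mem_orbM_id {X : Var} {E : Submodule ℂ X.K} {D : Div X.X} {x : X.X} {g : X.K} :
    g ∈ orbM (S := (X.X : TopCat.{0})) id E D x ↔ g ∈ E ∧ g ∈ polar (coef D) x := by
  rw [mem_orbM]
  exact and_congr_right fun _ => ⟨fun h => h x rfl, fun h y hy => by
    change y = x at hy
    rwa [hy]⟩

theorem mem_orbM_space {E : Submodule ℂ Z.K} {D : Div Z.X} {x : Z.X} {g : Z.K} :
    g ∈ orbM (S := τ.space) id E D (show τ.space from x) ↔ g ∈ E ∧ g ∈ polar (coef D) x :=
  Iff.trans (mem_orbM (S := τ.space)) (and_congr_right fun _ => ⟨fun h => h x rfl, fun h y hy => by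
    change y = x at hy
    rwa [hy]⟩)

/-- Invariant sections on the fibre give sections on the bundle. -/
noncomputable def BunData.mι : shT τ D ⟶ (pf h.fa).obj (shO D') :=
  pullMap h.fa (orbM (S := τ.space) id τ.inv D) (orbM (S := (X.X : TopCat.{0})) id ⊤ D') h.ι
    (by
      intro V g hg x hx
      refine mem_orbM_id.2 ⟨trivial, ?_⟩
      have hx' : (show τ.space from h.a x) ∈ V := hx
      refine h.ι_mem g (mem_orbM_space.1 (hg _ hx')).1 x fun z hz => ?_
      refine (mem_orbM_space (x := z).1 (hg z ?_)).2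
      have hV : IsOpen {y : Z.X | (show τ.space from y) ∈ V} := V.2.1
      exact hz.mem_open hV hx')

/-- Restriction to the fibre. -/
noncomputable def BunData.mρ : shO D' ⟶ (pf h.fi).obj (shO D) :=
  pullMap h.fi (orbM (S := (X.X : TopCat.{0})) id ⊤ D') (orbM (S := (Z.X : TopCat.{0})) id ⊤ D) h.ρ
    (by
      intro U g hg z hz
      refine mem_orbM_id.2 ⟨trivial, ?_⟩
      have hz' : h.i z ∈ U := hz
      refine h.ρ_mem z g fun x hx => ?_
      exact (mem_orbM_id.1 (hg x (hx.mem_open U.isOpen hz'))).2)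

theorem BunData.acyclic_fi : AcyclicOver h.fi
    {U | (Opens.map h.fi).obj U ∈ xBasis Z ∨ (Opens.map h.fi).obj U = ⊥} (shO D) := by
  rintro U (hU | hU) k
  · exact xBasis_vanish factorialStalks hU D k
  · exact subsingleton_ext_bot _ hU _

/-- The complements of effective ample divisors form a basis. -/
theorem exists_xBasis (Z : Var) (W : Opens (Z.X : TopCat.{0})) (z : Z.X) (hz : z ∈ W) :
    ∃ V ∈ xBasis Z, z ∈ V ∧ V ≤ W := by
  obtain ⟨A, hA⟩ := Z.ample
  obtain ⟨m, hm, s, hs, U, hUa, hzU, hUW, hU⟩ := hA.exists_small (factorialStalks Z) z W hz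
  have hs0 : s ≠ 0 := ((hU z).1 hzU).1
  obtain ⟨P, hP⟩ := exists_isDivOf hs0
  have hc : ∀ y, coheight y = 1 → coef (m • A + P) y = Scheme.ord s y + coef (m • A) y :=
    fun y hy => by rw [coef_add, hP.2 y hy, add_comm]
  refine ⟨UB (m • A + P), ⟨m • A + P, (hA.nsmul hm).add_isDivOf hP, ?_, fun x => Iff.rfl⟩, ?_, ?_⟩
  · refine mem_H0.2 fun y hy _ => ?_
    rw [ord_one, zero_add, hc y hy]
    exact mem_H0.1 hs y hy hs0
  · have h1 := (hU z).1 hzU
    refine ⟨one_ne_zero, fun y hy hyz => ?_⟩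
    rw [ord_one, zero_add, hc y hy]
    exact h1.2 y hy hyz
  · intro x hx
    refine hUW ((hU x).2 ⟨hs0, fun y hy hyx => ?_⟩)
    rw [← hc y hy]
    exact coef_of_genAt_one hx hy hyx

theorem BunData.basis_fi (W : Opens (X.X : TopCat.{0})) (x : X.X) (hx : x ∈ W) :
    ∃ V ∈ {U | (Opens.map h.fi).obj U ∈ xBasis Z ∨ (Opens.map h.fi).obj U = ⊥},
      x ∈ V ∧ V ≤ W := by
  have hinj : Function.Injective h.i := fun z z' hzz => by
    rw [← h.a_i z, ← h.a_i z', hzz]
  have hemb : Topology.IsClosedEmbedding h.i :=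
    Topology.IsClosedEmbedding.of_continuous_injective_isClosedMap h.i_cont hinj h.i_closed
  by_cases hxi : x ∈ Set.range h.i
  · obtain ⟨z, rfl⟩ := hxi
    obtain ⟨V, hV, hzV, hVW⟩ := exists_xBasis Z ((Opens.map h.fi).obj W) z hx
    obtain ⟨U, hU, hUV⟩ := hemb.isInducing.isOpen_iff.1 V.isOpen
    refine ⟨⟨U, hU⟩ ⊓ W, Or.inl ?_, ⟨?_, hx⟩, inf_le_right⟩
    · have h1 : (Opens.map h.fi).obj (⟨U, hU⟩ ⊓ W) = V := by
        apply Opens.ext
        change h.i ⁻¹' (U ∩ W) = V
        rw [Set.preimage_inter, hUV]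
        exact Set.inter_eq_left.2 hVW
      rw [h1]
      exact hV
    · change z ∈ h.i ⁻¹' U
      rw [hUV]
      exact hzV
  · refine ⟨⟨(Set.range h.i)ᶜ, hemb.isClosed_range.isOpen_compl⟩ ⊓ W, Or.inr ?_, ⟨hxi, hx⟩,
      inf_le_right⟩
    apply Opens.ext
    change h.i ⁻¹' ((Set.range h.i)ᶜ ∩ W) = ∅
    rw [Set.eq_empty_iff_forall_notMem]
    intro z hz
    exact hz.1 ⟨z, rfl⟩

theorem BunData.acyclic_fa : AcyclicOver h.fa τ.torBasis ((pf h.fi).obj (shO D)) := by
  intro V hV k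
  have h2 : (Opens.map h.fi).obj ((Opens.map h.fa).obj V) ∈ xBasis Z := by
    obtain ⟨B, -, hB, hB1, hVB⟩ := hV
    refine ⟨B, hB, hB1, fun z => ?_⟩
    rw [← hVB z]
    have h3 : h.a (h.i z) = z := h.a_i z
    change (show τ.space from h.a (h.i z)) ∈ V ↔ _
    rw [h3]
  have h3 : ∀ α : Abelian.Ext.{0} (Zc ((Opens.map h.fa).obj V)) ((pf h.fi).obj (shO D)) (k + 1),
      α = 0 := by
    intro α
    refine edge_zero_of_acyclic h.basis_fi h.acyclic_fi _ α ?_
    have := xBasis_vanish factorialStalks h2 D k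
    exact Subsingleton.elim _ _
  exact ⟨fun α β => (h3 α).trans (h3 β).symm⟩

theorem BunData.mem_back (V : Opens τ.space) (z : Z.X) (hz : (show τ.space from z) ∈ V) :
    (show τ.space from h.a (h.i z)) ∈ V := by
  have h1 : h.a (h.i z) = z := h.a_i z
  exact (congrArg (fun y : Z.X => (show τ.space from y) ∈ V) h1).mpr hz

/-- The Reynolds operator. -/
noncomputable def BunData.mR (R : Z.K →ₗ[ℂ] Z.K)
    (hR : ∀ (V : Opens τ.space) (g : Z.K),
      (∀ z : Z.X, (show τ.space from z) ∈ V → g ∈ polar (coef D) z) →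
      ∀ z : Z.X, (show τ.space from z) ∈ V → R g ∈ τ.inv ∧ R g ∈ polar (coef D) z) :
    (pf h.fa).obj ((pf h.fi).obj (shO D)) ⟶ shT τ D :=
  ⟨{ app := fun V => ModuleCat.ofHom
      (X := (((pf h.fa).obj ((pf h.fi).obj (shO D))).obj.obj V)) (Y := (shT τ D).obj.obj V)
      { toFun := fun s : constSec (orbM (S := (Z.X : TopCat.{0})) id ⊤ D)
            ((Opens.map h.fi).obj ((Opens.map h.fa).obj V.unop)) =>
          (show constSec (orbM (S := τ.space) id τ.inv D) V.unop from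
          ⟨fun v => R (s.1 ⟨v.1, h.mem_back V.unop v.1 v.2⟩), fun x y => congrArg R (s.2.1 _ _),
            fun v => by
            refine mem_orbM_space.2 (hR V.unop _ (fun z hz => ?_) v.1 v.2)
            rw [s.2.1 _ ⟨z, h.mem_back V.unop z hz⟩]
            exact (mem_orbM_id.1 (s.2.2 ⟨z, h.mem_back V.unop z hz⟩)).2⟩)
        map_add' := fun s t => Subtype.ext (funext fun x => R.map_add _ _)
        map_smul' := fun c s => Subtype.ext (funext fun x => R.map_smul _ _) }
     naturality := fun _ _ _ => rfl }⟩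

theorem BunData.exists_retraction (hD : τ.InvDiv D) :
    ∃ R : (pf h.fa).obj ((pf h.fi).obj (shO D)) ⟶ shT τ D,
      h.mι ≫ (pf h.fa).map h.mρ ≫ R = 𝟙 _ := by
  obtain ⟨R, hR, hR'⟩ := τ.exists_reynolds
  refine ⟨h.mR R ?_, ?_⟩
  · intro V g hg z hz
    obtain ⟨V', ⟨B, hBi, hB, hB1, hV'⟩, hzV', hV'V⟩ := τ.exists_torBasis V z hz
    have h1 := τ.reynolds_mem hR' hBi hB1 hD (f := g) fun x hx => hg x (hV'V ((hV' x).2 hx))
    exact ⟨h1.1, h1.2 z ((hV' z).1 hzV')⟩
  · apply CategoryTheory.Sheaf.hom_ext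
    apply NatTrans.ext
    funext V
    apply ModuleCat.hom_ext
    apply LinearMap.ext
    intro s
    let s' : constSec (orbM (S := τ.space) id τ.inv D) V.unop := s
    refine Subtype.ext (a1 := (show constSec (orbM (S := τ.space) id τ.inv D) V.unop from _))
      (a2 := s') (funext fun v => ?_)
    have h1 : (s'.1 v) ∈ τ.inv := (mem_orbM_space (x := v.1).1 (s'.2.2 v)).1
    change R (h.ρ (h.ι (s'.1 ⟨h.a (h.i v.1), _⟩))) = s'.1 v
    rw [s'.2.1 _ v, h.ρ_ι _ h1, hR _ h1]

include h in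
/-- **The comparison map.** -/
theorem BunData.exists_injective (hD : τ.InvDiv D) (n : ℕ) :
    ∃ Φ : Coh (secSheaf (S := τ.space) id τ.inv D) n →ₗ[ℂ]
      Coh (secSheaf (S := (X.X : TopCat.{0})) id ⊤ D') n, Function.Injective Φ := by
  obtain ⟨R, hR⟩ := h.exists_retraction hD
  exact ⟨_, lerayMap_injective h.fa τ.exists_torBasis h.mι h.mρ h.acyclic_fa R hR n⟩

end Bun

/-- The trivial bundle. -/
noncomputable def trivialBun {r : ℕ} {X : Var} (τ : TAct r X) (D : Div X.X) : BunData τ D D where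
  a := id
  a_cont U := U.2.1
  i := id
  i_cont := continuous_id
  i_closed := IsClosedMap.id
  a_i _ := rfl
  ι := LinearMap.id
  ι_mem _ _ _ h := h _ specializes_rfl
  ρ := LinearMap.id
  ρ_mem _ _ h := h _ specializes_rfl
  ρ_ι _ _ := rfl

/-- **Taking invariants is exact.** -/
theorem invariantPart : InvariantPart := by
  intro r X τ D i hD hX
  obtain ⟨Φ, hΦ⟩ := (trivialBun τ D).exists_injective hD i
  exact hΦ.subsingleton

end Vale.Agent.P299.Q
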