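import Vale.Agent.P299.Q.OrbG
import Vale.Agent.P299.Q.SnapFinal

/-!
# The inequality of the dimensions
-/

open CategoryTheory TopologicalSpace Opposite TopCat AlgebraicGeometry Order

namespace Vale.Agent.P299.Q

/-- The cohomology spaces of `O_X(D)` are finite dimensional. -/
theorem finite_coh (hKN : KollarNadelVanishing) {X : Var} (D : Div X.X) (i : ℕ) :
    Module.Finite ℂ (Coh (secSheaf (S := (X.X : TopCat.{0})) id ⊤ D) i) := by
  have h := ((serre_id hKN D).good 0).1 i
  rw [map_zero, add_zero] at h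
  exact h

/-- **Bundles**: `dim H^i(Z, O_Z(D))^T ≤ dim H^i(X, O_X(D'))`. -/
theorem BunData.h_le (hKN : KollarNadelVanishing) {r : ℕ} {X Z : Var} {τ : TAct r Z}
    {D : Div Z.X} {D' : Div X.X} (h : BunData τ D D') (hD : τ.InvDiv D) (i : ℕ) :
    τ.h D i ≤ hX D' i := by
  obtain ⟨Φ, hΦ⟩ := h.exists_injective hD i
  have := finite_coh hKN D' i
  exact LinearMap.finrank_le_finrank_of_injective hΦ

end Vale.Agent.P299.Q
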