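import Vale.Agent.P299.Q.RegVec

/-!
# The ramification formula
-/

open CategoryTheory TopologicalSpace Opposite TopCat AlgebraicGeometry Order

namespace Vale.Agent.P299.Q

open Vale.Agent.P299.G

variable {X Y : Var}

theorem frame_expand {n : ℕ} {s : Fin n → X.K} {w : Fin n → X.Der}
    (h2 : ∀ v : X.Der, v = ∑ i, v (s i) • w i) (v : X.Der) (f : X.K) :
    v f = ∑ i, v (s i) * w i f := by
  conv_lhs => rw [h2 v]
  have h : ∀ T : Finset (Fin n), (∑ i ∈ T, v (s i) • w i) f = ∑ i ∈ T, v (s i) * w i f := by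
    classical
    intro T
    induction T using Finset.induction_on with
    | empty => rw [Finset.sum_empty, Finset.sum_empty]; rfl
    | insert a T ha ih =>
      rw [Finset.sum_insert ha, Finset.sum_insert ha, Derivation.add_apply, ih,
        Derivation.smul_apply, smul_eq_mul]
  exact h _

theorem ord_eq_zero_of_not_ge {z : X.X} {f : X.K} (h0 : Ge z 0 f) (h1 : ¬ Ge z 1 f) :
    f ≠ 0 ∧ Scheme.ord f z = 0 := by
  have hf : f ≠ 0 := by
    rintro rfl
    exact h1 (ge_zero z 1)
  refine ⟨hf, ?_⟩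
  have h2 := h0 hf
  by_contra hc
  exact h1 fun _ => by omega

/-- The determinant of logarithmic vector fields with respect to a regular frame vanishes. -/
theorem ge_det_of_log {n : ℕ} {s : Fin n → X.K} {w : Fin n → X.Der} {z : X.X}
    (hz : coheight z = 1) (hs : ∀ j, s j ∈ locRing X z) (hreg : ∀ i, RegDer z (w i))
    (h1 : ∀ i j, w i (s j) = if i = j then 1 else 0) (h2 : ∀ v : X.Der, v = ∑ i, v (s i) • w i)
    {v : Fin n → X.Der} (hv : ∀ j, Bdd z 0 (v j)) :
    Ge z 1 (Matrix.of fun i j => v j (s i)).det := by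
  obtain ⟨τ, hτ, hτ1⟩ := exists_uniformizer' hz
  obtain ⟨i₀, hi₀⟩ := exists_not_ge hz hs hreg h1 h2 hτ hτ1
  have hτl : τ ∈ locRing X z := locRing_of_ord_nonneg hz fun _ => by rw [hτ1]; norm_num
  obtain ⟨hx0, hx1⟩ := ord_eq_zero_of_not_ge
    (ge_of_locRing ((regDer_iff_locRing.1 (hreg i₀)) _ hτl)) hi₀
  let C : Matrix (Fin n) (Fin n) X.K := Matrix.of fun i j => v j (s i)
  have hC : ∀ i j, C i j ∈ locRing X z := by
    intro i j
    refine locRing_of_ord_nonneg hz fun h0 => ?_
    have hs0 : s i ≠ 0 := by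
      intro h
      apply h0
      change v j (s i) = 0
      rw [h, map_zero]
    have h3 := hv j _ hs0 h0
    have h4 := ord_nonneg_of_locRing (hs i)
    change 0 ≤ Scheme.ord (v j (s i)) z
    linarith
  have hb : ∀ j, v j τ = (C.transpose.mulVec fun i => w i τ) j := by
    intro j
    rw [frame_expand h2 (v j) τ]
    rfl
  have h3 : C.transpose.adjugate.mulVec (C.transpose.mulVec fun i => w i τ) =
      C.det • fun i => w i τ := by
    rw [Matrix.mulVec_mulVec, Matrix.adjugate_mul, Matrix.det_transpose, Matrix.smul_mulVec,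
      Matrix.one_mulVec]
  have h4 : ∑ j, C.transpose.adjugate i₀ j * v j τ = w i₀ τ * C.det := by
    have h5 : ∑ j, C.transpose.adjugate i₀ j * v j τ =
        (C.transpose.adjugate.mulVec (C.transpose.mulVec fun i => w i τ)) i₀ :=
      Finset.sum_congr rfl fun j _ => by rw [hb j]
    rw [h5, h3, mul_comm]
    rfl
  have h6 : Ge z 1 (w i₀ τ * C.det) := by
    rw [← h4]
    refine Ge.sum hz _ fun j _ => ?_
    have h7 : C.transpose.adjugate i₀ j ∈ locRing X z := by
      rw [Matrix.adjugate_apply]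
      refine det_mem_locRing fun a b => ?_
      rw [Matrix.updateRow_apply]
      split_ifs
      · rw [Pi.single_apply]
        split_ifs
        · exact one_mem _
        · exact zero_mem _
      · exact hC b a
    have h8 : Ge z 1 (v j τ) := by
      have := hv j τ hτ
      rwa [hτ1, sub_zero] at this
    have h9 := (ge_of_locRing h7).mul h8
    rwa [zero_add] at h9
  have h7 := h6.of_mul hx0
  rwa [hx1, sub_zero] at h7

theorem regDer_add {z : X.X} {v w : X.Der} (hv : RegDer z v) (hw : RegDer z w) :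
    RegDer z (v + w) := by
  rw [regDer_iff_locRing] at hv hw ⊢
  intro f hf
  rw [Derivation.add_apply]
  exact add_mem (hv f hf) (hw f hf)

theorem regDer_smul {z : X.X} {a : X.K} {v : X.Der} (ha : a ∈ locRing X z) (hv : RegDer z v) :
    RegDer z (a • v) := by
  rw [regDer_iff_locRing] at hv ⊢
  intro f hf
  rw [Derivation.smul_apply, smul_eq_mul]
  exact mul_mem ha (hv f hf)

/-- Logarithmic vector fields whose wedge product is `t` times a frame. -/
theorem exists_log_frame {y : Y.X} (hy : coheight y = 1) {ω : Y.Ten Y.dim} (hω : IsAlt ω)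
    {s : Fin Y.dim → Y.K} {u : Fin Y.dim → Y.Der} (hs : ∀ j, s j ∈ locRing Y y)
    (hreg : ∀ i, RegDer y (u i)) (h1 : ∀ i j, u i (s j) = if i = j then 1 else 0)
    (h2 : ∀ v : Y.Der, v = ∑ i, v (s i) • u i) {t : Y.K} (ht : t ≠ 0)
    (ht1 : Scheme.ord t y = 1) : ∃ v : Fin Y.dim → Y.Der, (∀ j, RegDer y (v j)) ∧
      (∀ j, Ge y 1 (v j t)) ∧ ω v = t * ω u := by
  classical
  obtain ⟨i, hi⟩ := exists_not_ge hy hs hreg h1 h2 ht ht1
  have htl : t ∈ locRing Y y := locRing_of_ord_nonneg hy fun _ => by rw [ht1]; norm_num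
  have hut : ∀ j, u j t ∈ locRing Y y := fun j => (regDer_iff_locRing.1 (hreg j)) _ htl
  obtain ⟨hx0, hx1⟩ := ord_eq_zero_of_not_ge (ge_of_locRing (hut i)) hi
  let c : Fin Y.dim → Y.K := fun j => if j = i then 0 else -(u j t / u i t)
  have hci : c i = 0 := if_pos rfl
  have hc : ∀ j, c j ∈ locRing Y y := by
    intro j
    by_cases hj : j = i
    · rw [hj, hci]
      exact zero_mem _
    · have h3 : c j = -(u j t / u i t) := if_neg hj
      rw [h3]
      refine neg_mem (locRing_of_ord_nonneg hy fun h0 => ?_)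
      have h4 : u j t ≠ 0 := by
        intro h5
        rw [h5, zero_div] at h0
        exact h0 rfl
      rw [Q.ord_div h4 hx0, hx1, sub_zero]
      exact ord_nonneg_of_locRing (hut j)
  let v' : Fin Y.dim → Y.Der := fun j => u j + c j • u i
  have hv'i : v' i = u i := by
    change u i + c i • u i = u i
    rw [hci, zero_smul, add_zero]
  have hv' : ∀ j, RegDer y (v' j) := fun j => regDer_add (hreg j) (regDer_smul (hc j) (hreg i))
  have hdet : ω v' = ω u := by
    rw [exists_det hω h1 h2 v']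
    have h3 : (Matrix.of fun k j => v' j (s k)).det = 1 := by
      rw [← Matrix.det_transpose]
      have h4 := Matrix.det_eq_of_forall_row_eq_smul_add_const
        (A := (Matrix.of fun k j => v' j (s k)).transpose)
        (B := (1 : Matrix (Fin Y.dim) (Fin Y.dim) Y.K)) c i hci (fun j k => by
          change (u j + c j • u i) (s k) = _
          rw [Derivation.add_apply, Derivation.smul_apply, smul_eq_mul, h1, h1, Matrix.one_apply,
            Matrix.one_apply])
      rw [h4, Matrix.det_one]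
    rw [h3, mul_one]
  refine ⟨Function.update v' i (t • u i), fun j => ?_, fun j => ?_, ?_⟩
  · by_cases hj : j = i
    · subst hj
      rw [Function.update_self]
      exact regDer_smul htl (hreg j)
    · rw [Function.update_of_ne hj]
      exact hv' j
  · by_cases hj : j = i
    · subst hj
      rw [Function.update_self, Derivation.smul_apply, smul_eq_mul]
      have := (ge_ord y t).mul (ge_of_locRing (hut j))
      rwa [ht1, add_zero] at this
    · rw [Function.update_of_ne hj]
      have h3 : v' j t = 0 := by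
        change (u j + c j • u i) t = 0
        rw [Derivation.add_apply, Derivation.smul_apply, smul_eq_mul]
        have h4 : c j = -(u j t / u i t) := if_neg hj
        rw [h4, neg_mul, div_mul_cancel₀ _ hx0, add_neg_cancel]
      rw [h3]
      exact ge_zero y 1
  · rw [MultilinearMap.map_update_smul, smul_eq_mul]
    congr 1
    have h3 : Function.update v' i (u i) = v' := by
      conv_lhs => rw [← hv'i]
      exact Function.update_eq_self i v'
    rw [h3, hdet]

/-- The order of the value of a top form on a frame. -/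
theorem ord_value_frame {ω : X.Ten X.dim} (hω0 : ω ≠ 0) (hω : IsAlt ω) {κ : Div X.X}
    (hκ : IsDivTensor ω κ) {z : X.X} (hz : coheight z = 1) {s : Fin X.dim → X.K}
    {w : Fin X.dim → X.Der} (hs : ∀ j, s j ∈ locRing X z) (hreg : ∀ i, RegDer z (w i))
    (h1 : ∀ i j, w i (s j) = if i = j then 1 else 0) (h2 : ∀ v : X.Der, v = ∑ i, v (s i) • w i) :
    Scheme.ord (ω w) z = coef κ z := by
  have h3 := (genAt_of_frame hω0 hω hκ hs hreg h1 h2).2 z hz (specializes_refl z)
  rw [coef_neg] at h3
  linarith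

/-- **The ramification formula**: `κ'_z + 1 ≤ e (κ_y + 1)`, where `κ'` is the divisor of the pull
back of a top form with divisor `κ` and `e` is the ramification index at `z`. -/
theorem ramification (φ : DomHom X Y) (halg : φ.pull.IsIntegral) (h : X.dim = Y.dim)
    (hlift : ∀ v : Y.Der, ∃ v' : X.Der, ∀ a, v' (φ.pull a) = φ.pull (v a))
    {ω : Y.Ten Y.dim} (hω0 : ω ≠ 0) (hω : IsAlt ω) {κ : Div Y.X} (hκ : IsDivTensor ω κ)
    {ω' : X.Ten X.dim} (hω'0 : ω' ≠ 0) (hω' : IsAlt ω') {κ' : Div X.X} (hκ' : IsDivTensor ω' κ')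
    (hcomp : ∀ (v : Fin Y.dim → Y.Der) (v' : Fin X.dim → X.Der),
      (∀ i a, v' i (φ.pull a) = φ.pull (v (Fin.cast h i) a)) → ω' v' = φ.pull (ω v))
    {z : X.X} (hz : coheight z = 1) (hy : coheight (φ.f z) = 1) {t : Y.K} (ht : t ≠ 0)
    (ht1 : Scheme.ord t (φ.f z) = 1) :
    coef κ' z + 1 ≤ Scheme.ord (φ.pull t) z * (coef κ (φ.f z) + 1) := by
  obtain ⟨m, hm, hmult⟩ := φ.exists_mult z hz hy
  obtain ⟨s, u, hs, hu, h1, h2⟩ := exists_frame_at Y (φ.f z)
  obtain ⟨v, hv, hvt, hωv⟩ := exists_log_frame hy hω hs hu h1 h2 ht ht1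
  choose L hL using hlift
  let v' : Fin X.dim → X.Der := fun j => L (v (Fin.cast h j))
  have hv' : ω' v' = φ.pull (ω v) := hcomp v v' fun i a => hL _ a
  have hbdd : ∀ j, Bdd z 0 (v' j) := fun j =>
    bdd_zero_of_log φ halg hz hy (hv (Fin.cast h j)) (hL _) ht ht1 (hvt (Fin.cast h j))
  obtain ⟨s', w, hs', hw, h1', h2'⟩ := exists_frame_at X z
  have hωu0 : ω u ≠ 0 := value_frame_ne_zero hω0 hω h1 h2
  have hωw0 : ω' w ≠ 0 := value_frame_ne_zero hω'0 hω' h1' h2'
  have hdet := exists_det hω' h1' h2' v'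
  have hne : φ.pull (ω v) ≠ 0 := φ.pull_ne_zero (by rw [hωv]; exact mul_ne_zero ht hωu0)
  rw [hv'] at hdet
  have hdet0 : (Matrix.of fun i j => v' j (s' i)).det ≠ 0 := by
    intro h0
    rw [h0, mul_zero] at hdet
    exact hne hdet
  have h3 := ge_det_of_log hz hs' hw h1' h2' hbdd hdet0
  have h4 := congrArg (fun f : X.K => Scheme.ord f z) hdet
  rw [Scheme.ord_mul hωw0 hdet0, ord_value_frame hω'0 hω' hκ' hz hs' hw h1' h2',
    hmult _ (by rw [hωv]; exact mul_ne_zero ht hωu0), hωv, Scheme.ord_mul ht hωu0, ht1,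
    ord_value_frame hω0 hω hκ hy hs hu h1 h2] at h4
  rw [hmult t ht, ht1, mul_one]
  linarith

end Vale.Agent.P299.Q
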