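import Mathlib.RingTheory.Unramified.Field
import Mathlib.RingTheory.EssentialFiniteness
import Mathlib.Algebra.MvPolynomial.PDeriv
import Mathlib.FieldTheory.IntermediateField.Adjoin.Algebra
import Vale.Agent.P299.Q.LogDer

/-!
# A regular vector field which does not preserve a prime divisor
-/

open CategoryTheory TopologicalSpace Opposite TopCat AlgebraicGeometry Order

namespace Vale.Agent.P299.Q

open Vale.Agent.P299.G

/-- If all derivations of `K` which vanish on the subfield `F` are zero, then `K` is algebraic
over `F`. -/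
theorem isSeparable_of_derivation (k K : Type) [Field k] [Field K] [Algebra k K]
    [Algebra.EssFiniteType k K] (F : IntermediateField k K)
    (h : ∀ D : Derivation k K K, (∀ x ∈ F, D x = 0) → D = 0) : Algebra.IsSeparable F K := by
  have : Algebra.EssFiniteType F K := Algebra.EssFiniteType.of_comp k F K
  rw [← Algebra.FormallyUnramified.iff_isSeparable]
  refine ⟨⟨fun a b => ?_⟩⟩
  rw [← sub_eq_zero, ← Module.forall_dual_apply_eq_zero_iff K]
  intro f
  let D : Derivation F K K := f.compDer (KaehlerDifferential.D F K)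
  have h1 : D.restrictScalars k = 0 := h _ fun x hx => D.map_algebraMap ⟨x, hx⟩
  have h2 : D = 0 := by
    ext x
    exact congrArg (fun E : Derivation k K K => E x) h1
  have h3 : f = 0 := by
    apply Derivation.liftKaehlerDifferential_unique
    change D = _
    rw [h2]
    ext x
    rfl
  rw [h3, LinearMap.zero_apply]

variable {X : Var}

/-- The function field is essentially of finite type over `ℂ`. -/
theorem essFiniteType' (X : Var) : Algebra.EssFiniteType ℂ X.K := by
  obtain ⟨U, hU, hne⟩ := exists_affine_nonempty X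
  let _ : Algebra ℂ Γ(X.X, U) := (cst U : ℂ →+* Γ(X.X, U)).toAlgebra
  have h1 : Algebra.FiniteType ℂ Γ(X.X, U) := cst_finiteType U hU
  have h2 : IsFractionRing Γ(X.X, U) X.K := functionField_isFractionRing_of_isAffineOpen X.X U hU
  have h3 : IsScalarTower ℂ Γ(X.X, U) X.K :=
    IsScalarTower.of_algebraMap_eq fun c => (germ_cst U c).symm
  have h4 : Algebra.EssFiniteType Γ(X.X, U) X.K :=
    Algebra.EssFiniteType.of_isLocalization X.K (nonZeroDivisors Γ(X.X, U))
  exact Algebra.EssFiniteType.comp ℂ Γ(X.X, U) X.K

section Frame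

variable {n : ℕ} {t : Fin n → X.K} {w : Fin n → X.Der} {z : X.X}

theorem der_aeval (h1 : ∀ i j, w i (t j) = if i = j then 1 else 0) (i : Fin n)
    (P : MvPolynomial (Fin n) ℂ) :
    w i (MvPolynomial.aeval t P) = MvPolynomial.aeval t (MvPolynomial.pderiv i P) := by
  induction P using MvPolynomial.induction_on with
  | C a => rw [MvPolynomial.aeval_C, Derivation.map_algebraMap, MvPolynomial.pderiv_C, map_zero]
  | add p q hp hq => rw [map_add, map_add, map_add, map_add, hp, hq]
  | mul_X p j hp =>
    rw [map_mul, Derivation.leibniz, hp, MvPolynomial.pderiv_mul, map_add, map_mul, map_mul,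
      MvPolynomial.aeval_X, h1, smul_eq_mul, smul_eq_mul]
    by_cases hij : i = j
    · subst hij
      rw [if_pos rfl, MvPolynomial.pderiv_X_self, map_one]
      ring
    · rw [if_neg hij, MvPolynomial.pderiv_X_of_ne (Ne.symm hij), map_zero]
      ring

/-- If all the vector fields of the frame preserve the maximal ideal, then no nonzero polynomial
in the coordinates belongs to it. -/
theorem not_ge_aeval (h1 : ∀ i j, w i (t j) = if i = j then 1 else 0)
    (hw : ∀ i f, Ge z 1 f → Ge z 1 (w i f)) (d : ℕ) (P : MvPolynomial (Fin n) ℂ)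
    (hP : ∀ m, P.coeff m ≠ 0 → ∑ i, m i ≤ d) (hP0 : P ≠ 0) :
    ¬ Ge z 1 (MvPolynomial.aeval t P) := by
  induction d generalizing P with
  | zero =>
    intro h
    have hm : ∀ m, P.coeff m ≠ 0 → m = 0 := by
      intro m hm
      have h2 := hP m hm
      ext i
      have h3 : m i ≤ ∑ i, m i := Finset.single_le_sum (fun _ _ => Nat.zero_le _) (Finset.mem_univ i)
      rw [Finsupp.coe_zero, Pi.zero_apply]
      omega
    have hPC : P = MvPolynomial.C (P.coeff 0) := by
      ext m
      rw [MvPolynomial.coeff_C]
      split_ifs with h0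
      · rw [h0]
      · by_contra hc
        exact h0 (hm m hc).symm
    have hc0 : P.coeff 0 ≠ 0 := by
      intro h0
      rw [h0, map_zero] at hPC
      exact hP0 hPC
    rw [hPC, MvPolynomial.aeval_C] at h
    have h4 := h ((map_ne_zero _).2 hc0)
    rw [ord_constant _ hc0] at h4
    exact absurd h4 (by decide)
  | succ d ih =>
    intro h
    by_cases hpos : ∃ m, P.coeff m ≠ 0 ∧ ∃ i, m i ≠ 0
    · obtain ⟨m, hm, i, hi⟩ := hpos
      refine ih (MvPolynomial.pderiv i P) (fun m' hm' => ?_) (fun h0 => ?_) ?_
      · rw [MvPolynomial.coeff_pderiv] at hm'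
        have h2 := hP _ (left_ne_zero_of_mul hm')
        have h3 : ∑ j, (m' + Finsupp.single i 1 : Fin n →₀ ℕ) j = ∑ j, m' j + 1 := by
          simp only [Finsupp.add_apply, Finset.sum_add_distrib]
          congr 1
          rw [Finset.sum_eq_single i (fun j _ hj => Finsupp.single_eq_of_ne (by simpa using hj))
            (fun h => absurd (Finset.mem_univ i) h), Finsupp.single_eq_same]
        omega
      · have h2 := congrArg (MvPolynomial.coeff (m - Finsupp.single i 1)) h0
        rw [MvPolynomial.coeff_pderiv, MvPolynomial.coeff_zero] at h2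
        have h3 : m - Finsupp.single i 1 + Finsupp.single i 1 = m := by
          apply tsub_add_cancel_of_le
          rw [Finsupp.single_le_iff]
          omega
        rw [h3] at h2
        rcases mul_eq_zero.1 h2 with h4 | h4
        · exact hm h4
        · exact Nat.cast_add_one_ne_zero _ h4
      · rw [← der_aeval h1]
        exact hw i _ h
    · push Not at hpos
      refine ih P (fun m hm => ?_) hP0 h
      rw [Finset.sum_eq_zero fun i _ => hpos m hm i]
      exact Nat.zero_le _

theorem aeval_mem_locRing (ht : ∀ j, t j ∈ locRing X z) (P : MvPolynomial (Fin n) ℂ) :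
    MvPolynomial.aeval t P ∈ locRing X z := by
  induction P using MvPolynomial.induction_on with
  | C a =>
    rw [MvPolynomial.aeval_C]
    exact const_mem_locRing z a
  | add p q hp hq =>
    rw [map_add]
    exact add_mem hp hq
  | mul_X p j hp =>
    rw [map_mul, MvPolynomial.aeval_X]
    exact mul_mem hp (ht j)

/-- On a smooth variety some regular vector field does not preserve the maximal ideal of the
local ring at a point of codimension one. -/
theorem exists_not_ge (hz : coheight z = 1) (ht : ∀ j, t j ∈ locRing X z)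
    (hreg : ∀ i, RegDer z (w i)) (h1 : ∀ i j, w i (t j) = if i = j then 1 else 0)
    (h2 : ∀ v : X.Der, v = ∑ i, v (t i) • w i) {τ : X.K} (hτ : τ ≠ 0)
    (hτ1 : Scheme.ord τ z = 1) : ∃ i, ¬ Ge z 1 (w i τ) := by
  by_contra hcon
  push Not at hcon
  have hw : ∀ i f, Ge z 1 f → Ge z 1 (w i f) := by
    intro i f hf
    have h3 : f = τ * (f / τ) := by rw [mul_div_cancel₀ _ hτ]
    have h4 : Ge z 0 (f / τ) := by
      have h5 : Ge z 1 (τ * (f / τ)) := by rwa [← h3]
      have := h5.of_mul hτ
      rwa [hτ1, sub_self] at this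
    rw [h3, Derivation.leibniz, smul_eq_mul, smul_eq_mul]
    refine Ge.add hz ?_ ?_
    · have h5 : Ge z 0 (w i (f / τ)) :=
        ge_of_locRing ((regDer_iff_locRing.1 (hreg i)) _ (h4.locRing hz))
      have h6 := (ge_ord z τ).mul h5
      rwa [hτ1, add_zero] at h6
    · have h6 := h4.mul (hcon i)
      rwa [zero_add] at h6
  have hord : ∀ P : MvPolynomial (Fin n) ℂ, P ≠ 0 → MvPolynomial.aeval t P ≠ 0 ∧
      Scheme.ord (MvPolynomial.aeval t P) z = 0 := by
    intro P hP0
    have h3 := not_ge_aeval h1 hw (∑ m ∈ P.support, ∑ i, m i) P (fun m hm =>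
      Finset.single_le_sum (f := fun m : Fin n →₀ ℕ => ∑ i, m i) (fun _ _ => Nat.zero_le _)
        (MvPolynomial.mem_support_iff.2 hm)) hP0
    have h4 : MvPolynomial.aeval t P ≠ 0 := fun h0 => h3 (h0 ▸ ge_zero z 1)
    refine ⟨h4, ?_⟩
    have h5 : MvPolynomial.aeval t P ∈ locRing X z := aeval_mem_locRing ht P
    have h6 := ord_nonneg_of_locRing h5
    by_contra hc
    exact h3 fun _ => by omega
  let F : IntermediateField ℂ X.K := IntermediateField.adjoin ℂ (Set.range t)
  have hsep : Algebra.IsSeparable F X.K := by
    have := essFiniteType' X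
    refine isSeparable_of_derivation ℂ X.K F fun D hD => ?_
    rw [h2 D]
    refine Finset.sum_eq_zero fun i _ => ?_
    rw [hD _ (IntermediateField.subset_adjoin ℂ _ ⟨i, rfl⟩), zero_smul]
  have hint : (algebraMap F X.K).IsIntegral := fun x => Algebra.IsSeparable.isIntegral F x
  have := X.dvr z hz
  obtain ⟨b, hb⟩ := exists_of_integral_range (A := X.X.presheaf.stalk z) (algebraMap F X.K)
    (fun x => by
      obtain ⟨r, s, hx⟩ := (IntermediateField.mem_adjoin_range_iff ℂ t x.1).1 x.2
      have h3 : algebraMap F X.K x = MvPolynomial.aeval t r / MvPolynomial.aeval t s := hx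
      have h4 : algebraMap F X.K x ∈ locRing X z := by
        refine locRing_of_ord_nonneg hz fun hx0 => ?_
        rw [h3] at hx0 ⊢
        have hr : r ≠ 0 := by
          rintro rfl
          rw [map_zero, zero_div] at hx0
          exact hx0 rfl
        have hs : s ≠ 0 := by
          rintro rfl
          rw [map_zero, div_zero] at hx0
          exact hx0 rfl
        rw [Q.ord_div (hord r hr).1 (hord s hs).1, (hord r hr).2, (hord s hs).2, sub_zero]
      exact h4) (hint τ⁻¹)
  have h3 := ord_toK_nonneg (y := z) b
  have h4 : toK z b = τ⁻¹ := hb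
  rw [h4, Q.ord_inv hτ, hτ1] at h3
  exact absurd h3 (by decide)

end Frame

end Vale.Agent.P299.Q
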