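import Vale.Agent.P299.Q.BB
import Vale.Agent.P299.Q.Tensor

/-!
# Resolution of singularities
-/

open CategoryTheory TopologicalSpace Opposite TopCat AlgebraicGeometry Order

namespace Vale.Agent.P299.Q

/-- [Hironaka] Resolution of singularities and of indeterminacies. Let `L` be a finitely generated
field extension of `ℂ`, let `Y_1, …, Y_m` be smooth projective varieties with embeddings
`ℂ(Y_i) → L`, and `s_1, …, s_r ∈ L`, not all zero. There are a smooth projective variety `W` with
function field `L` and morphisms `W → Y_i` which induce the embeddings, such that the rational map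
`(s_1 : … : s_r)` on `W` is a morphism: at every point `x` some nonzero `s_i` divides all the `s_l`
in the local ring. (`W` is a resolution of singularities of the closure of the image of the generic
point in `V × Y_1 × … × Y_m × ℙ^{r-1}`, `V` being any projective variety with function
field `L`.) -/
def Resolution : Prop :=
  ∀ (L : Type) [Field L] [Algebra ℂ L], Algebra.EssFiniteType ℂ L → ∀ (m : ℕ) (Y : Fin m → Var)
    (j : ∀ i, (Y i).K →ₐ[ℂ] L) (r : ℕ) (s : Fin r → L), (∃ i, s i ≠ 0) →
    ∃ (W : Var) (e : L ≃ₐ[ℂ] W.K) (φ : ∀ i, DomHom W (Y i)),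
      (∀ i a, (φ i).pull a = e (j i a)) ∧
      ∀ x : W.X, ∃ i, s i ≠ 0 ∧ ∀ l, e (s l) / e (s i) ∈ locRing W x

/-- [Hironaka; Kollár, Lectures on resolution of singularities, 3.9.1] Equivariant resolution of the
indeterminacies of an invariant rational map: let `T` act on `Z`, and let `Z ⇢ Y` be a dominant
`T`-invariant rational map, given by the embedding `ψ : ℂ(Y) → ℂ(Z)`. There are a smooth projective
variety `Z'` with a `T`-action, a birational equivariant morphism `μ : Z' → Z` and an invariant
morphism `φ : Z' → Y` which induces `ψ`. (`Z'` is an equivariant resolution of singularities of the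
closure of the graph of the rational map in `Z × Y`.) -/
def EquivResolutionAt (r : ℕ) : Prop :=
  ∀ (Z Y : Var) (τ : TAct r Z) (ψ : Y.K →ₐ[ℂ] Z.K), (∀ a, ψ a ∈ τ.inv) →
    ∃ (Z' : Var) (τ' : TAct r Z') (μ : DomHom Z' Z) (φ : DomHom Z' Y), μ.Birational ∧
      (∀ t, (τ'.act t).f ≫ μ.f = μ.f ≫ (τ.act t).f) ∧ τ'.InvHom φ ∧
      ∀ a, φ.pull a = μ.pull (ψ a)

end Vale.Agent.P299.Q
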