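import Vale.Agent.P299.Q.Principal

/-!
# Sheaves whose sections are given subspaces of a fixed space
-/

open CategoryTheory TopologicalSpace Opposite TopCat

namespace Vale.Agent.P299.Q

/-- `Ext` of isomorphic objects: vanishing. -/
theorem subsingleton_ext_congr {C : Type*} [Category C] [Abelian C] [Linear ℂ C] [HasExt.{0} C]
    (A : C) {F F' : C} (e : F ≅ F') (i : ℕ) (h : Subsingleton (Abelian.Ext.{0} A F i)) :
    Subsingleton (Abelian.Ext.{0} A F' i) := by
  refine ⟨fun x y => ?_⟩
  have key : ∀ z : Abelian.Ext.{0} A F' i, z = 0 := by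
    intro z
    have h1 : (z.comp (Abelian.Ext.mk₀ e.inv) (add_zero i)).comp (Abelian.Ext.mk₀ e.hom)
        (add_zero i) = z := by
      simp
    have h2 : z.comp (Abelian.Ext.mk₀ e.inv) (add_zero i) = 0 := h.elim _ _
    rw [← h1, h2, Abelian.Ext.zero_comp]
  rw [key x, key y]

variable {T : TopCat.{0}} {K : Type} [AddCommGroup K] [Module ℂ K] [PreirreducibleSpace T]

/-- A sheaf whose sections over the nonempty open sets `U` are (via natural injections `e U`) the
elements of `K` lying in `M x` for all `x ∈ U` is isomorphic to `constSheaf M`. -/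
theorem nonempty_iso_constSheaf (M : T → Submodule ℂ K)
    (F : Sheaf (Opens.grothendieckTopology T) (ModuleCat.{0} ℂ))
    (e : ∀ U : Opens T, F.obj.obj (op U) →ₗ[ℂ] K)
    (hinj : ∀ U : Opens T, (U : Set T).Nonempty → Function.Injective (e U))
    (hrange : ∀ U : Opens T, (U : Set T).Nonempty → ∀ f : K,
      (∃ s, e U s = f) ↔ ∀ x ∈ U, f ∈ M x)
    (hnat : ∀ (U V : Opens T) (h : V ≤ U), (V : Set T).Nonempty → ∀ s,
      e V ((F.obj.map (homOfLE h).op).hom s) = e U s) :
    Nonempty (F ≅ constSheaf M) := by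
  classical
  have hF : Presheaf.IsSheaf F.obj := F.property
  have hempty : ∀ U : Opens T, ¬ (U : Set T).Nonempty → Subsingleton (F.obj.obj (op U)) := by
    intro U hU
    have hbot : U = ⊥ := by
      apply Opens.ext
      exact Set.not_nonempty_iff_eq_empty.1 hU
    have hterm : Limits.IsTerminal (F.obj.obj (op U)) :=
      TopCat.Sheaf.isTerminalOfEqEmpty (⟨F.obj, hF⟩ : TopCat.Sheaf (ModuleCat.{0} ℂ) T) hbot
    have hz : Limits.IsZero (F.obj.obj (op U)) :=
      Limits.IsZero.of_iso (Limits.isZero_zero _) (hterm.uniqueUpToIso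
        (Limits.IsZero.isTerminal (Limits.isZero_zero (ModuleCat.{0} ℂ))))
    exact ModuleCat.subsingleton_of_isZero hz
  let φ : ∀ U : Opens T, F.obj.obj (op U) →ₗ[ℂ] constSec M U := fun U =>
    { toFun := fun s => ⟨fun _ => e U s, fun _ _ => rfl, fun x =>
        (hrange U ⟨x.1, x.2⟩ _).1 ⟨s, rfl⟩ x.1 x.2⟩
      map_add' := fun s t => by
        apply Subtype.ext
        funext x
        exact map_add (e U) s t
      map_smul' := fun c s => by
        apply Subtype.ext
        funext x
        exact map_smul (e U) c s }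
  have hbij : ∀ U, Function.Bijective (φ U) := by
    intro U
    by_cases hU : (U : Set T).Nonempty
    · obtain ⟨x, hx⟩ := hU
      constructor
      · intro s t hst
        exact hinj U ⟨x, hx⟩ (congrArg (fun r : constSec M U => r.1 ⟨x, hx⟩) hst)
      · intro r
        obtain ⟨s, hs⟩ := (hrange U ⟨x, hx⟩ (r.1 ⟨x, hx⟩)).2 (fun y hy => by
          rw [r.2.1 ⟨x, hx⟩ ⟨y, hy⟩]
          exact r.2.2 ⟨y, hy⟩)
        refine ⟨s, ?_⟩
        apply Subtype.ext
        funext y
        exact hs.trans (r.2.1 _ _)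
    · have h1 := hempty U hU
      have h2 : Subsingleton (constSec M U) := by
        refine ⟨fun r s => ?_⟩
        apply Subtype.ext
        funext y
        exact absurd ⟨y.1, y.2⟩ hU
      exact ⟨fun s t _ => h1.elim s t, fun r => ⟨0, h2.elim _ _⟩⟩
  refine ⟨ObjectProperty.isoMk _ (NatIso.ofComponents (fun U =>
    LinearEquiv.toModuleIso (LinearEquiv.ofBijective (φ U.unop) (hbij U.unop))) ?_)⟩
  intro U V i
  apply ModuleCat.hom_ext
  apply LinearMap.ext
  intro s
  apply Subtype.ext
  funext y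
  exact hnat U.unop V.unop i.unop.le ⟨y.1, y.2⟩ s

theorem finrank_coh_of_sections (M : T → Submodule ℂ K)
    (F : Sheaf (Opens.grothendieckTopology T) (ModuleCat.{0} ℂ))
    (e : ∀ U : Opens T, F.obj.obj (op U) →ₗ[ℂ] K)
    (hinj : ∀ U : Opens T, (U : Set T).Nonempty → Function.Injective (e U))
    (hrange : ∀ U : Opens T, (U : Set T).Nonempty → ∀ f : K,
      (∃ s, e U s = f) ↔ ∀ x ∈ U, f ∈ M x)
    (hnat : ∀ (U V : Opens T) (h : V ≤ U), (V : Set T).Nonempty → ∀ s,
      e V ((F.obj.map (homOfLE h).op).hom s) = e U s) (i : ℕ) :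
    Module.finrank ℂ (Coh F i) = Module.finrank ℂ (Coh (constSheaf M) i) := by
  obtain ⟨f⟩ := nonempty_iso_constSheaf M F e hinj hrange hnat
  exact finrank_coh_congr f i

end Vale.Agent.P299.Q
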