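import Vale.Agent.P299.Q.ConstExact

/-!
# Euler characteristics of sheaves and short exact sequences
-/

open CategoryTheory TopologicalSpace Opposite TopCat

namespace Vale.Agent.P299.Q

variable {T : TopCat.{0}}

/-- All cohomology spaces are finite dimensional, and they vanish above degree `n`. -/
def Good (n : ℕ) (F : Sheaf (Opens.grothendieckTopology T) (ModuleCat.{0} ℂ)) : Prop :=
  (∀ i, Module.Finite ℂ (Coh F i)) ∧ ∀ i, n < i → Subsingleton (Coh F i)

/-- The Euler characteristic, with the cohomology in degrees at most `n`. -/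
noncomputable def eu (n : ℕ) (F : Sheaf (Opens.grothendieckTopology T) (ModuleCat.{0} ℂ)) : ℤ :=
  ∑ i ∈ Finset.range (n + 1), (-1) ^ i * (Module.finrank ℂ (Coh F i) : ℤ)

lemma Good.mono {n m : ℕ} {F : Sheaf (Opens.grothendieckTopology T) (ModuleCat.{0} ℂ)}
    (h : Good n F) (hnm : n ≤ m) : Good m F :=
  ⟨h.1, fun i hi => h.2 i (hnm.trans_lt hi)⟩

lemma good_of_subsingleton {F : Sheaf (Opens.grothendieckTopology T) (ModuleCat.{0} ℂ)}
    (h : ∀ i, Subsingleton (Coh F i)) (n : ℕ) : Good n F :=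
  ⟨fun i => by have := h i; infer_instance, fun i _ => h i⟩

lemma eu_of_subsingleton {F : Sheaf (Opens.grothendieckTopology T) (ModuleCat.{0} ℂ)}
    (h : ∀ i, Subsingleton (Coh F i)) (n : ℕ) : eu n F = 0 := by
  refine Finset.sum_eq_zero fun i _ => ?_
  have := h i
  rw [Module.finrank_zero_of_subsingleton]
  simp

/-- The map induced on cohomology. -/
noncomputable def cohMap {F G : Sheaf (Opens.grothendieckTopology T) (ModuleCat.{0} ℂ)}
    (f : F ⟶ G) (i : ℕ) : Coh F i →ₗ[ℂ] Coh G i where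
  toFun x := x.comp (Abelian.Ext.mk₀ f) (add_zero i)
  map_add' x y := Abelian.Ext.add_comp x y _ _
  map_smul' c x := Abelian.Ext.smul_comp x _ _ c

section Long

variable {S : ShortComplex (Sheaf (Opens.grothendieckTopology T) (ModuleCat.{0} ℂ))}
  (hS : S.ShortExact)

/-- The connecting map. -/
noncomputable def cohDelta (i : ℕ) : Coh S.X₃ i →ₗ[ℂ] Coh S.X₁ (i + 1) where
  toFun x := x.comp hS.extClass rfl
  map_add' x y := Abelian.Ext.add_comp x y _ _
  map_smul' c x := Abelian.Ext.smul_comp x _ _ c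

include hS in
lemma exact_two (i : ℕ) : LinearMap.range (cohMap S.f i) = LinearMap.ker (cohMap S.g i) := by
  ext x
  constructor
  · rintro ⟨y, rfl⟩
    rw [LinearMap.mem_ker]
    change (y.comp (Abelian.Ext.mk₀ S.f) (add_zero i)).comp (Abelian.Ext.mk₀ S.g) (add_zero i) = 0
    rw [Abelian.Ext.comp_assoc_of_third_deg_zero, Abelian.Ext.mk₀_comp_mk₀, S.zero,
      Abelian.Ext.mk₀_zero, Abelian.Ext.comp_zero]
  · intro hx
    obtain ⟨y, hy⟩ := Abelian.Ext.covariant_sequence_exact₂ _ hS x hx
    exact ⟨y, hy⟩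

lemma exact_three (i : ℕ) : LinearMap.range (cohMap S.g i) = LinearMap.ker (cohDelta hS i) := by
  ext x
  constructor
  · rintro ⟨y, rfl⟩
    rw [LinearMap.mem_ker]
    change (y.comp (Abelian.Ext.mk₀ S.g) (add_zero i)).comp hS.extClass rfl = 0
    rw [Abelian.Ext.comp_assoc_of_second_deg_zero, ShortComplex.ShortExact.comp_extClass,
      Abelian.Ext.comp_zero]
  · intro hx
    obtain ⟨y, hy⟩ := Abelian.Ext.covariant_sequence_exact₃ _ hS x rfl hx
    exact ⟨y, hy⟩

lemma exact_one (i : ℕ) : LinearMap.range (cohDelta hS i) = LinearMap.ker (cohMap S.f (i + 1)) := by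
  ext x
  constructor
  · rintro ⟨y, rfl⟩
    rw [LinearMap.mem_ker]
    change (y.comp hS.extClass rfl).comp (Abelian.Ext.mk₀ S.f) (add_zero (i + 1)) = 0
    rw [Abelian.Ext.comp_assoc_of_third_deg_zero, ShortComplex.ShortExact.extClass_comp,
      Abelian.Ext.comp_zero]
  · intro hx
    obtain ⟨y, hy⟩ := Abelian.Ext.covariant_sequence_exact₁ _ hS x hx rfl
    exact ⟨y, hy⟩

include hS in
lemma injective_zero : Function.Injective (cohMap S.f 0) := by
  have := hS.mono_f
  exact Abelian.Ext.postcomp_mk₀_injective_of_mono _ S.f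

/-- A space in the middle of an exact sequence of finite dimensional spaces. -/
lemma finite_of_exact {V₁ V₂ V₃ : Type} [AddCommGroup V₁] [Module ℂ V₁] [AddCommGroup V₂]
    [Module ℂ V₂] [AddCommGroup V₃] [Module ℂ V₃] (α : V₁ →ₗ[ℂ] V₂) (β : V₂ →ₗ[ℂ] V₃)
    (h : LinearMap.range α = LinearMap.ker β) [Module.Finite ℂ V₁] [Module.Finite ℂ V₃] :
    Module.Finite ℂ V₂ := by
  refine ⟨Submodule.fg_of_fg_map_of_fg_inf_ker β ?_ ?_⟩
  · exact IsNoetherian.noetherian _
  · rw [top_inf_eq, ← h]
    exact Module.Finite.iff_fg.1 (Module.Finite.range α)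

include hS in
/-- The first of three sheaves in a short exact sequence. -/
lemma Good.first {n m : ℕ} (h2 : Good m S.X₂) (h3 : Good n S.X₃) (hmn : m ≤ n + 1) :
    Good (n + 1) S.X₁ := by
  refine ⟨fun i => ?_, fun i hi => ?_⟩
  · cases i with
    | zero =>
      have := h2.1 0
      exact Module.Finite.of_injective _ (injective_zero hS)
    | succ i =>
      have := h2.1 (i + 1)
      have := h3.1 i
      exact finite_of_exact _ _ (exact_one hS i)
  · obtain ⟨i, rfl⟩ : ∃ j, i = j + 1 := ⟨i - 1, by omega⟩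
    have h3' := h3.2 i (by omega)
    have h2' := h2.2 (i + 1) (by omega)
    refine ⟨fun x y => ?_⟩
    have key : ∀ x : Coh S.X₁ (i + 1), x = 0 := by
      intro x
      have hx : x ∈ LinearMap.ker (cohMap S.f (i + 1)) := Subsingleton.elim _ _
      rw [← exact_one hS] at hx
      obtain ⟨y, rfl⟩ := hx
      rw [Subsingleton.elim y 0, map_zero]
    rw [key x, key y]

include hS in
/-- The third of three sheaves in a short exact sequence. -/
lemma Good.third {n : ℕ} (h1 : Good n S.X₁) (h2 : Good n S.X₂) : Good n S.X₃ := by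
  refine ⟨fun i => ?_, fun i hi => ?_⟩
  · have := h2.1 i
    have := h1.1 (i + 1)
    exact finite_of_exact _ _ (exact_three hS i)
  · have h1' := h1.2 (i + 1) (by omega)
    have h2' := h2.2 i hi
    have key : ∀ x : Coh S.X₃ i, x = 0 := by
      intro x
      have hx : x ∈ LinearMap.ker (cohDelta hS i) := Subsingleton.elim _ _
      rw [← exact_three hS] at hx
      obtain ⟨y, rfl⟩ := hx
      rw [Subsingleton.elim y 0, map_zero]
    exact ⟨fun x y => by rw [key x, key y]⟩

include hS in
/-- The middle of three sheaves in a short exact sequence. -/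
lemma Good.second {n : ℕ} (h1 : Good n S.X₁) (h3 : Good n S.X₃) : Good n S.X₂ := by
  refine ⟨fun i => ?_, fun i hi => ?_⟩
  · have := h1.1 i
    have := h3.1 i
    exact finite_of_exact _ _ (exact_two hS i)
  · have h1' := h1.2 i hi
    have h3' := h3.2 i hi
    have key : ∀ x : Coh S.X₂ i, x = 0 := by
      intro x
      have hx : x ∈ LinearMap.ker (cohMap S.g i) := Subsingleton.elim _ _
      rw [← exact_two hS] at hx
      obtain ⟨y, rfl⟩ := hx
      rw [Subsingleton.elim y 0, map_zero]
    exact ⟨fun x y => by rw [key x, key y]⟩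

/-- The alternating sum of a finite long exact sequence. -/
lemma alt_sum (n : ℕ) (x₁ x₂ x₃ a b d : ℕ → ℤ) (h0 : x₁ 0 = a 0) (h1 : ∀ i, x₁ (i + 1) = d i + a (i + 1))
    (h2 : ∀ i, x₂ i = a i + b i) (h3 : ∀ i, x₃ i = b i + d i) (hd : d n = 0) :
    ∑ i ∈ Finset.range (n + 1), (-1) ^ i * x₂ i =
      ∑ i ∈ Finset.range (n + 1), (-1) ^ i * x₁ i + ∑ i ∈ Finset.range (n + 1), (-1) ^ i * x₃ i := by
  have key : ∀ m : ℕ, ∑ i ∈ Finset.range (m + 1), (-1) ^ i * x₂ i + (-1) ^ m * d m =
      ∑ i ∈ Finset.range (m + 1), (-1) ^ i * x₁ i +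
        ∑ i ∈ Finset.range (m + 1), (-1) ^ i * x₃ i := by
    intro m
    induction m with
    | zero => simp [h0, h2, h3]; ring
    | succ m ih =>
      rw [Finset.sum_range_succ, Finset.sum_range_succ (fun i => (-1) ^ i * x₁ i),
        Finset.sum_range_succ (fun i => (-1) ^ i * x₃ i), h1, h2, h3]
      have h4 : ∑ i ∈ Finset.range (m + 1), (-1) ^ i * x₂ i =
        ∑ i ∈ Finset.range (m + 1), (-1) ^ i * x₁ i +
        ∑ i ∈ Finset.range (m + 1), (-1) ^ i * x₃ i - (-1) ^ m * d m := by linarith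
      rw [h4]
      ring
  have h := key n
  rw [hd, mul_zero, add_zero] at h
  exact h

include hS in
/-- Additivity of the Euler characteristic. -/
theorem eu_add {n : ℕ} (h1 : Good n S.X₁) (h2 : Good n S.X₂) (h3 : Good n S.X₃) :
    eu n S.X₂ = eu n S.X₁ + eu n S.X₃ := by
  refine alt_sum n (fun i => Module.finrank ℂ (Coh S.X₁ i)) (fun i => Module.finrank ℂ (Coh S.X₂ i))
    (fun i => Module.finrank ℂ (Coh S.X₃ i))
    (fun i => Module.finrank ℂ (LinearMap.range (cohMap S.f i)))
    (fun i => Module.finrank ℂ (LinearMap.range (cohMap S.g i)))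
    (fun i => Module.finrank ℂ (LinearMap.range (cohDelta hS i))) ?_ ?_ ?_ ?_ ?_
  · rw [LinearMap.finrank_range_of_inj (injective_zero hS)]
  · intro i
    have := h1.1 (i + 1)
    have h := LinearMap.finrank_range_add_finrank_ker (cohMap S.f (i + 1))
    rw [exact_one hS, ← h]
    push_cast
    ring
  · intro i
    have := h2.1 i
    rw [exact_two hS, add_comm, ← Nat.cast_add, LinearMap.finrank_range_add_finrank_ker]
  · intro i
    have := h3.1 i
    rw [exact_three hS, add_comm, ← Nat.cast_add, LinearMap.finrank_range_add_finrank_ker]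
  · have := h1.2 (n + 1) (Nat.lt_succ_self n)
    rw [Module.finrank_zero_of_subsingleton]
    rfl

end Long

end Vale.Agent.P299.Q
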