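import Vale.Agent.P299.Q.Koszul
import Vale.Agent.P299.Q.SnapEuler

/-!
# The Koszul complex of sections of several line bundles
-/

open CategoryTheory TopologicalSpace Opposite TopCat

namespace Vale.Agent.P299.Q

variable {T : TopCat.{0}} {N : ℕ} {K : Type} [Field K] [Algebra ℂ K]

/-- The alternating forms whose value at the basis vectors of the subset `S` lies in `M S`. -/
def KzS (N p : ℕ) (M : Finset (Fin N) → T → Submodule ℂ K) (x : T) : Submodule ℂ (Kz N p K) where
  carrier := {ω | ∀ J : Fin p → Fin N, Function.Injective J →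
    ω (fun i => Pi.single (J i) 1) ∈ M (Finset.univ.image J) x}
  zero_mem' := fun _ _ => (M _ x).zero_mem
  add_mem' := fun h h' J hJ => (M _ x).add_mem (h J hJ) (h' J hJ)
  smul_mem' := fun c _ h J hJ => (M _ x).smul_mem c (h J hJ)

variable [PreirreducibleSpace T] (s : Fin N → K) (M : Finset (Fin N) → T → Submodule ℂ K)

/-- The cycles of the Koszul complex. -/
noncomputable def ZS (p : ℕ) (x : T) : Submodule ℂ (Cyc s p) :=
  (KzS N (p + 1) M x).comap (cycIncl s p)

variable {s M}
  (hmul : ∀ S : Finset (Fin N), ∀ j ∉ S, ∀ x, ∀ f ∈ M (insert j S) x, s j * f ∈ M S x)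
  (hdiv : ∀ x₀ : T, ∃ V : Opens T, x₀ ∈ V ∧ ∃ j, s j ≠ 0 ∧ ∀ S : Finset (Fin N), j ∉ S → ∀ x ∈ V,
    ∀ f ∈ M S x, (s j)⁻¹ * f ∈ M (insert j S) x)

omit [PreirreducibleSpace T] in
include hmul in
theorem contrS_mem (p : ℕ) (x : T) (ω : Kz N (p + 1) K) (h : ω ∈ KzS N (p + 1) M x) :
    contr s p ω ∈ KzS N p M x := by
  intro J hJ
  rw [contr_apply]
  refine (M _ x).sum_mem fun j _ => ?_
  have h0 : (Matrix.vecCons (Pi.single j (1 : ℂ)) fun i => Pi.single (J i) 1 :
      Fin (p + 1) → Fin N → ℂ) = fun i => Pi.single ((Matrix.vecCons j J : Fin (p + 1) → Fin N) i) 1 := by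
    funext i
    refine Fin.cases ?_ (fun i => ?_) i <;> simp
  by_cases hj : j ∈ Finset.univ.image J
  · obtain ⟨i, -, hi⟩ := Finset.mem_image.1 hj
    have h1 : ω (Matrix.vecCons (Pi.single j (1 : ℂ)) fun i => Pi.single (J i) 1) = 0 := by
      refine ω.map_eq_zero_of_eq _ (i := 0) (j := i.succ) ?_ (Fin.succ_ne_zero i).symm
      simp [hi]
    rw [h1, mul_zero]
    exact Submodule.zero_mem _
  · have hinj : Function.Injective (Matrix.vecCons j J : Fin (p + 1) → Fin N) := by
      intro a b
      refine Fin.cases ?_ (fun a => ?_) a <;> refine Fin.cases ?_ (fun b => ?_) b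
      · simp
      · intro h
        exact absurd (Finset.mem_image.2 ⟨b, Finset.mem_univ _, by simpa using h.symm⟩) hj
      · intro h
        exact absurd (Finset.mem_image.2 ⟨a, Finset.mem_univ _, by simpa using h⟩) hj
      · intro h
        exact congrArg Fin.succ (hJ (by simpa using h))
    have himg : Finset.univ.image (Matrix.vecCons j J : Fin (p + 1) → Fin N) =
        insert j (Finset.univ.image J) := by
      ext a
      simp only [Finset.mem_image, Finset.mem_univ, true_and, Finset.mem_insert]
      constructor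
      · rintro ⟨i, hi⟩
        revert hi
        refine Fin.cases ?_ (fun i => ?_) i
        · intro h
          exact Or.inl (by simpa using h.symm)
        · intro h
          exact Or.inr ⟨i, by simpa using h⟩
      · rintro (rfl | ⟨i, hi⟩)
        · exact ⟨0, by simp⟩
        · exact ⟨i.succ, by simpa using hi⟩
    have h1 := h _ hinj
    rw [himg] at h1
    rw [h0]
    exact hmul _ j hj x _ h1

omit [PreirreducibleSpace T] in
theorem homotS_mem {p : ℕ} {x : T} {j : Fin N}
    (h : ∀ S : Finset (Fin N), j ∉ S → ∀ f ∈ M S x, (s j)⁻¹ * f ∈ M (insert j S) x)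
    {ω : Kz N p K} (hω : ω ∈ KzS N p M x) :
    homot (s j)⁻¹ j ω ∈ KzS N (p + 1) M x := by
  intro J hJ
  rw [homot_apply]
  refine (M _ x).sum_mem fun i _ => ?_
  refine zsmul_mem ?_ _
  by_cases hij : J i = j
  · have hrem : (i.removeNth fun i => (Pi.single (J i) (1 : ℂ) : Fin N → ℂ)) =
        fun k => Pi.single (J (i.succAbove k)) 1 := rfl
    have hinj : Function.Injective fun k => J (i.succAbove k) :=
      hJ.comp Fin.succAbove_right_injective
    have hj : j ∉ Finset.univ.image fun k => J (i.succAbove k) := by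
      intro hc
      obtain ⟨k, -, hk⟩ := Finset.mem_image.1 hc
      exact Fin.succAbove_ne i k (hJ (hk.trans hij.symm))
    have himg : Finset.univ.image J = insert j (Finset.univ.image fun k => J (i.succAbove k)) := by
      ext a
      simp only [Finset.mem_image, Finset.mem_univ, true_and, Finset.mem_insert]
      constructor
      · rintro ⟨k, rfl⟩
        by_cases hk : k = i
        · exact Or.inl (by rw [hk, hij])
        · obtain ⟨l, rfl⟩ := Fin.exists_succAbove_eq hk
          exact Or.inr ⟨l, rfl⟩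
      · rintro (rfl | ⟨k, rfl⟩)
        · exact ⟨i, hij⟩
        · exact ⟨_, rfl⟩
    rw [hrem, himg]
    exact Submodule.smul_mem _ _ (h _ hj _ (hω _ hinj))
  · have h0 : (Pi.single (J i) (1 : ℂ) : Fin N → ℂ) j = 0 := by
      rw [Pi.single_apply, if_neg (fun h => hij h.symm)]
    rw [h0, zero_smul]
    exact Submodule.zero_mem _

/-- The complex `0 → Z_{p+2} → K_{p+2} → Z_{p+1} → 0`. -/
noncomputable def cxAS (p : ℕ) :
    ShortComplex (Sheaf (Opens.grothendieckTopology T) (ModuleCat.{0} ℂ)) :=
  constComplex (M₁ := ZS s M (p + 1)) (M₂ := KzS N (p + 2) M) (M₃ := ZS s M p)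
    (i := cycIncl s (p + 1)) (q := contrZ s p)
    (fun _ _ hf => hf) (fun x f hf => contrS_mem hmul (p + 1) x f hf)
    (fun f => Subtype.ext (Subtype.prop (p := fun f => f ∈ LinearMap.ker (contr s (p + 1))) f))

/-- The complex `0 → Z_1 → K_1 → K_0 → 0`. -/
noncomputable def cxBS :
    ShortComplex (Sheaf (Opens.grothendieckTopology T) (ModuleCat.{0} ℂ)) :=
  constComplex (M₁ := ZS s M 0) (M₂ := KzS N 1 M) (M₃ := KzS N 0 M)
    (i := cycIncl s 0) (q := contr s 0)
    (fun _ _ hf => hf) (fun x f hf => contrS_mem hmul 0 x f hf)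
    (fun f => Subtype.prop (p := fun f => f ∈ LinearMap.ker (contr s 0)) f)

include hdiv in
theorem cxAS_shortExact (p : ℕ) : (cxAS hmul p).ShortExact := by
  refine constComplex_shortExact _ _ _ Subtype.val_injective ?_ ?_
  · intro f hf
    exact ⟨(⟨f, congrArg Subtype.val hf⟩ : LinearMap.ker (contr s (p + 1))), rfl, fun x hx => hx⟩
  · intro U x₀ hx₀ f hf
    obtain ⟨V, hxV, j, hj, hV⟩ := hdiv x₀
    refine ⟨U ⊓ V, inf_le_left, ⟨hx₀, hxV⟩, homot (s j)⁻¹ j (cycIncl s p f), ?_, fun x hx => ?_⟩
    · apply Subtype.ext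
      change contr s (p + 1) (homot (s j)⁻¹ j (cycIncl s p f)) = cycIncl s p f
      have h0 : contr s p (cycIncl s p f) = 0 :=
        Subtype.prop (p := fun f => f ∈ LinearMap.ker (contr s p)) f
      rw [contr_homot, mul_inv_cancel₀ hj, one_smul, h0, homot_zero, sub_zero]
    · exact homotS_mem (fun S hS => hV S hS x hx.2) (hf x hx.1)

include hdiv in
theorem cxBS_shortExact : (cxBS hmul).ShortExact := by
  refine constComplex_shortExact _ _ _ Subtype.val_injective ?_ ?_
  · intro f hf
    exact ⟨(⟨f, hf⟩ : LinearMap.ker (contr s 0)), rfl, fun x hx => hx⟩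
  · intro U x₀ hx₀ f hf
    obtain ⟨V, hxV, j, hj, hV⟩ := hdiv x₀
    refine ⟨U ⊓ V, inf_le_left, ⟨hx₀, hxV⟩, homot (s j)⁻¹ j f, ?_, fun x hx => ?_⟩
    · rw [contr_homot_zero, mul_inv_cancel₀ hj, one_smul]
    · exact homotS_mem (fun S hS => hV S hS x hx.2) (hf x hx.1)

/-- The last cycle sheaves vanish. -/
theorem subsingleton_ZS (p : ℕ) (hp : N ≤ p) (i : ℕ) : Subsingleton (Coh (constSheaf (ZS s M p)) i) := by
  have : Subsingleton (Cyc s p) := cyc_subsingleton (by omega)
  exact subsingleton_coh_of_subsingleton _ _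

theorem subsingleton_KzS (p : ℕ) (hp : N < p) (i : ℕ) :
    Subsingleton (Coh (constSheaf (KzS N p M)) i) := by
  have : Subsingleton (Kz N p K) := Kz_subsingleton hp
  exact subsingleton_coh_of_subsingleton _ _

include hmul hdiv in
/-- The cycles are good if all the terms of the Koszul complex are. -/
theorem good_ZS {n : ℕ} (hgood : ∀ p, 0 < p → p ≤ N → Good n (constSheaf (KzS N p M))) (p : ℕ) :
    Good n (constSheaf (ZS s M p)) := by
  have key : ∀ m p : ℕ, N ≤ p + m → Good n (constSheaf (ZS s M p)) := by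
    intro m
    induction m with
    | zero =>
      intro p hp
      exact good_of_subsingleton (subsingleton_ZS p (by omega)) n
    | succ m ih =>
      intro p hp
      by_cases hpN : N ≤ p
      · exact good_of_subsingleton (subsingleton_ZS p hpN) n
      · refine Good.third (cxAS_shortExact hmul hdiv p) (ih (p + 1) (by omega)) ?_
        by_cases h2 : p + 2 ≤ N
        · exact hgood (p + 2) (by omega) h2
        · exact good_of_subsingleton (subsingleton_KzS (p + 2) (by omega)) n
  exact key N p (by omega)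

include hmul hdiv in
/-- **The alternating sum of the Euler characteristics in the Koszul complex is zero.** -/
theorem sum_eu_KzS {n : ℕ} (hgood : ∀ p ≤ N, Good n (constSheaf (KzS N p M))) :
    ∑ p ∈ Finset.range (N + 1), (-1) ^ p * eu n (constSheaf (KzS N p M)) = 0 := by
  have hZ : ∀ p, Good n (constSheaf (ZS s M p)) :=
    good_ZS hmul hdiv fun p _ hp => hgood p hp
  have hK : ∀ p, Good n (constSheaf (KzS N p M)) := fun p => by
    by_cases hp : p ≤ N
    · exact hgood p hp
    · exact good_of_subsingleton (subsingleton_KzS p (by omega)) n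
  have hB : eu n (constSheaf (KzS N 1 M)) = eu n (constSheaf (ZS s M 0)) +
      eu n (constSheaf (KzS N 0 M)) :=
    eu_add (cxBS_shortExact hmul hdiv) (hZ 0) (hK 1) (hK 0)
  have hA : ∀ p, eu n (constSheaf (KzS N (p + 2) M)) = eu n (constSheaf (ZS s M (p + 1))) +
      eu n (constSheaf (ZS s M p)) := fun p =>
    eu_add (cxAS_shortExact hmul hdiv p) (hZ (p + 1)) (hK (p + 2)) (hZ p)
  have key : ∀ m, ∑ p ∈ Finset.range (m + 2), (-1) ^ p * eu n (constSheaf (KzS N p M)) =
      (-1) ^ (m + 1) * eu n (constSheaf (ZS s M m)) := by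
    intro m
    induction m with
    | zero =>
      rw [Finset.sum_range_succ, Finset.sum_range_one, hB]
      ring
    | succ m ih =>
      rw [Finset.sum_range_succ, ih, hA]
      ring
  have h1 := key N
  rw [Finset.sum_range_succ, eu_of_subsingleton (subsingleton_KzS (N + 1) (Nat.lt_succ_self N)),
    eu_of_subsingleton (subsingleton_ZS N le_rfl), mul_zero, add_zero] at h1
  exact h1

include hmul hdiv in
/-- The last term of the Koszul complex is good if the others are acyclic. -/
theorem good_last {m : ℕ} (hN : N = m + 1)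
    (hgood : ∀ p ≤ m, Good 0 (constSheaf (KzS N p M))) : Good m (constSheaf (KzS N N M)) := by
  have hZ : ∀ p, p + 1 ≤ m → Good (p + 1) (constSheaf (ZS s M p)) := by
    intro p
    induction p with
    | zero =>
      intro hp
      exact Good.first (cxBS_shortExact hmul hdiv) (m := 0) (n := 0) (hgood 1 hp)
        (hgood 0 (Nat.zero_le _)) (by omega)
    | succ p ih =>
      intro hp
      exact Good.first (cxAS_shortExact hmul hdiv p) (m := 0) (n := p + 1) (hgood (p + 2) hp)
        (ih (by omega)) (by omega)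
  subst hN
  cases m with
  | zero =>
    have h0 := subsingleton_ZS (s := s) (M := M) 1 le_rfl
    have h1 : Good 0 (constSheaf (ZS s M 0)) :=
      Good.third (cxAS_shortExact hmul hdiv 0)
        (good_of_subsingleton (subsingleton_ZS 1 le_rfl) 0)
        (good_of_subsingleton (subsingleton_KzS 2 (by omega)) 0)
    exact Good.second (cxBS_shortExact hmul hdiv) h1 (hgood 0 le_rfl)
  | succ m =>
    -- `Z_{m+1} = 0`, and `K_{m+2} → Z_m` is an isomorphism
    have h1 : Good (m + 1) (constSheaf (ZS s M (m + 1))) :=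
      Good.third (cxAS_shortExact hmul hdiv (m + 1))
        (good_of_subsingleton (subsingleton_ZS (m + 2) le_rfl) _)
        (good_of_subsingleton (subsingleton_KzS (m + 3) (by omega)) _)
    exact Good.second (cxAS_shortExact hmul hdiv m) h1 (hZ m le_rfl)

end Vale.Agent.P299.Q
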