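import Mathlib.LinearAlgebra.Alternating.Basic
import Mathlib.LinearAlgebra.Matrix.Determinant.Basic
import Mathlib.Data.Finset.Sort
import Vale.Agent.P299.Q.SnapKoszul

/-!
# The terms of the Koszul complex are direct sums
-/

open CategoryTheory TopologicalSpace Opposite TopCat

namespace Vale.Agent.P299.Q

section Prod

variable {T : TopCat.{0}} [PreirreducibleSpace T] {K : Type} [AddCommGroup K] [Module ℂ K]

/-- The product of submodules. -/
def PiM {m : ℕ} (M : Fin m → T → Submodule ℂ K) (x : T) : Submodule ℂ (Fin m → K) where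
  carrier := {f | ∀ j, f j ∈ M j x}
  zero_mem' := fun j => (M j x).zero_mem
  add_mem' := fun h h' j => (M j x).add_mem (h j) (h' j)
  smul_mem' := fun c _ h j => (M j x).smul_mem c (h j)

/-- The inclusion of the tails. -/
def consZero (K : Type) [AddCommGroup K] [Module ℂ K] (m : ℕ) :
    (Fin m → K) →ₗ[ℂ] (Fin (m + 1) → K) where
  toFun f := Fin.cons 0 f
  map_add' f g := by
    funext j
    refine Fin.cases ?_ (fun j => ?_) j <;> simp
  map_smul' c f := by
    funext j
    refine Fin.cases ?_ (fun j => ?_) j <;> simp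

theorem good_PiM {n m : ℕ} (M : Fin m → T → Submodule ℂ K)
    (h : ∀ j, Good n (constSheaf (M j))) :
    Good n (constSheaf (PiM M)) ∧ eu n (constSheaf (PiM M)) = ∑ j, eu n (constSheaf (M j)) := by
  induction m with
  | zero =>
    have h1 : ∀ i, Subsingleton (Coh (constSheaf (PiM M)) i) := fun i =>
      subsingleton_coh_of_subsingleton _ _
    exact ⟨good_of_subsingleton h1 n, by rw [eu_of_subsingleton h1]; simp⟩
  | succ m ih =>
    obtain ⟨ih1, ih2⟩ := ih (fun j => M j.succ) fun j => h j.succ
    have hse : (constComplex (M₁ := PiM fun j : Fin m => M j.succ) (M₂ := PiM M) (M₃ := M 0)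
        (i := consZero K m) (q := LinearMap.proj 0)
        (fun x f hf => by
          intro j
          refine Fin.cases ?_ (fun j => ?_) j
          · exact (M 0 x).zero_mem
          · exact hf j)
        (fun x f hf => hf 0) (fun f => rfl)).ShortExact := by
      refine constComplex_shortExact _ _ _ ?_ ?_ ?_
      · intro f g hfg
        funext j
        exact congrFun hfg j.succ
      · intro f hf
        refine ⟨fun j => f j.succ, ?_, fun x hx j => hx j.succ⟩
        funext j
        refine Fin.cases ?_ (fun j => ?_) j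
        · exact (show f 0 = 0 from hf).symm
        · rfl
      · intro U x₀ hx₀ f hf
        refine ⟨U, le_rfl, hx₀, Fin.cons f 0, rfl, fun x hx j => ?_⟩
        refine Fin.cases ?_ (fun j => ?_) j
        · exact hf x hx
        · exact (M j.succ x).zero_mem
    have hg := Good.second hse ih1 (h 0)
    refine ⟨hg, ?_⟩
    have h1 : eu n (constSheaf (PiM M)) = eu n (constSheaf (PiM fun j : Fin m => M j.succ)) +
      eu n (constSheaf (M 0)) := eu_add hse ih1 hg (h 0)
    rw [h1, ih2, Fin.sum_univ_succ, add_comm]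

/-- Isomorphic sheaves. -/
theorem good_of_iso {K₁ K₂ : Type} [AddCommGroup K₁] [Module ℂ K₁] [AddCommGroup K₂]
    [Module ℂ K₂] {M₁ : T → Submodule ℂ K₁} {M₂ : T → Submodule ℂ K₂} (i : K₁ →ₗ[ℂ] K₂)
    (hi : ∀ x, ∀ f ∈ M₁ x, i f ∈ M₂ x) (hinj : Function.Injective i)
    (hex : ∀ f, ∃ g, i g = f ∧ ∀ x, f ∈ M₂ x → g ∈ M₁ x) {n : ℕ}
    (h : Good n (constSheaf M₁)) :
    Good n (constSheaf M₂) ∧ eu n (constSheaf M₂) = eu n (constSheaf M₁) := by
  have hse : (constComplex (M₁ := M₁) (M₂ := M₂) (K₃ := PUnit) (M₃ := fun _ => ⊤)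
      (i := i) (q := 0) hi (fun _ _ _ => trivial) (fun f => rfl)).ShortExact := by
    refine constComplex_shortExact _ _ _ hinj (fun f _ => hex f) ?_
    intro U x₀ hx₀ f hf
    exact ⟨U, le_rfl, hx₀, 0, rfl, fun x hx => (M₂ x).zero_mem⟩
  have h3 : ∀ i, Subsingleton (Coh (constSheaf (T := T) fun _ => (⊤ : Submodule ℂ PUnit)) i) :=
    fun i => subsingleton_coh_of_subsingleton _ _
  have hg := Good.second hse h (good_of_subsingleton h3 n)
  refine ⟨hg, ?_⟩
  have h1 := eu_add hse h hg (good_of_subsingleton h3 n)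
  change eu n (constSheaf M₂) = eu n (constSheaf M₁) + eu n (constSheaf fun _ => ⊤) at h1
  rw [h1, eu_of_subsingleton h3, add_zero]

end Prod

section Forms

variable {T : TopCat.{0}} [PreirreducibleSpace T] {N : ℕ} {K : Type} [Field K] [Algebra ℂ K]

/-- The minor of the coordinates in `S`. -/
noncomputable def minor {p : ℕ} (S : Finset (Fin N)) (hS : S.card = p) :
    (Fin N → ℂ) [⋀^Fin p]→ₗ[ℂ] ℂ :=
  (Matrix.detRowAlternating (n := Fin p) (R := ℂ)).compLinearMap
    (LinearMap.pi fun j => LinearMap.proj (S.orderEmbOfFin hS j))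

theorem minor_apply {p : ℕ} (S : Finset (Fin N)) (hS : S.card = p) (w : Fin p → Fin N → ℂ) :
    minor S hS w = Matrix.det (Matrix.of fun i j => w i (S.orderEmbOfFin hS j)) := rfl

theorem minor_basis_ne {p : ℕ} (S : Finset (Fin N)) (hS : S.card = p) (J : Fin p → Fin N)
    (hJ : Function.Injective J) (h : Finset.univ.image J ≠ S) :
    minor S hS (fun i => Pi.single (J i) 1) = 0 := by
  have hc : (Finset.univ.image J).card = S.card := by
    rw [Finset.card_image_of_injective _ hJ, hS, Finset.card_univ, Fintype.card_fin]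
  obtain ⟨i, hi⟩ : ∃ i, J i ∉ S := by
    by_contra hcon
    push Not at hcon
    refine h (Finset.eq_of_subset_of_card_le ?_ hc.ge)
    intro a ha
    obtain ⟨i, -, rfl⟩ := Finset.mem_image.1 ha
    exact hcon i
  rw [minor_apply]
  refine Matrix.det_eq_zero_of_row_eq_zero i fun j => ?_
  have : S.orderEmbOfFin hS j ≠ J i := fun hh => hi (hh ▸ S.orderEmbOfFin_mem hS j)
  simp [Pi.single_apply, this]

theorem minor_basis_self {p : ℕ} (S : Finset (Fin N)) (hS : S.card = p) :
    minor S hS (fun i => Pi.single (S.orderEmbOfFin hS i) 1) = 1 := by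
  rw [minor_apply]
  have : (Matrix.of fun i j : Fin p => (Pi.single (S.orderEmbOfFin hS i) (1 : ℂ) : Fin N → ℂ)
      (S.orderEmbOfFin hS j)) = 1 := by
    ext i j
    rw [Matrix.of_apply, Pi.single_apply, Matrix.one_apply]
    by_cases h : i = j
    · simp [h]
    · rw [if_neg h, if_neg fun hh => h ((S.orderEmbOfFin hS).injective hh).symm]
  rw [this, Matrix.det_one]

/-- The form with given coefficients. -/
noncomputable def ofCoeffs {p C : ℕ} (en : Fin C → {S : Finset (Fin N) // S.card = p}) :
    (Fin C → K) →ₗ[ℂ] Kz N p K where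
  toFun f := ∑ k, (minor (en k).1 (en k).2).smulRight (f k)
  map_add' f g := by
    ext w
    rw [AlternatingMap.add_apply, alt_sum_apply, alt_sum_apply, alt_sum_apply,
      ← Finset.sum_add_distrib]
    exact Finset.sum_congr rfl fun k _ => smul_add _ _ _
  map_smul' c f := by
    ext w
    rw [AlternatingMap.smul_apply, alt_sum_apply, alt_sum_apply, RingHom.id_apply, Finset.smul_sum]
    exact Finset.sum_congr rfl fun k _ => smul_comm _ _ _

theorem ofCoeffs_apply {p C : ℕ} (en : Fin C → {S : Finset (Fin N) // S.card = p}) (f : Fin C → K)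
    (w : Fin p → Fin N → ℂ) :
    ofCoeffs en f w = ∑ k, minor (en k).1 (en k).2 w • f k := by
  change (∑ k, (minor (en k).1 (en k).2).smulRight (f k)) w = _
  rw [alt_sum_apply]
  rfl

variable {p C : ℕ} (en : Fin C ≃ {S : Finset (Fin N) // S.card = p})

theorem ofCoeffs_basis (f : Fin C → K) (k : Fin C) :
    ofCoeffs en f (fun i => Pi.single ((en k).1.orderEmbOfFin (en k).2 i) 1) = f k := by
  rw [ofCoeffs_apply, Finset.sum_eq_single k]
  · rw [minor_basis_self, one_smul]
  · intro k' _ hk
    rw [minor_basis_ne _ _ _ ((en k).1.orderEmbOfFin (en k).2).injective, zero_smul]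
    intro h
    apply hk
    apply en.injective
    apply Subtype.ext
    rw [← h]
    exact (Finset.image_orderEmbOfFin_univ (en k).1 (en k).2).symm ▸ rfl
  · intro h
    exact absurd (Finset.mem_univ _) h

omit [PreirreducibleSpace T] in
theorem ofCoeffs_mem {M : Finset (Fin N) → T → Submodule ℂ K} {x : T} {f : Fin C → K}
    (hf : f ∈ PiM (fun k => M (en k).1) x) : ofCoeffs en f ∈ KzS N p M x := by
  intro J hJ
  rw [ofCoeffs_apply]
  refine Submodule.sum_mem _ fun k _ => ?_
  by_cases h : Finset.univ.image J = (en k).1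
  · rw [h]
    exact Submodule.smul_mem _ _ (hf k)
  · rw [minor_basis_ne _ _ _ hJ h, zero_smul]
    exact Submodule.zero_mem _

theorem ofCoeffs_surj (ω : Kz N p K) :
    ofCoeffs en (fun k => ω fun i => Pi.single ((en k).1.orderEmbOfFin (en k).2 i) 1) = ω := by
  refine Module.Basis.ext_alternating (Pi.basisFun ℂ (Fin N)) fun J hJ => ?_
  simp only [Pi.basisFun_apply]
  -- the permutation which sorts `J`
  have hcard : (Finset.univ.image J).card = p := by
    rw [Finset.card_image_of_injective _ hJ, Finset.card_univ, Fintype.card_fin]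
  obtain ⟨k, hk⟩ := en.surjective ⟨Finset.univ.image J, hcard⟩
  have hmem : ∀ i, ∃ i', (en k).1.orderEmbOfFin (en k).2 i' = J i := by
    intro i
    have h1 : J i ∈ (en k).1 := by
      rw [hk]
      exact Finset.mem_image_of_mem _ (Finset.mem_univ i)
    have h2 : J i ∈ Set.range ((en k).1.orderEmbOfFin (en k).2) := by
      rw [Finset.range_orderEmbOfFin]
      exact h1
    exact h2
  choose σ hσ using hmem
  have hσinj : Function.Injective σ := by
    intro a b hab
    apply hJ
    rw [← hσ a, ← hσ b, hab]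
  let e : Equiv.Perm (Fin p) := Equiv.ofBijective σ (Finite.injective_iff_bijective.1 hσinj)
  have hJe : (fun i => (Pi.single (J i) (1 : ℂ) : Fin N → ℂ)) =
      (fun i => (Pi.single ((en k).1.orderEmbOfFin (en k).2 i) (1 : ℂ) : Fin N → ℂ)) ∘ e := by
    funext i
    change _ = Pi.single ((en k).1.orderEmbOfFin (en k).2 (σ i)) 1
    rw [hσ]
  rw [hJe, AlternatingMap.map_perm, AlternatingMap.map_perm, ofCoeffs_basis]

/-- The terms of the Koszul complex. -/
theorem good_KzS {n : ℕ} (p : ℕ) (M : Finset (Fin N) → T → Submodule ℂ K)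
    (h : ∀ S, S.card = p → Good n (constSheaf (M S))) :
    Good n (constSheaf (KzS N p M)) ∧ eu n (constSheaf (KzS N p M)) =
      ∑ S ∈ Finset.univ.filter (fun S : Finset (Fin N) => S.card = p), eu n (constSheaf (M S)) := by
  let en : Fin (Fintype.card {S : Finset (Fin N) // S.card = p}) ≃
    {S : Finset (Fin N) // S.card = p} := (Fintype.equivFin _).symm
  obtain ⟨h1, h2⟩ := good_PiM (fun k => M (en k).1) fun k => h _ (en k).2
  obtain ⟨h3, h4⟩ := good_of_iso (M₁ := PiM fun k => M (en k).1) (M₂ := KzS N p M)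
    (ofCoeffs (K := K) en) (fun x f hf => ofCoeffs_mem en hf)
    (fun f g hfg => by
      funext k
      rw [← ofCoeffs_basis en f k, ← ofCoeffs_basis en g k, hfg])
    (fun ω => ⟨_, ofCoeffs_surj en ω, fun x hx k => by
      have h5 := hx _ ((en k).1.orderEmbOfFin (en k).2).injective
      rwa [Finset.image_orderEmbOfFin_univ] at h5⟩) h1
  refine ⟨h3, ?_⟩
  rw [h4, h2, ← Finset.sum_subtype_eq_sum_filter, Finset.subtype_univ]
  exact Equiv.sum_comp en fun S => eu n (constSheaf (M S.1))

/-- Evaluation at the basis vectors of `S`. -/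
noncomputable def evalS (K : Type) [Field K] [Algebra ℂ K] (S : Finset (Fin N)) {p : ℕ}
    (hS : S.card = p) : Kz N p K →ₗ[ℂ] K where
  toFun ω := ω fun i => Pi.single (S.orderEmbOfFin hS i) 1
  map_add' _ _ := rfl
  map_smul' _ _ := rfl

theorem good_univ {n : ℕ} (M : Finset (Fin N) → T → Submodule ℂ K)
    (h : Good n (constSheaf (KzS N N M))) : Good n (constSheaf (M Finset.univ)) := by
  have hc : (Finset.univ : Finset (Fin N)).card = N := by rw [Finset.card_univ, Fintype.card_fin]
  let en : Fin (Fintype.card {S : Finset (Fin N) // S.card = N}) ≃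
    {S : Finset (Fin N) // S.card = N} := (Fintype.equivFin _).symm
  have huniv : ∀ k, (en k).1 = Finset.univ := fun k =>
    Finset.eq_univ_of_card _ ((en k).2.trans (Fintype.card_fin N).symm)
  refine (good_of_iso (M₁ := KzS N N M) (M₂ := M Finset.univ) (evalS K Finset.univ hc)
    (fun x ω hω => ?_) ?_ ?_ h).1
  · have h5 := hω _ ((Finset.univ : Finset (Fin N)).orderEmbOfFin hc).injective
    rwa [Finset.image_orderEmbOfFin_univ] at h5
  · intro ω ω' hωω'
    rw [← ofCoeffs_surj en ω, ← ofCoeffs_surj en ω']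
    congr 1
    funext k
    have key : ∀ (S : Finset (Fin N)) (hS : S.card = N), S = Finset.univ →
        ω (fun i => Pi.single (S.orderEmbOfFin hS i) 1) =
        ω' (fun i => Pi.single (S.orderEmbOfFin hS i) 1) := by
      rintro S hS rfl
      exact hωω'
    exact key _ (en k).2 (huniv k)
  · intro f
    refine ⟨ofCoeffs en fun _ => f, ?_, fun x hx => ofCoeffs_mem en fun k => ?_⟩
    · obtain ⟨k, hk⟩ := en.surjective ⟨Finset.univ, hc⟩
      have h1 := ofCoeffs_basis en (fun _ => f) k
      have key : ∀ (S : Finset (Fin N)) (hS : S.card = N), S = Finset.univ →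
          (ofCoeffs en fun _ => f) (fun i => Pi.single (S.orderEmbOfFin hS i) 1) =
          evalS K Finset.univ hc (ofCoeffs en fun _ => f) := by
        rintro S hS rfl
        rfl
      rw [← key _ (en k).2 (huniv k), h1]
    · change f ∈ M (en k).1 x
      rw [huniv k]
      exact hx

variable {s : Fin N → K} {M : Finset (Fin N) → T → Submodule ℂ K}
  (hmul : ∀ S : Finset (Fin N), ∀ j ∉ S, ∀ x, ∀ f ∈ M (insert j S) x, s j * f ∈ M S x)
  (hdiv : ∀ x₀ : T, ∃ V : Opens T, x₀ ∈ V ∧ ∃ j, s j ≠ 0 ∧ ∀ S : Finset (Fin N), j ∉ S → ∀ x ∈ V,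
    ∀ f ∈ M S x, (s j)⁻¹ * f ∈ M (insert j S) x)

include hmul hdiv in
/-- **The Koszul relation between Euler characteristics.** -/
theorem koszul_eu {n : ℕ} (hgood : ∀ S, Good n (constSheaf (M S))) :
    ∑ S : Finset (Fin N), (-1) ^ S.card * eu n (constSheaf (M S)) = 0 := by
  have h1 := sum_eu_KzS hmul hdiv (n := n) fun p _ => (good_KzS p M fun S _ => hgood S).1
  rw [← h1]
  have h2 : ∀ p ∈ Finset.range (N + 1), (-1) ^ p * eu n (constSheaf (KzS N p M)) =
      ∑ S ∈ Finset.univ.filter (fun S : Finset (Fin N) => S.card = p),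
        (-1) ^ S.card * eu n (constSheaf (M S)) := by
    intro p _
    rw [(good_KzS p M fun S _ => hgood S).2, Finset.mul_sum]
    refine Finset.sum_congr rfl fun S hS => ?_
    rw [(Finset.mem_filter.1 hS).2]
  rw [Finset.sum_congr rfl h2, Finset.sum_fiberwise_of_maps_to]
  intro S _
  have := Finset.card_le_univ S
  rw [Fintype.card_fin] at this
  exact Finset.mem_range.2 (Nat.lt_succ_of_le this)

include hmul hdiv in
/-- **Finiteness and vanishing** for the last term of the Koszul complex. -/
theorem koszul_good {m : ℕ} (hN : N = m + 1)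
    (hgood : ∀ S, S ≠ Finset.univ → Good 0 (constSheaf (M S))) :
    Good m (constSheaf (M Finset.univ)) := by
  refine good_univ M (good_last hmul hdiv hN fun p hp => (good_KzS p M fun S hS => hgood S ?_).1)
  rintro rfl
  rw [Finset.card_univ, Fintype.card_fin] at hS
  omega

end Forms

end Vale.Agent.P299.Q
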