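import Mathlib.Algebra.MvPolynomial.Eval
import Mathlib.Algebra.MvPolynomial.Degrees
import Vale.Agent.P299.G.Diff
import Vale.Agent.P299.Q.Principal
import Vale.Agent.P299.Q.InterBB
import Vale.Agent.P299.Q.Strict
import Vale.Agent.P299.Q.Const

/-!
# Snapper's theorem and the intersection numbers
-/

open CategoryTheory TopologicalSpace Opposite TopCat AlgebraicGeometry Order

namespace Vale.Agent.P299.Q

section

variable {X : Var}

/-- Every divisor is its own pull back under the identity. -/
theorem isPullback_id (hAB : FactorialStalks) (D : Div X.X) : IsPullback (DomHom.id X) D D := by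
  intro x hx
  have := hAB X x
  obtain ⟨g, hg⟩ := exists_genAt (-D) x
  refine ⟨g, hg, ?_⟩
  rw [DomHom.pull_id, hg.ord hx, coef_neg, neg_neg]

/-- The Euler characteristic is polynomial. -/
theorem Snapper.chi (hSn : Snapper) (hAB : FactorialStalks) (D : Div X.X) {k : ℕ}
    (M : Fin k → Div X.X) :
    ∃ p : MvPolynomial (Fin k) ℚ, p.totalDegree ≤ X.dim ∧ ∀ n : Fin k → ℤ,
      (chi (D + ∑ j, n j • M j) : ℚ) = MvPolynomial.eval (fun j => (n j : ℚ)) p := by
  obtain ⟨p, hp, h⟩ := hSn X X (DomHom.id X) D k M M fun j => isPullback_id hAB (M j)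
  refine ⟨p, hp, fun n => ?_⟩
  rw [← h n]
  unfold Q.chi
  push_cast
  rfl

/-- The `(dim X + 1)`-fold differences of the Euler characteristic vanish. -/
theorem Snapper.cube (hSn : Snapper) (hAB : FactorialStalks) (M : Fin (X.dim + 1) → Div X.X) :
    ∑ S : Finset (Fin (X.dim + 1)), (-1 : ℤ) ^ S.card * Q.chi (-∑ j ∈ S, M j) = 0 := by
  classical
  obtain ⟨p, hp, h⟩ := hSn.chi hAB (0 : Div X.X) M
  have h1 := (G.polyLt_of_mvPolynomial p hp).cube_eq_zero
    (fun i : Fin (X.dim + 1) => (Pi.single i 1 : Fin (X.dim + 1) → ℤ)) 0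
  have h2 : ∀ S : Finset (Fin (X.dim + 1)),
      MvPolynomial.eval (fun j => (((0 : Fin (X.dim + 1) → ℤ) -
        ∑ i ∈ S, (Pi.single i 1 : Fin (X.dim + 1) → ℤ)) j : ℚ)) p =
        (Q.chi (-∑ j ∈ S, M j) : ℚ) := by
    intro S
    rw [← h, zero_add]
    congr 2
    have h3 : ∀ j, ((0 : Fin (X.dim + 1) → ℤ) -
        ∑ i ∈ S, (Pi.single i 1 : Fin (X.dim + 1) → ℤ)) j = if j ∈ S then -1 else 0 := by
      intro j
      rw [Pi.sub_apply, Finset.sum_apply, Pi.zero_apply, zero_sub]
      split_ifs with hj
      · rw [Finset.sum_eq_single j (fun i _ hij => by rw [Pi.single_apply, if_neg hij.symm])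
          (fun h => absurd hj h), Pi.single_eq_same]
      · rw [Finset.sum_eq_zero, neg_zero]
        intro i hi
        rw [Pi.single_apply, if_neg]
        rintro rfl
        exact hj hi
    rw [← Finset.sum_neg_distrib, ← Finset.sum_subset (Finset.subset_univ S)]
    · refine Finset.sum_congr rfl fun j hj => ?_
      rw [h3, if_pos hj, neg_smul, one_smul]
    · intro j _ hj
      rw [h3, if_neg hj, zero_smul]
  have h4 : ∑ S : Finset (Fin (X.dim + 1)), (-1 : ℚ) ^ S.card * (Q.chi (-∑ j ∈ S, M j) : ℚ) = 0 := by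
    rw [← h1]
    refine Finset.sum_congr rfl fun S _ => ?_
    rw [← h2 S]
  exact_mod_cast h4

/-- Splitting an alternating sum over subsets at the index `i`. -/
theorem sum_split {n : ℕ} {A : Type*} [AddCommGroup A] (f : A → ℤ) (D : Fin n → A)
    (i : Fin n) (y : A) :
    ∑ S : Finset (Fin n), (-1 : ℤ) ^ S.card * f (y - ∑ j ∈ S, D j) =
      ∑ S ∈ (Finset.univ.erase i).powerset, (-1 : ℤ) ^ S.card *
        (f (y - ∑ j ∈ S, D j) - f (y - D i - ∑ j ∈ S, D j)) := by
  classical
  rw [← Finset.powerset_univ, ← Finset.insert_erase (Finset.mem_univ i),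
    Finset.sum_powerset_insert (Finset.notMem_erase i _), ← Finset.sum_add_distrib]
  rw [Finset.insert_erase (Finset.mem_univ i)]
  refine Finset.sum_congr rfl fun S hS => ?_
  have hi : i ∉ S := fun h => Finset.notMem_erase i Finset.univ (Finset.mem_powerset.1 hS h)
  rw [Finset.sum_insert hi, Finset.card_insert_of_notMem hi, pow_succ]
  have e : y - (D i + ∑ j ∈ S, D j) = y - D i - ∑ j ∈ S, D j := by abel
  rw [e]
  ring

/-- Intersection numbers are additive in each variable. -/
theorem inter_add_of_cube (hc : ∀ M : Fin (X.dim + 1) → Div X.X,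
      ∑ S : Finset (Fin (X.dim + 1)), (-1 : ℤ) ^ S.card * Q.chi (-∑ j ∈ S, M j) = 0)
    (D : Fin X.dim → Div X.X) (i : Fin X.dim) (a b : Div X.X) :
    inter (Function.update D i (a + b)) =
      inter (Function.update D i a) + inter (Function.update D i b) := by
  classical
  have h0 := hc (Fin.cons b (Function.update D i a))
  rw [G.sum_finset_succ] at h0
  have hinter : ∀ E : Fin X.dim → Div X.X, inter E =
      ∑ S : Finset (Fin X.dim), (-1 : ℤ) ^ S.card * Q.chi (0 - ∑ j ∈ S, E j) := by
    intro E
    unfold inter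
    refine Finset.sum_congr rfl fun S _ => ?_
    rw [zero_sub]
  have h1 : ∑ S : Finset (Fin X.dim), (-1 : ℤ) ^ (S.map (Fin.succEmb X.dim)).card *
      Q.chi (-∑ j ∈ S.map (Fin.succEmb X.dim),
        (Fin.cons b (Function.update D i a) : Fin (X.dim + 1) → Div X.X) j) =
      inter (Function.update D i a) := by
    rw [hinter]
    refine Finset.sum_congr rfl fun S _ => ?_
    rw [Finset.card_map, Finset.sum_map, zero_sub]
    rfl
  have h2 : ∑ S : Finset (Fin X.dim), (-1 : ℤ) ^ (insert 0 (S.map (Fin.succEmb X.dim))).card *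
      Q.chi (-∑ j ∈ insert 0 (S.map (Fin.succEmb X.dim)),
        (Fin.cons b (Function.update D i a) : Fin (X.dim + 1) → Div X.X) j) =
      -∑ S : Finset (Fin X.dim), (-1 : ℤ) ^ S.card *
        Q.chi (-b - ∑ j ∈ S, Function.update D i a j) := by
    rw [← Finset.sum_neg_distrib]
    refine Finset.sum_congr rfl fun S _ => ?_
    have hn0 : (0 : Fin (X.dim + 1)) ∉ S.map (Fin.succEmb X.dim) := by
      rw [Finset.mem_map]
      rintro ⟨j, _, hj⟩
      exact Fin.succ_ne_zero _ hj
    rw [Finset.card_insert_of_notMem hn0, Finset.sum_insert hn0, Finset.card_map, Finset.sum_map,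
      pow_succ, Fin.cons_zero]
    have e : -(b + ∑ j ∈ S, (Fin.cons b (Function.update D i a) : Fin (X.dim + 1) → Div X.X)
        ((Fin.succEmb X.dim) j)) = -b - ∑ j ∈ S, Function.update D i a j := by
      rw [neg_add, sub_eq_add_neg]
      rfl
    rw [e]
    ring
  rw [h1, h2] at h0
  have hupd : ∀ (c : Div X.X) (S : Finset (Fin X.dim)), S ∈ (Finset.univ.erase i).powerset →
      ∑ j ∈ S, Function.update D i c j = ∑ j ∈ S, D j := by
    intro c S hS
    refine Finset.sum_congr rfl fun j hj => ?_
    rw [Function.update_of_ne (Finset.ne_of_mem_erase ((Finset.mem_powerset.1 hS) hj))]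
  rw [sum_split] at h0
  rw [hinter (Function.update D i (a + b)), hinter (Function.update D i b), sum_split, sum_split]
  rw [Function.update_self] at h0 ⊢
  rw [Function.update_self]
  have e1 : ∑ S ∈ (Finset.univ.erase i).powerset, (-1 : ℤ) ^ S.card *
      (Q.chi (-b - ∑ j ∈ S, Function.update D i a j) -
        Q.chi (-b - a - ∑ j ∈ S, Function.update D i a j)) =
      ∑ S ∈ (Finset.univ.erase i).powerset, (-1 : ℤ) ^ S.card *
        (Q.chi (0 - ∑ j ∈ S, Function.update D i (a + b) j) -
          Q.chi (0 - (a + b) - ∑ j ∈ S, Function.update D i (a + b) j)) -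
      ∑ S ∈ (Finset.univ.erase i).powerset, (-1 : ℤ) ^ S.card *
        (Q.chi (0 - ∑ j ∈ S, Function.update D i b j) -
          Q.chi (0 - b - ∑ j ∈ S, Function.update D i b j)) := by
    rw [← Finset.sum_sub_distrib]
    refine Finset.sum_congr rfl fun S hS => ?_
    rw [hupd a S hS, hupd (a + b) S hS, hupd b S hS]
    have e2 : -b - a - ∑ j ∈ S, D j = 0 - (a + b) - ∑ j ∈ S, D j := by abel
    have e3 : -b - ∑ j ∈ S, D j = 0 - b - ∑ j ∈ S, D j := by abel
    rw [e2, e3]
    ring
  rw [e1] at h0
  linarith

/-- The intersection form as a multilinear map. -/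
theorem exists_multilinear_of_cube (X : Var) (hc : ∀ M : Fin (X.dim + 1) → Div X.X,
      ∑ S : Finset (Fin (X.dim + 1)), (-1 : ℤ) ^ S.card * Q.chi (-∑ j ∈ S, M j) = 0) :
    ∃ I : MultilinearMap ℤ (fun _ : Fin X.dim => Div X.X) ℤ, ∀ D, I D = inter D := by
  refine ⟨{ toFun := inter
            map_update_add' := fun {inst} D i a b => ?_
            map_update_smul' := fun {inst} D i c a => ?_ }, fun D => rfl⟩
  · obtain rfl : inst = instDecidableEqFin X.dim := Subsingleton.elim _ _
    exact inter_add_of_cube hc D i a b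
  · obtain rfl : inst = instDecidableEqFin X.dim := Subsingleton.elim _ _
    let f : Div X.X →+ ℤ := AddMonoidHom.mk' (fun a => inter (Function.update D i a))
      fun a b => inter_add_of_cube hc D i a b
    exact map_zsmul f c a

theorem Snapper.inter_add (hSn : Snapper) (hAB : FactorialStalks) (D : Fin X.dim → Div X.X)
    (i : Fin X.dim) (a b : Div X.X) :
    inter (Function.update D i (a + b)) =
      inter (Function.update D i a) + inter (Function.update D i b) :=
  inter_add_of_cube (hSn.cube hAB) D i a b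

theorem Snapper.exists_multilinear (hSn : Snapper) (hAB : FactorialStalks) (X : Var) :
    ∃ I : MultilinearMap ℤ (fun _ : Fin X.dim => Div X.X) ℤ, ∀ D, I D = inter D :=
  exists_multilinear_of_cube X (hSn.cube hAB)

/-- On a variety of dimension zero the intersection number of the empty family is `1`. -/
theorem inter_of_dim_zero (hAB : FactorialStalks) (h0 : X.dim = 0) (D : Fin X.dim → Div X.X) :
    inter D = 1 := by
  have hempty : IsEmpty (Fin X.dim) := by rw [h0]; infer_instance
  unfold inter
  rw [Fintype.sum_unique]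
  have h1 : Q.chi (0 : Div X.X) = 1 := by
    unfold Q.chi
    rw [h0]
    have h2 : hh (S := (X.X : TopCat.{0})) id ⊤ (0 : Div X.X) 0 = 1 :=
      hh_zero_zero X (hAB X) _ _ trivial
    simp [h2]
  rw [Subsingleton.elim (default : Finset (Fin X.dim)) ∅, Finset.card_empty, pow_zero, one_mul,
    Finset.sum_empty, neg_zero, h1]

/-- The two consequences of the projection formula which are used. -/
theorem projection (hSn : Snapper) (hPF : ProjectionFormula) (hAB : FactorialStalks) :
    (∀ (X Y : Var) (μ : DomHom X Y), μ.Birational → ∀ (h : X.dim = Y.dim)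
    (D : Fin Y.dim → Div Y.X) (D' : Fin X.dim → Div X.X),
    (∀ i, IsPullback μ (D (Fin.cast h i)) (D' i)) → inter D' = inter D) ∧
  (∀ (X Y : Var) (μ : DomHom X Y), μ.Birational → ∀ (D : Fin X.dim → Div X.X) (i : Fin X.dim),
    (∀ x : X.X, coef (D i) x ≠ 0 → coheight (μ.f x) ≠ 1) →
    (∀ j ≠ i, ∃ B : Div Y.X, IsPullback μ B (D j)) → inter D = 0) := by
  classical
  constructor
  · intro X Y μ hμ h D D' hD
    rcases Nat.eq_zero_or_pos X.dim with h0 | hpos
    · rw [inter_of_dim_zero hAB h0, inter_of_dim_zero hAB (h.symm.trans h0)]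
    · refine hPF X Y μ hμ h D' D ⟨0, hpos⟩ (fun x hx => ?_) fun j _ => hD j
      obtain ⟨h1, h2⟩ := ord_pull_of_birational μ hμ x hx
      exact (hD _).coef_strict h1 hx h2
  · intro X Y μ hμ D i hi hD
    have h := hμ.dim_eq
    choose! B hB using hD
    let B' : Fin Y.dim → Div Y.X := fun j =>
      if Fin.cast h.symm j = i then 0 else B (Fin.cast h.symm j)
    have h1 : inter D = inter B' := by
      refine hPF X Y μ hμ h D B' i (fun x hx => ?_) fun j hj => ?_
      · have h2 : B' (Fin.cast h i) = 0 := if_pos rfl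
        rw [h2, coef_zero]
        by_contra hc
        exact hi x hc hx
      · have h2 : B' (Fin.cast h j) = B j := if_neg hj
        rw [h2]
        exact hB j hj
    obtain ⟨I, hI⟩ := hSn.exists_multilinear hAB Y
    rw [h1, ← hI]
    exact I.map_coord_zero (Fin.cast h i) (if_pos rfl)

/-- The basic properties of intersection numbers, from Snapper's theorem, positivity and the
projection formula. -/
theorem intersectionTheory (hSn : Snapper) (hPos : IntersectionPositivity)
    (hPF : ProjectionFormula) (hAB : FactorialStalks) : IntersectionTheory := by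
  refine ⟨hSn.exists_multilinear hAB, fun X D i g hg => inter_principal D i hg, hPos.1, ?_,
    hPos.2, (projection hSn hPF hAB).1, (projection hSn hPF hAB).2⟩
  intro X D hD
  classical
  rcases Nat.eq_zero_or_pos X.dim with h0 | hpos
  · rw [inter_of_dim_zero hAB h0]
    exact zero_le_one
  · obtain ⟨I, hI⟩ := hSn.exists_multilinear hAB X
    obtain ⟨A, hA⟩ := X.ample
    set i : Fin X.dim := ⟨0, hpos⟩ with hi
    have key : ∀ m : ℕ, 0 ≤ (m : ℤ) * inter D + inter (Function.update D i A) := by
      intro m
      obtain ⟨k, hk, hsec⟩ := (hD i A hA m).exists_section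
      obtain ⟨s, P, hP, hnn⟩ := exists_effective hsec
      have h1 := hPos.1 X (Function.update D i (k • (m • D i + A) + P)) i
        (by rw [Function.update_self]; exact hnn)
        fun j hj => by rw [Function.update_of_ne hj]; exact hD j
      have h2 : inter (Function.update D i P) = 0 :=
        inter_principal _ i (g := s) (by rw [Function.update_self]; exact hP)
      rw [← hI, I.map_update_add, hI (Function.update D i P), h2, add_zero,
        ← natCast_zsmul, I.map_update_smul, I.map_update_add, ← natCast_zsmul (D i) m,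
        I.map_update_smul, Function.update_eq_self, hI, hI, smul_eq_mul, smul_eq_mul] at h1
      have hk' : (0 : ℤ) < k := by exact_mod_cast hk
      exact nonneg_of_mul_nonneg_right h1 hk'
    by_contra hc
    push Not at hc
    have := key ((inter (Function.update D i A)).natAbs + 1)
    push_cast at this
    have h3 : inter (Function.update D i A) ≤ |inter (Function.update D i A)| := le_abs_self _
    have h4 : 0 ≤ |inter (Function.update D i A)| := abs_nonneg _
    nlinarith

/-- The one variable case of Snapper's theorem. -/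
theorem snapperTheorem (hSn : Snapper) : SnapperTheorem := by
  intro X Y φ D M M' hM
  obtain ⟨p, _, hp⟩ := hSn X Y φ D 1 (fun _ => M) (fun _ => M') fun _ => hM
  refine ⟨MvPolynomial.eval₂ (Polynomial.C : ℚ →+* Polynomial ℚ) (fun _ => Polynomial.X) p,
    fun k => ?_⟩
  have h1 := hp (fun _ => (k : ℤ))
  have h2 : (D + ∑ j : Fin 1, (k : ℤ) • M') = D + k • M' := by
    rw [Fin.sum_univ_one, natCast_zsmul]
  rw [h2] at h1
  unfold hY
  rw [h1]
  rw [← Polynomial.coe_evalRingHom, MvPolynomial.eval₂_comp_left]
  have h3 : (Polynomial.evalRingHom (k : ℚ)).comp (Polynomial.C : ℚ →+* Polynomial ℚ) =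
      RingHom.id ℚ := by
    ext
    simp
  rw [h3, MvPolynomial.eval₂_id]
  have h4 : (⇑(Polynomial.evalRingHom (k : ℚ)) ∘ fun _ : Fin 1 => (Polynomial.X : Polynomial ℚ)) =
      fun _ : Fin 1 => ((k : ℤ) : ℚ) := by
    funext j
    simp
  rw [h4]

end

end Vale.Agent.P299.Q
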