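import Mathlib.RingTheory.EssentialFiniteness
import Mathlib.RingTheory.Unramified.Field
import Mathlib.Algebra.MvPolynomial.PDeriv
import Vale.Agent.P299.Q.Frame

/-!
# Ideals which are stable under derivations
-/

open CategoryTheory TopologicalSpace Opposite TopCat AlgebraicGeometry Order

namespace Vale.Agent.P299.Q

section Algebra

variable {k K : Type} [Field k] [Field K] [Algebra k K]

/-- If no derivation vanishes on the `t_i`, then `K` is algebraic over `k(t_1, …, t_n)`. -/
theorem isAlgebraic_of_der [CharZero k] [Algebra.EssFiniteType k K] {n : ℕ} {t : Fin n → K}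
    (h : ∀ v : Derivation k K K, (∀ i, v (t i) = 0) → v = 0) :
    Algebra.IsAlgebraic (Algebra.adjoin k (Set.range t)) K := by
  let F := IntermediateField.adjoin k (Set.range t)
  have h1 : Algebra.EssFiniteType F K := Algebra.EssFiniteType.of_comp k F K
  have h2 : Subsingleton (KaehlerDifferential F K) := by
    by_contra hne
    have hne' : (⊥ : Submodule K (KaehlerDifferential F K)) < ⊤ := by
      rw [bot_lt_iff_ne_bot]
      intro h0
      apply hne
      rw [← Submodule.subsingleton_iff K]
      exact (subsingleton_iff_bot_eq_top.1 h0.symm)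
    obtain ⟨f, hf0, -⟩ := Submodule.exists_le_ker_of_lt_top _ hne'
    apply hf0
    have h3 : (f.compDer (KaehlerDifferential.D F K)).restrictScalars k = 0 := by
      refine h _ fun i => ?_
      change f (KaehlerDifferential.D F K (t i)) = 0
      have h4 : KaehlerDifferential.D F K (algebraMap F K
        ⟨t i, IntermediateField.subset_adjoin k _ ⟨i, rfl⟩⟩) = 0 := Derivation.map_algebraMap _ _
      have h5 : algebraMap F K ⟨t i, IntermediateField.subset_adjoin k _ ⟨i, rfl⟩⟩ = t i := rfl
      rw [h5] at h4
      rw [h4, map_zero]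
    refine LinearMap.ext_on_range (v := fun a : K => KaehlerDifferential.D F K a)
      (KaehlerDifferential.span_range_derivation F K) fun a => ?_
    exact congrArg (fun D => D a) h3
  have h3 : Algebra.FormallyUnramified F K := ⟨h2⟩
  have h4 : Algebra.IsSeparable F K := (Algebra.FormallyUnramified.iff_isSeparable F K).1 h3
  have h5 : Algebra.IsAlgebraic F K := inferInstance
  open scoped IntermediateField.algebraAdjoinAdjoin in
  exact (IsFractionRing.comap_isAlgebraic_iff (A := Algebra.adjoin k (Set.range t)) (K := F)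
    (C := K)).2 h5

/-- The chain rule. -/
theorem derivation_aeval {n : ℕ} {t : Fin n → K} (w : Derivation k K K)
    (q : MvPolynomial (Fin n) k) : w (MvPolynomial.aeval t q) =
      ∑ j, MvPolynomial.aeval t (MvPolynomial.pderiv j q) * w (t j) := by
  induction q using MvPolynomial.induction_on with
  | C a => simp
  | add p q hp hq =>
    rw [map_add, map_add, hp, hq, ← Finset.sum_add_distrib]
    refine Finset.sum_congr rfl fun j _ => ?_
    rw [map_add, map_add, add_mul]
  | mul_X p i hp =>
    rw [map_mul, Derivation.leibniz, hp, smul_eq_mul, smul_eq_mul, MvPolynomial.aeval_X,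
      Finset.mul_sum]
    have h1 : ∀ j, MvPolynomial.aeval t (MvPolynomial.pderiv j (p * MvPolynomial.X i)) * w (t j) =
        (if j = i then MvPolynomial.aeval t p * w (t j) else 0) +
          t i * (MvPolynomial.aeval t (MvPolynomial.pderiv j p) * w (t j)) := by
      intro j
      rw [MvPolynomial.pderiv_mul, map_add, map_mul, map_mul, MvPolynomial.aeval_X]
      split_ifs with hj
      · subst hj
        rw [MvPolynomial.pderiv_X_self, map_one]
        ring
      · rw [MvPolynomial.pderiv_X_of_ne (Ne.symm hj), map_zero]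
        ring
    rw [Finset.sum_congr rfl fun j _ => h1 j, Finset.sum_add_distrib, Finset.sum_ite_eq']
    simp

theorem totalDegree_pderiv_le {n N : ℕ} (q : MvPolynomial (Fin n) k) (i : Fin n)
    (hq : q.totalDegree ≤ N + 1) : (MvPolynomial.pderiv i q).totalDegree ≤ N := by
  unfold MvPolynomial.totalDegree
  refine Finset.sup_le fun m hm => ?_
  rw [MvPolynomial.mem_support_iff, MvPolynomial.coeff_pderiv] at hm
  have h1 : m + Finsupp.single i 1 ∈ q.support := by
    rw [MvPolynomial.mem_support_iff]
    exact left_ne_zero_of_mul hm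
  have h2 := (MvPolynomial.le_totalDegree h1).trans hq
  rw [Finsupp.sum_add_index' (fun _ => rfl) (fun _ _ _ => rfl), Finsupp.sum_single_index rfl] at h2
  omega

/-- A polynomial with vanishing partial derivatives is constant. -/
theorem totalDegree_eq_zero_of_pderiv [CharZero k] {n : ℕ} (q : MvPolynomial (Fin n) k)
    (h : ∀ i, MvPolynomial.pderiv i q = 0) : q.totalDegree = 0 := by
  unfold MvPolynomial.totalDegree
  rw [← Nat.le_zero]
  refine Finset.sup_le fun m hm => ?_
  have hm0 : m = 0 := by
    by_contra hm0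
    obtain ⟨i, hi⟩ : ∃ i, m i ≠ 0 := by
      by_contra hcon
      push Not at hcon
      exact hm0 (Finsupp.ext hcon)
    have h1 := congrArg (MvPolynomial.coeff (m - Finsupp.single i 1)) (h i)
    rw [MvPolynomial.coeff_pderiv, MvPolynomial.coeff_zero] at h1
    have h2 : m - Finsupp.single i 1 + Finsupp.single i 1 = m := by
      apply tsub_add_cancel_of_le
      rw [Finsupp.single_le_iff]
      omega
    rw [h2] at h1
    rw [MvPolynomial.mem_support_iff] at hm
    rcases mul_eq_zero.1 h1 with h3 | h3
    · exact hm h3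
    · have h4 := h3
      rw [← Nat.cast_succ, Nat.cast_eq_zero] at h4
      omega
  subst hm0
  simp

/-- A subset closed under multiplication by the ring `O` and under the derivations dual to
`t_1, …, t_n ∈ O` contains no nonzero elements of `O`, unless it contains `1`. -/
theorem eq_zero_of_stable [CharZero k] {n : ℕ} {t : Fin n → K}
    (halg : Algebra.IsAlgebraic (Algebra.adjoin k (Set.range t)) K)
    {w : Fin n → Derivation k K K} (hw : ∀ i j, w i (t j) = if i = j then 1 else 0)
    {O : Subring K} (hk : ∀ c, algebraMap k K c ∈ O) (ht : ∀ j, t j ∈ O) {I : Set K}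
    (hmul : ∀ r ∈ O, ∀ c ∈ I, r * c ∈ I) (hD : ∀ i, ∀ c ∈ I, w i c ∈ I) (h1 : (1 : K) ∉ I)
    {c : K} (hc : c ∈ I) (hcO : c ∈ O) : c = 0 := by
  by_contra hc0
  have key : ∀ (N : ℕ) (q : MvPolynomial (Fin n) k), q.totalDegree ≤ N → q ≠ 0 →
      MvPolynomial.aeval t q ∉ I := by
    have hzero : ∀ q : MvPolynomial (Fin n) k, q.totalDegree = 0 → q ≠ 0 →
        MvPolynomial.aeval t q ∉ I := by
      intro q hq hq0 hqI
      rw [MvPolynomial.totalDegree_eq_zero_iff_eq_C] at hq
      rw [hq, MvPolynomial.aeval_C] at hqI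
      have ha : MvPolynomial.coeff 0 q ≠ 0 := by
        intro h0
        rw [h0, map_zero] at hq
        exact hq0 hq
      have h2 := hmul _ (hk (MvPolynomial.coeff 0 q)⁻¹) _ hqI
      rw [← map_mul, inv_mul_cancel₀ ha, map_one] at h2
      exact h1 h2
    intro N
    induction N with
    | zero => exact fun q hq => hzero q (Nat.le_zero.1 hq)
    | succ N ih =>
      intro q hq hq0 hqI
      by_cases hall : ∀ i, MvPolynomial.pderiv i q = 0
      · exact hzero q (totalDegree_eq_zero_of_pderiv q hall) hq0 hqI
      · push Not at hall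
        obtain ⟨i, hi⟩ := hall
        refine ih _ (totalDegree_pderiv_le q i hq) hi ?_
        have h2 := hD i _ hqI
        rw [derivation_aeval] at h2
        simpa [hw] using h2
  obtain ⟨p, hp0, hp⟩ := (halg.isAlgebraic c).exists_nonzero_coeff_and_aeval_eq_zero
    (mem_nonZeroDivisors_of_ne_zero hc0)
  have hadj : ∀ a : Algebra.adjoin k (Set.range t), (a : K) ∈ O := by
    let O' : Subalgebra k K := { O.toSubsemiring with algebraMap_mem' := fun c => hk c }
    have h2 : Algebra.adjoin k (Set.range t) ≤ O' := Algebra.adjoin_le (by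
      rintro _ ⟨j, rfl⟩
      exact ht j)
    exact fun a => h2 a.2
  have h2 : ∀ r : Polynomial (Algebra.adjoin k (Set.range t)), Polynomial.aeval c r ∈ O := by
    intro r
    rw [Polynomial.aeval_eq_sum_range]
    refine sum_mem fun i _ => ?_
    rw [Algebra.smul_def]
    exact mul_mem (hadj _) (pow_mem hcO _)
  have h3 : ((p.coeff 0 : Algebra.adjoin k (Set.range t)) : K) =
      (-Polynomial.aeval c p.divX) * c := by
    have h4 := congrArg (Polynomial.aeval c) (Polynomial.divX_mul_X_add p)
    rw [hp, map_add, map_mul, Polynomial.aeval_X, Polynomial.aeval_C] at h4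
    have h5 : algebraMap (Algebra.adjoin k (Set.range t)) K (p.coeff 0) =
        ((p.coeff 0 : Algebra.adjoin k (Set.range t)) : K) := rfl
    rw [h5] at h4
    linear_combination h4
  have h4 : ((p.coeff 0 : Algebra.adjoin k (Set.range t)) : K) ∈ I := by
    rw [h3]
    exact hmul _ (neg_mem (h2 _)) _ hc
  obtain ⟨q, hq⟩ : ∃ q, MvPolynomial.aeval t q =
      ((p.coeff 0 : Algebra.adjoin k (Set.range t)) : K) := by
    have h5 : ∀ a ∈ Algebra.adjoin k (Set.range t), ∃ q : MvPolynomial (Fin n) k,
        MvPolynomial.aeval t q = a := by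
      intro a ha
      rw [Algebra.adjoin_range_eq_range_aeval] at ha
      exact ha
    exact h5 _ (p.coeff 0).2
  refine key q.totalDegree q le_rfl ?_ (by rw [hq]; exact h4)
  rintro rfl
  rw [map_zero] at hq
  exact hp0 (Subtype.ext hq.symm)

end Algebra

variable {X : Var}

/-- The function field is finitely generated. -/
theorem essFiniteType (X : Var) : Algebra.EssFiniteType ℂ X.K := by
  obtain ⟨U, hU, hne⟩ := exists_affine_nonempty X
  let _ : Algebra ℂ Γ(X.X, U) := (cst U : ℂ →+* Γ(X.X, U)).toAlgebra
  have h1 : Algebra.FiniteType ℂ Γ(X.X, U) := cst_finiteType U hU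
  have hfr := functionField_isFractionRing_of_isAffineOpen X.X U hU
  have h2 : Algebra.EssFiniteType Γ(X.X, U) X.K :=
    Algebra.EssFiniteType.of_isLocalization _ (nonZeroDivisors Γ(X.X, U))
  have h3 : IsScalarTower ℂ Γ(X.X, U) X.K :=
    IsScalarTower.of_algebraMap_eq fun c => (germ_cst U c).symm
  exact Algebra.EssFiniteType.comp ℂ Γ(X.X, U) X.K

/-- A set closed under the local ring and the vector fields of a frame. -/
theorem eq_zero_of_stable_frame {x : X.X} {n : ℕ} {t : Fin n → X.K} {w : Fin n → X.Der}
    (ht : ∀ j, t j ∈ locRing X x)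
    (h1 : ∀ i j, w i (t j) = if i = j then 1 else 0) (h2 : ∀ v : X.Der, v = ∑ i, v (t i) • w i)
    {I : Set X.K} (hmul : ∀ r ∈ locRing X x, ∀ c ∈ I, r * c ∈ I)
    (hD : ∀ i, ∀ c ∈ I, w i c ∈ I) (h1I : (1 : X.K) ∉ I) {c : X.K} (hc : c ∈ I)
    (hcO : c ∈ locRing X x) : c = 0 := by
  have := essFiniteType X
  refine eq_zero_of_stable (isAlgebraic_of_der (k := ℂ) (t := t) fun v hv => ?_) h1
    (const_mem_locRing x) ht hmul hD h1I hc hcO
  rw [h2 v]
  simp [hv]

end Vale.Agent.P299.Q
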