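import Vale.Agent.P299.Q.Stage2
import Vale.Agent.P299.Q.Plain0
import Vale.Agent.P299.Q.Snapper
import Vale.Agent.P299.Q.Flat
import Vale.Agent.P299.R.Stalks

/-!
# Anticanonical nonvanishing for varieties with nonzero Euler characteristic
-/

open CategoryTheory TopologicalSpace Opposite TopCat AlgebraicGeometry Order

namespace Vale.Agent.P299.Q

/-- A divisor with a section is pseudo-effective. -/
lemma isPsef_of_section {X : Var} {D : Div X.X} (h : H0 (coef D) ≠ ⊥) : IsPsef D := by
  intro A hA m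
  obtain ⟨k, hk, hkA⟩ := hA.exists_section
  refine ⟨k, hk, ?_⟩
  rw [smul_add, smul_smul]
  exact H0_add_ne_bot (H0_nsmul_ne_bot h (k * m)) hkA

/-- In dimension zero every canonical divisor is principal. -/
lemma exists_section_of_dim_zero {X : Var} (h0 : X.dim = 0) {κ : Div X.X}
    (hκ : IsCanonicalDivisor κ) : H0 (coef (1 • -κ)) ≠ ⊥ := by
  obtain ⟨ω, hω, -, hdiv⟩ := hκ
  rw [H0_ne_bot_iff]
  have hv : ∀ v w : Fin X.dim → X.Der, v = w := fun v w => by
    funext i
    exact (Fin.elim0 (h0 ▸ i))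
  refine ⟨ω 0, ?_, fun h => hω (MultilinearMap.ext fun v => by rw [hv v 0, h]; rfl)⟩
  have key : ∀ x : X.X, coheight x = 1 → ω 0 ≠ 0 → Scheme.ord (ω 0) x = coef κ x := by
    intro x hx _
    obtain ⟨⟨v, -, -, hv1⟩, -⟩ := hdiv x hx
    rw [← hv1, hv v 0]
  rw [mem_H0]
  intro x hx h
  rw [key x hx h, one_smul, coef_neg]
  simp

/-- The vanishing theorem of Kawamata and Viehweg for the multiples of a big semipositive
anticanonical divisor, from Kollár–Nadel vanishing. -/
theorem vanishing_of_big (hKN : KollarNadelVanishing) (hInt : IntersectionTheory)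
    (hSiu : SiuCriterion) (hSPN : SemiPosNef) {X : Var} {κ : Div X.X} (hκ : IsCanonicalDivisor κ)
    (hdim : 0 < X.dim) (hSP : SemiPos (-κ)) (hbig : 0 < inter (fun _ : Fin X.dim => -κ))
    {k : ℕ} (hk : 0 < k) {i : ℕ} (hi : 0 < i) :
    hh (S := (X.X : TopCat.{0})) id ⊤ (κ + k • (-κ)) i = 0 := by
  obtain ⟨A, hA⟩ := X.ample
  have hbig' : IsBig (-κ - 0) := by
    refine hSiu X (-κ) 0 ⟨0, hdim⟩ (hSPN _ _ hSP) isNef_zero ?_
    have h1 : inter (Function.update (fun _ : Fin X.dim => -κ) ⟨0, hdim⟩ 0) = 0 := by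
      obtain ⟨I, hI⟩ := hInt.1 X
      rw [← hI]
      exact I.map_update_zero _ _
    rw [h1, mul_zero]
    exact hbig
  obtain ⟨q, hq, hsec⟩ := hbig' A
  rw [sub_zero] at hsec
  have h1 := hKN X X (DomHom.id X) κ (k • (-κ)) 0 A 0 A hκ (semiPos_nsmul factorialStalks hSP k)
    isNef_zero hA (isPullback_id factorialStalks 0) (isPullback_id factorialStalks A)
    ⟨q, hq, ?_⟩ i hi
  · rw [add_zero] at h1
    have h2 : Subsingleton (Coh (secSheaf (S := (X.X : TopCat.{0})) id ⊤ (κ + k • (-κ))) i) := h1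
    exact Module.finrank_zero_of_subsingleton
  · obtain ⟨j, rfl⟩ : ∃ j, k = j + 1 := ⟨k - 1, by omega⟩
    have h2 : q • ((j + 1) • (-κ) + 0) - A = (q • (-κ) - A) + (j * q) • (-κ) := by
      rw [add_zero, smul_smul, mul_comm q, add_mul, one_mul, add_smul]
      abel
    rw [h2]
    exact (isPsef_of_section hsec).add_nef ((hSPN _ _ hSP).nsmul _)

/-- The core theorem, from the published theorems. -/
theorem plainCore (hSn : Snapper) (hPos : IntersectionPositivity) (hPF : ProjectionFormula)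
    (hSiu : SiuCriterion) (hLef : HardLefschetz) (hSPN : SemiPosNef) (hGN : GenericNefness0)
    (hKN : KollarNadelVanishing) (hNak : NakayamaCriterion) (hFl : Flattening) :
    CoreStatement := by
  intro X κ hκ hSP hcoh
  have hFS := factorialStalks
  have hInt : IntersectionTheory := intersectionTheory hSn hPos hPF hFS
  rcases Nat.eq_zero_or_pos X.dim with h0 | hdim
  · exact ⟨1, one_pos, exists_section_of_dim_zero h0 hκ⟩
  obtain ⟨m, hm, f, -, hf0, hf⟩ := core_of_coh' hFS hInt hSiu (hardLefschetzAt_zero hLef) hSPN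
    (genericNefness_of_plain hGN) (kollarNadelVanishingAt_zero hKN) hNak
    (snapperTheoremAt_zero (snapperTheorem hSn)) (flatModelsAt_zero (flatModels hFS hFl))
    (TAct.trivial X) ((TAct.trivial X).isCanonical_zero.2 hκ)
    ((TAct.trivial X).invDiv_zero κ) hSP
    (fun hbig k hk i hi => by
      rw [(TAct.trivial X).h_zero]
      exact vanishing_of_big hKN hInt hSiu hSPN hκ hdim hSP hbig hk hi) fun M₀ => by
      obtain ⟨k, hk, i, hi⟩ := hcoh M₀
      exact ⟨k, hk, i, by rwa [(TAct.trivial X).h_zero]⟩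
  exact ⟨m, hm, H0_ne_bot_iff.2 ⟨f, hf, hf0⟩⟩

/-- **Anticanonical nonvanishing for varieties with nonzero Euler characteristic**, from the
published theorems. -/
theorem nonvanishing_of_chi_ne_zero (hSn : Snapper) (hPos : IntersectionPositivity)
    (hPF : ProjectionFormula) (hSiu : SiuCriterion) (hLef : HardLefschetz) (hSPN : SemiPosNef)
    (hGN : GenericNefness0) (hKN : KollarNadelVanishing) (hNak : NakayamaCriterion)
    (hFl : Flattening) (X : Var) (κ : Div X.X) (hκ : IsCanonicalDivisor κ) (hSP : SemiPos (-κ))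
    (hchi : chi (0 : Div X.X) ≠ 0) : ∃ m : ℕ, 0 < m ∧ H0 (coef (m • -κ)) ≠ ⊥ := by
  refine plainCore hSn hPos hPF hSiu hLef hSPN hGN hKN hNak hFl X κ hκ hSP ?_
  obtain ⟨p, hp⟩ := snapperTheorem hSn X X (DomHom.id X) 0 (-κ) (-κ)
    (isPullback_id factorialStalks _)
  have hp' : ∀ k : ℕ, ∑ i ∈ Finset.range (X.dim + 1),
      (-1 : ℚ) ^ i * hh (S := (X.X : TopCat.{0})) id ⊤ (k • -κ) i = p.eval (k : ℚ) := by
    intro k
    rw [← hp k, zero_add]
    rfl
  have hp0 : p.eval 0 ≠ 0 := by
    have h1 := hp' 0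
    rw [zero_smul, Nat.cast_zero] at h1
    rw [← h1]
    intro h2
    apply hchi
    have h3 : ((chi (0 : Div X.X) : ℤ) : ℚ) = 0 := by
      rw [← h2]
      simp [chi]
    exact_mod_cast h3
  exact coh_of_index (fun k i => hh (S := (X.X : TopCat.{0})) id ⊤ (k • -κ) i) one_pos hp0
    fun k => by
      rw [← hp' k]
      exact Finset.sum_congr rfl fun i _ => by rw [mul_one]

/-- **Anticanonical nonvanishing** (Q1), from the published theorems. -/
theorem anticanonicalNonvanishing_of_published (hSn : Snapper) (hPos : IntersectionPositivity)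
    (hPF : ProjectionFormula) (hSiu : SiuCriterion) (hLef : HardLefschetz) (hSPN : SemiPosNef)
    (hGN : GenericNefness0) (hKN : KollarNadelVanishing) (hNak : NakayamaCriterion)
    (hFl : Flattening) (hST : StructureTheoremCoh) (hII : InvariantIndex) :
    AnticanonicalNonvanishing :=
  anticanonicalNonvanishing_of_core (plainCore hSn hPos hPF hSiu hLef hSPN hGN hKN hNak hFl)
    factorialStalks hSPN hST hII

end Vale.Agent.P299.Q
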