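import Vale.Agent.P299.Q.BB2

/-!
# The structure theorem for manifolds with semipositive anticanonical bundle, cohomological form
-/

open CategoryTheory TopologicalSpace Opposite TopCat AlgebraicGeometry Order

namespace Vale.Agent.P299.Q

/-- [Demailly–Peternell–Schneider 1996; Campana–Demailly–Peternell 2012] The structure theorem. Let
`-K_X` have a smooth semipositive metric. There are a finite étale cover `Xc → X` and a locally
trivial fibre bundle `Xc → B` over a smooth projective variety `B` with trivial canonical bundle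
whose fibre `Z` is rationally connected, such that `-K_Z` has a smooth semipositive metric and the
structure group is a torus `T` acting effectively on `Z`, given by flat bundles. So `H^i(Z, O_Z) = 0`
for `i > 0` and `H^i(Z, -mK_Z)^T` is a direct summand of `H^i(Xc, -mK_Xc)`. -/
def StructureTheoremCoh : Prop :=
  ∀ (X : Var) (κ : Div X.X), IsCanonicalDivisor κ → SemiPos (-κ) →
    ∃ (Xc : Var) (π : DomHom Xc X) (κc : Div Xc.X) (Z : Var) (r : ℕ) (τ : TAct r Z)
      (κZ : Div Z.X),
      IsFinite π.f ∧ Etale π.f ∧ IsPullback π κ κc ∧ IsCanonicalDivisor κc ∧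
      τ.Effective ∧ τ.IsCanonical κZ ∧ τ.InvDiv κZ ∧ SemiPos (-κZ) ∧
      (∀ i > 0, hh (S := (Z.X : TopCat.{0})) id ⊤ 0 i = 0) ∧
      (∀ i > 0, τ.h 0 i = 0) ∧
      ∀ m i : ℕ, τ.h (m • -κZ) i ≤ hh (S := (Xc.X : TopCat.{0})) id ⊤ (m • -κc) i

end Vale.Agent.P299.Q
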