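import Vale.Agent.P299.Q.Full
import Vale.Agent.P299.Q.Plain
import Vale.Agent.P299.Q.Structure

/-!
# Anticanonical nonvanishing: the core is applied to the finite étale cover itself
-/

open CategoryTheory TopologicalSpace Opposite TopCat AlgebraicGeometry Order

namespace Vale.Agent.P299.Q

/-- The conclusion of the core theorem for varieties without group action. -/
def CoreStatement : Prop :=
  ∀ (X : Var) (κ : Div X.X), IsCanonicalDivisor κ → SemiPos (-κ) →
    (∀ M₀ : ℕ, ∃ k ≥ M₀, ∃ i, hh (S := (X.X : TopCat.{0})) id ⊤ (k • -κ) i ≠ 0) →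
    ∃ m : ℕ, 0 < m ∧ H0 (coef (m • -κ)) ≠ ⊥

/-- **Q1** from the core theorem, the structure theorem and the index theorem. -/
theorem anticanonicalNonvanishing_of_core (hcore : CoreStatement) (hFS : FactorialStalks)
    (hSPN : SemiPosNef) (hST : StructureTheoremCoh)
    (hII : InvariantIndex) : AnticanonicalNonvanishing := by
  intro X κ hκ hSP
  obtain ⟨Xc, π, κc, Z, r, τ, κZ, hfin, -, hpb, hcanc, heff, hcan, hinv, hSPZ, -, hh0, hle⟩ :=
    hST X κ hκ hSP
  obtain ⟨N, p, hN, hp⟩ := hII r Z τ κZ heff hcan hinv (hSPN _ _ hSPZ)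
  have hp0 : p.eval 0 ≠ 0 := by
    rw [index_at_zero hFS τ (-κZ) hp hh0]
    exact one_ne_zero
  have hcoh := coh_of_index (fun k i => τ.h (k • (-κZ)) i) hN hp0 fun k => by
    rw [← hp k]
    exact Finset.sum_congr rfl fun i _ => by rw [mul_smul]
  obtain ⟨m, hm, hsec⟩ := hcore Xc κc hcanc (semiPos_pull hFS π hpb.neg hSP) fun M₀ => by
    obtain ⟨k, hk, i, hi⟩ := hcoh M₀
    exact ⟨k, hk, i, fun h0 => hi (Nat.le_zero.1 ((hle k i).trans h0.le))⟩
  obtain ⟨f, hf, hf0⟩ := H0_ne_bot_iff.1 hsec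
  obtain ⟨d, hd, hnorm⟩ := exists_norm π hFS
  obtain ⟨s, hs, hs0⟩ := hnorm (m • -κ) (m • -κc) (hpb.neg.nsmul m) _ hf hf0
  refine ⟨d * m, Nat.mul_pos hd hm, H0_ne_bot_iff.2 ⟨s, ?_, hs0⟩⟩
  rwa [mul_smul]

/-- The core theorem for varieties without group action. -/
theorem coreStatement (hFS : FactorialStalks) (hInt : IntersectionTheory)
    (hSiu : SiuCriterion) (hLef : HardLefschetzAt 0) (hKV : KawamataViehwegAt 0)
    (hSPN : SemiPosNef) (hGN : GenericNefness)
    (hKN : KollarNadelVanishingAt 0) (hNak : NakayamaCriterion) (hSn : SnapperTheoremAt 0)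
    (hFM : FlatModelsAt 0) : CoreStatement := by
  intro X κ hκ hSP hcoh
  obtain ⟨m, hm, f, -, hf0, hf⟩ := core_of_coh hFS hInt hSiu hLef hKV hSPN hGN hKN hNak hSn hFM
    (TAct.trivial X) ((TAct.trivial X).isCanonical_zero.2 hκ)
    ((TAct.trivial X).invDiv_zero κ) hSP fun M₀ => by
      obtain ⟨k, hk, i, hi⟩ := hcoh M₀
      exact ⟨k, hk, i, by rwa [(TAct.trivial X).h_zero]⟩
  exact ⟨m, hm, H0_ne_bot_iff.2 ⟨f, hf, hf0⟩⟩

end Vale.Agent.P299.Q
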