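import Vale.Agent.P299.Q.BB
import Vale.Agent.P299.Q.CohZero
import Vale.Agent.P299.Q.Pull
import Vale.Agent.P299.G.StepA

/-!
# Step (A): many twisted differential forms
-/

open CategoryTheory TopologicalSpace Opposite TopCat AlgebraicGeometry Order

namespace Vale.Agent.P299.Q

variable {r : ℕ} {X : Var} (τ : TAct r X)

lemma TAct.invDiv_neg {D : Div X.X} (h : τ.InvDiv D) : τ.InvDiv (-D) := by
  intro t x
  rw [coef_neg, coef_neg, h t x]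

lemma TAct.invDiv_add {D D' : Div X.X} (h : τ.InvDiv D) (h' : τ.InvDiv D') :
    τ.InvDiv (D + D') := by
  intro t x
  rw [coef_add, coef_add, h t x, h' t x]

lemma TAct.invDiv_nsmul {D : Div X.X} (h : τ.InvDiv D) (n : ℕ) : τ.InvDiv (n • D) := by
  intro t x
  rw [coef_nsmul, coef_nsmul, h t x]

/-- Nonvanishing of `H^0` gives a section. -/
lemma exists_section_of_hh_ne_zero {S : TopCat.{0}} [PreirreducibleSpace S] (q : X.X → S)
    (E : Submodule ℂ X.K) (D : Div X.X) (h : hh q E D 0 ≠ 0) :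
    ∃ f ∈ E, f ≠ 0 ∧ f ∈ H0 (coef D) := by
  rw [hh_zero] at h
  by_contra hcon
  push Not at hcon
  apply h
  have h1 : (E ⊓ H0 (coef D) : Submodule ℂ X.K) = ⊥ := by
    rw [eq_bot_iff]
    rintro f ⟨hfE, hfD⟩
    rw [Submodule.mem_bot]
    by_contra hf
    exact hcon f hfE hf hfD
  rw [h1]
  exact finrank_bot ℂ _

/-- The index theorem implies the nonvanishing of some cohomology. -/
theorem coh_of_index (h : ℕ → ℕ → ℕ) {N n : ℕ} (hN : 0 < N) {p : Polynomial ℚ}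
    (hp0 : p.eval 0 ≠ 0)
    (hp : ∀ k : ℕ, ∑ i ∈ Finset.range (n + 1), (-1 : ℚ) ^ i * h (k * N) i = p.eval (k : ℚ)) :
    ∀ M₀ : ℕ, ∃ k ≥ M₀, ∃ i, h k i ≠ 0 := by
  intro M₀
  obtain ⟨K, hK1, hK⟩ := G.exists_eval_ne_zero hp0 (M₀ + 1)
  by_contra hcon
  push Not at hcon
  apply hK K le_rfl
  rw [← hp K]
  refine Finset.sum_eq_zero fun i _ => ?_
  have h1 : M₀ ≤ K * N := by
    have : K * 1 ≤ K * N := Nat.mul_le_mul_left K hN
    omega
  rw [hcon _ h1 i]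
  simp

/-- **Step (A)**: nonvanishing cohomology and the hard Lefschetz theorem. -/
theorem stepA_forms (hLef : HardLefschetzAt r) {κ : Div X.X} (hκ : τ.IsCanonical κ)
    (hκi : τ.InvDiv κ) (hsp : ∀ m : ℕ, SemiPos ((m + 1) • (-κ)))
    (hcoh : ∀ M₀ : ℕ, ∃ k ≥ M₀, ∃ i, τ.h (k • (-κ)) i ≠ 0) :
    (∃ k : ℕ, 0 < k ∧ ∃ f ∈ τ.inv, f ≠ 0 ∧ f ∈ H0 (coef (k • (-κ)))) ∨
    ∃ q i : ℕ, q + i = X.dim ∧ 0 < i ∧ ∀ M₀ : ℕ, ∃ M ≥ M₀, ∃ e : X.Ten q, e ≠ 0 ∧ IsAlt e ∧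
      τ.InvTensor e ∧ IsTwTensor e (M • (-κ)) := by
  by_cases h0 : ∃ k : ℕ, 0 < k ∧ τ.h (k • (-κ)) 0 ≠ 0
  · obtain ⟨k, hk, h⟩ := h0
    left
    obtain ⟨f, hf, hf0, hfs⟩ := exists_section_of_hh_ne_zero _ _ _ h
    exact ⟨k, hk, f, hf, hf0, hfs⟩
  push Not at h0
  right
  -- the hard Lefschetz theorem
  have key : ∀ k i : ℕ, τ.h (k • (-κ)) i ≠ 0 → ∃ p : ℕ, p + i = X.dim ∧ ∃ e : X.Ten p, e ≠ 0 ∧
      IsAlt e ∧ τ.InvTensor e ∧ IsTwTensor e ((k + 1) • (-κ)) := by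
    intro k i hki
    have heq : κ + (k + 1) • (-κ) = k • (-κ) := by
      rw [add_smul, one_smul]
      abel
    exact hLef X τ κ ((k + 1) • (-κ)) hκ hκi (τ.invDiv_nsmul (τ.invDiv_neg hκi) _) (hsp _) i
      (by rwa [heq])
  -- some `i` occurs infinitely often
  have h2 : ∃ i ∈ Finset.Icc 1 X.dim, ∀ M₀ : ℕ, ∃ k ≥ M₀, τ.h (k • (-κ)) i ≠ 0 := by
    by_contra hcon
    push Not at hcon
    have h3 : ∀ i ∈ Finset.Icc 1 X.dim, ∃ B : ℕ, ∀ k ≥ B, τ.h (k • (-κ)) i = 0 := hcon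
    choose! B hB using h3
    let C := 1 + ∑ i ∈ Finset.Icc 1 X.dim, B i
    obtain ⟨k, hk, i, hne⟩ := hcoh C
    have hk0 : 0 < k := by omega
    obtain ⟨p, hp, -⟩ := key k i hne
    have hi0 : 0 < i := by
      rcases Nat.eq_zero_or_pos i with rfl | h
      · exact absurd (h0 k hk0) hne
      · exact h
    have hi : i ∈ Finset.Icc 1 X.dim := Finset.mem_Icc.2 ⟨hi0, by omega⟩
    apply hne
    apply hB i hi k _
    have : B i ≤ ∑ i ∈ Finset.Icc 1 X.dim, B i :=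
      Finset.single_le_sum (f := B) (fun _ _ => Nat.zero_le _) hi
    omega
  obtain ⟨i, hi, hinf⟩ := h2
  rw [Finset.mem_Icc] at hi
  refine ⟨X.dim - i, i, by omega, by omega, fun M₀ => ?_⟩
  obtain ⟨k, hk, hne⟩ := hinf M₀
  obtain ⟨q, hq, e, he0, healt, heinv, hetw⟩ := key k i hne
  have hq' : q = X.dim - i := by omega
  subst hq'
  exact ⟨k + 1, by omega, e, he0, healt, heinv, hetw⟩

end Vale.Agent.P299.Q
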