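import Vale.Agent.P299.Q.Torus
import Vale.Agent.P299.Q.Dom

/-!
# Rationality of torus actions
-/

open CategoryTheory TopologicalSpace Opposite TopCat AlgebraicGeometry Order

namespace Vale.Agent.P299.Q

namespace TR

section Stalk

variable {S' S X : Scheme.{0}} [IsIntegral X]

/-- The pull back of rational functions to the local ring at a point which is mapped to the generic
point. -/
noncomputable def pullAt (h : S ⟶ X) (s : S) (hs : h s = genericPoint X) :
    X.functionField ⟶ S.presheaf.stalk s :=
  X.presheaf.stalkSpecializes (specializes_of_eq hs) ≫ h.stalkMap s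

theorem pullAt_comp (u : S' ⟶ S) (h : S ⟶ X) (s : S') (hs : h (u s) = genericPoint X) :
    pullAt (u ≫ h) s hs = pullAt h (u s) hs ≫ u.stalkMap s := by
  unfold pullAt
  rw [Scheme.Hom.stalkMap_comp, Category.assoc]
  rfl

theorem pullAt_specializes (h : S ⟶ X) {s s' : S} (hs : h s = genericPoint X)
    (hs' : h s' = genericPoint X) (hss : s ⤳ s') :
    pullAt h s' hs' ≫ S.presheaf.stalkSpecializes hss = pullAt h s hs := by
  unfold pullAt
  rw [Category.assoc, ← Scheme.Hom.stalkSpecializes_stalkMap, ← Category.assoc,
    TopCat.Presheaf.stalkSpecializes_comp]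

theorem pullAt_congr {h h' : S ⟶ X} (e : h = h') (s : S) (hs : h s = genericPoint X)
    (hs' : h' s = genericPoint X) : pullAt h s hs = pullAt h' s hs' := by
  subst e
  rfl

/-- Elements of `R` as elements of the local rings of `Spec R`. -/
noncomputable def toSt (R : CommRingCat.{0}) (x : Spec R) : R ⟶ (Spec R).presheaf.stalk x :=
  (Scheme.ΓSpecIso R).inv ≫ (Spec R).presheaf.germ ⊤ x (Opens.mem_top x)

theorem toSt_specializes (R : CommRingCat.{0}) {x y : Spec R} (h : x ⤳ y) :
    toSt R y ≫ (Spec R).presheaf.stalkSpecializes h = toSt R x := by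
  unfold toSt
  rw [Category.assoc, TopCat.Presheaf.germ_stalkSpecializes]

theorem toSt_map {R B : CommRingCat.{0}} (f : R ⟶ B) (x : Spec B) :
    toSt R (Spec.map f x) ≫ (Spec.map f).stalkMap x = f ≫ toSt B x := by
  unfold toSt
  rw [Category.assoc, ← Category.assoc f, Scheme.ΓSpecIso_inv_naturality, Category.assoc]
  congr 1
  exact Scheme.Hom.germ_stalkMap (Spec.map f) ⊤ x (Opens.mem_top _)

instance isFractionRing_toSt (R : CommRingCat.{0}) [IsDomain R] :
    @IsFractionRing R _ (Spec R).functionField _ (toSt R (genericPoint (Spec R))).hom.toAlgebra :=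
  functionField_isFractionRing_of_affine R

/-- The pull back of a regular function under the inclusion of an affine open set. -/
theorem pullAt_fromSpec {U : X.Opens} (hU : IsAffineOpen U) [Nonempty U]
    (x : Spec Γ(X, U)) (hx : hU.fromSpec x = genericPoint X) (b : Γ(X, U)) :
    (pullAt hU.fromSpec x hx).hom (X.germToFunctionField U b) = (toSt Γ(X, U) x).hom b := by
  have hxU : hU.fromSpec x ∈ U := by
    rw [← SetLike.mem_coe, ← hU.range_fromSpec]
    exact ⟨x, rfl⟩
  have h1 : X.germToFunctionField U ≫ pullAt hU.fromSpec x hx = toSt Γ(X, U) x := by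
    unfold pullAt toSt Scheme.germToFunctionField
    rw [← Category.assoc, TopCat.Presheaf.germ_stalkSpecializes]
    refine (Scheme.Hom.germ_stalkMap hU.fromSpec U x hxU).trans ?_
    rw [hU.fromSpec_app_self, Category.assoc]
    congr 1
    exact TopCat.Presheaf.germ_res _ _ _ _
  exact congrArg (fun f => f.hom b) h1

end Stalk

end TR

end Vale.Agent.P299.Q
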