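import Vale.Agent.P299.Q.TorVal
import Vale.Agent.P299.Q.Ram

/-!
# Invariant top forms and their logarithmic description
-/

open CategoryTheory TopologicalSpace Opposite TopCat AlgebraicGeometry Order

namespace Vale.Agent.P299.Q

open Vale.Agent.P299.G

section General

variable {X Y : Var}

/-- The value of a form of degree `dim X = N` on `N` vector fields. -/
noncomputable def topVal {N : ℕ} (hN : X.dim = N) (ω : X.Ten X.dim) (v : Fin N → X.Der) : X.K :=
  ω fun k => v (Fin.cast hN k)

theorem topVal_det {N : ℕ} (hN : X.dim = N) {ω : X.Ten X.dim} (hω : IsAlt ω) {t : Fin N → X.K}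
    {w : Fin N → X.Der} (h1 : ∀ i j, w i (t j) = if i = j then 1 else 0)
    (h2 : ∀ v : X.Der, v = ∑ i, v (t i) • w i) (v : Fin N → X.Der) :
    topVal hN ω v = topVal hN ω w * (Matrix.of fun i j => v j (t i)).det := by
  subst hN
  exact exists_det hω h1 h2 v

theorem topVal_frame_ne_zero {N : ℕ} (hN : X.dim = N) {ω : X.Ten X.dim} (hω0 : ω ≠ 0)
    (hω : IsAlt ω) {t : Fin N → X.K} {w : Fin N → X.Der}
    (h1 : ∀ i j, w i (t j) = if i = j then 1 else 0)
    (h2 : ∀ v : X.Der, v = ∑ i, v (t i) • w i) : topVal hN ω w ≠ 0 := by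
  subst hN
  exact value_frame_ne_zero hω0 hω h1 h2

/-- The vector field `v` is logarithmic at `x`. -/
def IsLog (x : X.X) (v : X.Der) : Prop := ∀ (k : ℤ) (f : X.K), og x k f → og x k (v f)

/-- The value of a top form on logarithmic vector fields. -/
theorem og_topVal_of_log {N : ℕ} (hN : X.dim = N) {ω : X.Ten X.dim} (hω0 : ω ≠ 0)
    (hω : IsAlt ω) {κ : Div X.X} (hκ : IsDivTensor ω κ) {x : X.X} (hx : coheight x = 1)
    {v : Fin N → X.Der} (hv : ∀ j, IsLog x (v j)) : og x (coef κ x + 1) (topVal hN ω v) := by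
  subst hN
  obtain ⟨s, u, hs, hu, h1, h2⟩ := exists_frame_at X x
  have h3 : Ge x 1 (Matrix.of fun i j => v j (s i)).det :=
    ge_det_of_log hx hs hu h1 h2 fun j f hf hvf => by
      have h4 := hv j _ f (og_self f) hvf
      linarith
  have h4 := exists_det hω h1 h2 v
  have h5 : og x (coef κ x) (ω u) := fun _ => (ord_value_frame hω0 hω hκ hx hs hu h1 h2).ge
  change og x (coef κ x + 1) (ω v)
  rw [h4]
  exact h5.mul h3

/-- A logarithmic frame. -/
theorem exists_log {N : ℕ} (hN : X.dim = N) {ω : X.Ten X.dim} (hω0 : ω ≠ 0)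
    (hω : IsAlt ω) {κ : Div X.X} (hκ : IsDivTensor ω κ) {x : X.X} (hx : coheight x = 1) :
    ∃ v : Fin N → X.Der, (∀ j, IsLog x (v j)) ∧ topVal hN ω v ≠ 0 ∧
      Scheme.ord (topVal hN ω v) x = coef κ x + 1 := by
  subst hN
  obtain ⟨s, u, hs, hu, h1, h2⟩ := exists_frame_at X x
  obtain ⟨p, hp0, hp⟩ := exists_unif hx
  obtain ⟨v, hv, hvp, hωv⟩ := exists_log_frame hx hω hs hu h1 h2 hp0 hp
  have h0 := value_frame_ne_zero hω0 hω h1 h2
  have h3 := ord_value_frame hω0 hω hκ hx hs hu h1 h2
  refine ⟨v, fun j k f hf => og_log hx (hv j) hp0 hp (hvp j) hf, ?_, ?_⟩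
  · change ω v ≠ 0
    rw [hωv]
    exact mul_ne_zero hp0 h0
  · change Scheme.ord (ω v) x = _
    rw [hωv, Scheme.ord_mul hp0 h0, hp, h3, add_comm]

end General

section Chain

variable {k K M : Type*} [Field k] [Field K] [Algebra k K] [AddCommGroup M] [Module K M]
  [Module k M] [IsScalarTower k K M]

theorem der_eq_of_coords' {n : ℕ} {t : Fin n → K}
    (h : ∀ v : Derivation k K K, (∀ i, v (t i) = 0) → v = 0) {d d' : Derivation k K M}
    (hd : ∀ i, d (t i) = d' (t i)) : d = d' := by
  have h1 : d.liftKaehlerDifferential = d'.liftKaehlerDifferential := by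
    refine LinearMap.ext_on_range (span_D_eq_top h) fun i => ?_
    rw [Derivation.liftKaehlerDifferential_comp_D, Derivation.liftKaehlerDifferential_comp_D]
    exact hd i
  ext a
  have h2 := congrArg (fun F => F (KaehlerDifferential.D k K a)) h1
  simp only [Derivation.liftKaehlerDifferential_comp_D] at h2
  exact h2

end Chain

/-- The chain rule. -/
theorem DomHom.chain {X Y : Var} (φ : DomHom X Y) {n : ℕ} {u : Fin n → Y.K} {v : Fin n → Y.Der}
    (h1 : ∀ i j, v i (u j) = if i = j then 1 else 0) (h2 : ∀ δ : Y.Der, δ = ∑ i, δ (u i) • v i)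
    (V : X.Der) (a : Y.K) : V (φ.pull a) = ∑ l, V (φ.pull (u l)) * φ.pull (v l a) := by
  let _ : Algebra Y.K X.K := φ.pull.toAlgebra
  have h3 : IsScalarTower ℂ Y.K X.K :=
    IsScalarTower.of_algebraMap_eq fun c => (φ.pull_constant c).symm
  let d' : Derivation ℂ Y.K X.K :=
    ∑ l, V (φ.pull (u l)) • ((Algebra.linearMap Y.K X.K).compDer (v l))
  have hd' : ∀ b, d' b = ∑ l, V (φ.pull (u l)) * φ.pull (v l b) := by
    intro b
    change (∑ l, V (φ.pull (u l)) • ((Algebra.linearMap Y.K X.K).compDer (v l))) b = _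
    have h5 : ∀ S : Finset (Fin n), (∑ l ∈ S, V (φ.pull (u l)) •
        ((Algebra.linearMap Y.K X.K).compDer (v l))) b =
        ∑ l ∈ S, V (φ.pull (u l)) * φ.pull (v l b) := by
      classical
      intro S
      induction S using Finset.induction_on with
      | empty => rfl
      | insert a S ha ih =>
        rw [Finset.sum_insert ha, Finset.sum_insert ha, Derivation.add_apply, ih]
        rfl
    exact h5 _
  have h4 : V.compAlgebraMap Y.K = d' := by
    refine der_eq_of_coords' (t := u) (fun δ hδ => by rw [h2 δ]; simp [hδ]) fun i => ?_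
    rw [hd']
    change V (φ.pull (u i)) = _
    have h5 : ∀ l, V (φ.pull (u l)) * φ.pull (v l (u i)) =
        if l = i then V (φ.pull (u i)) else 0 := by
      intro l
      rw [h1]
      split_ifs with hl
      · rw [map_one, mul_one, hl]
      · rw [map_zero, mul_zero]
    rw [Finset.sum_congr rfl fun l _ => h5 l]
    simp
  rw [← hd', ← h4]
  rfl

namespace TorusCoord

variable {r s : ℕ} {X Y : Var} {τ : TAct r X} {φ : DomHom X Y} {t : Fin s → X.K}
  {w : Fin s → Fin r → ℤ}

section

variable (h : TorusCoord τ φ t w)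

/-- The logarithmic vector field `t_i ∂/∂t_i`. -/
noncomputable def L (i : Fin s) : X.Der :=
  (h.exists_vf 0 fun j => algebraMap ℂ X.K (if i = j then 1 else 0) * t j).choose

theorem L_pull (i : Fin s) (a : Y.K) : h.L i (φ.pull a) = φ.pull ((0 : Y.Der) a) :=
  (h.exists_vf 0 fun j => algebraMap ℂ X.K (if i = j then 1 else 0) * t j).choose_spec.1 a

theorem L_t' (i j : Fin s) : h.L i (t j) = algebraMap ℂ X.K (if i = j then 1 else 0) * t j :=
  (h.exists_vf 0 fun j => algebraMap ℂ X.K (if i = j then 1 else 0) * t j).choose_spec.2 j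

theorem L_t (i j : Fin s) : h.L i (t j) = if i = j then t j else 0 := by
  rw [h.L_t']
  split_ifs
  · rw [map_one, one_mul]
  · rw [map_zero, zero_mul]

theorem L_pull' (i : Fin s) (a : Y.K) : h.L i (φ.pull a) = 0 := by
  rw [h.L_pull, Derivation.zero_apply, map_zero]

/-- The lift of a vector field with constant `t_i`. -/
noncomputable def lift (δ : Y.Der) : X.Der := (h.exists_vf δ 0).choose

theorem lift_pull (δ : Y.Der) (a : Y.K) : h.lift δ (φ.pull a) = φ.pull (δ a) :=
  (h.exists_vf δ 0).choose_spec.1 a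

theorem lift_t (δ : Y.Der) (i : Fin s) : h.lift δ (t i) = 0 :=
  (h.exists_vf δ 0).choose_spec.2 i

/-- The logarithmic vector fields together with the lifts. -/
noncomputable def logfr {n : ℕ} (δ : Fin n → Y.Der) : Fin (s + n) → X.Der :=
  Fin.append h.L fun l => h.lift (δ l)

/-- The coordinates. -/
noncomputable def crd (t : Fin s → X.K) (φ : DomHom X Y) {n : ℕ} (u : Fin n → Y.K) :
    Fin (s + n) → X.K :=
  Fin.append t fun l => φ.pull (u l)

/-- The frame `∂/∂t_i`, `∂/∂u_l`. -/
noncomputable def frm {n : ℕ} (δ : Fin n → Y.Der) : Fin (s + n) → X.Der :=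
  Fin.append (fun i => (t i)⁻¹ • h.L i) fun l => h.lift (δ l)

theorem frm_dual {n : ℕ} {u : Fin n → Y.K} {v : Fin n → Y.Der}
    (h1 : ∀ i j, v i (u j) = if i = j then 1 else 0) (i j : Fin (s + n)) :
    h.frm v i (crd t φ u j) = if i = j then 1 else 0 := by
  refine Fin.addCases (fun i => ?_) (fun l => ?_) i <;>
    refine Fin.addCases (fun j => ?_) (fun m => ?_) j
  · simp only [frm, crd, Fin.append_left, Derivation.smul_apply, smul_eq_mul]
    rw [h.L_t]
    by_cases hij : i = j
    · subst hij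
      rw [if_pos rfl, if_pos rfl, inv_mul_cancel₀ (h.ne i)]
    · rw [if_neg hij, if_neg (fun h => hij (Fin.castAdd_injective _ _ h)), mul_zero]
  · simp only [frm, crd, Fin.append_left, Fin.append_right, Derivation.smul_apply, smul_eq_mul]
    rw [h.L_pull', mul_zero, if_neg]
    intro he
    have := congrArg Fin.val he
    simp at this
    omega
  · simp only [frm, crd, Fin.append_left, Fin.append_right]
    rw [h.lift_t, if_neg]
    intro he
    have := congrArg Fin.val he
    simp at this
    omega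
  · simp only [frm, crd, Fin.append_right]
    rw [h.lift_pull, h1]
    by_cases hlm : l = m
    · subst hlm
      rw [if_pos rfl, if_pos rfl, map_one]
    · rw [if_neg hlm, if_neg (fun h => hlm (Fin.natAdd_injective _ _ h)), map_zero]

theorem frm_expand {n : ℕ} {u : Fin n → Y.K} {v : Fin n → Y.Der}
    (h1 : ∀ i j, v i (u j) = if i = j then 1 else 0) (h2 : ∀ δ : Y.Der, δ = ∑ i, δ (u i) • v i)
    (V : X.Der) : V = ∑ i, V (crd t φ u i) • h.frm v i := by
  refine h.vf_ext (fun a => ?_) fun i => ?_
  · rw [sum_smul_apply, Fin.sum_univ_add, φ.chain h1 h2 V a]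
    simp only [frm, crd, Fin.append_left, Fin.append_right, Derivation.smul_apply, smul_eq_mul]
    have h5 : ∑ i, V (t i) * ((t i)⁻¹ * h.L i (φ.pull a)) = 0 :=
      Finset.sum_eq_zero fun i _ => by rw [h.L_pull', mul_zero, mul_zero]
    rw [h5, zero_add]
    exact Finset.sum_congr rfl fun l _ => by rw [h.lift_pull]
  · rw [sum_smul_apply]
    have h3 := h.frm_dual h1
    have h4 : t i = crd t φ u (Fin.castAdd n i) := by rw [crd, Fin.append_left]
    rw [h4, Finset.sum_eq_single (Fin.castAdd n i)]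
    · rw [h3, if_pos rfl, mul_one]
    · intro j _ hj
      rw [h3, if_neg hj, mul_zero]
    · intro hj
      exact absurd (Finset.mem_univ _) hj

include h in
theorem dim_eq : X.dim = s + Y.dim := by
  obtain ⟨u, v, huv⟩ := exists_fr (X := Y) rfl (genericPoint Y.X)
  obtain ⟨b, -, -⟩ := exists_basis (h.frm_dual huv.dual) (h.frm_expand huv.dual huv.expand)
  have := Module.finrank_eq_card_basis b
  rwa [Fintype.card_fin] at this

/-- The Jacobian matrix of the logarithmic frame. -/
theorem det_logfr {n : ℕ} (u : Fin n → Y.K) (δ : Fin n → Y.Der) :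
    (Matrix.of fun i j => h.logfr δ j (crd t φ u i)).det =
      (∏ i, t i) * φ.pull (Matrix.of fun i j => δ j (u i)).det := by
  have h1 : (Matrix.of fun i j => h.logfr δ j (crd t φ u i)) =
      (Matrix.fromBlocks (Matrix.diagonal t) 0 0
        ((Matrix.of fun i j => δ j (u i)).map φ.pull)).submatrix
        finSumFinEquiv.symm finSumFinEquiv.symm := by
    ext i j
    refine Fin.addCases (fun i => ?_) (fun l => ?_) i <;>
      refine Fin.addCases (fun j => ?_) (fun m => ?_) j
    · simp only [logfr, crd, Fin.append_left, Matrix.of_apply, Matrix.submatrix_apply,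
        finSumFinEquiv_symm_apply_castAdd, Matrix.fromBlocks_apply₁₁, Matrix.diagonal_apply]
      rw [h.L_t]
      by_cases hij : i = j
      · subst hij
        rfl
      · rw [if_neg hij, if_neg (Ne.symm hij)]
    · simp only [logfr, crd, Fin.append_left, Fin.append_right, Matrix.of_apply,
        Matrix.submatrix_apply, finSumFinEquiv_symm_apply_castAdd,
        finSumFinEquiv_symm_apply_natAdd, Matrix.fromBlocks_apply₁₂, Matrix.zero_apply]
      rw [h.lift_t]
    · simp only [logfr, crd, Fin.append_left, Fin.append_right, Matrix.of_apply,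
        Matrix.submatrix_apply, finSumFinEquiv_symm_apply_castAdd,
        finSumFinEquiv_symm_apply_natAdd, Matrix.fromBlocks_apply₂₁, Matrix.zero_apply]
      rw [h.L_pull']
    · simp only [logfr, crd, Fin.append_right, Matrix.of_apply, Matrix.submatrix_apply,
        finSumFinEquiv_symm_apply_natAdd, Matrix.fromBlocks_apply₂₂, Matrix.map_apply]
      rw [h.lift_pull]
  rw [h1, Matrix.det_submatrix_equiv_self, Matrix.det_fromBlocks_zero₂₁, Matrix.det_diagonal,
    RingHom.map_det, RingHom.mapMatrix_apply]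

/-- The form on `Y` obtained from an invariant form on `X`. -/
theorem exists_base_form {ω : X.Ten X.dim} (hω0 : ω ≠ 0) (hω : IsAlt ω)
    (hinv : τ.InvTensor ω) : ∃ η : Y.Ten Y.dim, η ≠ 0 ∧ IsAlt η ∧
      ∀ δ : Fin Y.dim → Y.Der, topVal h.dim_eq ω (h.logfr δ) = φ.pull (η δ) := by
  obtain ⟨u, v, huv⟩ := exists_fr (X := Y) rfl (genericPoint Y.X)
  have hd := h.frm_dual huv.dual
  have he := h.frm_expand huv.dual huv.expand
  have hval := topVal_det h.dim_eq hω hd he
  have h0 := topVal_frame_ne_zero h.dim_eq hω0 hω hd he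
  -- the value on the logarithmic frame
  have hg : topVal h.dim_eq ω (h.logfr v) ∈ τ.inv := by
    intro σ
    refine (hinv σ _ _ fun i f => ?_).symm
    generalize Fin.cast h.dim_eq i = j
    refine Fin.addCases (fun j => ?_) (fun l => ?_) j
    · simp only [logfr, Fin.append_left]
      exact h.vf_inv (h.L_pull j) (h.L_t' j) σ f
    · simp only [logfr, Fin.append_right]
      exact h.vf_inv (h.lift_pull (v l)) (c := 0) (fun i => by
        rw [h.lift_t, Pi.zero_apply, map_zero, zero_mul]) σ f
  have hdet1 : (Matrix.of fun i j => v j (u i)).det = 1 := by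
    have h4 : (Matrix.of fun i j => v j (u i)) = (1 : Matrix (Fin Y.dim) (Fin Y.dim) Y.K) := by
      ext i j
      rw [Matrix.of_apply, huv.dual, Matrix.one_apply]
      by_cases h : i = j
      · rw [if_pos h, if_pos h.symm]
      · rw [if_neg h, if_neg (Ne.symm h)]
    rw [h4, Matrix.det_one]
  have hlog : ∀ δ : Fin Y.dim → Y.Der, topVal h.dim_eq ω (h.logfr δ) =
      topVal h.dim_eq ω (h.logfr v) * φ.pull (Matrix.of fun i j => δ j (u i)).det := by
    intro δ
    rw [hval (h.logfr δ), hval (h.logfr v), h.det_logfr u δ, h.det_logfr u v, hdet1, map_one]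
    ring
  have hg0 : topVal h.dim_eq ω (h.logfr v) ≠ 0 := by
    rw [hval (h.logfr v), h.det_logfr u v, hdet1, map_one, mul_one]
    exact mul_ne_zero h0 (Finset.prod_ne_zero_iff.2 fun i _ => h.ne i)
  obtain ⟨a, ha⟩ := h.base _ hg
  have ha0 : a ≠ 0 := by
    rintro rfl
    rw [map_zero] at ha
    exact hg0 ha.symm
  obtain ⟨η, hη0, hη, hηv⟩ := exists_top rfl huv.dual huv.expand ha0
  refine ⟨η, hη0, hη, fun δ => ?_⟩
  have h5 : η δ = a * (Matrix.of fun i j => δ j (u i)).det := hηv δ
  rw [hlog, h5, map_mul, ha]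

/-- The values of the invariant form. -/
theorem topVal_eq {ω : X.Ten X.dim} (hω : IsAlt ω) {η : Y.Ten Y.dim}
    (hη : ∀ δ : Fin Y.dim → Y.Der, topVal h.dim_eq ω (h.logfr δ) = φ.pull (η δ))
    {u : Fin Y.dim → Y.K} {v : Fin Y.dim → Y.Der}
    (h1 : ∀ i j, v i (u j) = if i = j then 1 else 0)
    (h2 : ∀ δ : Y.Der, δ = ∑ i, δ (u i) • v i) (V : Fin (s + Y.dim) → X.Der) :
    topVal h.dim_eq ω V * ∏ i, t i =
      φ.pull (η v) * (Matrix.of fun i j => V j (crd t φ u i)).det := by
  have hval := topVal_det h.dim_eq hω (h.frm_dual h1) (h.frm_expand h1 h2)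
  have hdet1 : (Matrix.of fun i j => v j (u i)).det = 1 := by
    have h4 : (Matrix.of fun i j => v j (u i)) = (1 : Matrix (Fin Y.dim) (Fin Y.dim) Y.K) := by
      ext i j
      rw [Matrix.of_apply, h1, Matrix.one_apply]
      by_cases h : i = j
      · rw [if_pos h, if_pos h.symm]
      · rw [if_neg h, if_neg (Ne.symm h)]
    rw [h4, Matrix.det_one]
  have h3 := hη v
  rw [hval (h.logfr v), h.det_logfr u v, hdet1, map_one, mul_one] at h3
  rw [hval V, ← h3]
  ring

end

end TorusCoord

end Vale.Agent.P299.Q
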