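import Mathlib.AlgebraicGeometry.ValuativeCriterion
import Mathlib.RingTheory.Polynomial.UniqueFactorization
import Mathlib.RingTheory.DiscreteValuationRing.TFAE
import Vale.Agent.P299.Q.AlgInd
import Vale.Agent.P299.Q.TorForm

/-!
# Models of rational function fields: the divisors given by irreducible polynomials
-/

open CategoryTheory TopologicalSpace Opposite TopCat AlgebraicGeometry Order

namespace Vale.Agent.P299.Q

open Vale.Agent.P299.G

/-- The valuative criterion of properness: a valuation ring of the function field which contains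
the constants dominates some local ring. -/
theorem exists_center_dom (X : Var) (V : ValuationSubring X.K)
    (hV : ∀ c : ℂ, algebraMap ℂ X.K c ∈ V) :
    ∃ x : X.X, (∀ a ∈ locRing X x, a ∈ V) ∧
      ∀ a ∈ locRing X x, a ≠ 0 → a⁻¹ ∈ V → a⁻¹ ∈ locRing X x := by
  have hex : ValuativeCriterion.Existence (X.X ↘ SpecC) := by
    have h1 : UniversallyClosed (X.X ↘ SpecC) := inferInstance
    rw [UniversallyClosed.eq_valuativeCriterion] at h1
    exact h1.1
  let cV : ℂ →+* V := (algebraMap ℂ X.K).codRestrict V.toSubring hV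
  let j : CommRingCat.of V ⟶ CommRingCat.of X.K := CommRingCat.ofHom (algebraMap V X.K)
  let i₁ : Spec (CommRingCat.of X.K) ⟶ X.X := X.X.fromSpecStalk (genericPoint X.X)
  let i₂ : Spec (CommRingCat.of V) ⟶ SpecC := Spec.map (CommRingCat.ofHom cV)
  have hj : CommRingCat.ofHom cV ≫ j = CommRingCat.ofHom (algebraMap ℂ X.K) := by
    ext c
    rfl
  have hsq : i₁ ≫ (X.X ↘ SpecC) = Spec.map j ≫ i₂ := by
    rw [← Spec.map_comp, hj]
    apply ext_of_isAffine
    rw [Scheme.Hom.comp_appTop]
    have h1 : i₁.appTop = X.X.presheaf.germ ⊤ (genericPoint X.X) trivial ≫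
        (Scheme.ΓSpecIso (X.X.presheaf.stalk (genericPoint X.X))).inv := by
      have h2 := Scheme.fromSpecStalk_appTop (X := X.X) (x := genericPoint X.X)
      refine h2.trans ?_
      congr 1
    have h5 : (Spec.map (CommRingCat.ofHom (algebraMap ℂ X.K))).appTop =
        (Scheme.ΓSpecIso (CommRingCat.of ℂ)).hom ≫ CommRingCat.ofHom (algebraMap ℂ X.K) ≫
          (Scheme.ΓSpecIso (CommRingCat.of X.K)).inv := by
      rw [← Scheme.ΓSpecIso_naturality_assoc, Iso.hom_inv_id, Category.comp_id]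
    rw [h5, h1]
    have h6 : CommRingCat.ofHom (algebraMap ℂ X.K) = (Scheme.ΓSpecIso (CommRingCat.of ℂ)).inv ≫
        (X.X ↘ SpecC).appTop ≫ X.X.presheaf.germ ⊤ (genericPoint X.X) trivial := by
      ext c
      rfl
    rw [h6]
    simp only [Category.assoc, Iso.hom_inv_id_assoc]
    rfl
  let S : ValuativeCommSq (X.X ↘ SpecC) :=
    { R := V
      K := X.K
      i₁ := i₁
      i₂ := i₂
      commSq := ⟨hsq⟩ }
  have hl : ∃ l : Spec (CommRingCat.of V) ⟶ X.X, Spec.map j ≫ l = i₁ := by
    obtain ⟨⟨⟨l, hl1, -⟩⟩⟩ := hex S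
    exact ⟨l, hl1⟩
  obtain ⟨l, hl1⟩ := hl
  have h1 : Spec.map (Scheme.stalkClosedPointTo l) ≫
      X.X.fromSpecStalk (l (IsLocalRing.closedPoint V)) = l :=
    Scheme.Spec_stalkClosedPointTo_fromSpecStalk l
  have h2 : Spec.map (X.X.presheaf.stalkSpecializes ((genericPoint_spec X.X).specializes
      (Set.mem_univ (l (IsLocalRing.closedPoint V))))) ≫
      X.X.fromSpecStalk (l (IsLocalRing.closedPoint V)) = i₁ :=
    Scheme.SpecMap_stalkSpecializes_fromSpecStalk _
  rw [← h2] at hl1
  have h3 : Spec.map (Scheme.stalkClosedPointTo l ≫ j) ≫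
      X.X.fromSpecStalk (l (IsLocalRing.closedPoint V)) =
      Spec.map (X.X.presheaf.stalkSpecializes ((genericPoint_spec X.X).specializes
      (Set.mem_univ (l (IsLocalRing.closedPoint V))))) ≫
      X.X.fromSpecStalk (l (IsLocalRing.closedPoint V)) := by
    rw [Spec.map_comp, Category.assoc, h1]
    exact hl1
  have h4 := Spec.map_injective ((cancel_mono _).1 h3)
  have h5 : ∀ a : X.X.presheaf.stalk (l (IsLocalRing.closedPoint V)),
      toK _ a = (((Scheme.stalkClosedPointTo l).hom a : V) : X.K) := by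
    intro a
    have h5 := congrArg (fun f => f.hom a) h4
    exact h5.symm
  refine ⟨l (IsLocalRing.closedPoint V), ?_, ?_⟩
  · rintro _ ⟨a, rfl⟩
    change toK _ a ∈ V
    rw [h5]
    exact ((Scheme.stalkClosedPointTo l).hom a).2
  · rintro _ ⟨a, rfl⟩ ha0 hinv
    change (toK _ a)⁻¹ ∈ V at hinv
    change toK _ a ≠ 0 at ha0
    have h6 : IsUnit ((Scheme.stalkClosedPointTo l).hom a : V) := by
      refine IsUnit.of_mul_eq_one ⟨(toK _ a)⁻¹, hinv⟩ ?_
      apply Subtype.ext
      change ((Scheme.stalkClosedPointTo l).hom a : X.K) * (toK _ a)⁻¹ = 1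
      rw [← h5, mul_inv_cancel₀ ha0]
    have h7 : IsUnit a := isUnit_of_map_unit (Scheme.stalkClosedPointTo l).hom a h6
    obtain ⟨b, hb⟩ := h7.exists_right_inv
    refine ⟨b, ?_⟩
    change toK _ b = (toK _ a)⁻¹
    have h8 := congrArg (toK _) hb
    rw [map_mul, map_one] at h8
    exact eq_inv_of_mul_eq_one_right h8

/-- The variety `W` has the function field `ℂ(z_1, …, z_n)`, with `n = dim W`, and `(1 : z_1 : … : z_n)`
is a morphism from `W` to the projective space. -/
structure PnModel {n : ℕ} {W : Var} (z : Fin n → W.K) : Prop where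
  dim : W.dim = n
  gen : ∀ F : Subfield W.K, (∀ c, algebraMap ℂ W.K c ∈ F) → (∀ i, z i ∈ F) → F = ⊤
  mor : ∀ w : W.X, (∀ i, z i ∈ locRing W w) ∨
    ∃ j, (z j)⁻¹ ∈ locRing W w ∧ ∀ i, z i / z j ∈ locRing W w

namespace PnModel

variable {n : ℕ} {W : Var} {z : Fin n → W.K}

/-- The polynomial functions of the `z_i`. -/
noncomputable abbrev ev (z : Fin n → W.K) : MvPolynomial (Fin n) ℂ →ₐ[ℂ] W.K :=
  MvPolynomial.aeval z

variable (h : PnModel z)

include h

theorem algebraicIndependent : AlgebraicIndependent ℂ z := by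
  obtain ⟨y, hy⟩ := exists_algebraicIndependent (k := ℂ) (K := W.K) z h.gen
  have hd : Module.finrank W.K (Derivation ℂ W.K W.K) = n := h.dim
  have hinj : Function.Injective y := fun a b hab => hy.injective (congrArg z hab)
  have hbij : Function.Bijective y := by
    rw [Fintype.bijective_iff_injective_and_card]
    exact ⟨hinj, by rw [Fintype.card_fin, Fintype.card_fin, hd]⟩
  let e := Equiv.ofBijective y hbij
  have h1 := hy.comp e.symm e.symm.injective
  have h2 : ((fun i => z (y i)) ∘ e.symm) = z := by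
    funext i
    exact congrArg z (e.apply_symm_apply i)
  rwa [h2] at h1

theorem ev_injective : Function.Injective (ev z) :=
  algebraicIndependent_iff_injective_aeval.1 h.algebraicIndependent

theorem ev_ne_zero {p : MvPolynomial (Fin n) ℂ} (hp : p ≠ 0) : ev z p ≠ 0 := fun h0 =>
  hp (h.ev_injective (h0.trans (map_zero _).symm))

theorem exists_frac (f : W.K) : ∃ p q : MvPolynomial (Fin n) ℂ, ev z q ≠ 0 ∧
    f = ev z p / ev z q := by
  let F : Subfield W.K :=
    { carrier := {f | ∃ p q, ev z q ≠ 0 ∧ f = ev z p / ev z q}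
      mul_mem' := by
        rintro _ _ ⟨p, q, hq, rfl⟩ ⟨p', q', hq', rfl⟩
        refine ⟨p * p', q * q', by rw [map_mul]; exact mul_ne_zero hq hq', ?_⟩
        rw [map_mul, map_mul, div_mul_div_comm]
      one_mem' := ⟨1, 1, by rw [map_one]; exact one_ne_zero, by rw [map_one, div_one]⟩
      add_mem' := by
        rintro _ _ ⟨p, q, hq, rfl⟩ ⟨p', q', hq', rfl⟩
        refine ⟨p * q' + q * p', q * q', by rw [map_mul]; exact mul_ne_zero hq hq', ?_⟩
        rw [map_add, map_mul, map_mul, map_mul, div_add_div _ _ hq hq']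
      zero_mem' := ⟨0, 1, by rw [map_one]; exact one_ne_zero, by rw [map_zero, zero_div]⟩
      neg_mem' := by
        rintro _ ⟨p, q, hq, rfl⟩
        exact ⟨-p, q, hq, by rw [map_neg, neg_div]⟩
      inv_mem' := by
        rintro _ ⟨p, q, hq, rfl⟩
        by_cases hp : ev z p = 0
        · exact ⟨0, 1, by rw [map_one]; exact one_ne_zero, by rw [hp, map_zero]; simp⟩
        · exact ⟨q, p, hp, by rw [inv_div]⟩ }
  have h1 : F = ⊤ := h.gen F
    (fun a => ⟨MvPolynomial.C a, 1, by rw [map_one]; exact one_ne_zero, by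
      change _ = MvPolynomial.aeval z (MvPolynomial.C a) / MvPolynomial.aeval z 1
      rw [MvPolynomial.aeval_C, map_one, div_one]⟩)
    (fun i => ⟨MvPolynomial.X i, 1, by rw [map_one]; exact one_ne_zero, by
      change _ = MvPolynomial.aeval z (MvPolynomial.X i) / MvPolynomial.aeval z 1
      rw [MvPolynomial.aeval_X, map_one, div_one]⟩)
  have h2 : f ∈ F := by
    rw [h1]
    exact Subfield.mem_top f
  exact h2

/-- The valuation ring of the irreducible polynomial `p`. -/
def valRing {p : MvPolynomial (Fin n) ℂ} (hp : Prime p) : ValuationSubring W.K where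
  carrier := {g | ∃ a b, ¬ p ∣ b ∧ g * ev z b = ev z a}
  mul_mem' := by
    rintro g g' ⟨a, b, hb, hab⟩ ⟨a', b', hb', hab'⟩
    refine ⟨a * a', b * b', fun h => (hp.dvd_or_dvd h).elim hb hb', ?_⟩
    rw [map_mul, map_mul, ← hab, ← hab']
    ring
  one_mem' := ⟨1, 1, fun h => hp.not_isUnit (isUnit_of_dvd_one h), by rw [one_mul]⟩
  add_mem' := by
    rintro g g' ⟨a, b, hb, hab⟩ ⟨a', b', hb', hab'⟩
    refine ⟨a * b' + a' * b, b * b', fun h => (hp.dvd_or_dvd h).elim hb hb', ?_⟩
    rw [map_mul, map_add, map_mul, map_mul, ← hab, ← hab']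
    ring
  zero_mem' := ⟨0, 1, fun h => hp.not_isUnit (isUnit_of_dvd_one h), by rw [zero_mul, map_zero]⟩
  neg_mem' := by
    rintro g ⟨a, b, hb, hab⟩
    exact ⟨-a, b, hb, by rw [map_neg, ← hab, neg_mul]⟩
  mem_or_inv_mem' := by
    intro g
    obtain ⟨a, b, hb, rfl⟩ := h.exists_frac g
    have hb0 : b ≠ 0 := by
      rintro rfl
      exact hb (map_zero _)
    by_cases ha0 : a = 0
    · left
      refine ⟨0, 1, fun h => hp.not_isUnit (isUnit_of_dvd_one h), ?_⟩
      rw [ha0, map_zero, zero_div, zero_mul]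
    obtain ⟨k, a', ha', hak⟩ := WfDvdMonoid.max_power_factor ha0 hp.irreducible
    obtain ⟨l, b', hb', hbl⟩ := WfDvdMonoid.max_power_factor hb0 hp.irreducible
    have hpK := h.ev_ne_zero hp.ne_zero
    have ha'0 : a' ≠ 0 := by
      rintro rfl
      exact ha' (dvd_zero _)
    have hb'0 : b' ≠ 0 := by
      rintro rfl
      exact hb' (dvd_zero _)
    have ha'K := h.ev_ne_zero ha'0
    have hb'K := h.ev_ne_zero hb'0
    rcases le_total l k with hlk | hlk
    · left
      obtain ⟨m, rfl⟩ := Nat.exists_eq_add_of_le hlk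
      refine ⟨p ^ m * a', b', hb', ?_⟩
      rw [hak, hbl]
      simp only [map_mul, map_pow]
      field_simp
      ring
    · right
      obtain ⟨m, rfl⟩ := Nat.exists_eq_add_of_le hlk
      refine ⟨p ^ m * b', a', ha', ?_⟩
      rw [hak, hbl]
      simp only [map_mul, map_pow]
      field_simp
      ring

theorem mem_valRing {p : MvPolynomial (Fin n) ℂ} (hp : Prime p) {g : W.K} :
    g ∈ h.valRing hp ↔ ∃ a b, ¬ p ∣ b ∧ g * ev z b = ev z a := Iff.rfl

omit h in
theorem ev_mem {w : W.X} (hw : ∀ i, z i ∈ locRing W w) (p : MvPolynomial (Fin n) ℂ) :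
    ev z p ∈ locRing W w := by
  induction p using MvPolynomial.induction_on with
  | C a =>
    change MvPolynomial.aeval z (MvPolynomial.C a) ∈ _
    rw [MvPolynomial.aeval_C]
    exact const_mem_locRing w a
  | add p q hp hq =>
    rw [map_add]
    exact add_mem hp hq
  | mul_X p i hp =>
    rw [map_mul]
    refine mul_mem hp ?_
    change MvPolynomial.aeval z (MvPolynomial.X i) ∈ _
    rw [MvPolynomial.aeval_X]
    exact hw i

/-- **The prime divisor of `W` given by an irreducible polynomial.** -/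
theorem exists_pt {p : MvPolynomial (Fin n) ℂ} (hp : Prime p) :
    ∃ w : W.X, coheight w = 1 ∧ (∀ i, z i ∈ locRing W w) ∧
      ∀ g, g ∈ locRing W w ↔ ∃ a b, ¬ p ∣ b ∧ g * ev z b = ev z a := by
  have hone : ∀ b : MvPolynomial (Fin n) ℂ, ev z b ∈ h.valRing hp := fun b =>
    ⟨b, 1, fun h => hp.not_isUnit (isUnit_of_dvd_one h), by rw [map_one, mul_one]⟩
  have hinv : ∀ b : MvPolynomial (Fin n) ℂ, ¬ p ∣ b → (ev z b)⁻¹ ∈ h.valRing hp := by
    intro b hb
    have hb0 : b ≠ 0 := by
      rintro rfl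
      exact hb (dvd_zero _)
    exact ⟨1, b, hb, by rw [inv_mul_cancel₀ (h.ev_ne_zero hb0), map_one]⟩
  have hz : ∀ i, z i ∈ h.valRing hp := fun i => by
    have h1 := hone (MvPolynomial.X i)
    rwa [show ev z (MvPolynomial.X i) = z i from MvPolynomial.aeval_X z i] at h1
  obtain ⟨w, hw1, hw2⟩ := exists_center_dom W (h.valRing hp) fun c => by
    have h1 := hone (MvPolynomial.C c)
    rwa [show ev z (MvPolynomial.C c) = algebraMap ℂ W.K c from MvPolynomial.aeval_C z c] at h1
  have hzw : ∀ i, z i ∈ locRing W w := by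
    rcases h.mor w with h1 | ⟨j, h1, h2⟩
    · exact h1
    · have hj0 : z j ≠ 0 := by
        have h3 := h.ev_ne_zero (MvPolynomial.X_ne_zero (R := ℂ) j)
        rwa [show ev z (MvPolynomial.X j) = z j from MvPolynomial.aeval_X z j] at h3
      have h3 : z j ∈ locRing W w := by
        have h4 := hw2 (z j)⁻¹ h1 (inv_ne_zero hj0) (by rw [inv_inv]; exact hz j)
        rwa [inv_inv] at h4
      intro i
      have h4 := mul_mem (h2 i) h3
      rwa [div_mul_cancel₀ _ hj0] at h4
  have hiff : ∀ g, g ∈ locRing W w ↔ ∃ a b, ¬ p ∣ b ∧ g * ev z b = ev z a := by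
    intro g
    refine ⟨fun hg => hw1 g hg, ?_⟩
    rintro ⟨a, b, hb, hab⟩
    have hb0 : b ≠ 0 := by
      rintro rfl
      exact hb (dvd_zero _)
    have h1 := hw2 (ev z b) (ev_mem hzw b) (h.ev_ne_zero hb0) (hinv b hb)
    have h2 := mul_mem (ev_mem hzw a) h1
    rwa [← hab, mul_assoc, mul_inv_cancel₀ (h.ev_ne_zero hb0), mul_one] at h2
  refine ⟨w, ?_, hzw, hiff⟩
  -- the local ring is a discrete valuation ring
  obtain ⟨π, hπ⟩ := ev_mem hzw p
  have hπ' : toK w π = ev z p := hπ
  have hnu : ¬ IsUnit π := by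
    intro hu
    obtain ⟨c, hc⟩ := hu.exists_right_inv
    have h1 := congrArg (toK w) hc
    rw [map_mul, map_one, hπ'] at h1
    obtain ⟨a, b, hb, hab⟩ := (hiff (toK w c)).1 ⟨c, rfl⟩
    apply hb
    refine ⟨a, h.ev_injective ?_⟩
    rw [map_mul, ← hab, ← mul_assoc, h1, one_mul]
  have hπ0 : π ≠ 0 := by
    rintro rfl
    rw [map_zero] at hπ'
    exact h.ev_ne_zero hp.ne_zero hπ'.symm
  have hnf : ¬ IsField (W.X.presheaf.stalk w) := by
    intro hf
    let _ := hf.toField
    exact hnu (isUnit_iff_ne_zero.2 hπ0)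
  have hprin : (IsLocalRing.maximalIdeal (W.X.presheaf.stalk w)).IsPrincipal := by
    refine ⟨⟨π, le_antisymm ?_ ?_⟩⟩
    · intro a ha
      rw [IsLocalRing.mem_maximalIdeal] at ha
      obtain ⟨α, β, hβ, hαβ⟩ := (hiff (toK w a)).1 ⟨a, rfl⟩
      have hβ0 : β ≠ 0 := by
        rintro rfl
        exact hβ (dvd_zero _)
      have hβK := h.ev_ne_zero hβ0
      have hpα : p ∣ α := by
        by_contra hc
        apply ha
        have hα0 : α ≠ 0 := by
          rintro rfl
          exact hc (dvd_zero _)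
        have hαK := h.ev_ne_zero hα0
        obtain ⟨b, hb⟩ := (hiff (ev z β / ev z α)).2 ⟨β, α, hc, by field_simp⟩
        refine IsUnit.of_mul_eq_one b (toK_injective w ?_)
        have hb' : toK w b = ev z β / ev z α := hb
        rw [map_mul, map_one, hb', ← hαβ]
        have ha0 : toK w a ≠ 0 := by
          intro h0
          rw [h0, zero_mul] at hαβ
          exact hαK hαβ.symm
        field_simp
      obtain ⟨γ, hγ⟩ := hpα
      obtain ⟨c, hc⟩ := (hiff (ev z γ / ev z β)).2 ⟨γ, β, hβ, by field_simp⟩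
      have hc' : toK w c = ev z γ / ev z β := hc
      change a ∈ Ideal.span {π}
      rw [Ideal.mem_span_singleton]
      refine ⟨c, toK_injective w ?_⟩
      rw [map_mul, hπ', hc']
      rw [hγ, map_mul] at hαβ
      rw [mul_div_assoc', eq_div_iff hβK, hαβ]
    · rw [Ideal.submodule_span_eq, Ideal.span_singleton_le_iff_mem, IsLocalRing.mem_maximalIdeal]
      exact hnu
  have hdvr : IsDiscreteValuationRing (W.X.presheaf.stalk w) :=
    ((IsDiscreteValuationRing.TFAE (W.X.presheaf.stalk w) hnf).out 4 0).1 hprin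
  have h1 := ringKrullDim_stalk_eq_coheight w
  rw [IsDiscreteValuationRing.ringKrullDim_eq_one] at h1
  exact_mod_cast h1.symm

end PnModel

end Vale.Agent.P299.Q
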