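import Vale.Agent.P299.Q.TopY

/-!
# The section of `K + (n + 1) A` given by the coordinates
-/

open CategoryTheory TopologicalSpace Opposite TopCat AlgebraicGeometry Order

namespace Vale.Agent.P299.Q

open Vale.Agent.P299.G

variable {n : ℕ} {Y : Var} {x : Fin n → Y.K}

/-- The coordinates in the `k`-th chart. -/
noncomputable def chart (x : Fin n → Y.K) (k : Fin n) (i : Fin n) : Y.K :=
  if i = k then (x k)⁻¹ else x i / x k

/-- The Jacobian determinant in the other charts of the projective space. -/
theorem det_chart (u : Fin n → Y.Der) {k : Fin n} (hk : x k ≠ 0) :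
    (Matrix.of fun i j => u j (x i)).det =
      -(x k) ^ (n + 1) * (Matrix.of fun i j => u j (chart x k i)).det := by
  classical
  let d : Fin n → Y.K := fun i => if i = k then -(x k) ^ 2 else x k
  have hd : ∏ i, d i = -(x k) ^ (n + 1) := by
    have h1 : ∀ i, d i = x k * (if i = k then -(x k) else 1) := by
      intro i
      by_cases h : i = k
      · simp only [d, if_pos h]
        ring
      · simp only [d, if_neg h, mul_one]
    rw [Finset.prod_congr rfl fun i _ => h1 i, Finset.prod_mul_distrib, Finset.prod_const,
      Finset.card_univ, Fintype.card_fin, Finset.prod_ite_eq' Finset.univ k fun _ => -(x k),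
      if_pos (Finset.mem_univ k)]
    ring
  let B : Matrix (Fin n) (Fin n) Y.K := Matrix.of fun i j => d i * u j (chart x k i)
  have hB : B.det = (∏ i, d i) * (Matrix.of fun i j => u j (chart x k i)).det :=
    Matrix.det_mul_column d (Matrix.of fun i j => u j (chart x k i))
  rw [← hd, ← hB]
  have hBk : ∀ j, B k j = u j (x k) := by
    intro j
    change d k * u j (chart x k k) = _
    have h1 : chart x k k = (x k)⁻¹ := if_pos rfl
    have h2 : d k = -(x k) ^ 2 := if_pos rfl
    rw [h1, h2, Derivation.leibniz_inv, smul_eq_mul]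
    field_simp
  refine Matrix.det_eq_of_forall_row_eq_smul_add_const
    (fun i => if i = k then 0 else x i / x k) k (if_pos rfl) fun i j => ?_
  rw [hBk]
  by_cases hi : i = k
  · subst hi
    rw [if_pos rfl, zero_mul, add_zero, hBk]
    rfl
  · have h1 : chart x k i = x i / x k := if_neg hi
    have h2 : B i j = x k * u j (x i / x k) := by
      change d i * u j (chart x k i) = _
      have h3 : d i = x k := if_neg hi
      rw [h1, h3]
    rw [if_neg hi, h2]
    change u j (x i) = _
    have h3 : x i = x k * (x i / x k) := by field_simp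
    conv_lhs => rw [h3, Derivation.leibniz, smul_eq_mul, smul_eq_mul]

namespace Coords

variable {A : Div Y.X} (h : Coords A x)

include h

/-- `1` is a section of `K + (n + 1) A`, for the divisor `K` of the form `dx_1 ∧ ⋯ ∧ dx_n`. -/
theorem one_mem_canonical {ω : Y.Ten Y.dim} (hω0 : ω ≠ 0) (hω : IsAlt ω)
    (hjac : IsJac h.dim ω x) {κ : Div Y.X} (hκ : IsDivTensor ω κ) :
    (1 : Y.K) ∈ H0 (coef (κ + (n + 1) • A)) := by
  rw [mem_H0]
  intro y hy _
  obtain ⟨s, u, hsu⟩ := exists_fr (X := Y) h.dim y
  have h1 := hsu.genAt h.dim hω0 hω hκ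
  have h2 := h1.ord hy
  have h3 : ω (fun k => u (Fin.cast h.dim k)) = (Matrix.of fun i j => u j (x i)).det := hjac u
  rw [coef_neg, neg_neg] at h2
  have h4 := h1.1
  rw [h3] at h2 h4
  rw [ord_one, coef_add, coef_nsmul, ← h2, zero_add]
  have hmem : ∀ f ∈ locRing Y y, ∀ j, u j f ∈ locRing Y y := fun f hf j =>
    regDer_iff_locRing.1 (hsu.reg j) f hf
  rcases h.gen y with h5 | ⟨k, h5⟩
  · have h6 := h5.ord hy
    rw [ord_one] at h6
    have h7 : coef A y = 0 := by linarith
    have h8 : ∀ i, x i ∈ locRing Y y := by
      intro i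
      refine (og_iff hy).1 fun hne => ?_
      have := mem_H0.1 (h.mem i) y hy hne
      linarith
    have h9 := ord_nonneg_of_locRing (det_mem_locRing (x := y) (M := Matrix.of fun i j => u j (x i))
      fun i j => hmem _ (h8 i) j)
    rw [h7, mul_zero, add_zero]
    exact h9
  · have h6 := h5.ord hy
    have hk := h5.1
    rw [det_chart u hk] at h4 ⊢
    have h7 : (Matrix.of fun i j => u j (chart x k i)).det ≠ 0 := right_ne_zero_of_mul h4
    have h8 := left_ne_zero_of_mul h4
    have h10 : -(x k) ^ (n + 1) = (-1 : ℂ) • (x k) ^ (n + 1) := by rw [neg_smul, one_smul]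
    rw [Scheme.ord_mul h8 h7, h10, ord_smul (-1 : ℂ) (neg_ne_zero.2 one_ne_zero), Q.ord_pow hk]
    have hch : ∀ i, chart x k i ∈ locRing Y y := by
      intro i
      refine (og_iff hy).1 fun hne => ?_
      by_cases hi : i = k
      · have h9 : chart x k i = (x k)⁻¹ := if_pos hi
        rw [h9, Q.ord_inv hk]
        have := mem_H0.1 h.one y hy one_ne_zero
        rw [ord_one] at this
        linarith
      · have h9 : chart x k i = x i / x k := if_neg hi
        have hi0 : x i ≠ 0 := fun h0 => hne (by rw [h9, h0, zero_div])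
        rw [h9, Q.ord_div hi0 hk]
        have := mem_H0.1 (h.mem i) y hy hi0
        linarith
    have h9 := ord_nonneg_of_locRing (det_mem_locRing (x := y)
      (M := Matrix.of fun i j => u j (chart x k i)) fun i j => hmem _ (hch i) j)
    have h11 : coef A y = -Scheme.ord (x k) y := by linarith
    rw [h11]
    push_cast
    linarith

end Coords

end Vale.Agent.P299.Q
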