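import Vale.Agent.P299.Q.TopZ
import Vale.Agent.P299.Q.TopSec
import Vale.Agent.P299.Q.FlFlat
import Vale.Agent.P299.Q.CanonUnique
import Vale.Agent.P299.Q.TorAlt

/-!
# The top cohomology of the canonical divisor does not vanish
-/

open CategoryTheory TopologicalSpace Opposite TopCat AlgebraicGeometry Order

namespace Vale.Agent.P299.Q

open Vale.Agent.P299.G

theorem genAt_of_div {X : Var} {A : Div X.X} {f g : X.K} {y : X.X} (hf : GenAt A f y)
    (hg : g ∈ H0 (coef A)) (hfg : f / g ∈ locRing X y) (hg0 : g ≠ 0) : GenAt A g y := by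
  refine ⟨hg0, fun z hz hzy => ?_⟩
  have h1 := hf.2 z hz hzy
  have h2 := mem_H0.1 hg z hz hg0
  have h3 := ord_nonneg_of_locRing (locRing_le hzy hfg)
  rw [Q.ord_div hf.1 hg0] at h3
  linarith

namespace Coords

variable {n : ℕ} {Y : Var} {A : Div Y.X} {x : Fin n → Y.K} (h : Coords A x)

include h

/-- The models of the fields `ℂ(x)` and `ℂ(Y)`. -/
theorem exists_models (hR : Resolution) (hKN : KollarNadelVanishing) :
    ∃ (W Y₁ : Var) (μ : DomHom Y₁ Y) (φ : DomHom Y₁ W) (z : Fin n → W.K), μ.Birational ∧ φ.Fin ∧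
      (∀ i, φ.pull (z i) = μ.pull (x i)) ∧
      (∀ F : Subfield W.K, (∀ c, algebraMap ℂ W.K c ∈ F) → (∀ i, z i ∈ F) → F = ⊤) ∧
      ∀ w : W.X, (∀ i, z i ∈ locRing W w) ∨
        ∃ j, (z j)⁻¹ ∈ locRing W w ∧ ∀ i, z i / z j ∈ locRing W w := by
  classical
  let L := IntermediateField.adjoin ℂ (Set.range x)
  have hL : Algebra.EssFiniteType ℂ L := by
    rw [IntermediateField.essFiniteType_iff]
    exact IntermediateField.fg_adjoin_of_finite (Set.finite_range x)
  let xL : Fin n → L := fun i => ⟨x i, IntermediateField.subset_adjoin ℂ _ ⟨i, rfl⟩⟩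
  obtain ⟨W, e, hW⟩ := exists_model hR L hL (Fin.cons (α := fun _ => L) 1 xL)
    ⟨0, one_ne_zero⟩
  let ψ : W.K →ₐ[ℂ] Y.K := L.val.comp (e.symm : W.K →ₐ[ℂ] L)
  obtain ⟨Y₁, μ, φ, hμ, hφ⟩ := exists_join hR Y W ψ
  let z : Fin n → W.K := fun i => e (xL i)
  have hψ : ∀ a : L, ψ (e a) = (a : Y.K) := by
    intro a
    change ((e.symm (e a) : L) : Y.K) = _
    rw [e.symm_apply_apply]
  refine ⟨W, Y₁, μ, φ, z, hμ, ?_, fun i => by rw [hφ, hψ], fun F hc hF => ?_, fun w => ?_⟩
  · let _ := φ.pull.toAlgebra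
    have t : IsScalarTower ℂ W.K Y₁.K :=
      IsScalarTower.of_algebraMap_eq fun c => (φ.pull_constant c).symm
    have h0 := essFiniteType Y₁
    have h1 : Algebra.EssFiniteType W.K Y₁.K := Algebra.EssFiniteType.of_comp ℂ W.K Y₁.K
    have h2 : Algebra.IsAlgebraic W.K Y₁.K := by
      refine ⟨fun a => ?_⟩
      obtain ⟨b, rfl⟩ := hμ.2 a
      obtain ⟨p, hp0, hp⟩ := (h.isAlgebraic hKN).isAlgebraic b
      let j : Algebra.adjoin ℂ (Set.range x) →+* L := (Subalgebra.inclusion
        (IntermediateField.algebra_adjoin_le_adjoin ℂ (Set.range x))).toRingHom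
      have hj : Function.Injective j := Subalgebra.inclusion_injective _
      let ι : Algebra.adjoin ℂ (Set.range x) →+* W.K := (e.toRingEquiv.toRingHom).comp j
      have hι : Function.Injective ι := e.injective.comp hj
      refine ⟨p.map ι, (Polynomial.map_ne_zero_iff hι).2 hp0, ?_⟩
      rw [Polynomial.aeval_def, Polynomial.eval₂_map]
      have h3 : (algebraMap W.K Y₁.K).comp ι =
          μ.pull.comp (algebraMap (Algebra.adjoin ℂ (Set.range x)) Y.K) := by
        refine RingHom.ext fun c => ?_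
        change φ.pull (e (j c)) = μ.pull (c : Y.K)
        rw [hφ, hψ]
        rfl
      rw [h3, ← Polynomial.hom_eval₂]
      rw [Polynomial.aeval_def] at hp
      rw [hp, map_zero]
    exact finiteDimensional_of_essFiniteType W.K Y₁.K
  · let S : IntermediateField ℂ L :=
      { F.comap e.toRingEquiv.toRingHom with
        algebraMap_mem' := fun c => by
          change e (algebraMap ℂ L c) ∈ F
          rw [e.commutes]
          exact hc c }
    have hS : ∀ a : L, a ∈ S ↔ e a ∈ F := fun a => Iff.rfl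
    have hle : L ≤ S.map L.val := by
      refine IntermediateField.adjoin_le_iff.2 ?_
      rintro _ ⟨i, rfl⟩
      exact ⟨xL i, (hS _).2 (hF i), rfl⟩
    rw [eq_top_iff]
    intro f _
    obtain ⟨a, ha, hae⟩ := hle (e.symm f).2
    have h1 : a = e.symm f := Subtype.ext hae
    rw [h1] at ha
    have h2 := (hS _).1 ha
    rwa [e.apply_symm_apply] at h2
  · obtain ⟨i, hi, hl⟩ := hW w
    revert hi hl
    refine Fin.cases (fun hi hl => ?_) (fun j hj hl => ?_) i
    · left
      intro i
      have := hl i.succ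
      rw [Fin.cons_zero, Fin.cons_succ, map_one, div_one] at this
      exact this
    · right
      refine ⟨j, ?_, fun i => ?_⟩
      · have := hl 0
        rw [Fin.cons_zero, Fin.cons_succ, map_one, one_div] at this
        exact this
      · have := hl i.succ
        rw [Fin.cons_succ, Fin.cons_succ] at this
        exact this

end Coords

/-- The top cohomology of the canonical divisor does not vanish. -/
theorem Coords.not_subsingleton (hKN : KollarNadelVanishing) (hR : Resolution) {m : ℕ} {Y : Var}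
    {A : Div Y.X} {x : Fin (m + 1) → Y.K} (h : Coords A x) {ω : Y.Ten Y.dim} (hω0 : ω ≠ 0)
    (hω : IsAlt ω) (hjac : IsJac h.dim ω x) {κ : Div Y.X} (hκ : IsDivTensor ω κ)
    (hsub : Subsingleton (Coh (secSheaf (S := (Y.X : TopCat.{0})) id ⊤ κ) Y.dim)) : False := by
  have hFS := factorialStalks
  have hκc : IsCanonicalDivisor κ := ⟨ω, hω0, hω, hκ⟩
  -- `1` as a combination of sections of `κ + n A`
  obtain ⟨g, hg, hsum⟩ := exists_of_mem_H0 hFS (TAct.trivial Y) (DomHom.id Y)
    ((TAct.trivial Y).invHom_zero _) (κ + (m + 1) • A) (isPullback_id hFS A)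
    (Fin.cons (α := fun _ => Y.K) 1 x) h.all_mem h.all_gen (fun k i hi hiN => by
      rw [(TAct.trivial Y).inv_zero]
      rcases Nat.lt_or_ge (m + 1) i with h1 | h1
      · have h2 := (serre_id hKN (κ + (m + 1) • A + k • A - i • A)).good 0
        rw [map_zero, add_zero] at h2
        refine h2.2 i ?_
        rw [h.dim]
        exact h1
      · obtain ⟨c, hc⟩ := Nat.exists_eq_add_of_le (show i ≤ m + 1 + k by omega)
        have e : κ + (m + 1) • A + k • A - i • A = κ + c • A := by
          rw [add_assoc, ← add_smul, hc, add_smul]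
          abel
        rw [e]
        rcases Nat.eq_zero_or_pos c with h2 | h2
        · have h3 : i = Y.dim := by
            rw [h.dim]
            omega
          rw [h2, zero_smul, add_zero, h3]
          exact hsub
        · exact kodaira hKN hFS hκc (h.ample.nsmul h2) i hi) 0 1
    (by rw [(TAct.trivial Y).inv_zero]; trivial) (by
      have h1 := h.one_mem_canonical hω0 hω hjac hκ
      have e : κ + (m + 1) • A + (0 + 1) • A = κ + (m + 1 + 1) • A := by
        rw [zero_add, add_smul (m + 1) 1]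
        abel
      rwa [e])
  -- the models
  obtain ⟨W, Y₁, μ, φ, z, hμ, hφ, hz, hgen, hmor⟩ := h.exists_models hR hKN
  have hdim1 : Y₁.dim = m + 1 := hμ.dim_eq.trans h.dim
  have hdimW : W.dim = m + 1 := hφ.alg.dim_eq.symm.trans hdim1
  have hPn : PnModel z := ⟨hdimW, hgen, hmor⟩
  obtain ⟨η, hη0, hη, hηjac⟩ := exists_isJac hPn.dim hPn.pd_dual hPn.pd_expand
  obtain ⟨κW, hκW⟩ := exists_isDivTensor hη0
  -- the divisor `A` on `W`
  obtain ⟨B, hB, hBgen⟩ := exists_principal_divisor (W := W)
    (v := (Fin.cons (α := fun _ => W.K) 1 z : Fin (m + 2) → W.K)) fun w => by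
      rcases hmor w with h1 | ⟨j, h1, h2⟩
      · refine ⟨0, one_ne_zero, fun j => ?_⟩
        rw [Fin.cons_zero, div_one]
        refine Fin.cases ?_ (fun i => ?_) j
        · exact one_mem _
        · exact h1 i
      · refine ⟨j.succ, hPn.z_ne_zero j, fun i => ?_⟩
        rw [Fin.cons_succ]
        refine Fin.cases ?_ (fun i => ?_) i
        · rw [Fin.cons_zero, one_div]
          exact h1
        · rw [Fin.cons_succ]
          exact h2 i
  have hB1 : (1 : W.K) ∈ H0 (coef B) := hB 0
  have hBz : ∀ i, z i ∈ H0 (coef B) := fun i => hB i.succ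
  have hB0 : ∀ w, (∀ i, z i ∈ locRing W w) → GenAt B 1 w := by
    intro w hw
    obtain ⟨j, hj⟩ := hBgen w
    refine genAt_of_div hj hB1 ?_ one_ne_zero
    rw [div_one]
    refine Fin.cases ?_ (fun i => ?_) j
    · exact one_mem _
    · exact hw i
  have hB0' : ∀ w, (∀ i, flip z i ∈ locRing W w) → GenAt B (z 0) w := by
    intro w hw
    obtain ⟨j, hj⟩ := hBgen w
    refine genAt_of_div hj (hBz 0) ?_ (hPn.z_ne_zero 0)
    clear hj
    refine Fin.cases ?_ (fun i => ?_) j
    · rw [Fin.cons_zero, one_div]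
      exact hw 0
    · rw [Fin.cons_succ]
      refine Fin.cases ?_ (fun i => ?_) i
      · rw [div_self (hPn.z_ne_zero 0)]
        exact one_mem _
      · exact hw i.succ
  -- the pull backs
  obtain ⟨A₁, hA₁⟩ := exists_isPullback hFS μ A
  obtain ⟨B₁, hB₁⟩ := exists_isPullback hFS φ B
  have hAB : A₁ = B₁ := by
    refine div_ext fun y hy => le_antisymm ?_ ?_
    · obtain ⟨j, hj⟩ := h.all_gen (μ.f y)
      have h1 := hA₁.ord_pull hFS hy hj
      have h2 : φ.pull (Fin.cons (α := fun _ => W.K) 1 z j) =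
          μ.pull (Fin.cons (α := fun _ => Y.K) 1 x j) := by
        refine Fin.cases ?_ (fun i => ?_) j
        · rw [Fin.cons_zero, Fin.cons_zero, map_one, map_one]
        · rw [Fin.cons_succ, Fin.cons_succ, hz]
      have h3 := mem_H0.1 (hB₁.pull_mem_H0 hFS (hB j)) y hy (by
        rw [h2]
        exact μ.pull_ne_zero hj.1)
      rw [h2] at h3
      linarith
    · obtain ⟨j, hj⟩ := hBgen (φ.f y)
      have h1 := hB₁.ord_pull hFS hy hj
      have h2 : φ.pull (Fin.cons (α := fun _ => W.K) 1 z j) =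
          μ.pull (Fin.cons (α := fun _ => Y.K) 1 x j) := by
        refine Fin.cases ?_ (fun i => ?_) j
        · rw [Fin.cons_zero, Fin.cons_zero, map_one, map_one]
        · rw [Fin.cons_succ, Fin.cons_succ, hz]
      have h3 := mem_H0.1 (hA₁.pull_mem_H0 hFS (h.all_mem j)) y hy (by
        rw [← h2]
        exact φ.pull_ne_zero hj.1)
      rw [← h2] at h3
      linarith
  -- the form on `Y₁`
  obtain ⟨κ', κ₀, E, hκ', hκ₀, hκE, hE, -⟩ :=
    exists_relative_canonical_form hFS hμ hω0 hω hκ
  have hup : IsJac hdim1 (hμ.upTop ω) fun i => φ.pull (z i) := by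
    have h1 := IsJac.upTop hμ (hX := hdim1) hjac
    have h2 : (fun i => φ.pull (z i)) = fun i => μ.pull (x i) := funext hz
    rw [h2]
    exact h1
  have htr : ∀ f ∈ H0 (coef (κ + (m + 1) • A)), φ.tr (μ.pull f) = 0 := by
    intro f hf
    have h1 := (hκ₀.add (hA₁.nsmul (m + 1))).pull_mem_H0 hFS hf
    have h2 : μ.pull f ∈ H0 (coef (κ' + (m + 1) • B₁)) := by
      rw [mem_H0] at h1 ⊢
      intro y hy hne
      have h3 := h1 y hy hne
      have h4 : 0 ≤ coef E y := by
        rw [coef_mk hy]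
        exact hE ⟨y, hy⟩
      rw [hAB] at h3
      rw [hκE]
      simp only [coef_add] at h3 ⊢
      linarith
    have h3 := hηjac.tr_mem hFS hφ hup hη0 hη (hμ.upTop_ne_zero hω0) (hμ.upTop_isAlt hω) hκW hκ'
      (hB₁.nsmul (m + 1)) h2
    exact hPn.eq_zero_of_mem hη0 hη hηjac hκW hB0 hB0' h3
  -- the trace of `1`
  obtain ⟨d, hd, htr1⟩ := hφ.tr_pull
  have h1 : φ.tr (μ.pull 1) = 0 := by
    rw [hsum, map_sum, φ.tr_sum]
    refine Finset.sum_eq_zero fun j _ => ?_
    have hg' : g j ∈ H0 (coef (κ + (m + 1) • A)) := by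
      have := (hg j).2
      rwa [zero_smul, add_zero] at this
    have h2 : φ.pull (Fin.cons (α := fun _ => W.K) 1 z j) =
        μ.pull (Fin.cons (α := fun _ => Y.K) 1 x j) := by
      refine Fin.cases ?_ (fun i => ?_) j
      · rw [Fin.cons_zero, Fin.cons_zero, map_one, map_one]
      · rw [Fin.cons_succ, Fin.cons_succ, hz]
    rw [DomHom.pull_id, map_mul, ← h2, φ.tr_mul, htr _ hg', mul_zero]
  rw [map_one] at h1
  have h2 := htr1 1
  rw [map_one, h1, mul_one] at h2
  have hchar : CharZero W.K := charZero_of_injective_algebraMap (algebraMap ℂ W.K).injective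
  have h3 : ((d : ℕ) : W.K) ≠ 0 := Nat.cast_ne_zero.2 hd.ne'
  exact h3 h2.symm

theorem Coords.hX_ne_zero (hKN : KollarNadelVanishing) (hR : Resolution) {n : ℕ} {Y : Var}
    {A : Div Y.X} {x : Fin n → Y.K} (h : Coords A x) {κ : Div Y.X} (hκ : IsCanonicalDivisor κ) :
    hX κ Y.dim ≠ 0 := by
  have hFS := factorialStalks
  rcases n with _ | m
  · have h0 : κ = 0 := div_ext fun y hy => by
      have h1 := coheight_le_dim Y y
      rw [h.dim, hy] at h1
      exact absurd h1 (by norm_num)
    rw [h0, h.dim]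
    have h2 : hX (0 : Div Y.X) 0 = 1 := hh_zero_zero Y (hFS Y) _ _ trivial
    rw [h2]
    exact one_ne_zero
  · intro h0
    obtain ⟨w, hw1, hw2⟩ := h.exists_dual hKN
    obtain ⟨ω, hω0, hω, hjac⟩ := exists_isJac h.dim hw1 hw2
    obtain ⟨κ', hκ'⟩ := exists_isDivTensor hω0
    obtain ⟨g, P, hP, rfl⟩ := hκ.exists_principal ⟨ω, hω0, hω, hκ'⟩
    refine h.not_subsingleton hKN hR hω0 hω hjac hκ' ?_
    have h1 : hX (κ + P) Y.dim = 0 := by
      rw [← h0]
      exact hh_add_principal id ⊤ hP (fun _ => ⟨fun _ => trivial, fun _ => trivial⟩) κ Y.dim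
    have h2 := (serre_id hKN (κ + P)).good 0
    rw [map_zero, add_zero] at h2
    have h3 : Module.Finite ℂ (Coh (secSheaf (S := (Y.X : TopCat.{0})) id ⊤ (κ + P)) Y.dim) :=
      h2.1 Y.dim
    exact Module.finrank_zero_iff.1 h1

/-- **The top cohomology of the canonical divisor does not vanish.** -/
theorem hX_canonical_ne_zero (hKN : KollarNadelVanishing) (hR : Resolution) {Y : Var}
    {κ : Div Y.X} (hκ : IsCanonicalDivisor κ) : hX κ Y.dim ≠ 0 := by
  obtain ⟨A, x, h⟩ := exists_coords Y
  exact h.hX_ne_zero hKN hR hκ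

/-- If `Y` has no regular forms of positive degree, then the Euler characteristic of the canonical
divisor is nonzero. -/
theorem chi_canonical_ne_zero_of_resolution (hKN : KollarNadelVanishing) (hLef : HardLefschetz)
    (hR : Resolution) {Y : Var} {κ : Div Y.X} (hκ : IsCanonicalDivisor κ) (h : NoForms Y) :
    chi κ ≠ 0 := by
  have hFS : FactorialStalks := factorialStalks
  have h0 : ∀ i, i ≠ Y.dim → hX κ i = 0 := by
    intro i hi
    by_contra hne
    obtain ⟨p, hp, e, he, hea, htw⟩ := hLef Y κ 0 hκ (isGenerated_zero.semiPos hFS) i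
      (by rwa [add_zero])
    rcases Nat.eq_zero_or_pos p with hp0 | hp0
    · omega
    · exact he (h p e hp0 hea htw)
  have h1 := hX_canonical_ne_zero hKN hR hκ
  have h2 : chi κ = (-1) ^ Y.dim * (hX κ Y.dim : ℤ) := by
    unfold chi
    rw [Finset.sum_eq_single Y.dim]
    · rfl
    · intro i _ hi
      have h3 : hh (S := (Y.X : TopCat.{0})) id ⊤ κ i = 0 := h0 i hi
      rw [h3]
      simp
    · intro hni
      exact absurd (Finset.mem_range.2 (Nat.lt_succ_self _)) hni
  rw [h2]
  exact mul_ne_zero (pow_ne_zero _ (by norm_num)) (by exact_mod_cast h1)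

end Vale.Agent.P299.Q
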