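import Vale.Agent.P299.Q.NefCrit
import Vale.Agent.P299.Q.TorForm
import Vale.Agent.P299.Q.Canon

/-!
# Traces of top forms
-/

open CategoryTheory TopologicalSpace Opposite TopCat AlgebraicGeometry Order

namespace Vale.Agent.P299.Q

open Vale.Agent.P299.G

/-- The form `dz_1 ∧ ⋯ ∧ dz_n`. -/
def IsJac {X : Var} {N : ℕ} (hN : X.dim = N) (ω : X.Ten X.dim) (z : Fin N → X.K) : Prop :=
  ∀ v : Fin N → X.Der, topVal hN ω v = (Matrix.of fun i j => v j (z i)).det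

variable {X Y : Var}

/-- The values of the pulled back form. -/
theorem IsJac.pull_eq {N : ℕ} {hX : X.dim = N} {hY : Y.dim = N} {ω : Y.Ten Y.dim}
    {ω' : X.Ten X.dim} {z : Fin N → Y.K} {φ : DomHom X Y} (h : IsJac hY ω z)
    (h' : IsJac hX ω' fun i => φ.pull (z i)) {s : Fin N → Y.K} {w : Fin N → Y.Der}
    (h1 : ∀ i j, w i (s j) = if i = j then 1 else 0) (h2 : ∀ v : Y.Der, v = ∑ i, v (s i) • w i)
    (δ : Fin N → X.Der) :
    topVal hX ω' δ = φ.pull (topVal hY ω w) * (Matrix.of fun i j => δ j (φ.pull (s i))).det := by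
  rw [h' δ, h w, RingHom.map_det, ← Matrix.det_mul]
  congr 1
  ext i j
  rw [Matrix.of_apply, Matrix.mul_apply, φ.chain h1 h2 (δ j) (z i)]
  refine Finset.sum_congr rfl fun l _ => ?_
  rw [RingHom.mapMatrix_apply, Matrix.map_apply, Matrix.of_apply, Matrix.of_apply, mul_comm]

theorem IsJac.ne_zero {N : ℕ} {hN : X.dim = N} {ω : X.Ten X.dim} {z : Fin N → X.K}
    (h : IsJac hN ω z) {w : Fin N → X.Der} (h1 : ∀ i j, w i (z j) = if i = j then 1 else 0) :
    ω ≠ 0 := by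
  rintro rfl
  have h3 := h w
  have h5 : (Matrix.of fun i j => w j (z i)) = (1 : Matrix (Fin N) (Fin N) X.K) := by
    ext i j
    rw [Matrix.of_apply, h1, Matrix.one_apply]
    by_cases hij : i = j
    · rw [if_pos hij, if_pos hij.symm]
    · rw [if_neg hij, if_neg (Ne.symm hij)]
  rw [h5, Matrix.det_one] at h3
  exact zero_ne_one h3

/-- There is such a form. -/
theorem exists_isJac {N : ℕ} (hN : X.dim = N) {z : Fin N → X.K} {w : Fin N → X.Der}
    (h1 : ∀ i j, w i (z j) = if i = j then 1 else 0) (h2 : ∀ v : X.Der, v = ∑ i, v (z i) • w i) :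
    ∃ ω : X.Ten X.dim, ω ≠ 0 ∧ IsAlt ω ∧ IsJac hN ω z := by
  obtain ⟨ω, hω0, hω, hval⟩ := exists_top hN h1 h2 (c := 1) one_ne_zero
  refine ⟨ω, hω0, hω, fun v => ?_⟩
  have := hval v
  rw [one_mul] at this
  exact this

/-- The difference of the divisors of `ω` and of its pull back is the ramification divisor. -/
theorem IsJac.isRam (hFS : FactorialStalks) {φ : DomHom X Y} (hφ : φ.Alg) {N : ℕ} {hX : X.dim = N}
    {hY : Y.dim = N} {ω : Y.Ten Y.dim} {ω' : X.Ten X.dim} {z : Fin N → Y.K} (h : IsJac hY ω z)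
    (h' : IsJac hX ω' fun i => φ.pull (z i)) (hω0 : ω ≠ 0) (hω : IsAlt ω) (hω'0 : ω' ≠ 0)
    (hω' : IsAlt ω') {κ : Div Y.X} {κ' κ₀ : Div X.X} (hκ : IsDivTensor ω κ)
    (hκ' : IsDivTensor ω' κ') (hκ₀ : IsPullback φ κ κ₀) : IsRam φ (κ' - κ₀) := by
  subst hY
  intro x hx s w u δ hsw huδ
  have h1 : coef κ₀ x = Scheme.ord (φ.pull (ω w)) x := by
    have h3 := genAt_of_frame hω0 hω hκ hsw.mem hsw.reg hsw.dual hsw.expand
    have h4 := hκ₀.neg.ord_pull hFS hx h3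
    rw [coef_neg] at h4
    linarith
  have h2 := huδ.genAt hφ.dim_eq hω'0 hω' hκ'
  have h3 := h2.ord hx
  rw [coef_neg, neg_neg] at h3
  have h4 : ω' (fun k => δ (Fin.cast hφ.dim_eq k)) = φ.pull (ω w) * (jac φ s δ).det :=
    h.pull_eq h' hsw.dual hsw.expand δ
  have h5 := h2.1
  rw [h4] at h5 h3
  have h6 := left_ne_zero_of_mul h5
  have h7 := right_ne_zero_of_mul h5
  refine ⟨h7, ?_⟩
  rw [Scheme.ord_mul h6 h7] at h3
  rw [coef_sub, ← h3, h1]
  ring

/-- **Traces of sections of the canonical bundle.** -/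
theorem IsJac.tr_mem (hFS : FactorialStalks) {φ : DomHom X Y} (hφ : φ.Fin) {N : ℕ}
    {hX : X.dim = N} {hY : Y.dim = N} {ω : Y.Ten Y.dim} {ω' : X.Ten X.dim} {z : Fin N → Y.K}
    (h : IsJac hY ω z) (h' : IsJac hX ω' fun i => φ.pull (z i)) (hω0 : ω ≠ 0) (hω : IsAlt ω)
    (hω'0 : ω' ≠ 0) (hω' : IsAlt ω') {κ : Div Y.X} {κ' : Div X.X} (hκ : IsDivTensor ω κ)
    (hκ' : IsDivTensor ω' κ') {D : Div Y.X} {D' : Div X.X} (hD : IsPullback φ D D') {f : X.K}
    (hf : f ∈ H0 (coef (κ' + D'))) : φ.tr f ∈ H0 (coef (κ + D)) := by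
  obtain ⟨κ₀, hκ₀⟩ := exists_isPullback hFS φ κ
  exact tr_mem_H0 hFS hφ hκ₀ (by abel) (h.isRam hFS hφ.alg h' hω0 hω hω'0 hω' hκ hκ' hκ₀) hD hf

/-- The transport of the form under a birational morphism. -/
theorem IsJac.upTop {μ : DomHom X Y} (hμ : μ.Birational) {N : ℕ} {hX : X.dim = N}
    {hY : Y.dim = N} {ω : Y.Ten Y.dim} {z : Fin N → Y.K} (h : IsJac hY ω z) :
    IsJac hX (hμ.upTop ω) fun i => μ.pull (z i) := by
  intro v
  have h1 : topVal hX (hμ.upTop ω) v = hμ.equiv (topVal hY ω fun j => hμ.down (v j)) := by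
    rw [topVal, hμ.upTop_apply, topVal]
    rfl
  rw [h1, h, RingEquiv.map_det]
  congr 1
  ext i j
  rw [RingEquiv.mapMatrix_apply, Matrix.map_apply, Matrix.of_apply, Matrix.of_apply,
    hμ.down_apply, RingEquiv.apply_symm_apply, hμ.equiv_apply]

end Vale.Agent.P299.Q
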