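import Vale.Agent.P299.Q.TopRam
import Vale.Agent.P299.Q.AlgInd
import Vale.Agent.P299.Q.SnapFinal
import Vale.Agent.P299.Q.TorLin
import Vale.Agent.P299.Q.FlAlg

/-!
# Coordinates given by the sections of an ample divisor
-/

open CategoryTheory TopologicalSpace Opposite TopCat AlgebraicGeometry Order

namespace Vale.Agent.P299.Q

open Vale.Agent.P299.G

/-- The functions `1, x_1, …, x_n` are sections of the ample divisor `A` without common zeros. -/
structure Coords {n : ℕ} {Y : Var} (A : Div Y.X) (x : Fin n → Y.K) : Prop where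
  dim : Y.dim = n
  ample : IsAmple A
  one : (1 : Y.K) ∈ H0 (coef A)
  mem : ∀ i, x i ∈ H0 (coef A)
  gen : ∀ y : Y.X, GenAt A 1 y ∨ ∃ i, GenAt A (x i) y

theorem exists_coords (Y : Var) : ∃ (A : Div Y.X) (x : Fin Y.dim → Y.K), Coords A x := by
  have hFS := factorialStalks
  obtain ⟨H, hH⟩ := Y.ample
  obtain ⟨a₀, ha₀, hGa, hGg⟩ := exists_ample_generated hFS hH
  set G := a₀ • H with hGdef
  obtain ⟨t, ht, hgen⟩ := exists_sections (fun _ : Fin (Y.dim + 1) => G) fun _ => hGg
  obtain ⟨j₀, hj₀⟩ := hgen (genericPoint Y.X)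
  have h0 := hj₀.1
  obtain ⟨P, hP⟩ := exists_isDivOf h0
  have hord : ∀ (f : Y.K) (y : Y.X), f ≠ 0 → coheight y = 1 →
      Scheme.ord (f / t j₀) y + coef (G + P) y = Scheme.ord f y + coef G y := by
    intro f y hf hy
    rw [Q.ord_div hf h0, hP.2 y hy, coef_add]
    ring
  have hmem : ∀ f ∈ H0 (coef G), f / t j₀ ∈ H0 (coef (G + P)) := by
    intro f hf
    rw [mem_H0] at hf ⊢
    intro y hy hne
    have hf0 : f ≠ 0 := fun h => hne (by rw [h, zero_div])
    rw [hord f y hf0 hy]
    exact hf y hy hf0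
  have hgenAt : ∀ (f : Y.K) (y : Y.X), GenAt G f y → GenAt (G + P) (f / t j₀) y :=
    fun f y h => ⟨div_ne_zero h.1 h0, fun z hz hzy => by
      rw [hord f z h.1 hz]
      exact h.2 z hz hzy⟩
  refine ⟨G + P, fun i => t (j₀.succAbove i) / t j₀, rfl, hGa.add_principal hP, ?_,
    fun i => hmem _ (ht _), fun y => ?_⟩
  · have := hmem _ (ht j₀)
    rwa [div_self h0] at this
  · obtain ⟨j, hj⟩ := hgen y
    by_cases h : j = j₀
    · left
      have := hgenAt _ _ hj
      rwa [h, div_self h0] at this
    · right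
      obtain ⟨i, rfl⟩ := Fin.exists_succAbove_eq h
      exact ⟨i, hgenAt _ _ hj⟩

namespace Coords

variable {n : ℕ} {Y : Var} {A : Div Y.X} {x : Fin n → Y.K} (h : Coords A x)

include h

/-- All the sections. -/
theorem all_mem (j : Fin (n + 1)) : Fin.cons (α := fun _ => Y.K) 1 x j ∈ H0 (coef A) := by
  refine Fin.cases ?_ (fun i => ?_) j
  · exact h.one
  · exact h.mem i

theorem all_gen (y : Y.X) : ∃ j, GenAt A (Fin.cons (α := fun _ => Y.K) 1 x j : Y.K) y := by
  rcases h.gen y with h1 | ⟨i, h1⟩
  · exact ⟨0, h1⟩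
  · exact ⟨i.succ, h1⟩

theorem one_mem_nsmul (m : ℕ) : (1 : Y.K) ∈ H0 (coef (m • A)) := by
  have := H0_pow h.one m
  rwa [one_pow] at this

/-- The multiplication by the coordinates on the sections is surjective. -/
theorem exists_sum (hKN : KollarNadelVanishing) : ∃ m₀ : ℕ, ∀ m ≥ m₀,
    ∀ f ∈ H0 (coef ((m + 1) • A)), ∃ g : Fin (n + 1) → Y.K, (∀ j, g j ∈ H0 (coef (m • A))) ∧
      f = ∑ j, Fin.cons (α := fun _ => Y.K) 1 x j * g j := by
  have hFS := factorialStalks
  obtain ⟨k₀, hk₀⟩ := exists_vanishing_forall hKN hFS h.ample 0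
  refine ⟨k₀ + n + 1, fun m hm f hf => ?_⟩
  have hid : ∀ a : Y.K, (DomHom.id Y).pull a = a := fun a => DomHom.pull_id a
  obtain ⟨g, hg, hfg⟩ := exists_of_mem_H0 hFS (TAct.trivial Y) (DomHom.id Y)
    ((TAct.trivial Y).invHom_zero _) (m • A) (isPullback_id hFS A)
    (Fin.cons (α := fun _ => Y.K) 1 x) h.all_mem h.all_gen (fun k i hi hiN => by
      have h1 := hk₀ (m + k - i) (by omega) 0 isNef_zero i hi
      rw [(TAct.trivial Y).inv_zero]
      have e : m • A + k • A - i • A = 0 + (m + k - i) • A + 0 := by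
        obtain ⟨c, hc⟩ := Nat.exists_eq_add_of_le (show i ≤ m + k by omega)
        rw [hc, Nat.add_sub_cancel_left, ← add_smul, hc, add_smul]
        abel
      rw [e]
      exact h1) 0 f (by rw [(TAct.trivial Y).inv_zero]; trivial) (by
        rwa [zero_add, ← add_smul])
  refine ⟨g, fun j => ?_, ?_⟩
  · have := (hg j).2
    rwa [zero_smul, add_zero] at this
  · rw [hfg]
    exact Finset.sum_congr rfl fun j _ => by rw [hid]

/-- The sections are integral over the ring of the coordinates. -/
theorem isIntegral (hKN : KollarNadelVanishing) {k : ℕ} {a : Y.K} (ha : a ∈ H0 (coef (k • A))) :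
    IsIntegral (Algebra.adjoin ℂ (Set.range x)) a := by
  obtain ⟨m₀, hm₀⟩ := h.exists_sum hKN
  let R := Algebra.adjoin ℂ (Set.range x)
  have hx : ∀ j, Fin.cons (α := fun _ => Y.K) 1 x j ∈ R := by
    intro j
    refine Fin.cases ?_ (fun i => ?_) j
    · exact R.one_mem
    · exact Algebra.subset_adjoin ⟨i, rfl⟩
  let M : Submodule R Y.K := Submodule.span R (H0 (coef (m₀ • A)) : Set Y.K)
  have key : ∀ c : ℕ, ∀ f ∈ H0 (coef ((m₀ + c) • A)), f ∈ M := by
    intro c
    induction c with
    | zero =>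
      intro f hf
      exact Submodule.subset_span hf
    | succ c ih =>
      intro f hf
      obtain ⟨g, hg, rfl⟩ := hm₀ (m₀ + c) (by omega) f hf
      refine Submodule.sum_mem _ fun j _ => ?_
      exact M.smul_mem (⟨_, hx j⟩ : R) (ih _ (hg j))
  refine isIntegral_of_smul_mem_submodule M ?_ ?_ a ?_
  · intro h0
    have h1 : (1 : Y.K) ∈ M := Submodule.subset_span (h.one_mem_nsmul m₀)
    rw [h0, Submodule.mem_bot] at h1
    exact one_ne_zero h1
  · have h1 := finite_H0 factorialStalks (m₀ • A)
    obtain ⟨S, hS⟩ := Module.Finite.iff_fg.1 h1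
    refine ⟨S, ?_⟩
    apply le_antisymm
    · refine Submodule.span_mono fun s hs => ?_
      rw [← hS]
      exact Submodule.subset_span hs
    · refine Submodule.span_le.2 fun s hs => ?_
      rw [← hS] at hs
      exact Submodule.span_subset_span ℂ R _ hs
  · intro f hf
    rw [smul_eq_mul]
    induction hf using Submodule.span_induction with
    | mem f hf =>
      refine key k _ ?_
      have := H0_mul hf ha
      rw [mul_comm, add_smul]
      exact this
    | zero =>
      rw [mul_zero]
      exact M.zero_mem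
    | add f g _ _ hf hg =>
      rw [mul_add]
      exact M.add_mem hf hg
    | smul c f _ hf =>
      have h1 : a * c • f = c • (a * f) := by
        rw [mul_smul_comm]
      rw [h1]
      exact M.smul_mem c hf

/-- The function field is algebraic over the field of the coordinates. -/
theorem isAlgebraic (hKN : KollarNadelVanishing) :
    Algebra.IsAlgebraic (Algebra.adjoin ℂ (Set.range x)) Y.K := by
  obtain ⟨c, T, _, s, j₀, hc, hs, -, hs0, hgen⟩ := h.ample.exists_sections factorialStalks
  let R := Algebra.adjoin ℂ (Set.range x)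
  let F : Subfield Y.K :=
    { carrier := {f | IsAlgebraic R f}
      mul_mem' := fun {a b} ha hb => IsAlgebraic.mul ha hb
      one_mem' := isAlgebraic_one
      add_mem' := fun {a b} ha hb => IsAlgebraic.add ha hb
      zero_mem' := isAlgebraic_zero
      neg_mem' := fun {a} ha => IsAlgebraic.neg ha
      inv_mem' := fun a ha => IsAlgebraic.inv_iff.2 ha }
  have hF : F = ⊤ := hgen F (fun c => by
    change IsAlgebraic R (algebraMap ℂ Y.K c)
    have h1 : algebraMap ℂ Y.K c = algebraMap R Y.K (algebraMap ℂ R c) := rfl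
    rw [h1]
    exact isAlgebraic_algebraMap _) fun j => by
    rw [div_eq_mul_inv]
    exact F.mul_mem (h.isIntegral hKN (hs j)).isAlgebraic
      (F.inv_mem (h.isIntegral hKN (hs j₀)).isAlgebraic)
  refine ⟨fun f => ?_⟩
  have h1 : f ∈ F := by
    rw [hF]
    exact Subfield.mem_top f
  exact h1

/-- The dual derivations. -/
theorem exists_dual (hKN : KollarNadelVanishing) : ∃ w : Fin n → Y.Der,
    (∀ i j, w i (x j) = if i = j then 1 else 0) ∧ ∀ v : Y.Der, v = ∑ i, v (x i) • w i := by
  have hinj : ∀ v : Y.Der, (∀ i, v (x i) = 0) → v = 0 := by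
    intro v hv
    refine derivation_eq_zero (k := ℂ) (K := Y.K) (h.isAlgebraic hKN) v ?_
    rintro _ ⟨i, rfl⟩
    exact hv i
  obtain ⟨t, w₀, hfr⟩ := exists_fr (X := Y) h.dim (genericPoint Y.X)
  obtain ⟨b, -, -⟩ := exists_basis hfr.dual hfr.expand
  let L : Y.Der →ₗ[Y.K] (Fin n → Y.K) :=
    { toFun := fun v i => v (x i)
      map_add' := fun v v' => rfl
      map_smul' := fun c v => rfl }
  have hL : Function.Injective L := by
    rw [injective_iff_map_eq_zero]
    intro v hv
    exact hinj v fun i => congrFun hv i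
  have : Module.Finite Y.K Y.Der := Module.Finite.of_basis b
  have hrank : Module.finrank Y.K Y.Der = Module.finrank Y.K (Fin n → Y.K) := by
    rw [Module.finrank_eq_card_basis b, Module.finrank_fin_fun, Fintype.card_fin]
  have hsurj : Function.Surjective L :=
    (LinearMap.injective_iff_surjective_of_finrank_eq_finrank hrank).1 hL
  choose w hw using fun i : Fin n => hsurj fun j => if i = j then 1 else 0
  have hwx : ∀ i j, w i (x j) = if i = j then 1 else 0 := fun i j => congrFun (hw i) j
  refine ⟨w, hwx, fun v => ?_⟩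
  apply hL
  funext j
  change v (x j) = (∑ i, v (x i) • w i) (x j)
  rw [sum_smul_apply]
  simp [hwx]

end Coords

end Vale.Agent.P299.Q
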