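import Mathlib.LinearAlgebra.Eigenspace.Basic
import Vale.Agent.P299.Q.TopCenter

/-!
# There are no sections of `K + nH` on the models of the projective space
-/

open CategoryTheory TopologicalSpace Opposite TopCat AlgebraicGeometry Order

namespace Vale.Agent.P299.Q

open Vale.Agent.P299.G

namespace PnModel

variable {n : ℕ} {W : Var} {z : Fin n → W.K} (h : PnModel z)

include h

/-- Vector fields with given values on the coordinates. -/
theorem exists_vf (c : Fin n → W.K) : ∃ D : W.Der, ∀ i, D (z i) = c i := by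
  obtain ⟨D, -, hD⟩ := exists_der (C := ℂ) (k := ℂ) (K := W.K) (ι := algebraMap ℂ W.K) (t := z)
    (fun _ => rfl) (fun p hp => h.ev_injective (hp.trans (map_zero _).symm))
    (fun f => by
      obtain ⟨p, q, -, hpq⟩ := h.exists_frac f
      exact ⟨p, q, hpq⟩) 0 c
  exact ⟨D, hD⟩

theorem vf_ext {D D' : W.Der} (h2 : ∀ i, D (z i) = D' (z i)) : D = D' := by
  have hinv : ∀ (E : W.Der) (a : W.K), a ≠ 0 → a * E a⁻¹ = -(a⁻¹ * E a) := by
    intro E a ha
    have h3 : E (a * a⁻¹) = 0 := by rw [mul_inv_cancel₀ ha, E.map_one_eq_zero]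
    rw [E.leibniz, smul_eq_mul, smul_eq_mul] at h3
    exact eq_neg_of_add_eq_zero_left h3
  let F : Subfield W.K :=
    { carrier := {f | D f = D' f}
      mul_mem' := fun {a b} ha hb => by
        change D (a * b) = D' (a * b)
        rw [D.leibniz, D'.leibniz, show D a = D' a from ha, show D b = D' b from hb]
      one_mem' := by
        change D 1 = D' 1
        rw [D.map_one_eq_zero, D'.map_one_eq_zero]
      add_mem' := fun {a b} ha hb => by
        change D (a + b) = D' (a + b)
        rw [map_add, map_add, show D a = D' a from ha, show D b = D' b from hb]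
      zero_mem' := by
        change D 0 = D' 0
        rw [map_zero, map_zero]
      neg_mem' := fun {a} ha => by
        change D (-a) = D' (-a)
        rw [map_neg, map_neg, show D a = D' a from ha]
      inv_mem' := fun a ha => by
        change D a⁻¹ = D' a⁻¹
        by_cases ha0 : a = 0
        · rw [ha0, inv_zero, map_zero, map_zero]
        · have h3 := hinv D a ha0
          rw [show D a = D' a from ha, ← hinv D' a ha0] at h3
          exact mul_left_cancel₀ ha0 h3 }
  have hF : F = ⊤ := h.gen F (fun c => by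
    change D (algebraMap ℂ W.K c) = D' (algebraMap ℂ W.K c)
    rw [D.map_algebraMap, D'.map_algebraMap]) h2
  ext f
  have h3 : f ∈ F := by
    rw [hF]
    exact Subfield.mem_top f
  exact h3

/-- The partial derivatives. -/
noncomputable def pd (i : Fin n) : W.Der := (h.exists_vf fun j => if i = j then 1 else 0).choose

theorem pd_dual (i j : Fin n) : h.pd i (z j) = if i = j then 1 else 0 :=
  (h.exists_vf fun j => if i = j then 1 else 0).choose_spec j

theorem pd_expand (v : W.Der) : v = ∑ i, v (z i) • h.pd i := by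
  refine h.vf_ext fun j => ?_
  rw [sum_smul_apply]
  simp [h.pd_dual]

theorem pd_ev (i : Fin n) (p : MvPolynomial (Fin n) ℂ) :
    h.pd i (ev z p) = ev z (MvPolynomial.pderiv i p) := by
  change h.pd i (MvPolynomial.aeval z p) = MvPolynomial.aeval z (MvPolynomial.pderiv i p)
  rw [derivation_aeval]
  simp [h.pd_dual]

theorem fr {p : MvPolynomial (Fin n) ℂ} {w : W.X} (hzw : ∀ i, z i ∈ locRing W w)
    (hiff : ∀ g, g ∈ locRing W w ↔ ∃ a b, ¬ p ∣ b ∧ g * ev z b = ev z a) : Fr w z h.pd := by
  refine ⟨hzw, fun i => ?_, h.pd_dual, h.pd_expand⟩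
  rw [regDer_iff_locRing]
  intro f hf
  obtain ⟨a, b, hb, hab⟩ := (hiff f).1 hf
  have hb0 : b ≠ 0 := by
    rintro rfl
    exact hb (dvd_zero _)
  have hbK := h.ev_ne_zero hb0
  have h1 := congrArg (h.pd i) hab
  rw [Derivation.leibniz, smul_eq_mul, smul_eq_mul, h.pd_ev, h.pd_ev] at h1
  have hbinv : (ev z b)⁻¹ ∈ locRing W w := (hiff _).2 ⟨1, b, hb, by
    rw [inv_mul_cancel₀ hbK, map_one]⟩
  have h2 : h.pd i f = (ev z (MvPolynomial.pderiv i a) - f * ev z (MvPolynomial.pderiv i b)) *
      (ev z b)⁻¹ := by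
    rw [← h1]
    field_simp
    ring
  rw [h2]
  exact mul_mem (sub_mem (ev_mem hzw _) (mul_mem hf (ev_mem hzw _))) hbinv

/-- A rational function without poles along the divisors of the irreducible polynomials is a
polynomial. -/
theorem exists_poly {g : W.K} (hg : ∀ (p : MvPolynomial (Fin n) ℂ) (w : W.X), Prime p →
    coheight w = 1 → (∀ i, z i ∈ locRing W w) →
    (∀ g, g ∈ locRing W w ↔ ∃ a b, ¬ p ∣ b ∧ g * ev z b = ev z a) → g ∈ locRing W w) :
    ∃ a : MvPolynomial (Fin n) ℂ, g = ev z a := by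
  have hgp : ∀ p : MvPolynomial (Fin n) ℂ, Prime p → ∃ a b, ¬ p ∣ b ∧ g * ev z b = ev z a := by
    intro p hp
    obtain ⟨w, hw, hzw, hiff⟩ := h.exists_pt hp
    exact (hiff g).1 (hg p w hp hw hzw hiff)
  -- cancel the prime factors of the denominator
  have key : ∀ b : MvPolynomial (Fin n) ℂ, b ≠ 0 → ∀ a, g * ev z b = ev z a →
      ∃ a, g = ev z a := by
    intro b
    induction b using UniqueFactorizationMonoid.induction_on_prime with
    | h₁ => exact fun h => absurd rfl h
    | h₂ b hb =>
      intro _ a hab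
      obtain ⟨c, hc⟩ := hb.exists_right_inv
      refine ⟨a * c, ?_⟩
      rw [map_mul, ← hab, mul_assoc, ← map_mul, hc, map_one, mul_one]
    | h₃ b p hb0 hp ih =>
      intro _ a hab
      obtain ⟨a', b', hb', hab'⟩ := hgp p hp
      have hb'0 : b' ≠ 0 := by
        rintro rfl
        exact hb' (dvd_zero _)
      have h1 : a * b' = (p * b) * a' := by
        apply h.ev_injective
        rw [map_mul, map_mul, ← hab, ← hab']
        ring
      have h2 : p ∣ a * b' := ⟨b * a', by rw [h1, mul_assoc]⟩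
      obtain ⟨c, hc⟩ := (hp.dvd_or_dvd h2).resolve_right hb'
      refine ih hb0 c ?_
      have h3 := h.ev_ne_zero hp.ne_zero
      apply mul_left_cancel₀ h3
      rw [← map_mul, ← hc, ← hab, map_mul]
      ring
  obtain ⟨a, b, hb, hab⟩ := h.exists_frac g
  have hb0 : b ≠ 0 := by
    rintro rfl
    exact hb (map_zero _)
  exact key b hb0 a (by rw [hab, div_mul_cancel₀ _ hb])

end PnModel

/-- The coordinates on the other chart. -/
noncomputable def flip {m : ℕ} {W : Var} (z : Fin (m + 1) → W.K) : Fin (m + 1) → W.K :=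
  Fin.cons (z 0)⁻¹ fun i => z i.succ / z 0

section Eigen

variable {W : Var} {θ : W.Der}

theorem eigen_mul {f g : W.K} {c d : ℂ} (hf : θ f = c • f) (hg : θ g = d • g) :
    θ (f * g) = (c + d) • (f * g) := by
  rw [θ.leibniz, hf, hg, smul_eq_mul, smul_eq_mul, add_smul, mul_smul_comm, mul_smul_comm,
    mul_comm g f, add_comm]

theorem eigen_pow {f : W.K} {c : ℂ} (hf : θ f = c • f) (k : ℕ) :
    θ (f ^ k) = ((k : ℂ) * c) • f ^ k := by
  induction k with
  | zero => rw [pow_zero, Nat.cast_zero, zero_mul, zero_smul, θ.map_one_eq_zero]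
  | succ k ih =>
    rw [pow_succ, eigen_mul ih hf]
    congr 1
    push_cast
    ring

theorem eigen_prod {n : ℕ} {u : Fin n → W.K} {c : Fin n → ℂ} (hu : ∀ i, θ (u i) = c i • u i)
    (α : Fin n → ℕ) (S : Finset (Fin n)) :
    θ (∏ i ∈ S, u i ^ α i) = (∑ i ∈ S, (α i : ℂ) * c i) • ∏ i ∈ S, u i ^ α i := by
  classical
  induction S using Finset.induction_on with
  | empty => rw [Finset.prod_empty, Finset.sum_empty, zero_smul, θ.map_one_eq_zero]
  | insert a S ha ih =>
    rw [Finset.prod_insert ha, Finset.sum_insert ha]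
    exact eigen_mul (eigen_pow (hu a) _) ih

/-- Polynomials in eigenvectors are sums of eigenvectors. -/
theorem ev_mem_iSup {n : ℕ} {u : Fin n → W.K} {c : Fin n → ℂ} (hu : ∀ i, θ (u i) = c i • u i)
    {v : W.K} {d : ℂ} (hv : θ v = d • v) {T : Set ℂ}
    (hT : ∀ α : Fin n → ℕ, d + ∑ i, (α i : ℂ) * c i ∈ T) (p : MvPolynomial (Fin n) ℂ) :
    v * MvPolynomial.aeval u p ∈
      ⨆ c ∈ T, Module.End.eigenspace (θ : W.K →ₗ[ℂ] W.K) c := by
  induction p using MvPolynomial.induction_on' with
  | monomial α a =>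
    rw [MvPolynomial.aeval_monomial, Finsupp.prod_fintype _ _ (by simp)]
    have h1 : θ (v * ∏ i, u i ^ α i) = (d + ∑ i, (α i : ℂ) * c i) • (v * ∏ i, u i ^ α i) :=
      eigen_mul hv (eigen_prod hu α Finset.univ)
    have h2 : v * (algebraMap ℂ W.K a * ∏ i, u i ^ α i) = a • (v * ∏ i, u i ^ α i) := by
      rw [Algebra.smul_def]
      ring
    rw [h2]
    refine Submodule.smul_mem _ _ ?_
    refine Submodule.mem_iSup_of_mem _ (Submodule.mem_iSup_of_mem (hT α) ?_)
    rw [Module.End.mem_eigenspace_iff]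
    exact h1
  | add p q hp hq =>
    rw [map_add, mul_add]
    exact Submodule.add_mem _ hp hq

end Eigen

namespace PnModel

variable {m : ℕ} {W : Var} {z : Fin (m + 1) → W.K} (h : PnModel z)

include h

theorem z_ne_zero (i : Fin (m + 1)) : z i ≠ 0 := by
  have h3 := h.ev_ne_zero (MvPolynomial.X_ne_zero (R := ℂ) i)
  rwa [show ev z (MvPolynomial.X i) = z i from MvPolynomial.aeval_X z i] at h3

omit h in
theorem flip_zero : flip z 0 = (z 0)⁻¹ := rfl

omit h in
theorem flip_succ (i : Fin m) : flip z i.succ = z i.succ / z 0 := rfl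

omit h in
theorem z_zero : z 0 = (flip z 0)⁻¹ := by rw [flip_zero, inv_inv]

theorem z_succ (i : Fin m) : z i.succ = flip z i.succ * (flip z 0)⁻¹ := by
  rw [flip_zero, flip_succ, inv_inv, div_mul_cancel₀ _ (h.z_ne_zero 0)]

/-- The other chart. -/
theorem flip_model : PnModel (flip z) := by
  have h0 := h.z_ne_zero 0
  refine ⟨h.dim, fun F hc hF => h.gen F hc fun i => ?_, fun w => ?_⟩
  · have h1 : z 0 ∈ F := by
      rw [z_zero (z := z)]
      exact F.inv_mem (hF 0)
    refine Fin.cases h1 (fun i => ?_) i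
    rw [h.z_succ i]
    exact F.mul_mem (hF _) (F.inv_mem (hF 0))
  · rcases h.mor w with h1 | ⟨j, hj, h1⟩
    · right
      refine ⟨0, by rw [flip_zero, inv_inv]; exact h1 0, fun i => ?_⟩
      refine Fin.cases ?_ (fun i => ?_) i
      · rw [flip_zero, div_self (inv_ne_zero h0)]
        exact one_mem _
      · rw [flip_zero, flip_succ, div_inv_eq_mul, div_mul_cancel₀ _ h0]
        exact h1 _
    · revert hj h1
      refine Fin.cases (fun hj h1 => ?_) (fun j hj h1 => ?_) j
      · left
        intro i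
        refine Fin.cases hj (fun i => ?_) i
        rw [flip_succ]
        exact h1 _
      · right
        refine ⟨j.succ, ?_, fun i => ?_⟩
        · rw [flip_succ, inv_div]
          exact h1 0
        · refine Fin.cases ?_ (fun i => ?_) i
          · rw [flip_zero, flip_succ]
            have h2 : (z 0)⁻¹ / (z j.succ / z 0) = (z j.succ)⁻¹ := by
              have := h.z_ne_zero j.succ
              field_simp
            rw [h2]
            exact hj
          · rw [flip_succ, flip_succ, div_div_div_cancel_right₀ h0]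
            exact h1 _

/-- The Jacobian determinant of the change of charts. -/
theorem det_flip : (Matrix.of fun i j => h.flip_model.pd j (z i)).det =
    -(z 0) ^ (m + 2) := by
  have h0 := h.z_ne_zero 0
  have hy0 : flip z 0 ≠ 0 := inv_ne_zero h0
  have hrow0 : ∀ j, h.flip_model.pd j (z 0) = if j = 0 then -(z 0) ^ 2 else 0 := by
    intro j
    conv_lhs => rw [z_zero (z := z)]
    rw [Derivation.leibniz_inv, h.flip_model.pd_dual, flip_zero]
    split_ifs
    · rw [smul_eq_mul, mul_one, inv_inv]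
    · rw [smul_zero]
  rw [Matrix.det_succ_row_zero, Finset.sum_eq_single 0]
  · rw [Matrix.of_apply, hrow0, if_pos rfl]
    have h1 : (Matrix.of fun i j => h.flip_model.pd j (z i)).submatrix Fin.succ
        (Fin.succAbove 0) = Matrix.diagonal fun _ => z 0 := by
      ext i j
      rw [Matrix.submatrix_apply, Matrix.of_apply, Fin.succAbove_zero, h.z_succ i,
        Derivation.leibniz, Derivation.leibniz_inv, h.flip_model.pd_dual, h.flip_model.pd_dual,
        if_neg (Fin.succ_ne_zero j), smul_zero, smul_zero, zero_add, Matrix.diagonal_apply,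
        flip_zero, inv_inv, smul_eq_mul]
      by_cases hij : i = j
      · rw [if_pos hij, if_pos (by rw [hij]), mul_one]
      · rw [if_neg hij, if_neg (fun h => hij (Fin.succ_injective _ h).symm), mul_zero]
    rw [h1, Matrix.det_diagonal, Finset.prod_const, Finset.card_univ, Fintype.card_fin,
      Fin.val_zero, pow_zero, one_mul]
    ring
  · intro j _ hj
    rw [Matrix.of_apply, hrow0, if_neg hj, mul_zero, zero_mul]
  · intro h1
    exact absurd (Finset.mem_univ _) h1

/-- **There are no sections of `K + nH`.** -/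
theorem eq_zero_of_mem {ω : W.Ten W.dim} (hω0 : ω ≠ 0) (hω : IsAlt ω)
    (hjac : ∀ v : Fin (m + 1) → W.Der, topVal h.dim ω v = (Matrix.of fun i j => v j (z i)).det)
    {κ A : Div W.X} (hκ : IsDivTensor ω κ)
    (hA0 : ∀ w, (∀ i, z i ∈ locRing W w) → GenAt A 1 w)
    (hA1 : ∀ w, (∀ i, flip z i ∈ locRing W w) → GenAt A (z 0) w) {g : W.K}
    (hg : g ∈ H0 (coef (κ + (m + 1) • A))) : g = 0 := by
  by_contra hg0
  have h0 := h.z_ne_zero 0
  -- the first chart
  obtain ⟨a, ha⟩ := h.exists_poly (g := g) fun p w hp hw hzw hiff => by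
    have hfr := h.fr hzw hiff
    have h1 := hfr.genAt h.dim hω0 hω hκ
    have h2 := h1.ord hw
    have h3 : ω (fun k => h.pd (Fin.cast h.dim k)) = 1 := by
      have h4 := hjac h.pd
      have h5 : (Matrix.of fun i j => h.pd j (z i)) =
          (1 : Matrix (Fin (m + 1)) (Fin (m + 1)) W.K) := by
        ext i j
        rw [Matrix.of_apply, h.pd_dual, Matrix.one_apply]
        by_cases hij : i = j
        · rw [if_pos hij, if_pos hij.symm]
        · rw [if_neg hij, if_neg (Ne.symm hij)]
      rw [h5, Matrix.det_one] at h4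
      exact h4
    rw [h3, ord_one, coef_neg, neg_neg] at h2
    have h4 := (hA0 w hzw).ord hw
    rw [ord_one] at h4
    have h5 := mem_H0.1 hg w hw hg0
    rw [coef_add, coef_nsmul, ← h2] at h5
    have h6 : coef A w = 0 := by linarith
    rw [h6, mul_zero, add_zero, add_zero] at h5
    exact (og_iff hw).1 fun _ => h5
  -- the second chart
  have hgz : g * z 0 ≠ 0 := mul_ne_zero hg0 h0
  obtain ⟨b, hb⟩ := h.flip_model.exists_poly (g := g * z 0) fun p w hp hw hzw hiff => by
    have hfr := h.flip_model.fr hzw hiff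
    have h1 := hfr.genAt h.dim hω0 hω hκ
    have h2 := h1.ord hw
    have h3 : ω (fun k => h.flip_model.pd (Fin.cast h.dim k)) = -(z 0) ^ (m + 2) :=
      (hjac h.flip_model.pd).trans h.det_flip
    have hneg : Scheme.ord (-(z 0) ^ (m + 2)) w = (m + 2) * Scheme.ord (z 0) w := by
      have h7 : -(z 0) ^ (m + 2) = (-1 : ℂ) • (z 0) ^ (m + 2) := by rw [neg_smul, one_smul]
      rw [h7, ord_smul (-1 : ℂ) (neg_ne_zero.2 one_ne_zero), ord_pow h0]
      push_cast
      ring
    rw [h3, hneg, coef_neg, neg_neg] at h2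
    have h4 := (hA1 w hzw).ord hw
    have h5 := mem_H0.1 hg w hw hg0
    rw [coef_add, coef_nsmul, ← h2] at h5
    have h6 : coef A w = -Scheme.ord (z 0) w := by linarith
    rw [h6] at h5
    refine (og_iff hw).1 fun _ => ?_
    rw [Scheme.ord_mul hg0 h0]
    push_cast at h5
    linarith
  -- the Euler vector field
  obtain ⟨θ, hθ⟩ := h.exists_vf z
  have hθz : ∀ i, θ (z i) = (1 : ℂ) • z i := fun i => by rw [hθ, one_smul]
  have hθy0 : θ (z 0)⁻¹ = (-1 : ℂ) • (z 0)⁻¹ := by
    have e1 : (-1 : ℂ) • (z 0)⁻¹ = -(z 0)⁻¹ := by rw [neg_smul, one_smul]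
    rw [Derivation.leibniz_inv, hθ, e1, smul_eq_mul]
    field_simp
  have hθy : ∀ i, θ (flip z i) = (if i = 0 then -1 else 0 : ℂ) • flip z i := by
    intro i
    refine Fin.cases ?_ (fun i => ?_) i
    · rw [if_pos rfl, flip_zero]
      exact hθy0
    · rw [if_neg (Fin.succ_ne_zero i), flip_succ, div_eq_mul_inv, eigen_mul (hθz _) hθy0]
      norm_num
  let S : Set ℂ := Set.range fun d : ℕ => (d : ℂ)
  let T : Set ℂ := Set.range fun d : ℕ => -((d : ℂ) + 1)
  have h1 : g ∈ ⨆ c ∈ S, Module.End.eigenspace (θ : W.K →ₗ[ℂ] W.K) c := by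
    have h2 := ev_mem_iSup hθz (v := 1) (d := 0) (by rw [θ.map_one_eq_zero, zero_smul]) (T := S)
      (fun α => ⟨∑ i, α i, by push_cast; simp⟩) a
    rw [one_mul] at h2
    rw [ha]
    exact h2
  have h2 : g ∈ ⨆ c ∈ T, Module.End.eigenspace (θ : W.K →ₗ[ℂ] W.K) c := by
    have h3 := ev_mem_iSup hθy hθy0 (T := T) (fun α => ⟨α 0, by
      simp only [mul_ite, mul_neg, mul_one, mul_zero, Finset.sum_ite_eq', Finset.mem_univ,
        if_true]
      ring⟩) b
    have h4 : g = (z 0)⁻¹ * MvPolynomial.aeval (flip z) b := by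
      rw [show MvPolynomial.aeval (flip z) b = g * z 0 from hb.symm]
      field_simp
    rw [h4]
    exact h3
  have hdisj : Disjoint S T := by
    rw [Set.disjoint_left]
    rintro _ ⟨d, rfl⟩ ⟨e, he⟩
    have h3 : ((d : ℤ) : ℂ) = ((-((e : ℤ) + 1) : ℤ) : ℂ) := by
      push_cast
      exact he.symm
    have h4 : (d : ℤ) = -((e : ℤ) + 1) := by exact_mod_cast h3
    omega
  have h3 := (Module.End.eigenspaces_iSupIndep (θ : W.K →ₗ[ℂ] W.K)).disjoint_biSup_biSup hdisj
  exact hg0 ((Submodule.disjoint_def.1 h3) g h1 h2)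

end PnModel

end Vale.Agent.P299.Q
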