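import Vale.Agent.P299.Q.Flat
import Vale.Agent.P299.Q.TorCanon

/-!
# Equivariant flat models
-/

open CategoryTheory TopologicalSpace Opposite TopCat AlgebraicGeometry Order

namespace Vale.Agent.P299.Q

open Vale.Agent.P299.G

/-- [Hironaka; Raynaud–Gruson; Sumihiro; Kollár] The flattening theorem, with resolution of
singularities, for torus actions. Let `Z` be a smooth projective variety on which `T` acts and
`k ⊆ ℂ(Z)^T` a subfield which contains `ℂ`. There are a smooth projective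
variety `Y` with function field `k`, a normal integral `T`-scheme `Z₁` with a proper birational
equivariant morphism `b : Z₁ → Z` and an invariant equidimensional morphism `c : Z₁ → Y`, and an
equivariant resolution of singularities `a : Z' → Z₁`. -/
def FlatteningAt (r : ℕ) : Prop :=
  ∀ (Z : Var) (τ : TAct r Z) (k : IntermediateField ℂ Z.K), (∀ f ∈ k, f ∈ τ.inv) →
    ∃ (Y Z' : Var) (τ' : TAct r Z') (Z₁ : Scheme.{0})
    (_ : IsIntegral Z₁) (a : Z'.X ⟶ Z₁) (b : Z₁ ⟶ Z.X) (c : Z₁ ⟶ Y.X)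
    (μ : DomHom Z' Z) (φ : DomHom Z' Y),
    (∀ z : Z₁, IsIntegrallyClosed (Z₁.presheaf.stalk z)) ∧ IsProper b ∧ IsDominant a ∧
    μ.f = a ≫ b ∧ φ.f = a ≫ c ∧ μ.Birational ∧
    (∀ t, (τ'.act t).f ≫ μ.f = μ.f ≫ (τ.act t).f) ∧ τ'.InvHom φ ∧
    (∀ g : Z.K, g ∈ k ↔ ∃ h : Y.K, φ.pull h = μ.pull g) ∧
    ∀ z : Z₁, coheight z = 1 → coheight (c z) ≤ 1

/-- The equivariant models `Z' → Z`, `Z' → Y` given by the flattening theorem. -/
theorem flatModelsAt (hFS : FactorialStalks) {r : ℕ} (hFl : FlatteningAt r) :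
    FlatModelsAt r := by
  intro Z τ κ hκ _ k hk0
  obtain ⟨Y, Z', τ', Z₁, hint, a, b, c, μ, φ, hn, hb, ha, hμf, hφf, hμ, heq, hinv, hk, hflat⟩ :=
    hFl Z τ k hk0
  obtain ⟨ω, hω0, hω, hωT, hdiv⟩ := hκ
  obtain ⟨κ', κ₀, E, hκ', hE⟩ := exists_relative_canonical_form hFS hμ hω0 hω hdiv
  obtain ⟨W, h1, h2, h3⟩ := exists_flatSet hFS hn hb ha hμf hφf hμ hflat
  have hT := TAct.InvTensor.upTop hμ heq hωT
  exact ⟨Y, Z', τ', μ, φ, W, κ', κ₀, E, hμ, heq, hinv, hk, h1, h2, h3,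
    ⟨hμ.upTop ω, hμ.upTop_ne_zero hω0, hμ.upTop_isAlt hω, hT, hκ'⟩, hT.invDiv hκ', hE⟩

end Vale.Agent.P299.Q
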