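import Vale.Agent.P299.Q.DerLift
import Vale.Agent.P299.Q.Const
import Vale.Agent.P299.Q.FubiniStudy
import Vale.Agent.P299.Q.Ample
import Vale.Agent.P299.Q.BB0
import Vale.Agent.P299.R.Stalks

/-!
# Pull back of regular tensors; the Euler characteristic of the canonical bundle
-/

open CategoryTheory TopologicalSpace Opposite TopCat AlgebraicGeometry Order

namespace Vale.Agent.P299.Q

open Vale.Agent.P299.G

variable {X Y Z : Var}

/-- Evaluation of vector fields at a function. -/
noncomputable def evalDer (f : X.K) : X.Der →ₗ[X.K] X.K where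
  toFun v := v f
  map_add' _ _ := rfl
  map_smul' _ _ := rfl

/-- The pull back of tensors, computed with the frame `(t, w)`. -/
noncomputable def pullTen (φ : DomHom X Y) {n p : ℕ} (t : Fin n → Y.K) (w : Fin n → Y.Der)
    (e : Y.Ten p) : X.Ten p :=
  ∑ r : Fin p → Fin n, φ.pull (e fun k => w (r k)) •
    (MultilinearMap.mkPiAlgebra X.K (Fin p) X.K).compLinearMap
      (fun k => evalDer (φ.pull (t (r k))))

theorem pullTen_apply (φ : DomHom X Y) {n p : ℕ} (t : Fin n → Y.K) (w : Fin n → Y.Der)
    (e : Y.Ten p) (v : Fin p → X.Der) : pullTen φ t w e v =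
      ∑ r : Fin p → Fin n, φ.pull (e fun k => w (r k)) * ∏ k, v k (φ.pull (t (r k))) := by
  unfold pullTen
  rw [_root_.sum_apply]
  rfl

/-- The pull back evaluated at lifts. -/
theorem pullTen_lift (φ : DomHom X Y) {n p : ℕ} {t : Fin n → Y.K} {w : Fin n → Y.Der}
    (h2 : ∀ v : Y.Der, v = ∑ i, v (t i) • w i) (e : Y.Ten p) (v : Fin p → X.Der)
    (u : Fin p → Y.Der) (huv : ∀ k a, v k (φ.pull a) = φ.pull (u k a)) :
    pullTen φ t w e v = φ.pull (e u) := by
  classical
  rw [pullTen_apply]
  have h3 : e u = e fun k => ∑ i, u k (t i) • w i := by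
    congr 1
    funext k
    exact h2 (u k)
  rw [h3, MultilinearMap.map_sum, map_sum]
  refine Finset.sum_congr rfl fun r _ => ?_
  rw [MultilinearMap.map_smul_univ, smul_eq_mul, map_mul, map_prod, mul_comm]
  congr 1
  exact Finset.prod_congr rfl fun k _ => huv k _

/-- The pull back of a regular tensor is regular. -/
theorem pullTen_mem (hFS : FactorialStalks) (φ : DomHom X Y) {n p : ℕ} {t : Fin n → Y.K}
    {w : Fin n → Y.Der} (h2 : ∀ v : Y.Der, v = ∑ i, v (t i) • w i) {e : Y.Ten p}
    (he : IsTwTensor e 0) {x : X.X} {v : Fin p → X.Der} (hv : ∀ k, RegDer x (v k)) :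
    pullTen φ t w e v ∈ locRing X x := by
  classical
  obtain ⟨s, u, hsu⟩ := exists_fr (X := Y) rfl (φ.f x)
  choose û hû using fun j => φ.exists_lift (u j)
  -- the vector fields in terms of lifts
  have h3 : pullTen φ t w e v = pullTen φ t w e
      (fun k => ∑ j, v k (φ.pull (s j)) • û j) := by
    rw [pullTen_apply, pullTen_apply]
    refine Finset.sum_congr rfl fun r _ => ?_
    congr 1
    refine Finset.prod_congr rfl fun k _ => ?_
    rw [sum_smul_apply, φ.der_pull hsu.expand]
    refine Finset.sum_congr rfl fun j _ => ?_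
    rw [hû]
  rw [h3, MultilinearMap.map_sum]
  refine sum_mem fun r _ => ?_
  rw [MultilinearMap.map_smul_univ, smul_eq_mul]
  refine mul_mem (prod_mem fun k _ => ?_) ?_
  · exact regDer_iff_locRing.1 (hv k) _ (pull_mem_locRing φ (hsu.mem _))
  · rw [pullTen_lift φ h2 e _ (fun k => u (r k)) fun k a => hû _ _]
    refine pull_mem_locRing φ ?_
    have := hFS Y (φ.f x)
    obtain ⟨a, ha⟩ := exists_of_forall_ord_nonneg Y.dvr (φ.f x) (e fun k => u (r k))
      fun z hz hzx => by
        by_cases h0 : (e fun k => u (r k)) = 0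
        · rw [h0, Scheme.ord_zero]
          exact le_rfl
        · have := he z hz (fun k => u (r k)) (fun k => (hsu.reg _).of_specializes hzx) h0
          rwa [coef_zero, add_zero] at this
    exact ⟨a, ha⟩

/-- Nonzero regular tensors have nonzero regular pull backs. -/
theorem exists_pull_tensor (hFS : FactorialStalks) (φ : DomHom X Y) {p : ℕ} {e : Y.Ten p}
    (he0 : e ≠ 0) (he : IsTwTensor e 0) :
    ∃ e' : X.Ten p, e' ≠ 0 ∧ ∀ (x : X.X) (v : Fin p → X.Der), (∀ k, RegDer x (v k)) →
      e' v ∈ locRing X x := by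
  obtain ⟨t, w, h⟩ := exists_fr (X := Y) rfl (genericPoint Y.X)
  refine ⟨pullTen φ t w e, fun h0 => he0 ?_, fun x v hv => pullTen_mem hFS φ h.expand he hv⟩
  ext u
  choose v hv using fun k => φ.exists_lift (u k)
  have h1 := pullTen_lift φ h.expand e v u hv
  rw [h0] at h1
  exact (map_eq_zero φ.pull).1 h1.symm

section Down

variable {μ : DomHom X Z} (hμ : μ.Birational)

theorem DomHom.Birational.up_add (v v' : Z.Der) : hμ.up (v + v') = hμ.up v + hμ.up v' := by
  ext a
  rw [Derivation.add_apply, hμ.up_apply, hμ.up_apply, hμ.up_apply, Derivation.add_apply, map_add]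

theorem DomHom.Birational.up_smul (c : Z.K) (v : Z.Der) :
    hμ.up (c • v) = hμ.equiv c • hμ.up v := by
  ext a
  rw [Derivation.smul_apply, hμ.up_apply, hμ.up_apply, Derivation.smul_apply, smul_eq_mul,
    smul_eq_mul, map_mul]

theorem DomHom.Birational.up_down (v : X.Der) : hμ.up (hμ.down v) = v := by
  ext a
  rw [hμ.up_apply, hμ.down_apply, RingEquiv.apply_symm_apply, RingEquiv.apply_symm_apply]

/-- Transport of a tensor under a birational morphism. -/
noncomputable def DomHom.Birational.downTen {p : ℕ} (e : X.Ten p) : Z.Ten p where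
  toFun v := hμ.equiv.symm (e fun k => hμ.up (v k))
  map_update_add' := by
    intro hd f i z z'
    have h1 : ∀ z, (fun k => hμ.up (Function.update f i z k)) =
        Function.update (fun k => hμ.up (f k)) i (hμ.up z) := by
      intro z
      funext k
      by_cases hk : k = i
      · subst hk
        simp
      · simp [hk]
    rw [h1, h1, h1, hμ.up_add, e.map_update_add, map_add]
  map_update_smul' := by
    intro hd f i c z
    have h1 : ∀ z, (fun k => hμ.up (Function.update f i z k)) =
        Function.update (fun k => hμ.up (f k)) i (hμ.up z) := by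
      intro z
      funext k
      by_cases hk : k = i
      · subst hk
        simp
      · simp [hk]
    rw [h1, h1, hμ.up_smul, e.map_update_smul, smul_eq_mul, map_mul, RingEquiv.symm_apply_apply]
    rfl

theorem DomHom.Birational.downTen_apply {p : ℕ} (e : X.Ten p) (v : Fin p → Z.Der) :
    hμ.downTen e v = hμ.equiv.symm (e fun k => hμ.up (v k)) := rfl

end Down

/-- A vector field which is regular at a prime divisor `μ(x)` lifts to a vector field which is
regular at `x`. -/
theorem DomHom.Birational.regDer_up {μ : DomHom X Z} (hμ : μ.Birational) {x : X.X}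
    (hx : coheight (μ.f x) = 1) {v : Z.Der} (hv : RegDer (μ.f x) v) : RegDer x (hμ.up v) := by
  have hbij := stalkMap_bijective_of_birational μ hμ x hx
  rw [regDer_iff_locRing]
  rintro _ ⟨b, rfl⟩
  obtain ⟨a, ha⟩ := hbij.2 b
  have h4 := μ.pull_stalk x a
  have h5 : hμ.equiv.symm (algebraMap (X.X.presheaf.stalk x) X.K b) =
      algebraMap (Z.X.presheaf.stalk (μ.f x)) Z.K a := by
    rw [RingEquiv.symm_apply_eq, hμ.equiv_apply, h4]
    exact congrArg _ ha.symm
  rw [hμ.up_apply, h5]
  exact pull_mem_locRing μ (regDer_iff_locRing.1 hv _ ⟨a, rfl⟩)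

/-- **Regular tensors on the base give regular tensors on `Z`.** -/
theorem exists_regular_tensor (hFS : FactorialStalks) (φ : DomHom X Y) {μ : DomHom X Z}
    (hμ : μ.Birational) {p : ℕ} {e : Y.Ten p} (he0 : e ≠ 0) (he : IsTwTensor e 0) :
    ∃ e' : Z.Ten p, e' ≠ 0 ∧ IsTwTensor e' 0 := by
  obtain ⟨e₁, he₁0, he₁⟩ := exists_pull_tensor hFS φ he0 he
  refine ⟨hμ.downTen e₁, fun h0 => he₁0 ?_, fun z hz v hv hne => ?_⟩
  · ext v
    have h1 := hμ.downTen_apply e₁ (fun k => hμ.down (v k))
    rw [h0] at h1
    have h2 : (fun k => hμ.up (hμ.down (v k))) = v := by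
      funext k
      exact hμ.up_down _
    rw [h2] at h1
    have h3 : hμ.equiv.symm (e₁ v) = 0 := h1.symm
    exact (map_eq_zero hμ.equiv.symm).1 h3
  · obtain ⟨x, rfl⟩ := μ.surjective z
    obtain ⟨hx, hord⟩ := ord_pull_of_birational μ hμ x hz
    have h1 : μ.pull (hμ.downTen e₁ v) = e₁ fun k => hμ.up (v k) := by
      rw [hμ.downTen_apply]
      exact hμ.equiv.apply_symm_apply _
    have h2 := ord_nonneg_of_locRing (he₁ x (fun k => hμ.up (v k))
      fun k => hμ.regDer_up hz (hv k))
    rw [← h1, hord] at h2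
    rwa [coef_zero, add_zero]

/-- [Serre] Serre duality on smooth projective varieties. -/
def SerreDuality : Prop :=
  ∀ (X : Var) (κ D : Div X.X) (i j : ℕ), IsCanonicalDivisor κ → i + j = X.dim →
    hX D i = hX (κ - D) j

/-- If `X` has no regular tensors of positive degree, then the Euler characteristic of the canonical
bundle is nonzero. -/
theorem chi_canonical_ne_zero (hLef : HardLefschetz) (hSD : SerreDuality) {κ : Div X.X}
    (hκ : IsCanonicalDivisor κ)
    (h : ∀ p : ℕ, 0 < p → ∀ e : X.Ten p, IsTwTensor e 0 → e = 0) : chi κ ≠ 0 := by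
  have hFS : FactorialStalks := factorialStalks
  have h0 : ∀ i, i ≠ X.dim → hX κ i = 0 := by
    intro i hi
    by_contra hne
    obtain ⟨p, hp, e, he, -, htw⟩ := hLef X κ 0 hκ (isGenerated_zero.semiPos hFS) i
      (by rwa [add_zero])
    rcases Nat.eq_zero_or_pos p with hp0 | hp0
    · omega
    · exact he (h p hp0 e htw)
  have h1 : hX κ X.dim = 1 := by
    rw [hSD X κ κ X.dim 0 hκ (add_zero _), sub_self]
    exact hh_zero_zero X (hFS X) _ _ trivial
  have h2 : chi κ = (-1) ^ X.dim * (hX κ X.dim : ℤ) := by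
    unfold chi
    rw [Finset.sum_eq_single X.dim]
    · rfl
    · intro i _ hi
      have h3 : hh (S := (X.X : TopCat.{0})) id ⊤ κ i = 0 := h0 i hi
      rw [h3]
      simp
    · intro hni
      exact absurd (Finset.mem_range.2 (Nat.lt_succ_self _)) hni
  rw [h2, h1]
  simp

end Vale.Agent.P299.Q
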