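import Vale.Agent.P299.Q.TorEff

/-!
# Comparison of the invariant Euler characteristics on two birational models
-/

open CategoryTheory TopologicalSpace Opposite TopCat AlgebraicGeometry Order

namespace Vale.Agent.P299.Q

open Vale.Agent.P299.G

/-- A section plus a pseudo-effective divisor. -/
theorem IsPsef.add_section {X : Var} {P D : Div X.X} (hP : IsPsef P) (hD : H0 (coef D) ≠ ⊥) :
    IsPsef (P + D) := by
  intro A hA m
  obtain ⟨k, hk, h⟩ := hP A hA m
  refine ⟨k, hk, ?_⟩
  have e : k • (m • (P + D) + A) = k • (m • P + A) + (k * m) • D := by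
    rw [mul_smul, ← smul_add, smul_add m]
    congr 1
    abel
  rw [e]
  exact H0_add_ne_bot h (H0_nsmul_ne_bot hD _)

/-- Vanishing for `κ + S + M`, with `S` semipositive, `M` nef and `S + M` big. -/
theorem vanishing_of_psef (hKN : KollarNadelVanishing) {X : Var} {κ S M A : Div X.X}
    (hκ : IsCanonicalDivisor κ) (hS : SemiPos S) (hM : IsNef M) (hA : IsAmple A) {c : ℕ}
    (hc : 0 < c) (hcM : IsPsef (c • (S + M) - A)) :
    ∀ i > 0, Subsingleton (Coh (secSheaf (S := (X.X : TopCat.{0})) id ⊤ (κ + S + M)) i) := by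
  intro i hi
  exact hKN X X (DomHom.id X) κ S M A M A hκ hS hM hA (isPullback_id factorialStalks M)
    (isPullback_id factorialStalks A) ⟨c, hc, hcM⟩ i hi

/-- `H⁰` on two birational models. -/
theorem finrank_H0_models {X X' : Var} {μ : DomHom X' X} (hμ : μ.Birational)
    {E : Submodule ℂ X.K} {E' : Submodule ℂ X'.K} (hE : ∀ f, μ.pull f ∈ E' ↔ f ∈ E)
    {D : Div X.X} {D' D₀ F : Div X'.X} (hD : IsPullback μ D D₀) (hD' : D' = D₀ + F)
    (hF : 0 ≤ F) (hFx : ∀ x : X'.X, coheight (μ.f x) = 1 → coef F x = 0) :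
    Module.finrank ℂ (E ⊓ H0 (coef D) : Submodule ℂ X.K) =
      Module.finrank ℂ (E' ⊓ H0 (coef D') : Submodule ℂ X'.K) := by
  have hF' : ∀ x, 0 ≤ coef F x := by
    intro x
    by_cases hx : coheight x = 1
    · rw [coef_mk hx]
      exact hF ⟨x, hx⟩
    · rw [coef_of_ne hx]
  have key : ∀ f : X.K, μ.pull f ∈ H0 (coef D') ↔ f ∈ H0 (coef D) := by
    intro f
    constructor
    · intro h
      rw [mem_H0] at h ⊢
      intro y hy hne
      obtain ⟨x, hx, rfl, ho⟩ := exists_strict μ hμ y hy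
      have h1 := h x hx (μ.pull_ne_zero hne)
      rw [ho, hD', coef_add, hFx x hy, add_zero, hD.coef_strict hx hy ho] at h1
      exact h1
    · intro h
      have h1 := hD.pull_mem_H0 factorialStalks h
      rw [mem_H0] at h1 ⊢
      intro x hx hne
      have h2 := h1 x hx hne
      have h3 := hF' x
      rw [hD', coef_add]
      linarith
  let e : X.K →ₗ[ℂ] X'.K :=
    { toFun := μ.pull
      map_add' := fun a b => map_add _ _ _
      map_smul' := fun c a => by
        rw [Algebra.smul_def, map_mul, μ.pull_scalar, RingHom.id_apply, Algebra.smul_def] }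
  have he : Function.Injective e := μ.pull_injective
  have hmap : (E ⊓ H0 (coef D) : Submodule ℂ X.K).map e = E' ⊓ H0 (coef D') := by
    ext g
    rw [Submodule.mem_map, Submodule.mem_inf]
    constructor
    · rintro ⟨f, hf, rfl⟩
      exact ⟨(hE f).2 hf.1, (key f).2 hf.2⟩
    · rintro ⟨h1, h2⟩
      obtain ⟨f, rfl⟩ := hμ.2 g
      exact ⟨f, ⟨(hE f).1 h1, (key f).1 h2⟩, rfl⟩
  rw [← hmap]
  exact (LinearEquiv.finrank_eq (Submodule.equivMapOfInjective e he _))

theorem isAmple_sum {X : Var} {ι : Type} {B : ι → Div X.X} (hB : ∀ j, IsAmple (B j))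
    {T : Finset ι} (hT : T.Nonempty) : IsAmple (∑ i ∈ T, B i) := by
  induction hT using Finset.Nonempty.cons_induction with
  | singleton a => rw [Finset.sum_singleton]; exact hB a
  | cons a s ha hs ih => rw [Finset.sum_cons]; exact (hB a).add ih

theorem TAct.InvDiv.sum {r : ℕ} {X : Var} (τ : TAct r X) {ι : Type} {B : ι → Div X.X}
    (hB : ∀ j, τ.InvDiv (B j)) (T : Finset ι) : τ.InvDiv (∑ i ∈ T, B i) := by
  classical
  induction T using Finset.induction_on with
  | empty =>
    rw [Finset.sum_empty]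
    exact fun σ x => by rw [coef_zero, coef_zero]
  | insert a s ha ih =>
    rw [Finset.sum_insert ha]
    exact TAct.InvDiv.add τ (hB a) ih

theorem isPullback_sum {X Y : Var} {μ : DomHom X Y} {ι : Type} {B : ι → Div Y.X}
    {B' : ι → Div X.X} (hB : ∀ j, IsPullback μ (B j) (B' j)) (T : Finset ι) :
    IsPullback μ (∑ i ∈ T, B i) (∑ i ∈ T, B' i) := by
  classical
  induction T using Finset.induction_on with
  | empty =>
    rw [Finset.sum_empty, Finset.sum_empty]
    exact isPullback_zero μ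
  | insert a s ha ih =>
    rw [Finset.sum_insert ha, Finset.sum_insert ha]
    exact (hB a).add ih

/-- **Comparison of the invariant Euler characteristics** of `K_X + S` and `K_{X'} + μ^*S`. -/
theorem birational_compare (hKN : KollarNadelVanishing) (hSPN : SemiPosNef)
    (hLin : Linearization) (hInv : InvariantPart) {r : ℕ} {X X' : Var} (τ : TAct r X)
    (τ' : TAct r X') {μ : DomHom X' X} (hμ : μ.Birational)
    (heq : ∀ t, (τ'.act t).f ≫ μ.f = μ.f ≫ (τ.act t).f)
    {κ S : Div X.X} {κ' κ₀ E S' : Div X'.X} (hκ : IsCanonicalDivisor κ) (hκi : τ.InvDiv κ)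
    (hκ' : IsCanonicalDivisor κ') (hκ'i : τ'.InvDiv κ') (hpb : IsPullback μ κ κ₀)
    (hκE : κ' = κ₀ + E) (hE : 0 ≤ E)
    (hEx : ∀ x : X'.X, coheight (μ.f x) = 1 → coef E x = 0)
    (hS : SemiPos S) (hSi : τ.InvDiv S) (hS' : IsPullback μ S S') :
    ∃ N, Good N (secSheaf (S := τ.space) id τ.inv (κ + S)) ∧
      Good N (secSheaf (S := τ'.space) id τ'.inv (κ' + S')) ∧
      eu N (secSheaf (S := τ.space) id τ.inv (κ + S)) =
        eu N (secSheaf (S := τ'.space) id τ'.inv (κ' + S')) := by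
  classical
  obtain ⟨A, hAi, hA⟩ := hLin r X τ
  obtain ⟨N, B, hB, hgen⟩ := τ.exists_effective hA hAi
  have hS'sp : SemiPos S' := semiPos_pull factorialStalks μ hS' hS
  have hS'i : τ'.InvDiv S' := TAct.InvDiv.pull τ factorialStalks heq hSi hS'
  let B' : Fin (N + 1) → Div X'.X := fun j => μ.pb factorialStalks (B j)
  have hB' : ∀ j, IsPullback μ (B j) (B' j) := fun j => μ.isPullback_pb factorialStalks (B j)
  have hB'i : ∀ j, τ'.InvDiv (B' j) := fun j =>
    TAct.InvDiv.pull τ factorialStalks heq (hB j).2.1 (hB' j)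
  have h1 : ∀ σ, ∃ c : ℂ, c ≠ 0 ∧ (τ.act σ).pull (1 : X.K) = c • (1 : X.K) := fun σ =>
    ⟨1, one_ne_zero, by rw [map_one, one_smul]⟩
  have h1' : ∀ σ, ∃ c : ℂ, c ≠ 0 ∧ (τ'.act σ).pull (1 : X'.K) = c • (1 : X'.K) := fun σ =>
    ⟨1, one_ne_zero, by rw [map_one, one_smul]⟩
  refine ⟨N, eu_compare (B := B) (s := fun _ => 1) (B' := B') (s' := fun _ => 1)
    (fun j f hf => by rwa [one_mul]) (fun j f hf => by rwa [inv_one, one_mul])
    (fun j => (hB j).2.2) ?_ (fun j f hf => by rwa [one_mul])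
    (fun j f hf => by rwa [inv_one, one_mul]) ?_ ?_ (κ + S) (κ' + S') ?_⟩
  · intro p
    obtain ⟨j, hj⟩ := hgen p
    exact ⟨τ.genOpens (hB j).2.1 h1, hj, j, one_ne_zero, fun x hx => hx⟩
  · intro j
    have h2 := (hB' j).pull_mem_H0 factorialStalks (hB j).2.2
    rwa [map_one] at h2
  · intro p
    obtain ⟨j, hj⟩ := hgen (μ.f (show X'.X from p))
    have h2 : GenAt (B' j) 1 (show X'.X from p) := by
      have h3 := (hB' j).genAt factorialStalks hj
      rwa [map_one] at h3
    exact ⟨τ'.genOpens (hB'i j) h1', h2, j, one_ne_zero, fun x hx => hx⟩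
  · intro T hT
    have hsumA : IsAmple (∑ i ∈ T, B i) := isAmple_sum (fun j => (hB j).1) hT
    have hsumi : τ.InvDiv (∑ i ∈ T, B i) := TAct.InvDiv.sum τ (fun j => (hB j).2.1) T
    have hsum' : IsPullback μ (∑ i ∈ T, B i) (∑ i ∈ T, B' i) := isPullback_sum hB' T
    have hSP : IsPsef S := (hSPN X S hS).isPsef'
    have hSP' : IsPsef S' := (hSPN X' S' hS'sp).isPsef'
    refine ⟨fun i hi => ?_, fun i hi => ?_, ?_⟩
    · refine hInv r X τ _ i (TAct.InvDiv.add τ (TAct.InvDiv.add τ hκi hSi) hsumi) ?_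
      refine vanishing_of_psef hKN hκ hS hsumA.isNef hsumA (c := 1) one_pos ?_ i hi
      rw [one_smul, add_sub_cancel_right]
      exact hSP
    · refine hInv r X' τ' _ i (TAct.InvDiv.add τ' (TAct.InvDiv.add τ' hκ'i hS'i)
        (TAct.InvDiv.sum τ' hB'i T)) ?_
      obtain ⟨A', hA'⟩ := X'.ample
      obtain ⟨k, hk, hkA⟩ := kodairaLemma factorialStalks X' X μ hμ _ _ hsum' hsumA A'
      refine vanishing_of_psef hKN hκ' hS'sp
        (nefPullback factorialStalks X' X μ _ _ hsum' hsumA.isNef) hA' hk ?_ i hi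
      have e : k • (S' + ∑ i ∈ T, B' i) - A' = k • S' + (k • ∑ i ∈ T, B' i - A') := by
        rw [smul_add]
        abel
      rw [e]
      exact ((hSPN X' S' hS'sp).nsmul k).isPsef'.add_section hkA
    · refine finrank_H0_models hμ (fun f => mem_inv_pull τ heq f)
        ((hpb.add hS').add hsum') (F := E) ?_ hE hEx
      rw [hκE]
      abel

end Vale.Agent.P299.Q
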