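import Vale.Agent.P299.Q.SnapFinal

/-!
# The Koszul complex for the sheaves of sections
-/

open CategoryTheory TopologicalSpace Opposite TopCat AlgebraicGeometry Order

namespace Vale.Agent.P299.Q

open Vale.Agent.P299.G

section Koszul

variable {X : Var} {T : TopCat.{0}} [PreirreducibleSpace T] (q : X.X → T) (E : Submodule ℂ X.K)
  {N : ℕ} (B : Fin N → Div X.X) (s : Fin N → X.K)

/-- The stalk at `p`, in the function field of `X`, of the sheaf `secSheaf q E D`. -/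
noncomputable abbrev secK (D : Div X.X) (p : T) : Submodule ℂ X.K :=
  E ⊓ ⨅ x, ⨅ _ : q x = p, polar (coef D) x

omit [PreirreducibleSpace T] in
variable {q E} in
theorem mem_secK {D : Div X.X} {p : T} {f : X.K} :
    f ∈ secK q E D p ↔ f ∈ E ∧ ∀ x, q x = p → f ∈ polar (coef D) x := by
  rw [Submodule.mem_inf]
  simp only [Submodule.mem_iInf]

variable {B s}

theorem sec_mul (D : Div X.X) (hE : ∀ j, ∀ f ∈ E, s j * f ∈ E)
    (hs : ∀ j, s j ∈ H0 (coef (B j))) (S : Finset (Fin N)) (j : Fin N)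
    (hj : j ∉ S) (p : T) (f : X.K) (hf : f ∈ secK q E (D - ∑ i ∈ insert j S, B i) p) :
    s j * f ∈ secK q E (D - ∑ i ∈ S, B i) p := by
  rw [mem_secK] at hf ⊢
  refine ⟨hE j f hf.1, fun x hx hx1 hne => ?_⟩
  have h1 := left_ne_zero_of_mul hne
  have h2 := right_ne_zero_of_mul hne
  have h3 := (mem_H0.1 (hs j)) x hx1 h1
  have h4 := hf.2 x hx hx1 h2
  rw [Finset.sum_insert hj, coef_sub, coef_add] at h4
  rw [Scheme.ord_mul h1 h2, coef_sub]
  linarith

theorem sec_div (D : Div X.X) (hE' : ∀ j, ∀ f ∈ E, (s j)⁻¹ * f ∈ E)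
    (hgen : ∀ p : T, ∃ V : Opens T, p ∈ V ∧ ∃ j, s j ≠ 0 ∧ ∀ x, q x ∈ V → GenAt (B j) (s j) x)
    (p₀ : T) :
    ∃ V : Opens T, p₀ ∈ V ∧ ∃ j, s j ≠ 0 ∧ ∀ S : Finset (Fin N), j ∉ S → ∀ p ∈ V,
      ∀ f ∈ secK q E (D - ∑ i ∈ S, B i) p, (s j)⁻¹ * f ∈ secK q E (D - ∑ i ∈ insert j S, B i) p := by
  obtain ⟨V, hp, j, hj, hV⟩ := hgen p₀
  refine ⟨V, hp, j, hj, fun S hjS p hpV f hf => ?_⟩
  rw [mem_secK] at hf ⊢
  refine ⟨hE' j f hf.1, fun x hx hx1 hne => ?_⟩
  have h2 := right_ne_zero_of_mul hne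
  have h4 := hf.2 x hx hx1 h2
  have h5 := hV x (by rw [hx]; exact hpV)
  have h6 := h5.ord hx1
  rw [Finset.sum_insert hjS, coef_sub, coef_add, Scheme.ord_mul (inv_ne_zero h5.1) h2,
    ord_inv h5.1, h6]
  rw [coef_sub] at h4
  linarith

variable (hE : ∀ j, ∀ f ∈ E, s j * f ∈ E) (hE' : ∀ j, ∀ f ∈ E, (s j)⁻¹ * f ∈ E)
  (hs : ∀ j, s j ∈ H0 (coef (B j)))
  (hgen : ∀ p : T, ∃ V : Opens T, p ∈ V ∧ ∃ j, s j ≠ 0 ∧ ∀ x, q x ∈ V → GenAt (B j) (s j) x)

include hE hE' hs hgen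

/-- The Koszul relation between Euler characteristics. -/
theorem sec_eu {n : ℕ} (D : Div X.X)
    (hgood : ∀ S : Finset (Fin N), Good n (secSheaf q E (D - ∑ i ∈ S, B i))) :
    ∑ S : Finset (Fin N), (-1) ^ S.card * eu n (secSheaf q E (D - ∑ i ∈ S, B i)) = 0 :=
  koszul_eu (T := T) (K := X.K) (s := s)
    (M := fun S p => secK q E (D - ∑ i ∈ S, B i) p) (sec_mul q E D hE hs) (sec_div q E D hE' hgen)
    hgood

/-- Finiteness from the Koszul complex. -/
theorem sec_good {m : ℕ} (hN : N = m + 1) (D : Div X.X) (hgood : ∀ S : Finset (Fin N),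
      S ≠ Finset.univ → Good 0 (secSheaf q E (D - ∑ i ∈ S, B i))) :
    Good m (secSheaf q E (D - ∑ i, B i)) :=
  koszul_good (T := T) (K := X.K) (s := s)
    (M := fun S p => secK q E (D - ∑ i ∈ S, B i) p) (sec_mul q E D hE hs) (sec_div q E D hE' hgen)
    hN hgood

end Koszul

/-- A sheaf of sections without higher cohomology. -/
theorem good_zero_sec {X : Var} {T : TopCat.{0}} [PreirreducibleSpace T] {q : X.X → T}
    {E : Submodule ℂ X.K} {D : Div X.X}
    (h : ∀ i > 0, Subsingleton (Coh (secSheaf q E D) i)) : Good 0 (secSheaf q E D) := by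
  refine ⟨fun i => ?_, h⟩
  rcases Nat.eq_zero_or_pos i with rfl | hi
  · have h1 := finite_H0 factorialStalks D
    have h2 : Module.Finite ℂ (E ⊓ H0 (coef D) : Submodule ℂ X.K) := by
      exact Submodule.finiteDimensional_of_le (inf_le_right : E ⊓ H0 (coef D) ≤ H0 (coef D))
    exact Module.Finite.equiv (cohZeroSecSheaf q E D).symm
  · have := h i hi
    infer_instance

/-- The Euler characteristic does not depend on the bound for the cohomological dimension. -/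
theorem eu_eq_of_good {T : TopCat.{0}}
    {F : Sheaf (Opens.grothendieckTopology T) (ModuleCat.{0} ℂ)} {n m : ℕ} (h : Good n F)
    (hnm : n ≤ m) : eu m F = eu n F := by
  obtain ⟨k, rfl⟩ := Nat.exists_eq_add_of_le hnm
  clear hnm
  induction k with
  | zero => rfl
  | succ k ih =>
    rw [← ih]
    unfold eu
    have h1 : n + (k + 1) + 1 = (n + k + 1) + 1 := by omega
    rw [h1, Finset.sum_range_succ]
    have := h.2 (n + k + 1) (by omega)
    rw [Module.finrank_zero_of_subsingleton]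
    simp

theorem eu_sec_of_good_zero {X : Var} {T : TopCat.{0}} [PreirreducibleSpace T] {q : X.X → T}
    {E : Submodule ℂ X.K} {D : Div X.X} (h : Good 0 (secSheaf q E D)) (n : ℕ) :
    eu n (secSheaf q E D) = Module.finrank ℂ (E ⊓ H0 (coef D) : Submodule ℂ X.K) := by
  rw [eu_eq_of_good h (Nat.zero_le n)]
  unfold eu
  rw [Finset.sum_range_one, pow_zero, one_mul, (cohZeroSecSheaf q E D).finrank_eq]

/-- **Comparison of Euler characteristics.** If the higher cohomology of two families of sheaves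
vanishes and the dimensions of the spaces of sections agree, except for the last member of the
family, then the Euler characteristics of the last members agree. -/
theorem eu_compare {X X' : Var} {T T' : TopCat.{0}} [PreirreducibleSpace T]
    [PreirreducibleSpace T'] {q : X.X → T} {q' : X'.X → T'}
    {E : Submodule ℂ X.K} {E' : Submodule ℂ X'.K} {m : ℕ} {B : Fin (m + 1) → Div X.X}
    {s : Fin (m + 1) → X.K} {B' : Fin (m + 1) → Div X'.X} {s' : Fin (m + 1) → X'.K}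
    (hE₁ : ∀ j, ∀ f ∈ E, s j * f ∈ E) (hE₂ : ∀ j, ∀ f ∈ E, (s j)⁻¹ * f ∈ E)
    (hs : ∀ j, s j ∈ H0 (coef (B j)))
    (hgen : ∀ p : T, ∃ V : Opens T, p ∈ V ∧ ∃ j, s j ≠ 0 ∧ ∀ x, q x ∈ V → GenAt (B j) (s j) x)
    (hE₁' : ∀ j, ∀ f ∈ E', s' j * f ∈ E') (hE₂' : ∀ j, ∀ f ∈ E', (s' j)⁻¹ * f ∈ E')
    (hs' : ∀ j, s' j ∈ H0 (coef (B' j)))
    (hgen' : ∀ p : T', ∃ V : Opens T', p ∈ V ∧ ∃ j, s' j ≠ 0 ∧
      ∀ x, q' x ∈ V → GenAt (B' j) (s' j) x)
    (D : Div X.X) (D' : Div X'.X)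
    (h : ∀ S : Finset (Fin (m + 1)), S.Nonempty →
      (∀ i > 0, Subsingleton (Coh (secSheaf q E (D + ∑ i ∈ S, B i)) i)) ∧
      (∀ i > 0, Subsingleton (Coh (secSheaf q' E' (D' + ∑ i ∈ S, B' i)) i)) ∧
      Module.finrank ℂ (E ⊓ H0 (coef (D + ∑ i ∈ S, B i)) : Submodule ℂ X.K) =
        Module.finrank ℂ (E' ⊓ H0 (coef (D' + ∑ i ∈ S, B' i)) : Submodule ℂ X'.K)) :
    Good m (secSheaf q E D) ∧ Good m (secSheaf q' E' D') ∧
      eu m (secSheaf q E D) = eu m (secSheaf q' E' D') := by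
  classical
  have key : ∀ {X : Var} (B : Fin (m + 1) → Div X.X) (D : Div X.X) (S : Finset (Fin (m + 1))),
      D + ∑ i, B i - ∑ i ∈ S, B i = D + ∑ i ∈ Sᶜ, B i := by
    intro X B D S
    rw [← Finset.sum_add_sum_compl S B]
    abel
  have hne : ∀ S : Finset (Fin (m + 1)), S ≠ Finset.univ → (Sᶜ).Nonempty := by
    intro S hS
    rw [Finset.nonempty_iff_ne_empty]
    intro h0
    exact hS ((Finset.compl_eq_empty_iff S).1 h0)
  have h0 : ∀ {X : Var} (B : Fin (m + 1) → Div X.X) (D : Div X.X), D + ∑ i, B i - ∑ i, B i = D :=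
    fun B D => by abel
  have hg1 : ∀ S : Finset (Fin (m + 1)), S ≠ Finset.univ →
      Good 0 (secSheaf q E (D + ∑ i, B i - ∑ i ∈ S, B i)) := by
    intro S hS
    rw [key]
    exact good_zero_sec (h _ (hne S hS)).1
  have hg1' : ∀ S : Finset (Fin (m + 1)), S ≠ Finset.univ →
      Good 0 (secSheaf q' E' (D' + ∑ i, B' i - ∑ i ∈ S, B' i)) := by
    intro S hS
    rw [key]
    exact good_zero_sec (h _ (hne S hS)).2.1
  have hG := sec_good q E hE₁ hE₂ hs hgen rfl (D + ∑ i, B i) hg1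
  have hG' := sec_good q' E' hE₁' hE₂' hs' hgen' rfl (D' + ∑ i, B' i) hg1'
  have hall : ∀ S : Finset (Fin (m + 1)),
      Good m (secSheaf q E (D + ∑ i, B i - ∑ i ∈ S, B i)) := by
    intro S
    by_cases hS : S = Finset.univ
    · rw [hS]
      exact hG
    · exact (hg1 S hS).mono (Nat.zero_le m)
  have hall' : ∀ S : Finset (Fin (m + 1)),
      Good m (secSheaf q' E' (D' + ∑ i, B' i - ∑ i ∈ S, B' i)) := by
    intro S
    by_cases hS : S = Finset.univ
    · rw [hS]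
      exact hG'
    · exact (hg1' S hS).mono (Nat.zero_le m)
  have he := sec_eu q E hE₁ hE₂ hs hgen (D + ∑ i, B i) hall
  have he' := sec_eu q' E' hE₁' hE₂' hs' hgen' (D' + ∑ i, B' i) hall'
  rw [← Finset.sum_erase_add _ _ (Finset.mem_univ Finset.univ)] at he he'
  have hsum : ∑ S ∈ Finset.univ.erase Finset.univ, (-1 : ℤ) ^ S.card *
        eu m (secSheaf q E (D + ∑ i, B i - ∑ i ∈ S, B i)) =
      ∑ S ∈ Finset.univ.erase Finset.univ, (-1 : ℤ) ^ S.card *
        eu m (secSheaf q' E' (D' + ∑ i, B' i - ∑ i ∈ S, B' i)) := by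
    refine Finset.sum_congr rfl fun S hS => ?_
    have hS' := Finset.ne_of_mem_erase hS
    rw [eu_sec_of_good_zero (hg1 S hS') m, eu_sec_of_good_zero (hg1' S hS') m, key, key,
      (h _ (hne S hS')).2.2]
  rw [h0] at hG hG' he he'
  refine ⟨hG, hG', ?_⟩
  rw [hsum] at he
  have h1 := he.trans he'.symm
  have h2 := add_left_cancel h1
  have h3 : ((-1 : ℤ) ^ (Finset.univ : Finset (Fin (m + 1))).card) ≠ 0 :=
    pow_ne_zero _ (by norm_num)
  exact mul_left_cancel₀ h3 h2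

end Vale.Agent.P299.Q
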