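import Vale.Agent.P299.Q.TorGR

/-!
# The invariant Euler characteristic and the direct image
-/

open CategoryTheory TopologicalSpace Opposite TopCat AlgebraicGeometry Order

namespace Vale.Agent.P299.Q

open Vale.Agent.P299.G

/-- **The invariant Euler characteristic is that of the direct image**, if the higher direct
images vanish. -/
theorem direct_image_compare (hKN : KollarNadelVanishing) {r : ℕ} {X Y : Var} (τ : TAct r X)
    {φ : DomHom X Y} (hφ : τ.InvHom φ) {D : Div X.X} {D' : Div Y.X}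
    (hsec : ∀ (B : Div Y.X) (B' : Div X.X), IsPullback φ B B' → ∀ U : Opens (Y.X : TopCat.{0}),
      (U : Set Y.X).Nonempty → ∀ f : X.K,
        (∃ g : Y.K, (∀ y : Y.X, y ∈ U → g ∈ polar (coef (D' + B)) y) ∧ φ.pull g = f) ↔
        f ∈ τ.inv ∧ ∀ x : X.X, φ.f x ∈ U → f ∈ polar (coef (D + B')) x)
    (hvan : ∀ (A : Div Y.X) (A' : Div X.X), IsAmple A → IsPullback φ A A' → ∀ i > 0,
      Subsingleton (Coh (secSheaf (S := τ.space) id τ.inv (D + A')) i)) :
    Good Y.dim (secSheaf (S := τ.space) id τ.inv D) ∧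
      eu Y.dim (secSheaf (S := τ.space) id τ.inv D) = chi D' := by
  classical
  obtain ⟨H, hH⟩ := Y.ample
  obtain ⟨k₀, hk₀⟩ := exists_vanishing_forall hKN factorialStalks hH D'
  obtain ⟨m₀, hm₀⟩ := hH.forall_add (factorialStalks Y) 0
  set k := k₀ + m₀ + 1 with hk
  have hkH : IsAmple (k • H) := hH.nsmul (by omega)
  have hkg : IsGenerated (k • H) := by
    have := (hm₀ k (by omega)).2
    rwa [add_zero] at this
  obtain ⟨t, ht, hgen⟩ := exists_sections (fun _ : Fin (Y.dim + 1) => k • H) fun _ => hkg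
  obtain ⟨H', hH'⟩ := exists_isPullback factorialStalks φ (k • H)
  have hH'i : τ.InvDiv H' := TAct.InvDiv.of_invHom τ factorialStalks hφ hH'
  have hinv : ∀ j σ, ∃ c : ℂ, c ≠ 0 ∧ (τ.act σ).pull (φ.pull (t j)) = c • φ.pull (t j) :=
    fun j σ => ⟨1, one_ne_zero, by rw [one_smul]; exact τ.pull_mem hφ (t j) σ⟩
  have h := eu_compare (X := X) (X' := Y) (T := τ.space) (T' := (Y.X : TopCat.{0})) (q := id)
    (q' := id) (E := τ.inv) (E' := ⊤) (m := Y.dim) (B := fun _ => H')
    (s := fun j => φ.pull (t j)) (B' := fun _ => k • H) (s' := t)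
    (fun j f hf => τ.mul_mem (τ.pull_mem hφ _) hf)
    (fun j f hf => τ.mul_mem (τ.inv_mem (τ.pull_mem hφ _)) hf)
    (fun j => hH'.pull_mem_H0 factorialStalks (ht j)) ?_ (fun _ _ _ => trivial)
    (fun _ _ _ => trivial) ht ?_ D D' ?_
  · exact ⟨h.1, h.2.2⟩
  · intro p
    obtain ⟨j, hj⟩ := hgen (φ.f (show X.X from p))
    exact ⟨τ.genOpens hH'i (hinv j), hH'.genAt factorialStalks hj, j, φ.pull_ne_zero hj.1,
      fun x hx => hx⟩
  · intro y
    obtain ⟨j, hj⟩ := hgen y
    obtain ⟨V, hyV, hV⟩ := exists_genAt_nhds (k • H) y hj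
    exact ⟨V, hyV, j, hj.1, fun x hx => hV x hx⟩
  · intro S hS
    have hc : 0 < S.card := hS.card_pos
    rw [Finset.sum_const, Finset.sum_const]
    have hpb : IsPullback φ (S.card • (k • H)) (S.card • H') := hH'.nsmul _
    refine ⟨hvan _ _ (hkH.nsmul hc) hpb, fun i hi => ?_, ?_⟩
    · have h1 := hk₀ (S.card * k) (by nlinarith) 0 isNef_zero i hi
      rw [add_zero, mul_smul] at h1
      exact h1
    · let e : Y.K →ₗ[ℂ] X.K :=
        { toFun := φ.pull
          map_add' := fun a b => map_add _ _ _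
          map_smul' := fun c a => by
            rw [Algebra.smul_def, map_mul, φ.pull_scalar, RingHom.id_apply, Algebra.smul_def] }
      have he : Function.Injective e := φ.pull_injective
      have hmap : ((⊤ : Submodule ℂ Y.K) ⊓ H0 (coef (D' + S.card • (k • H))) :
          Submodule ℂ Y.K).map e = τ.inv ⊓ H0 (coef (D + S.card • H')) := by
        ext f
        rw [Submodule.mem_map, Submodule.mem_inf]
        have h2 := hsec _ _ hpb ⊤ ⟨genericPoint Y.X, trivial⟩ f
        constructor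
        · rintro ⟨g, hg, rfl⟩
          obtain ⟨h3, h4⟩ := h2.1 ⟨g, fun y _ => mem_polar.2 fun hy hg0 =>
            (mem_H0.1 hg.2) y hy hg0, rfl⟩
          exact ⟨h3, mem_H0.2 fun x hx hne => mem_polar.1 (h4 x trivial) hx hne⟩
        · rintro ⟨h3, h4⟩
          obtain ⟨g, hg, rfl⟩ := h2.2 ⟨h3, fun x _ => mem_polar.2 fun hx hne =>
            (mem_H0.1 h4) x hx hne⟩
          exact ⟨g, ⟨trivial, mem_H0.2 fun y hy hne => mem_polar.1 (hg y trivial) hy hne⟩, rfl⟩
      rw [← hmap]
      exact (LinearEquiv.finrank_eq (Submodule.equivMapOfInjective e he _)).symm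

end Vale.Agent.P299.Q
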