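import Vale.Agent.P299.Q.TorOrd
import Vale.Agent.P299.Q.TorForms
import Vale.Agent.P299.Q.SheafIso

/-!
# The invariant direct image of the relative canonical bundle
-/

open CategoryTheory TopologicalSpace Opposite TopCat AlgebraicGeometry Order

namespace Vale.Agent.P299.Q

open Vale.Agent.P299.G

/-- Comparison of subsheaves of constant sheaves with values in different spaces. -/
theorem finrank_coh_of_map {T : TopCat.{0}} [PreirreducibleSpace T] {K K' : Type}
    [AddCommGroup K] [Module ℂ K] [AddCommGroup K'] [Module ℂ K'] (e : K →ₗ[ℂ] K')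
    (he : Function.Injective e) (M : T → Submodule ℂ K) (M' : T → Submodule ℂ K')
    (h : ∀ U : Opens T, (U : Set T).Nonempty → ∀ f : K', (∃ g, (∀ x ∈ U, g ∈ M x) ∧ e g = f) ↔
      ∀ x ∈ U, f ∈ M' x) (i : ℕ) :
    Module.finrank ℂ (Coh (constSheaf M) i) = Module.finrank ℂ (Coh (constSheaf M') i) := by
  classical
  let E : ∀ U : Opens T, (constSheaf M).obj.obj (op U) →ₗ[ℂ] K' := fun U =>
    if hU : Nonempty U then
      { toFun := fun s => e ((s : constSec M U).1 hU.some)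
        map_add' := fun s t => map_add e _ _
        map_smul' := fun c s => map_smul e _ _ }
    else 0
  have hE : ∀ (U : Opens T) (x : U) (s : constSec M U), E U s = e (s.1 x) := by
    intro U x s
    have hU : Nonempty U := ⟨x⟩
    simp only [E, dif_pos hU]
    exact congrArg e (s.2.1 _ _)
  refine finrank_coh_of_sections M' (constSheaf M) E ?_ ?_ ?_ i
  · rintro U ⟨x, hx⟩ s s' hss
    have h1 := (hE U ⟨x, hx⟩ s).symm.trans (hss.trans (hE U ⟨x, hx⟩ s'))
    have h2 := he h1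
    apply Subtype.ext
    funext y
    rw [s.2.1 y ⟨x, hx⟩, s'.2.1 y ⟨x, hx⟩]
    exact h2
  · rintro U ⟨x, hx⟩ f
    rw [← h U ⟨x, hx⟩ f]
    constructor
    · rintro ⟨s, hs⟩
      refine ⟨(s : constSec M U).1 ⟨x, hx⟩, fun y hy => ?_, ?_⟩
      · rw [(s : constSec M U).2.1 ⟨x, hx⟩ ⟨y, hy⟩]
        exact (s : constSec M U).2.2 ⟨y, hy⟩
      · rw [← hs]
        exact (hE U ⟨x, hx⟩ s).symm
    · rintro ⟨g, hg, rfl⟩
      exact ⟨(⟨fun _ => g, fun _ _ => rfl, fun y => hg y.1 y.2⟩ : constSec M U),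
        hE U ⟨x, hx⟩ _⟩
  · rintro U V hVU ⟨x, hx⟩ s
    rw [hE U ⟨x, hVU hx⟩ s]
    exact hE V ⟨x, hx⟩ _

namespace TorusCoord

variable {r s : ℕ} {X Y : Var} {τ : TAct r X} {φ : DomHom X Y} {t : Fin s → X.K}
  {w : Fin s → Fin r → ℤ}

/-- The prime divisors over prime divisors of `Y` are invariant. -/
theorem fixed_of_coheight (h : TorusCoord τ φ t w) {x : X.X} (hx : coheight x = 1)
    (hy : coheight (φ.f x) = 1) (σ : Fin r → ℂˣ) : (τ.act σ).f x = x := by
  obtain ⟨p, hp0, hp⟩ := exists_unif hy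
  obtain ⟨e, he, hmult⟩ := φ.exists_mult x hx hy
  refine τ.fixed_of_finite (finite_ord_ne_zero (φ.pull p) (φ.pull_ne_zero hp0)) (fun σ => ?_) σ
  change Scheme.ord (φ.pull p) ((τ.act σ).f x) ≠ 0
  rw [← τ.ord_act, show (τ.act σ).pull (φ.pull p) = φ.pull p from h.inv p σ, hmult p hp0, hp]
  omega

/-- **The invariant direct images** of `O_X(κ' + cjL' + φ^*B)`, where `κ' + L'` is effective. -/
theorem exists_direct_image_twist (hFS : FactorialStalks) (h : TorusCoord τ φ t w) {κ' : Div X.X}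
    (hκ' : τ.IsCanonical κ') (hκ'i : τ.InvDiv κ') {E L' : Div X.X} (hE : 0 ≤ E)
    (hL : L' = E - κ') (W : Set X.X)
    (hW : ∀ x ∈ W, coheight x = 1 ∧ coheight (φ.f x) ≤ 1)
    (hWs : ∀ y : Y.X, coheight y = 1 → ∃ x ∈ W, φ.f x = y)
    (star : ∀ (c : ℕ) (R : Div Y.X) (R' : Div X.X), IsPullback φ R R' →
      (∀ x ∈ W, coef R' x ≤ coef (c • L') x) → R' ≤ c • L') :
    ∃ (κ M : Div Y.X) (c : ℕ), 0 < c ∧ IsCanonicalDivisor κ ∧ ∀ j : ℕ, 0 < j →
      ∀ (B : Div Y.X) (B' : Div X.X), IsPullback φ B B' → ∀ U : Opens (Y.X : TopCat.{0}),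
      (U : Set Y.X).Nonempty → ∀ f : X.K,
        (∃ g : Y.K, (∀ y : Y.X, y ∈ U → g ∈ polar (coef (κ + j • M + B)) y) ∧ φ.pull g = f) ↔
        f ∈ τ.inv ∧ ∀ x : X.X, φ.f x ∈ U → f ∈ polar (coef (κ' + (c * j) • L' + B')) x := by
  obtain ⟨ω, hω0, hω, hinv, hdiv⟩ := hκ'
  obtain ⟨η, hη0, hηa, hη⟩ := h.exists_base_form hω0 hω hinv
  obtain ⟨κ, hκ⟩ := exists_isDivTensor hη0
  have hE' : ∀ x, 0 ≤ coef E x := by
    intro x
    by_cases hx : coheight x = 1
    · rw [coef_mk hx]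
      exact hE ⟨x, hx⟩
    · rw [coef_of_ne hx]
  -- the horizontal prime divisors
  have hhor : ∀ x, coheight x = 1 → φ.f x = genericPoint Y.X → 0 ≤ coef L' x := by
    intro x hx hgx
    rw [hL, coef_sub]
    have h1 := hE' x
    by_cases h0 : coef κ' x = 0
    · rw [h0, sub_zero]
      exact h1
    · have h2 := h.coef_le_of_generic hω0 hω hdiv hη0 hηa hη hx (hκ'i.fixed h0) hgx
      linarith
  obtain ⟨c, hc, M, hM⟩ := exists_M hFS φ W hW hWs L' fun x hx hgx =>
    hhor x (hW x hx).1 hgx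
  obtain ⟨M', hM'⟩ := exists_isPullback hFS φ M
  obtain ⟨hMW, hMq⟩ := hM M' hM'
  have hM'L : ∀ x, coheight x = 1 → coef M' x ≤ c * coef L' x := by
    intro x hx
    have h1 := star c M M' hM' hMW ⟨x, hx⟩
    have h2 : coef M' x ≤ coef (c • L') x := by
      rw [coef_mk hx, coef_mk hx]
      exact h1
    rwa [coef_nsmul] at h2
  refine ⟨κ, M, c, hc, ⟨η, hη0, hηa, hκ⟩, fun j hj B B' hB U hU f' => ?_⟩
  have hj1 : (1 : ℤ) ≤ j := by exact_mod_cast hj
  have hc1 : (1 : ℤ) ≤ c := by exact_mod_cast hc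
  have hcoef : ∀ x, coef (κ' + (c * j) • L' + B') x =
      coef κ' x + j * (c * coef L' x) + coef B' x := by
    intro x
    rw [coef_add, coef_add, coef_nsmul]
    push_cast
    ring
  have hcoefY : ∀ y, coef (κ + j • M + B) y = coef κ y + j * coef M y + coef B y := by
    intro y
    rw [coef_add, coef_add, coef_nsmul]
  -- from `Y` to `X`
  have hfwd : ∀ f : Y.K, f ≠ 0 →
      (∀ y : Y.X, y ∈ U → coheight y = 1 → 0 ≤ Scheme.ord f y + coef (κ + j • M + B) y) →
      ∀ x : X.X, coheight x = 1 → φ.f x ∈ U →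
        0 ≤ Scheme.ord (φ.pull f) x + coef (κ' + (c * j) • L' + B') x := by
    intro f hf hfU x hx hxU
    rw [hcoef]
    by_cases hgx : φ.f x = genericPoint Y.X
    · rw [φ.ord_pull_of_generic x hgx hf, zero_add, hB.coef_eq_zero hx hgx, add_zero]
      have h1 := hhor x hx hgx
      have h2 : coef L' x = coef E x - coef κ' x := by rw [hL, coef_sub]
      have h3 := hE' x
      have h4 : 0 ≤ ((j : ℤ) * c - 1) * coef L' x := by
        refine mul_nonneg ?_ h1
        nlinarith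
      nlinarith
    · have hUFD := hFS Y (φ.f x)
      obtain ⟨m, hm⟩ := exists_genAt M (φ.f x)
      obtain ⟨b, hb⟩ := exists_genAt B (φ.f x)
      obtain ⟨u, v, huv⟩ := exists_fr (X := Y) rfl (φ.f x)
      have hηv := huv.genAt rfl hη0 hηa hκ
      have hηv0 : η v ≠ 0 := hηv.1
      have hmj : (m ^ j * b)⁻¹ ≠ 0 := inv_ne_zero (mul_ne_zero (pow_ne_zero _ hm.1) hb.1)
      have hreg : (f * (m ^ j * b)⁻¹) * η v ∈ locRing Y (φ.f x) := by
        obtain ⟨a, ha⟩ := exists_of_forall_ord_nonneg Y.dvr (φ.f x) ((f * (m ^ j * b)⁻¹) * η v)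
          fun q hq hqx => by
            rw [Scheme.ord_mul (mul_ne_zero hf hmj) hηv0, Scheme.ord_mul hf hmj,
              Q.ord_inv (mul_ne_zero (pow_ne_zero _ hm.1) hb.1),
              Scheme.ord_mul (pow_ne_zero _ hm.1) hb.1, Q.ord_pow hm.1]
            have h1 := hm.2 q hq hqx
            have h1' := hb.2 q hq hqx
            have h2 : Scheme.ord (η v) q + coef (-κ) q = 0 := hηv.2 q hq hqx
            rw [coef_neg] at h2
            have h3 : q ∈ U := hqx.mem_open U.2 hxU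
            have h4 := hfU q h3 hq
            rw [hcoefY] at h4
            have h5 : Scheme.ord m q = -coef M q := by linarith
            have h5' : Scheme.ord b q = -coef B q := by linarith
            rw [h5, h5']
            linarith
        exact ⟨a, ha⟩
      have h1 := h.nonneg_of_regular hω0 hω hdiv hη hx hgx huv (mul_ne_zero hf hmj) hreg
      have h5 := hM'.ord_pull hFS hx hm
      have h5' := hB.ord_pull hFS hx hb
      have hm0 := φ.pull_ne_zero hm.1
      have hb0 := φ.pull_ne_zero hb.1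
      rw [map_mul, map_inv₀, map_mul, map_pow, Scheme.ord_mul (φ.pull_ne_zero hf)
        (inv_ne_zero (mul_ne_zero (pow_ne_zero _ hm0) hb0)),
        Q.ord_inv (mul_ne_zero (pow_ne_zero _ hm0) hb0),
        Scheme.ord_mul (pow_ne_zero _ hm0) hb0, Q.ord_pow hm0] at h1
      have h3 := hM'L x hx
      have h4 : (j : ℤ) * coef M' x ≤ j * (c * coef L' x) :=
        mul_le_mul_of_nonneg_left h3 (by linarith)
      rw [h5, h5'] at h1
      linarith
  -- from `X` to `Y`
  have hbwd : ∀ f : Y.K, f ≠ 0 →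
      (∀ x : X.X, coheight x = 1 → φ.f x ∈ U →
        0 ≤ Scheme.ord (φ.pull f) x + coef (κ' + (c * j) • L' + B') x) →
      ∀ y : Y.X, y ∈ U → coheight y = 1 → 0 ≤ Scheme.ord f y + coef (κ + j • M + B) y := by
    intro f hf hfU y hyU hy
    obtain ⟨x, hx, rfl, hxM⟩ := hMq y hy
    obtain ⟨e, he, hmult⟩ := φ.exists_mult x hx hy
    have h1 := h.coef_add_one_le hω0 hω hdiv hη0 hηa hκ hη hx (h.fixed_of_coheight hx hy) hy he
      hmult
    have h2 := hfU x hx hyU
    rw [hcoef, hmult f hf] at h2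
    have h3 : (c : ℤ) * coef L' x = e * coef M (φ.f x) := by
      have h4 := hM'.coef_eq_mult hFS hx hy hmult
      linarith
    rw [h3, hB.coef_eq_mult hFS hx hy hmult] at h2
    rw [hcoefY]
    have h5 : 1 ≤ e * (Scheme.ord f (φ.f x) + (coef κ (φ.f x) + j * coef M (φ.f x) +
        coef B (φ.f x)) + 1) := by
      linarith
    by_contra hneg
    push Not at hneg
    have h6 : Scheme.ord f (φ.f x) + (coef κ (φ.f x) + j * coef M (φ.f x) +
        coef B (φ.f x)) + 1 ≤ 0 := by omega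
    have h7 := mul_nonpos_of_nonneg_of_nonpos (show (0 : ℤ) ≤ e by linarith) h6
    linarith
  -- conclusion
  constructor
  · rintro ⟨g, hg, rfl⟩
    refine ⟨h.inv g, fun x hxU => ?_⟩
    rw [mem_polar]
    intro hx hne
    have hg0 : g ≠ 0 := by
      rintro rfl
      exact hne (map_zero φ.pull)
    exact hfwd g hg0 (fun y hy hyc => mem_polar.1 (hg y hy) hyc hg0) x hx hxU
  · rintro ⟨hfi, hf⟩
    obtain ⟨g, rfl⟩ := h.base f' hfi
    refine ⟨g, fun y hy => ?_, rfl⟩
    rw [mem_polar]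
    intro hyc hg0
    exact hbwd g hg0 (fun x hx hxU => mem_polar.1 (hf x hxU) hx (φ.pull_ne_zero hg0)) y hy hyc

end TorusCoord

/-- Equality of the cohomology groups from the equality of the sections. -/
theorem hY_eq_of_sections {r : ℕ} {X Y : Var} {τ : TAct r X} {φ : DomHom X Y} {D : Div X.X}
    {D' : Div Y.X}
    (h : ∀ U : Opens (Y.X : TopCat.{0}), (U : Set Y.X).Nonempty → ∀ f : X.K,
      (∃ g : Y.K, (∀ y : Y.X, y ∈ U → g ∈ polar (coef D') y) ∧ φ.pull g = f) ↔
        f ∈ τ.inv ∧ ∀ x : X.X, φ.f x ∈ U → f ∈ polar (coef D) x) (i : ℕ) :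
    τ.hY φ D i = hX D' i := by
  have h1 : hX D' i = Module.finrank ℂ (Coh (constSheaf (T := (Y.X : TopCat.{0}))
      (fun s => (⊤ : Submodule ℂ Y.K) ⊓ ⨅ x, ⨅ _ : id x = s, polar (coef D') x)) i) :=
    hh_eq_constSheaf (S := (Y.X : TopCat.{0})) id ⊤ D' i
  have h2 : τ.hY φ D i =
      Module.finrank ℂ (Coh (constSheaf (T := (Y.X : TopCat.{0}))
        (fun s => τ.inv ⊓ ⨅ x, ⨅ _ : φ.f x = s, polar (coef D) x)) i) :=
    hh_eq_constSheaf (S := (Y.X : TopCat.{0})) φ.f τ.inv D i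
  rw [h1, h2]
  let e : Y.K →ₗ[ℂ] X.K :=
    { toFun := φ.pull
      map_add' := fun a b => map_add _ _ _
      map_smul' := fun c a => by
        rw [Algebra.smul_def, map_mul, φ.pull_scalar, RingHom.id_apply, Algebra.smul_def] }
  refine (finrank_coh_of_map e φ.pull_injective _ _ (fun U hU f => ?_) i).symm
  constructor
  · rintro ⟨g, hg, rfl⟩ y hy
    have h3 := (h U hU (φ.pull g)).1 ⟨g, fun y hy => by
      have h4 := hg y hy
      simp only [Submodule.mem_inf, Submodule.mem_iInf, id_eq] at h4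
      exact h4.2 y rfl, rfl⟩
    refine ⟨h3.1, ?_⟩
    simp only [SetLike.mem_coe, Submodule.mem_iInf]
    rintro x rfl
    exact h3.2 x hy
  · intro hf
    obtain ⟨y₀, hy₀⟩ := hU
    obtain ⟨g, hg, hgf⟩ := (h U ⟨y₀, hy₀⟩ f).2 ⟨(hf y₀ hy₀).1, fun x hxU => by
      have h3 := hf _ hxU
      simp only [Submodule.mem_inf, Submodule.mem_iInf] at h3
      exact h3.2 x rfl⟩
    refine ⟨g, fun y hy => ⟨trivial, ?_⟩, hgf⟩
    simp only [SetLike.mem_coe, Submodule.mem_iInf, id_eq]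
    rintro _ rfl
    exact hg _ hy

namespace TorusCoord

variable {r s : ℕ} {X Y : Var} {τ : TAct r X} {φ : DomHom X Y} {t : Fin s → X.K}
  {w : Fin s → Fin r → ℤ}

/-- **The invariant direct images** of `O_X(κ' + cjL')`, where `κ' + L'` is effective. -/
theorem exists_direct_image (hFS : FactorialStalks) (h : TorusCoord τ φ t w) {κ' : Div X.X}
    (hκ' : τ.IsCanonical κ') (hκ'i : τ.InvDiv κ') {E L' : Div X.X} (hE : 0 ≤ E)
    (hL : L' = E - κ') (W : Set X.X)
    (hW : ∀ x ∈ W, coheight x = 1 ∧ coheight (φ.f x) ≤ 1)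
    (hWs : ∀ y : Y.X, coheight y = 1 → ∃ x ∈ W, φ.f x = y)
    (star : ∀ (c : ℕ) (R : Div Y.X) (R' : Div X.X), IsPullback φ R R' →
      (∀ x ∈ W, coef R' x ≤ coef (c • L') x) → R' ≤ c • L') :
    ∃ (κ M : Div Y.X) (c : ℕ), 0 < c ∧ IsCanonicalDivisor κ ∧ ∀ j : ℕ, 0 < j → ∀ i : ℕ,
      τ.hY φ (κ' + (c * j) • L') i = hX (κ + j • M) i := by
  obtain ⟨κ, M, c, hc, hκ, hsec⟩ := h.exists_direct_image_twist hFS hκ' hκ'i hE hL W hW hWs star
  refine ⟨κ, M, c, hc, hκ, fun j hj i => hY_eq_of_sections (fun U hU f => ?_) i⟩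
  have h1 := hsec j hj 0 0 (isPullback_zero φ) U hU f
  rwa [add_zero, add_zero] at h1

end TorusCoord

end Vale.Agent.P299.Q
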