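import Vale.Agent.P299.Q.TorForm
import Vale.Agent.P299.Q.Model

/-!
# Orders of vanishing of invariant top forms
-/

open CategoryTheory TopologicalSpace Opposite TopCat AlgebraicGeometry Order

namespace Vale.Agent.P299.Q

open Vale.Agent.P299.G

/-- A function which vanishes at `y` and has a derivative which is a unit at `y`. -/
theorem exists_unit_der {Y : Var} {y : Y.X} (hy : y ≠ genericPoint Y.X) {n : ℕ}
    {u : Fin n → Y.K} {v : Fin n → Y.Der} (huv : Fr y u v) :
    ∃ (c : Y.X.presheaf.stalk y) (l : Fin n) (b : Y.X.presheaf.stalk y), ¬ IsUnit c ∧ IsUnit b ∧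
      v l (toK y c) = toK y b := by
  by_contra hcon
  push Not at hcon
  have h1 : ∀ (c : Y.X.presheaf.stalk y), ¬ IsUnit c → ∀ l, ∃ b : Y.X.presheaf.stalk y,
      ¬ IsUnit b ∧ toK y b = v l (toK y c) := by
    intro c hc l
    obtain ⟨b, hb⟩ := huv.reg l c
    exact ⟨b, fun hbu => hcon c l b hc hbu hb, hb.symm⟩
  have h2 : ∀ c : Y.X.presheaf.stalk y, ¬ IsUnit c → c = 0 := by
    intro c hc
    have h3 : toK y c = 0 := by
      refine eq_zero_of_stable_frame huv.mem huv.dual huv.expand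
        (I := {f | ∃ c : Y.X.presheaf.stalk y, ¬ IsUnit c ∧ toK y c = f}) ?_ ?_ ?_ ⟨c, hc, rfl⟩
        ⟨c, rfl⟩
      · rintro _ ⟨a, rfl⟩ _ ⟨c, hc, rfl⟩
        exact ⟨a * c, fun h => hc (isUnit_of_mul_isUnit_right h), map_mul _ _ _⟩
      · rintro l _ ⟨c, hc, rfl⟩
        exact h1 c hc l
      · rintro ⟨c, hc, h⟩
        apply hc
        have h4 : c = 1 := toK_injective y (by rw [h, map_one])
        rw [h4]
        exact isUnit_one
    exact toK_injective y (by rw [h3, map_zero])
  have h3 : IsField (Y.X.presheaf.stalk y) := by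
    refine ⟨exists_pair_ne _, mul_comm, fun {a} ha => ?_⟩
    have : IsUnit a := by
      by_contra hu
      exact ha (h2 a hu)
    exact this.exists_right_inv
  have h4 : coheight y = 0 := by
    have h5 := ringKrullDim_stalk_eq_coheight y
    rw [ringKrullDim_eq_zero_of_isField h3] at h5
    exact_mod_cast h5.symm
  exact hy (eq_genericPoint_of_coheight h4)

namespace TorusCoord

variable {r s : ℕ} {X Y : Var} {τ : TAct r X} {φ : DomHom X Y} {t : Fin s → X.K}
  {w : Fin s → Fin r → ℤ}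

section

variable (h : TorusCoord τ φ t w)

theorem isLog_L {x : X.X} (hx : coheight x = 1) (hfix : ∀ σ, (τ.act σ).f x = x) (i : Fin s) :
    IsLog x (h.L i) :=
  h.log_of_fixed hx hfix (h.L_pull i) (h.L_t' i) fun a _ => by
    rw [Derivation.zero_apply, map_zero]
    exact og_zero x _

theorem isLog_lift {x : X.X} (hx : coheight x = 1) (hfix : ∀ σ, (τ.act σ).f x = x) {δ : Y.Der}
    (hδ : ∀ a, a ≠ 0 → og x (Scheme.ord (φ.pull a) x) (φ.pull (δ a))) : IsLog x (h.lift δ) :=
  h.log_of_fixed hx hfix (h.lift_pull δ) (c := 0) (fun i => by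
    rw [h.lift_t, Pi.zero_apply, map_zero, zero_mul]) hδ

theorem isLog_logfr {x : X.X} (hx : coheight x = 1) (hfix : ∀ σ, (τ.act σ).f x = x) {n : ℕ}
    {δ : Fin n → Y.Der}
    (hδ : ∀ l a, a ≠ 0 → og x (Scheme.ord (φ.pull a) x) (φ.pull (δ l a))) (j : Fin (s + n)) :
    IsLog x (h.logfr δ j) := by
  refine Fin.addCases (fun j => ?_) (fun l => ?_) j
  · simp only [logfr, Fin.append_left]
    exact h.isLog_L hx hfix j
  · simp only [logfr, Fin.append_right]
    exact h.isLog_lift hx hfix (hδ l)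

variable {ω : X.Ten X.dim} (hω0 : ω ≠ 0) (hω : IsAlt ω) {κ' : Div X.X} (hκ' : IsDivTensor ω κ')
  {η : Y.Ten Y.dim} (hη0 : η ≠ 0) (hηa : IsAlt η) {κ : Div Y.X} (hκ : IsDivTensor η κ)
  (hη : ∀ δ : Fin Y.dim → Y.Der, topVal h.dim_eq ω (h.logfr δ) = φ.pull (η δ))

include hω0 hω hκ' hη0 hηa hη

/-- The order along the invariant prime divisors which dominate `Y`. -/
theorem coef_le_of_generic {x : X.X} (hx : coheight x = 1) (hfix : ∀ σ, (τ.act σ).f x = x)
    (hgen : φ.f x = genericPoint Y.X) : coef κ' x ≤ -1 := by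
  obtain ⟨u, v, huv⟩ := exists_fr (X := Y) rfl (genericPoint Y.X)
  have h0 : η v ≠ 0 := value_frame_ne_zero hη0 hηa huv.dual huv.expand
  have h1 := og_topVal_of_log h.dim_eq hω0 hω hκ' hx
    (h.isLog_logfr hx hfix (δ := v) fun l a ha hne => by
      have ha' : v l a ≠ 0 := fun h0 => hne (by rw [h0, map_zero])
      rw [φ.ord_pull_of_generic x hgen ha, φ.ord_pull_of_generic x hgen ha'])
  rw [hη] at h1
  have h2 := h1 (φ.pull_ne_zero h0)
  rw [φ.ord_pull_of_generic x hgen h0] at h2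
  linarith

include hκ

/-- The order along the invariant prime divisors over the prime divisors of `Y`. -/
theorem coef_add_one_le {x : X.X} (hx : coheight x = 1) (hfix : ∀ σ, (τ.act σ).f x = x)
    (hy : coheight (φ.f x) = 1) {e : ℤ} (he : 1 ≤ e)
    (hmult : ∀ g : Y.K, g ≠ 0 → Scheme.ord (φ.pull g) x = e * Scheme.ord g (φ.f x)) :
    coef κ' x + 1 ≤ e * (coef κ (φ.f x) + 1) := by
  obtain ⟨δ, hδ, hδ0, hδ1⟩ := exists_log rfl hη0 hηa hκ hy
  have h0 : η δ ≠ 0 := hδ0
  have h1 := og_topVal_of_log h.dim_eq hω0 hω hκ' hx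
    (h.isLog_logfr hx hfix (δ := δ) fun l a ha hne => by
      have ha' : δ l a ≠ 0 := fun h0 => hne (by rw [h0, map_zero])
      rw [hmult _ ha, hmult _ ha']
      have h3 := hδ l _ a (og_self a) ha'
      nlinarith)
  rw [hη] at h1
  have h2 := h1 (φ.pull_ne_zero h0)
  have h3 : Scheme.ord (η δ) (φ.f x) = coef κ (φ.f x) + 1 := hδ1
  rwa [hmult _ h0, h3] at h2

omit hη0 hηa hκ

/-- The pull back of a regular form is regular. -/
theorem nonneg_of_regular {x : X.X} (hx : coheight x = 1) (hgen : φ.f x ≠ genericPoint Y.X)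
    {u : Fin Y.dim → Y.K} {v : Fin Y.dim → Y.Der} (huv : Fr (φ.f x) u v) {f : Y.K}
    (hf : f ≠ 0) (hreg : f * η v ∈ locRing Y (φ.f x)) :
    0 ≤ Scheme.ord (φ.pull f) x + coef κ' x := by
  obtain ⟨V, hV, hV0, hV1⟩ := exists_log h.dim_eq hω0 hω hκ' hx
  obtain ⟨c, l, b, hc, hb, hcb⟩ := exists_unit_der hgen huv
  have hpr : ∏ i, t i ≠ 0 := Finset.prod_ne_zero_iff.2 fun i _ => h.ne i
  -- the matrix
  let a : Fin (s + Y.dim) → X.K := Fin.append t⁻¹ 1
  let M : Matrix (Fin (s + Y.dim)) (Fin (s + Y.dim)) X.K :=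
    Matrix.of fun i j => a i * V j (crd t φ u i)
  have hM : (Matrix.of fun i j => V j (crd t φ u i)).det = (∏ i, t i) * M.det := by
    have h1 : M.det = (∏ i, a i) * (Matrix.of fun i j => V j (crd t φ u i)).det :=
      Matrix.det_mul_column a _
    have h2 : ∏ i, a i = (∏ i, t i)⁻¹ := by
      rw [Fin.prod_univ_add]
      simp only [a, Fin.append_left, Fin.append_right, Pi.inv_apply, Pi.one_apply,
        Finset.prod_const_one, mul_one, Finset.prod_inv_distrib]
    rw [h1, h2, ← mul_assoc, mul_inv_cancel₀ hpr, one_mul]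
  have hMmem : ∀ i j, M i j ∈ locRing X x := by
    intro i j
    refine Fin.addCases (fun i => ?_) (fun m => ?_) i
    · simp only [M, a, crd, Matrix.of_apply, Fin.append_left, Pi.inv_apply]
      rw [← og_iff hx]
      intro hne
      have h1 : V j (t i) ≠ 0 := right_ne_zero_of_mul hne
      rw [Scheme.ord_mul (inv_ne_zero (h.ne i)) h1, Q.ord_inv (h.ne i)]
      have := hV j _ _ (og_self (t i)) h1
      linarith
    · simp only [M, a, crd, Matrix.of_apply, Fin.append_right, Pi.one_apply, one_mul]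
      rw [← og_iff hx]
      exact hV j _ _ ((og_iff hx).2 (pull_mem_locRing φ (huv.mem m)))
  -- the determinant vanishes at `x`
  have hcx : og x 1 (φ.pull (toK (φ.f x) c)) := by
    intro hne
    have h1 : φ.pull (toK (φ.f x) c) = toK x (φ.f.stalkMap x c) := φ.pull_stalk x c
    rw [h1] at hne ⊢
    have h2 : φ.f.stalkMap x c ≠ 0 := fun h0 => hne (by rw [h0, map_zero])
    have h3 := ord_toK_nonneg (y := x) (φ.f.stalkMap x c)
    have h4 : Scheme.ord (toK x (φ.f.stalkMap x c)) x ≠ 0 := fun h0 =>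
      hc (isUnit_of_map_unit (φ.f.stalkMap x).hom c
        (Vale.Agent.P299.G.isUnit_of_ord_eq_zero X.dvr hx h2 h0))
    omega
  have hdet : og x 1 M.det := by
    let e : Fin (s + Y.dim) → X.K := Fin.append 0 fun m => φ.pull (v m (toK (φ.f x) c))
    have he : Matrix.vecMul e M = fun j => V j (φ.pull (toK (φ.f x) c)) := by
      funext j
      rw [φ.chain huv.dual huv.expand (V j)]
      change ∑ i, e i * M i j = _
      rw [Fin.sum_univ_add]
      simp only [e, M, a, crd, Matrix.of_apply, Fin.append_left, Fin.append_right, Pi.zero_apply,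
        zero_mul, Finset.sum_const_zero, zero_add, Pi.one_apply, one_mul]
      exact Finset.sum_congr rfl fun m _ => mul_comm _ _
    have h1 : Matrix.vecMul (fun j => V j (φ.pull (toK (φ.f x) c))) M.adjugate
        (Fin.natAdd s l) = M.det * e (Fin.natAdd s l) := by
      rw [← he, Matrix.vecMul_vecMul, Matrix.mul_adjugate, Matrix.vecMul_smul, Matrix.vecMul_one]
      rfl
    have hel : e (Fin.natAdd s l) = φ.pull (toK (φ.f x) b) := by
      simp only [e, Fin.append_right]
      rw [hcb]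
    have h2 : og x 1 (φ.pull (toK (φ.f x) b) * M.det) := by
      rw [mul_comm, ← hel, ← h1]
      change og x 1 (∑ i, V i (φ.pull (toK (φ.f x) c)) * M.adjugate i (Fin.natAdd s l))
      refine og_sum hx _ _ fun i _ => ?_
      have h3 := (hV i 1 _ hcx).mul ((og_iff hx).2 (adjugate_mem hMmem i (Fin.natAdd s l)))
      rwa [add_zero] at h3
    have h3 : φ.pull (toK (φ.f x) b) ≠ 0 := φ.pull_ne_zero (toK_ne_zero hb.ne_zero)
    have h4 := h2.of_mul h3
    rwa [show Scheme.ord (φ.pull (toK (φ.f x) b)) x = 0 from φ.ord_pull_of_isUnit x hb,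
      sub_zero] at h4
  -- conclusion
  have hK := h.topVal_eq hω hη huv.dual huv.expand V
  rw [hM] at hK
  have hK2 : topVal h.dim_eq ω V = φ.pull (η v) * M.det := by
    have h1 : topVal h.dim_eq ω V * ∏ i, t i = (φ.pull (η v) * M.det) * ∏ i, t i := by
      rw [hK]
      ring
    exact mul_right_cancel₀ hpr h1
  have h5 : og x 0 (φ.pull (f * η v)) := (og_iff hx).2 (pull_mem_locRing φ hreg)
  have h6 := h5.mul hdet
  have h7 : φ.pull (f * η v) * M.det = φ.pull f * topVal h.dim_eq ω V := by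
    rw [hK2, map_mul]
    ring
  rw [h7] at h6
  have h8 := h6 (mul_ne_zero (φ.pull_ne_zero hf) hV0)
  rw [Scheme.ord_mul (φ.pull_ne_zero hf) hV0, hV1] at h8
  linarith

end

end TorusCoord

end Vale.Agent.P299.Q
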