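import Mathlib.Algebra.MvPolynomial.Funext
import Mathlib.Algebra.MvPolynomial.Equiv
import Mathlib.RingTheory.MvPolynomial.Basic
import Mathlib.RingTheory.Polynomial.UniqueFactorization
import Mathlib.Algebra.MvPolynomial.Nilpotent
import Mathlib.Algebra.Module.CharacterModule
import Mathlib.Analysis.SpecialFunctions.Complex.Log
import Mathlib.Algebra.Field.Subfield.Basic
import Mathlib.Algebra.BigOperators.Field
import Mathlib.LinearAlgebra.FreeModule.PID
import Mathlib.Tactic.FieldSimp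

/-!
# Rational actions of tori on fields: semi-invariants
-/

open MvPolynomial

namespace Vale.Agent.P299.Q.TS

variable {r : ℕ} {K : Type} [Field K] [Algebra ℂ K]

/-- The point `s` of the torus, as a point with coordinates in `K`. -/
noncomputable def pt (K : Type) [Field K] [Algebra ℂ K] (s : Fin r → ℂˣ) (i : Fin r) : K :=
  algebraMap ℂ K (s i)

/-- The value of the character `w` at `s`. -/
noncomputable def chr (K : Type) [Field K] [Algebra ℂ K] (w : Fin r → ℤ) (s : Fin r → ℂˣ) : K :=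
  algebraMap ℂ K ((∏ i, s i ^ w i : ℂˣ) : ℂ)

theorem chr_ne_zero (w : Fin r → ℤ) (s : Fin r → ℂˣ) : chr K w s ≠ 0 := by
  unfold chr
  rw [Ne, map_eq_zero]
  exact Units.ne_zero _

theorem chr_zero (s : Fin r → ℂˣ) : chr K 0 s = 1 := by
  simp [chr]

theorem chr_one (w : Fin r → ℤ) : chr K w 1 = 1 := by
  simp [chr]

theorem chr_add (w w' : Fin r → ℤ) (s : Fin r → ℂˣ) :
    chr K (w + w') s = chr K w s * chr K w' s := by
  unfold chr
  rw [← map_mul, ← Units.val_mul, ← Finset.prod_mul_distrib]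
  congr 2
  exact Finset.prod_congr rfl fun i _ => zpow_add _ _ _

theorem chr_neg (w : Fin r → ℤ) (s : Fin r → ℂˣ) : chr K (-w) s = (chr K w s)⁻¹ := by
  refine eq_inv_of_mul_eq_one_left ?_
  rw [← chr_add, neg_add_cancel, chr_zero]

theorem chr_mul (w : Fin r → ℤ) (s s' : Fin r → ℂˣ) :
    chr K w (s * s') = chr K w s * chr K w s' := by
  unfold chr
  rw [← map_mul, ← Units.val_mul, ← Finset.prod_mul_distrib]
  congr 2
  exact Finset.prod_congr rfl fun i _ => by rw [Pi.mul_apply, mul_zpow]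

theorem chr_inv (w : Fin r → ℤ) (s : Fin r → ℂˣ) : chr K w s⁻¹ = (chr K w s)⁻¹ := by
  refine eq_inv_of_mul_eq_one_left ?_
  rw [← chr_mul, inv_mul_cancel, chr_one]

theorem chr_nat (m : Fin r →₀ ℕ) (s : Fin r → ℂˣ) :
    chr K (fun i => (m i : ℤ)) s = ∏ i, pt K s i ^ m i := by
  unfold chr pt
  rw [Units.coe_prod, map_prod]
  refine Finset.prod_congr rfl fun i _ => ?_
  rw [zpow_natCast, Units.val_pow_eq_pow_val, map_pow]

/-- The substitution `X_i ↦ s_i X_i`. -/
noncomputable def scale (s : Fin r → ℂˣ) : MvPolynomial (Fin r) K →ₐ[K] MvPolynomial (Fin r) K :=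
  aeval fun i => C (pt K s i) * X i

theorem eval_scale (s s' : Fin r → ℂˣ) (Q : MvPolynomial (Fin r) K) :
    eval (pt K s') (scale s Q) = eval (pt K (s * s')) Q := by
  have h : (eval (pt K s')).comp (scale (K := K) s).toRingHom = eval (pt K (s * s')) := by
    apply MvPolynomial.ringHom_ext
    · intro c
      simp [scale]
    · intro i
      simp [scale, pt]
  exact congrArg (fun f => f Q) h

theorem coeff_scale (s : Fin r → ℂˣ) (Q : MvPolynomial (Fin r) K) (m : Fin r →₀ ℕ) :
    coeff m (scale s Q) = chr K (fun i => (m i : ℤ)) s * coeff m Q := by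
  have h : ∀ (n : Fin r →₀ ℕ) (c : K), scale s (monomial n c) =
      monomial n (chr K (fun i => (n i : ℤ)) s * c) := by
    intro n c
    unfold scale
    rw [aeval_monomial, monomial_eq, chr_nat, C_mul, Finsupp.prod_fintype _ _ (by simp),
      Finsupp.prod_fintype _ _ (by simp)]
    simp only [mul_pow, Finset.prod_mul_distrib, map_prod, ← map_pow]
    rw [MvPolynomial.algebraMap_eq]
    ring
  induction Q using MvPolynomial.induction_on' with
  | monomial n c =>
    rw [h, coeff_monomial, coeff_monomial]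
    split_ifs with hnm
    · rw [hnm]
    · rw [mul_zero]
  | add p q hp hq => rw [map_add, coeff_add, coeff_add, hp, hq, mul_add]

theorem scale_scale (s s' : Fin r → ℂˣ) (Q : MvPolynomial (Fin r) K) :
    scale s (scale s' Q) = scale (s * s') Q := by
  ext m
  rw [coeff_scale, coeff_scale, coeff_scale, chr_mul, mul_assoc]

theorem scale_one (Q : MvPolynomial (Fin r) K) : scale 1 Q = Q := by
  ext m
  rw [coeff_scale, chr_one, one_mul]

theorem injective_algebraMap : Function.Injective (algebraMap ℂ K) := (algebraMap ℂ K).injective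

/-- A polynomial which vanishes at the points of the torus is zero. -/
theorem eq_zero_of_eval {G : MvPolynomial (Fin r) K} (h : ∀ s : Fin r → ℂˣ, eval (pt K s) G = 0) :
    G = 0 := by
  refine funext_set (fun _ : Fin r => (algebraMap ℂ K) '' {c | c ≠ 0}) (fun _ => ?_) fun x hx => ?_
  · refine Set.Infinite.image (injective_algebraMap.injOn) ?_
    exact (Set.finite_singleton (0 : ℂ)).infinite_compl
  · rw [map_zero]
    have hx' : ∀ i, ∃ c : ℂ, c ≠ 0 ∧ algebraMap ℂ K c = x i := fun i => hx i (Set.mem_univ i)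
    choose c hc hcx using hx'
    have h1 : x = pt K (fun i => Units.mk0 (c i) (hc i)) := by
      funext i
      simp [pt, hcx]
    rw [h1]
    exact h _

/-- A rational action of the torus on the field `K` by automorphisms over `ℂ`. -/
structure RatAct (r : ℕ) (K : Type) [Field K] [Algebra ℂ K] where
  /-- the action -/
  ρ : (Fin r → ℂˣ) → K →+* K
  one : ∀ f, ρ 1 f = f
  mul : ∀ s t f, ρ (s * t) f = ρ s (ρ t f)
  scalar : ∀ s c, ρ s (algebraMap ℂ K c) = algebraMap ℂ K c
  rat : ∀ f, ∃ P Q : MvPolynomial (Fin r) K, Q ≠ 0 ∧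
    ∀ s, eval (pt K s) Q ≠ 0 → ρ s f * eval (pt K s) Q = eval (pt K s) P

namespace RatAct

variable (τ : RatAct r K)

/-- The function `f` is a semi-invariant of weight `w`. -/
def Semi (w : Fin r → ℤ) (f : K) : Prop := ∀ s, τ.ρ s f = chr K w s * f

theorem rho_pt (s s' : Fin r → ℂˣ) (i : Fin r) : τ.ρ s (pt K s' i) = pt K s' i := τ.scalar _ _

theorem rho_chr (s s' : Fin r → ℂˣ) (w : Fin r → ℤ) : τ.ρ s (chr K w s') = chr K w s' :=
  τ.scalar _ _

theorem rho_eval (s s' : Fin r → ℂˣ) (Q : MvPolynomial (Fin r) K) :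
    τ.ρ s (eval (pt K s') Q) = eval (pt K s') (map (τ.ρ s) Q) := by
  have h : (τ.ρ s).comp (eval (pt K s')) = (eval (pt K s')).comp (map (τ.ρ s)) := by
    apply MvPolynomial.ringHom_ext
    · intro c
      simp
    · intro i
      simp [rho_pt]
  exact congrArg (fun f => f Q) h

theorem rho_inv (s : Fin r → ℂˣ) (f : K) : τ.ρ s (τ.ρ s⁻¹ f) = f := by
  rw [← τ.mul, mul_inv_cancel, τ.one]

theorem map_map_inv (s : Fin r → ℂˣ) (Q : MvPolynomial (Fin r) K) :
    map (τ.ρ s) (map (τ.ρ s⁻¹) Q) = Q := by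
  ext m
  rw [coeff_map, coeff_map, rho_inv]

/-- The reduced form of the rational expression of `ρ(s) f`. -/
theorem exists_reduced (f : K) : ∃ h P Q : MvPolynomial (Fin r) K, h ≠ 0 ∧ Q ≠ 0 ∧
    IsRelPrime P Q ∧ ∀ s, eval (pt K s) h ≠ 0 → τ.ρ s f * eval (pt K s) Q = eval (pt K s) P := by
  obtain ⟨P₁, Q₁, hQ₁, h1⟩ := τ.rat f
  obtain ⟨P, Q, c, hPQ, rfl, rfl⟩ := UniqueFactorizationMonoid.exists_reduced_factors' P₁ Q₁ hQ₁
  refine ⟨c * Q, P, Q, hQ₁, right_ne_zero_of_mul hQ₁, hPQ, fun s hs => ?_⟩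
  have h2 := h1 s hs
  rw [map_mul] at hs
  rw [map_mul, map_mul] at h2
  have h3 := left_ne_zero_of_mul hs
  apply mul_left_cancel₀ h3
  rw [← h2]
  ring

theorem isRelPrime_map {P Q : MvPolynomial (Fin r) K} (h : IsRelPrime P Q) (s : Fin r → ℂˣ) :
    IsRelPrime (map (τ.ρ s) P) (map (τ.ρ s) Q) := by
  intro d hP hQ
  have h1 : ∀ {A : MvPolynomial (Fin r) K}, d ∣ map (τ.ρ s) A → map (τ.ρ s⁻¹) d ∣ A := by
    intro A hA
    have h2 := map_dvd (map (τ.ρ s⁻¹)) hA
    have h3 := τ.map_map_inv s⁻¹ A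
    rw [inv_inv] at h3
    rwa [h3] at h2
  have h2 := (h (h1 hP) (h1 hQ)).map (map (τ.ρ s))
  rwa [map_map_inv] at h2

theorem isRelPrime_scale {P Q : MvPolynomial (Fin r) K} (h : IsRelPrime P Q) (s : Fin r → ℂˣ) :
    IsRelPrime (scale s P) (scale s Q) := by
  intro d hP hQ
  have h1 : ∀ {A : MvPolynomial (Fin r) K}, d ∣ scale s A → scale s⁻¹ d ∣ A := by
    intro A hA
    have h2 := map_dvd (scale (K := K) s⁻¹) hA
    rwa [scale_scale, inv_mul_cancel, scale_one] at h2
  have h2 := (h (h1 hP) (h1 hQ)).map (scale (K := K) s)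
  rwa [scale_scale, mul_inv_cancel, scale_one] at h2

/-- The coefficients of the reduced form are semi-invariants up to a common factor. -/
theorem exists_factor {f : K} {h P Q : MvPolynomial (Fin r) K} (hh : h ≠ 0) (hQ : Q ≠ 0)
    (hPQ : IsRelPrime P Q)
    (hf : ∀ s, eval (pt K s) h ≠ 0 → τ.ρ s f * eval (pt K s) Q = eval (pt K s) P)
    (σ : Fin r → ℂˣ) : ∃ c : K, map (τ.ρ σ) P = C c * scale σ P ∧
      map (τ.ρ σ) Q = C c * scale σ Q := by
  have hsc : scale σ Q ≠ 0 := fun h0 => hQ (by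
    have h1 := scale_scale σ⁻¹ σ Q
    rw [h0, map_zero, inv_mul_cancel, scale_one] at h1
    exact h1.symm)
  have hh1 : scale σ h ≠ 0 := fun h0 => hh (by
    have h1 := scale_scale σ⁻¹ σ h
    rw [h0, map_zero, inv_mul_cancel, scale_one] at h1
    exact h1.symm)
  have hh2 : map (τ.ρ σ) h ≠ 0 := fun h0 => hh (by
    have h1 := τ.map_map_inv σ⁻¹ h
    rw [inv_inv, h0, map_zero] at h1
    exact h1.symm)
  have key : map (τ.ρ σ) P * scale σ Q = scale σ P * map (τ.ρ σ) Q := by
    have h0 : map (τ.ρ σ) h * scale σ h *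
        (map (τ.ρ σ) P * scale σ Q - scale σ P * map (τ.ρ σ) Q) = 0 := by
      apply eq_zero_of_eval
      intro s
      rw [map_mul, map_mul, map_sub, map_mul, map_mul]
      by_cases h1 : eval (pt K s) (map (τ.ρ σ) h) = 0
      · rw [h1]; ring
      by_cases h2 : eval (pt K s) (scale σ h) = 0
      · rw [h2]; ring
      have h3 : eval (pt K s) h ≠ 0 := by
        intro h0
        apply h1
        rw [← τ.rho_eval, h0, map_zero]
      rw [eval_scale] at h2
      have h4 := congrArg (τ.ρ σ) (hf s h3)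
      rw [map_mul, ← τ.mul, τ.rho_eval, τ.rho_eval] at h4
      have h5 := hf _ h2
      rw [eval_scale σ s Q, eval_scale σ s P, ← h4, ← h5]
      ring
    rcases mul_eq_zero.1 h0 with h1 | h1
    · exact absurd h1 (mul_ne_zero hh2 hh1)
    · exact sub_eq_zero.1 h1
  have hd1 : map (τ.ρ σ) Q ∣ scale σ Q :=
    (τ.isRelPrime_map hPQ σ).symm.dvd_of_dvd_mul_left ⟨scale σ P, by rw [key]; ring⟩
  have hd2 : scale σ Q ∣ map (τ.ρ σ) Q :=
    (isRelPrime_scale hPQ σ).symm.dvd_of_dvd_mul_left ⟨map (τ.ρ σ) P, by rw [← key]; ring⟩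
  obtain ⟨u, hu⟩ := associated_of_dvd_dvd hd2 hd1
  obtain ⟨c, hc0, hc⟩ := (isUnit_iff_eq_C_of_isReduced).1 u.isUnit
  refine ⟨c, ?_, ?_⟩
  · apply mul_right_cancel₀ hsc
    rw [key, ← hu, hc]
    ring
  · rw [← hu, hc]
    ring

/-- Every element of `K` is a quotient of sums of semi-invariants. -/
theorem mem_of_semi {F : Subfield K} (hF : ∀ (w : Fin r → ℤ) (f : K), τ.Semi w f → f ∈ F) (f : K) :
    f ∈ F := by
  obtain ⟨h, P, Q, hh, hQ, hPQ, hf⟩ := τ.exists_reduced f
  have hfac := fun σ => τ.exists_factor hh hQ hPQ hf σ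
  obtain ⟨m₀, hm₀⟩ : ∃ m, coeff m Q ≠ 0 := by
    by_contra hcon
    push Not at hcon
    exact hQ (MvPolynomial.ext _ _ fun m => by rw [hcon, coeff_zero])
  set q₀ := coeff m₀ Q with hq₀
  -- the semi-invariant coefficients
  have hsemi : ∀ (A : MvPolynomial (Fin r) K),
      (∀ σ c, map (τ.ρ σ) Q = C c * scale σ Q → map (τ.ρ σ) A = C c * scale σ A) →
      ∀ m : Fin r →₀ ℕ, τ.Semi (fun i => (m i : ℤ) - m₀ i) (coeff m A / q₀) := by
    intro A hA m σ
    obtain ⟨c, -, hc⟩ := hfac σ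
    have h1 := congrArg (coeff m₀) hc
    have h2 := congrArg (coeff m) (hA σ c hc)
    rw [coeff_map, coeff_C_mul, coeff_scale] at h1 h2
    have h3 : chr K (fun i => (m i : ℤ)) σ =
        chr K (fun i => (m i : ℤ) - m₀ i) σ * chr K (fun i => (m₀ i : ℤ)) σ := by
      rw [← chr_add]
      congr 1
      funext i
      simp
    have hc0 : c ≠ 0 := by
      rintro rfl
      rw [zero_mul, map_eq_zero] at h1
      exact hm₀ h1
    rw [← hq₀] at h1
    rw [map_div₀, h2, h1, h3]
    have h4 := chr_ne_zero (K := K) (fun i => (m₀ i : ℤ)) σ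
    field_simp
  have hSQ := hsemi Q (fun σ c hc => hc)
  have hSP := hsemi P (fun σ c hc => by
    obtain ⟨c', hc1, hc2⟩ := hfac σ
    have h1 : c = c' := by
      have h2 := hc.symm.trans hc2
      have hsc : scale σ Q ≠ 0 := fun h0 => hQ (by
        have h1 := scale_scale σ⁻¹ σ Q
        rw [h0, map_zero, inv_mul_cancel, scale_one] at h1
        exact h1.symm)
      exact C_injective _ _ (mul_right_cancel₀ hsc h2)
    rw [h1]
    exact hc1)
  -- a point where everything is defined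
  obtain ⟨s, hs⟩ : ∃ s : Fin r → ℂˣ, eval (pt K s) (h * Q) ≠ 0 := by
    by_contra hcon
    push Not at hcon
    exact mul_ne_zero hh hQ (eq_zero_of_eval hcon)
  rw [map_mul] at hs
  have hsh := left_ne_zero_of_mul hs
  have hsQ := right_ne_zero_of_mul hs
  have h1 := hf s hsh
  have hmem : ∀ (A : MvPolynomial (Fin r) K), (∀ m : Fin r →₀ ℕ,
      τ.Semi (fun i => (m i : ℤ) - m₀ i) (coeff m A / q₀)) →
      τ.ρ s⁻¹ (eval (pt K s) A / q₀) ∈ F := by
    intro A hA
    rw [MvPolynomial.eval_eq', Finset.sum_div, map_sum]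
    refine F.sum_mem fun m _ => ?_
    have h2 : (coeff m A * ∏ i, pt K s i ^ m i) / q₀ =
        chr K (fun i => (m i : ℤ)) s * (coeff m A / q₀) := by
      rw [chr_nat]
      ring
    rw [h2, map_mul, rho_chr, hA m s⁻¹]
    refine F.mul_mem (hF 0 _ fun σ => ?_) (F.mul_mem (hF 0 _ fun σ => ?_) (hF _ _ (hA m)))
    · rw [rho_chr, chr_zero, one_mul]
    · rw [rho_chr, chr_zero, one_mul]
  have h2 : f = τ.ρ s⁻¹ (eval (pt K s) P / q₀) / τ.ρ s⁻¹ (eval (pt K s) Q / q₀) := by
    rw [← map_div₀, div_div_div_cancel_right₀ hm₀, ← h1, mul_div_cancel_right₀ _ hsQ]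
    have h3 := τ.rho_inv s⁻¹ f
    rw [inv_inv] at h3
    exact h3.symm
  rw [h2]
  exact F.div_mem (hmem P hSP) (hmem Q hSQ)

theorem Semi.mul {w w' : Fin r → ℤ} {f g : K} (hf : τ.Semi w f) (hg : τ.Semi w' g) :
    τ.Semi (w + w') (f * g) := by
  intro s
  rw [map_mul, hf s, hg s, chr_add]
  ring

theorem Semi.inv {w : Fin r → ℤ} {f : K} (hf : τ.Semi w f) : τ.Semi (-w) f⁻¹ := by
  intro s
  rw [map_inv₀, hf s, chr_neg, mul_inv]

theorem semi_one : τ.Semi 0 1 := by
  intro s
  rw [map_one, chr_zero, one_mul]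

/-- The group of the weights. -/
def weights : AddSubgroup (Fin r → ℤ) where
  carrier := {w | ∃ f, f ≠ 0 ∧ τ.Semi w f}
  zero_mem' := ⟨1, one_ne_zero, τ.semi_one⟩
  add_mem' := by
    rintro w w' ⟨f, hf, hfw⟩ ⟨g, hg, hgw⟩
    exact ⟨f * g, mul_ne_zero hf hg, hfw.mul τ hgw⟩
  neg_mem' := by
    rintro w ⟨f, hf, hfw⟩
    exact ⟨f⁻¹, inv_ne_zero hf, hfw.inv τ⟩

/-- A proper subgroup of `ℤ^r` is killed by a nontrivial element of the torus. -/
theorem exists_kill (L : AddSubgroup (Fin r → ℤ)) (hL : L ≠ ⊤) :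
    ∃ s : Fin r → ℂˣ, s ≠ 1 ∧ ∀ w ∈ L, chr K w s = 1 := by
  obtain ⟨v, hv⟩ : ∃ v, v ∉ L := by
    by_contra hcon
    push Not at hcon
    exact hL (eq_top_iff.2 fun w _ => hcon w)
  have hv' : (QuotientAddGroup.mk v : (Fin r → ℤ) ⧸ L) ≠ 0 := by
    rwa [Ne, QuotientAddGroup.eq_zero_iff]
  obtain ⟨c, hc⟩ := CharacterModule.exists_character_apply_ne_zero_of_ne_zero hv'
  have hq : ∀ i : Fin r, ∃ q : ℚ, ((q : ℚ) : AddCircle (1 : ℚ)) =
      c (QuotientAddGroup.mk (Pi.single i 1)) := fun i => QuotientAddGroup.mk_surjective _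
  choose q hq using hq
  have hcw : ∀ w : Fin r → ℤ, c (QuotientAddGroup.mk w) =
      ((∑ i, w i * q i : ℚ) : AddCircle (1 : ℚ)) := by
    intro w
    have h1 : w = ∑ i, w i • (Pi.single i 1 : Fin r → ℤ) := by
      funext j
      simp [Finset.sum_apply, Pi.single_apply]
    have h2 : (QuotientAddGroup.mk w : (Fin r → ℤ) ⧸ L) =
        ∑ i, w i • (QuotientAddGroup.mk (Pi.single i 1) : (Fin r → ℤ) ⧸ L) := by
      conv_lhs => rw [h1]
      exact map_sum (QuotientAddGroup.mk' L) _ _
    rw [h2, map_sum]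
    rw [show ((∑ i, w i * q i : ℚ) : AddCircle (1 : ℚ)) = ∑ i, ((w i * q i : ℚ) : AddCircle (1 : ℚ))
      from map_sum (QuotientAddGroup.mk' _) _ _]
    refine Finset.sum_congr rfl fun i _ => ?_
    rw [map_zsmul, ← hq i]
    rw [← zsmul_eq_mul]
    exact (map_zsmul (QuotientAddGroup.mk' (AddSubgroup.zmultiples (1 : ℚ))) (w i) (q i)).symm
  let s : Fin r → ℂˣ := fun i => Units.mk0 (Complex.exp (2 * Real.pi * Complex.I * (q i : ℂ)))
    (Complex.exp_ne_zero _)
  have hs : ∀ w : Fin r → ℤ, ((∏ i, s i ^ w i : ℂˣ) : ℂ) =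
      Complex.exp (2 * Real.pi * Complex.I * ((∑ i, w i * q i : ℚ) : ℂ)) := by
    intro w
    rw [Units.coe_prod]
    push_cast
    rw [Finset.mul_sum, Complex.exp_sum]
    refine Finset.prod_congr rfl fun i _ => ?_
    have h1 : ((s i : ℂˣ) : ℂ) = Complex.exp (2 * Real.pi * Complex.I * (q i : ℂ)) := rfl
    rw [h1, ← Complex.exp_int_mul]
    congr 1
    ring
  have hone : ∀ w : Fin r → ℤ, c (QuotientAddGroup.mk w) = 0 ↔ ((∏ i, s i ^ w i : ℂˣ) : ℂ) = 1 := by
    intro w
    rw [hs, Complex.exp_eq_one_iff, hcw, AddCircle.coe_eq_zero_iff]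
    have hpi : (2 * Real.pi * Complex.I : ℂ) ≠ 0 := Complex.two_pi_I_ne_zero
    constructor
    · rintro ⟨n, hn⟩
      refine ⟨n, ?_⟩
      rw [← hn, zsmul_one]
      push_cast
      ring
    · rintro ⟨n, hn⟩
      refine ⟨n, ?_⟩
      have h1 : ((∑ i, w i * q i : ℚ) : ℂ) = n := by
        apply mul_left_cancel₀ hpi
        rw [hn]
        ring
      have h2 : (∑ i, w i * q i : ℚ) = n := by exact_mod_cast h1
      rw [h2]
      simp
  refine ⟨s, ?_, ?_⟩
  · intro h1
    apply hc
    rw [hone, h1]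
    simp
  · intro w hw
    unfold chr
    rw [(hone w).1, map_one]
    rw [(QuotientAddGroup.eq_zero_iff w).2 hw, map_zero]

/-- If the action is effective there are semi-invariants `t_1, …, t_r` with the weights
`e_1, …, e_r`, and together with the invariants they generate `K`. -/
theorem exists_coords (heff : ∀ s, (∀ f, τ.ρ s f = f) → s = 1) :
    ∃ t : Fin r → K, (∀ i, t i ≠ 0) ∧ (∀ s i, τ.ρ s (t i) = algebraMap ℂ K (s i) * t i) ∧
      ∀ F : Subfield K, (∀ f, (∀ s, τ.ρ s f = f) → f ∈ F) → (∀ i, t i ∈ F) → F = ⊤ := by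
  have htop : τ.weights = ⊤ := by
    by_contra hcon
    obtain ⟨s, hs1, hs⟩ := exists_kill (K := K) τ.weights hcon
    apply hs1
    apply heff
    intro f
    let F : Subfield K :=
      { carrier := {f | τ.ρ s f = f}
        zero_mem' := map_zero _
        one_mem' := map_one _
        add_mem' := fun {a b} ha hb => by
          rw [Set.mem_ofPred_eq] at *
          rw [map_add, ha, hb]
        mul_mem' := fun {a b} ha hb => by
          rw [Set.mem_ofPred_eq] at *
          rw [map_mul, ha, hb]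
        neg_mem' := fun {a} ha => by
          rw [Set.mem_ofPred_eq] at *
          rw [map_neg, ha]
        inv_mem' := fun a ha => by
          rw [Set.mem_ofPred_eq] at *
          rw [map_inv₀, ha] }
    have hF : ∀ (w : Fin r → ℤ) (g : K), τ.Semi w g → g ∈ F := by
      intro w g hg
      by_cases hg0 : g = 0
      · rw [hg0]
        exact F.zero_mem
      change τ.ρ s g = g
      rw [hg s, hs w ⟨g, hg0, hg⟩, one_mul]
    exact τ.mem_of_semi hF f
  have ht : ∀ i : Fin r, ∃ f : K, f ≠ 0 ∧ τ.Semi (Pi.single i 1) f := by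
    intro i
    have : (Pi.single i 1 : Fin r → ℤ) ∈ τ.weights := by
      rw [htop]
      exact AddSubgroup.mem_top _
    exact this
  choose t ht0 ht using ht
  refine ⟨t, ht0, fun s i => ?_, fun F hinv htF => ?_⟩
  · rw [ht i s]
    congr 1
    unfold chr
    congr 1
    rw [Finset.prod_eq_single i]
    · simp
    · intro j _ hj
      rw [Pi.single_eq_of_ne hj, zpow_zero]
    · intro h
      exact absurd (Finset.mem_univ i) h
  · rw [eq_top_iff]
    intro f _
    refine τ.mem_of_semi (fun w g hg => ?_) f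
    have hprod : τ.Semi w (∏ i, t i ^ w i) := by
      have h1 : ∀ (i : Fin r) (n : ℤ), τ.Semi (n • Pi.single i 1) (t i ^ n) := by
        intro i n s
        rw [map_zpow₀, ht i s, mul_zpow]
        congr 1
        have h2 : ∀ n : ℤ, chr K (n • Pi.single i 1) s = chr K (Pi.single i 1) s ^ n := by
          intro n
          unfold chr
          rw [← map_zpow₀, ← Units.val_zpow_eq_zpow_val, ← Finset.prod_zpow]
          congr 2
          refine Finset.prod_congr rfl fun j _ => ?_
          rw [Pi.smul_apply, smul_eq_mul, mul_comm, zpow_mul]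
        exact (h2 n).symm
      have h3 : ∀ S : Finset (Fin r), τ.Semi (∑ i ∈ S, w i • Pi.single i 1)
          (∏ i ∈ S, t i ^ w i) := by
        classical
        intro S
        induction S using Finset.induction_on with
        | empty =>
          rw [Finset.sum_empty, Finset.prod_empty]
          exact τ.semi_one
        | insert i S hi ih =>
          rw [Finset.sum_insert hi, Finset.prod_insert hi]
          exact (h1 i (w i)).mul τ ih
      have h4 := h3 Finset.univ
      have h5 : ∑ i, w i • (Pi.single i 1 : Fin r → ℤ) = w := by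
        funext j
        simp [Finset.sum_apply, Pi.single_apply]
      rwa [h5] at h4
    have hne : ∏ i, t i ^ w i ≠ 0 := Finset.prod_ne_zero_iff.2 fun i _ => zpow_ne_zero _ (ht0 i)
    have hquo : g / (∏ i, t i ^ w i) ∈ F := by
      apply hinv
      intro s
      have h1 := hg.mul τ (hprod.inv τ)
      rw [add_neg_cancel] at h1
      have h2 := h1 s
      rw [chr_zero, one_mul] at h2
      rw [div_eq_mul_inv]
      exact h2
    have h1 : g = g / (∏ i, t i ^ w i) * ∏ i, t i ^ w i := (div_mul_cancel₀ g hne).symm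
    rw [h1]
    exact F.mul_mem hquo (F.prod_mem fun i _ => F.zpow_mem (htF i) _)

theorem Semi.prod_zpow {n : ℕ} {t : Fin n → K} {w : Fin n → Fin r → ℤ}
    (ht : ∀ i, τ.Semi (w i) (t i)) (a : Fin n → ℤ) :
    τ.Semi (∑ i, a i • w i) (∏ i, t i ^ a i) := by
  have h1 : ∀ (i : Fin n) (k : ℤ), τ.Semi (k • w i) (t i ^ k) := by
    intro i k s
    rw [map_zpow₀, ht i s, mul_zpow]
    congr 1
    have h2 : ∀ k : ℤ, chr K (k • w i) s = chr K (w i) s ^ k := by
      intro k
      unfold chr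
      rw [← map_zpow₀, ← Units.val_zpow_eq_zpow_val, ← Finset.prod_zpow]
      congr 2
      refine Finset.prod_congr rfl fun j _ => ?_
      rw [Pi.smul_apply, smul_eq_mul, mul_comm, zpow_mul]
    exact (h2 k).symm
  have h3 : ∀ S : Finset (Fin n), τ.Semi (∑ i ∈ S, a i • w i) (∏ i ∈ S, t i ^ a i) := by
    classical
    intro S
    induction S using Finset.induction_on with
    | empty =>
      rw [Finset.sum_empty, Finset.prod_empty]
      exact τ.semi_one
    | insert i S hi ih =>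
      rw [Finset.sum_insert hi, Finset.prod_insert hi]
      exact (h1 i (a i)).mul τ ih
  exact h3 Finset.univ

/-- There are semi-invariants `t_1, …, t_n` with linearly independent weights which generate `K`
together with the invariants. -/
theorem exists_coords_li : ∃ (n : ℕ) (t : Fin n → K) (w : Fin n → Fin r → ℤ), (∀ i, t i ≠ 0) ∧
    LinearIndependent ℤ w ∧ (∀ i, τ.Semi (w i) (t i)) ∧
    ∀ F : Subfield K, (∀ f, (∀ s, τ.ρ s f = f) → f ∈ F) → (∀ i, t i ∈ F) → F = ⊤ := by
  let L : Submodule ℤ (Fin r → ℤ) := AddSubgroup.toIntSubmodule τ.weights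
  obtain ⟨n, b⟩ := Submodule.basisOfPid (Pi.basisFun ℤ (Fin r)) L
  have hmem : ∀ i, ((b i : L) : Fin r → ℤ) ∈ τ.weights := fun i => (b i).2
  choose t ht0 ht using hmem
  refine ⟨n, t, fun i => (b i : L), ht0, ?_, ht, fun F hinv htF => ?_⟩
  · exact b.linearIndependent.map' L.subtype (Submodule.ker_subtype _)
  · rw [eq_top_iff]
    intro f _
    refine τ.mem_of_semi (fun w g hg => ?_) f
    by_cases hg0 : g = 0
    · rw [hg0]
      exact F.zero_mem
    have hw : w ∈ L := ⟨g, hg0, hg⟩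
    have hrep : ∑ i, b.repr ⟨w, hw⟩ i • ((b i : L) : Fin r → ℤ) = w := by
      have h1 := b.sum_repr ⟨w, hw⟩
      have h2 := congrArg L.subtype h1
      rw [map_sum] at h2
      exact h2
    have hprod := Semi.prod_zpow τ (t := t) (w := fun i => ((b i : L) : Fin r → ℤ)) ht
      (fun i => b.repr ⟨w, hw⟩ i)
    rw [hrep] at hprod
    have hne : ∏ i, t i ^ (b.repr ⟨w, hw⟩ i) ≠ 0 :=
      Finset.prod_ne_zero_iff.2 fun i _ => zpow_ne_zero _ (ht0 i)
    have hquo : g / (∏ i, t i ^ (b.repr ⟨w, hw⟩ i)) ∈ F := by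
      apply hinv
      intro s
      have h1 := hg.mul τ (hprod.inv τ)
      rw [add_neg_cancel] at h1
      have h2 := h1 s
      rw [chr_zero, one_mul] at h2
      rw [div_eq_mul_inv]
      exact h2
    rw [← div_mul_cancel₀ g hne]
    exact F.mul_mem hquo (F.prod_mem fun i _ => F.zpow_mem (htF i) _)

end RatAct

end Vale.Agent.P299.Q.TS
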