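import Mathlib.RingTheory.Trace.Basic
import Mathlib.FieldTheory.IsAlgClosed.AlgebraicClosure
import Vale.Agent.P299.Q.TraceInt
import Vale.Agent.P299.Q.Ramify
import Vale.Agent.P299.R.Stalks

/-!
# The trace of rational functions
-/

open CategoryTheory TopologicalSpace Opposite TopCat AlgebraicGeometry Order

namespace Vale.Agent.P299.Q

open Vale.Agent.P299.G

/-- If `g^N` is divisible by `t` in the integral closure, then a power of the trace of `g` is
divisible by `t`. -/
theorem exists_trace_pow {A K L : Type*} [CommRing A] [IsDomain A] [IsIntegrallyClosed A]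
    [Field K] [CharZero K] [Algebra A K] [IsFractionRing A K] [Field L] [Algebra K L]
    [FiniteDimensional K L] [Algebra A L] [IsScalarTower A K L] {t : A} (ht : t ≠ 0) {g h : L}
    {N : ℕ} (hN0 : 0 < N) (hN : g ^ N = algebraMap A L t * h) (hh : IsIntegral A h) :
    ∃ (M : ℕ) (b : A), (Algebra.trace K L g) ^ M = algebraMap A K (t * b) := by
  classical
  let E := AlgebraicClosure K
  let B := integralClosure A E
  have hg : IsIntegral A g := by
    rw [← IsIntegral.pow_iff hN0, hN]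
    exact isIntegral_algebraMap.mul hh
  let s : (L →ₐ[K] E) → B := fun σ => ⟨σ g, hg.map (σ.restrictScalars A)⟩
  let u : (L →ₐ[K] E) → B := fun σ => ⟨σ h, hh.map (σ.restrictScalars A)⟩
  have hsu : ∀ σ, s σ ^ N = algebraMap A B t * u σ := by
    intro σ
    apply Subtype.ext
    change σ g ^ N = algebraMap A E t * σ h
    rw [← map_pow, hN, map_mul]
    congr 1
    exact (σ.restrictScalars A).commutes t
  have hrad : ∑ σ, s σ ∈ (Ideal.span {algebraMap A B t}).radical :=
    Ideal.sum_mem _ fun σ _ => ⟨N, by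
      rw [hsu]
      exact Ideal.mul_mem_right _ _ (Ideal.mem_span_singleton_self _)⟩
  obtain ⟨M, hM⟩ := hrad
  rw [Ideal.mem_span_singleton] at hM
  obtain ⟨c, hc⟩ := hM
  have htr : algebraMap K E (Algebra.trace K L g) = ∑ σ : L →ₐ[K] E, σ g :=
    trace_eq_sum_embeddings E
  have hc' : (∑ σ : L →ₐ[K] E, σ g) ^ M = algebraMap A E t * c.1 := by
    have h1 := congrArg (Subtype.val : B → E) hc
    have h2 : ((∑ σ, s σ : B) : E) = ∑ σ : L →ₐ[K] E, σ g := by
      rw [AddSubmonoidClass.coe_finset_sum]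
    rw [← h2]
    exact h1
  have htK : algebraMap A K t ≠ 0 := by
    rwa [Ne, map_eq_zero_iff _ (IsFractionRing.injective A K)]
  have hint : IsIntegral A ((Algebra.trace K L g) ^ M / algebraMap A K t) := by
    rw [← isIntegral_algebraMap_iff (R := A) (B := E) (algebraMap K E).injective]
    have h1 : algebraMap K E ((Algebra.trace K L g) ^ M / algebraMap A K t) = c.1 := by
      have htE : algebraMap K E (algebraMap A K t) ≠ 0 := by
        rwa [Ne, map_eq_zero_iff _ (algebraMap K E).injective]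
      rw [map_div₀, map_pow, htr, div_eq_iff htE, hc', mul_comm,
        IsScalarTower.algebraMap_apply A K E]
    rw [h1]
    exact c.2
  obtain ⟨b, hb⟩ := IsIntegrallyClosed.isIntegral_iff.1 hint
  refine ⟨M, b, ?_⟩
  rw [map_mul, hb, mul_div_cancel₀ _ htK]

variable {X Y : Var} (φ : DomHom X Y)

instance Var.charZero (X : Var) : CharZero X.K :=
  charZero_of_injective_algebraMap (algebraMap ℂ X.K).injective

/-- The trace of a rational function vanishing at all primes over the prime divisor `y` vanishes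
at `y`. -/
theorem one_le_ord_trace (hfin : letI := φ.pull.toAlgebra; Module.Finite Y.K X.K) {y : Y.X}
    (hy : coheight y = 1) {g : X.K} (hg : ∀ z : X.X, coheight z = 1 → φ.f z = y → g ≠ 0 →
      1 ≤ Scheme.ord g z) :
    letI := φ.pull.toAlgebra
    Algebra.trace Y.K X.K g ≠ 0 → 1 ≤ Scheme.ord (Algebra.trace Y.K X.K g) y := by
  let _ := φ.pull.toAlgebra
  intro htr
  have hg0 : g ≠ 0 := by
    rintro rfl
    exact htr (map_zero _)
  have := Y.dvr y hy
  have halg : φ.pull.IsIntegral := by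
    have h1 : Algebra.IsIntegral Y.K X.K := Algebra.IsIntegral.of_finite Y.K X.K
    exact h1.isIntegral
  obtain ⟨a, ha, ha1⟩ := exists_uniformizer Y.dvr hy
  have hT0 : φ.pull (toK y a) ≠ 0 := φ.pull_ne_zero (toK_ne_zero ha)
  obtain ⟨N, hN⟩ : ∃ N : ℕ, ∀ z : X.X, Scheme.ord (φ.pull (toK y a)) z ≤ N := by
    have hfin : {z : X.X | Scheme.ord (φ.pull (toK y a)) z ≠ 0}.Finite :=
      finite_ord_ne_zero _ hT0
    obtain ⟨b, hb⟩ := (hfin.image (fun z => Scheme.ord (φ.pull (toK y a)) z)).bddAbove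
    refine ⟨b.toNat, fun z => ?_⟩
    by_cases hz : Scheme.ord (φ.pull (toK y a)) z = 0
    · rw [hz]
      exact Int.natCast_nonneg _
    · exact (hb ⟨z, hz, rfl⟩).trans (Int.self_le_toNat b)
  let _ : Algebra (Y.X.presheaf.stalk y) X.K := (φ.pull.comp (toK y)).toAlgebra
  have hst : IsScalarTower (Y.X.presheaf.stalk y) Y.K X.K := IsScalarTower.of_algebraMap_eq' rfl
  have hint : IsIntegral (Y.X.presheaf.stalk y) (g ^ (N + 1) / φ.pull (toK y a)) := by
    refine isIntegral_over φ halg factorialStalks hy fun z hz hzy => ?_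
    rw [Q.ord_div (pow_ne_zero _ hg0) hT0, Q.ord_pow hg0]
    have h1 := hg z hz hzy hg0
    have h2 := hN z
    push_cast
    nlinarith
  obtain ⟨M, b, hb⟩ := exists_trace_pow (A := Y.X.presheaf.stalk y) (K := Y.K) (L := X.K) ha
    (Nat.succ_pos N) (g := g) (h := g ^ (N + 1) / φ.pull (toK y a)) (by
      have h1 : algebraMap (Y.X.presheaf.stalk y) X.K a = φ.pull (toK y a) := rfl
      rw [h1, mul_div_cancel₀ _ hT0]) hint
  have hb0 : b ≠ 0 := by
    rintro rfl
    rw [mul_zero, map_zero] at hb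
    exact pow_ne_zero _ htr hb
  have h1 : algebraMap (Y.X.presheaf.stalk y) Y.K (a * b) = toK y a * toK y b := map_mul _ _ _
  rw [h1] at hb
  have h2 := congrArg (fun f : Y.K => Scheme.ord f y) hb
  rw [Q.ord_pow htr, Scheme.ord_mul (toK_ne_zero ha) (toK_ne_zero hb0), ha1] at h2
  have h3 := ord_toK_nonneg (y := y) b
  by_contra hc
  have h4 : Scheme.ord (Algebra.trace Y.K X.K g) y ≤ 0 := by omega
  have h5 : (0 : ℤ) ≤ M := Int.natCast_nonneg M
  nlinarith

/-- **The trace of a section of `K_X + φ^*D` is a section of `K_Y + D`**, for a generically finite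
morphism `φ : X → Y`. Here `K_X = φ^*K_Y + E`, with the ramification divisor `E`. -/
theorem DomHom.Alg.trace_mem_H0 {φ : DomHom X Y} (hφ : φ.Alg)
    (hfin : letI := φ.pull.toAlgebra; Module.Finite Y.K X.K) {κ : Div Y.X} {κ₀ E : Div X.X}
    (hκ₀ : IsPullback φ κ κ₀)
    (hE : ∀ x : X.X, coheight x = 1 → ∀ (s : Fin Y.dim → Y.K) (w : Fin Y.dim → Y.Der)
        (u : Fin Y.dim → X.K) (δ : Fin Y.dim → X.Der), Fr (φ.f x) s w → Fr x u δ →
        (jac φ s δ).det ≠ 0 ∧ coef E x = Scheme.ord (jac φ s δ).det x)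
    {D : Div Y.X} {D' : Div X.X} (hD : IsPullback φ D D') {f : X.K}
    (hf : f ∈ H0 (coef (κ₀ + E + D'))) :
    letI := φ.pull.toAlgebra
    Algebra.trace Y.K X.K f ∈ H0 (coef (κ + D)) := by
  let _ := φ.pull.toAlgebra
  rw [mem_H0]
  intro y hy htr
  obtain ⟨t, ht, ht1⟩ := exists_unif (X := Y) hy
  have hf0 : f ≠ 0 := by
    rintro rfl
    exact htr (map_zero _)
  set c : ℤ := coef (κ + D) y + 1 with hc
  have hu : t ^ c ≠ 0 := zpow_ne_zero _ ht
  have hu' : φ.pull (t ^ c) ≠ 0 := φ.pull_ne_zero hu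
  have hg : ∀ z : X.X, coheight z = 1 → φ.f z = y → φ.pull (t ^ c) * f ≠ 0 →
      1 ≤ Scheme.ord (φ.pull (t ^ c) * f) z := by
    intro z hz hzy _
    subst hzy
    obtain ⟨m, hm, hmult⟩ := φ.exists_mult z hz hy
    obtain ⟨s, w, hsw⟩ := exists_fr (X := Y) rfl (φ.f z)
    obtain ⟨u, δ, huδ⟩ := exists_fr hφ.dim_eq z
    obtain ⟨hE0, hE1⟩ := hE z hz s w u δ hsw huδ
    have h1 := ramification_le hφ hz hy hsw huδ hE0 ht ht1
    have h2 := mem_H0.1 hf z hz hf0
    have hcoef : ∀ {B : Div Y.X} {B' : Div X.X}, IsPullback φ B B' →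
        coef B' z = m * coef B (φ.f z) := by
      intro B B' hB
      obtain ⟨g, hg, hgD⟩ := hB z hz
      have h3 := hg.2 (φ.f z) hy (specializes_refl _)
      rw [coef_neg] at h3
      rw [hgD, hmult g hg.1]
      congr 1
      linarith
    rw [hmult t ht, ht1, mul_one, ← hE1] at h1
    rw [Scheme.ord_mul hu' hf0, hmult _ hu, Q.ord_zpow ht, ht1, mul_one, hc]
    rw [coef_add, coef_add, hcoef hD, hcoef hκ₀] at h2
    rw [coef_add]
    nlinarith
  have h1 := one_le_ord_trace φ hfin hy hg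
  have h2 : Algebra.trace Y.K X.K (φ.pull (t ^ c) * f) =
      t ^ c * Algebra.trace Y.K X.K f := by
    have h3 : φ.pull (t ^ c) * f = (t ^ c) • f := (Algebra.smul_def _ _).symm
    rw [h3, map_smul, smul_eq_mul]
  rw [h2] at h1
  have h3 := h1 (mul_ne_zero hu htr)
  rw [Scheme.ord_mul hu htr, Q.ord_zpow ht, ht1, mul_one, hc] at h3
  linarith

/-- The trace of the pull back of a rational function. -/
theorem trace_pull (φ : DomHom X Y) (g : Y.K) (f : X.K) :
    letI := φ.pull.toAlgebra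
    Algebra.trace Y.K X.K (φ.pull g * f) = g * Algebra.trace Y.K X.K f := by
  let _ := φ.pull.toAlgebra
  have h3 : φ.pull g * f = g • f := (Algebra.smul_def _ _).symm
  rw [h3, map_smul, smul_eq_mul]

theorem trace_pull_one (φ : DomHom X Y) (g : Y.K) :
    letI := φ.pull.toAlgebra
    Algebra.trace Y.K X.K (φ.pull g) = (Module.finrank Y.K X.K : Y.K) * g := by
  let _ := φ.pull.toAlgebra
  have h := Algebra.trace_algebraMap (R := Y.K) (S := X.K) g
  rw [nsmul_eq_mul] at h
  exact h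

/-- **Generation descends along the trace.** If `κ₀ + E + D'` has sections `σ` such that `O_Y(κ + D)`
is contained in the `O_Y`-module which they generate, at the point `y`, then `κ + D` is generated
by its sections at `y`. -/
theorem DomHom.Alg.exists_genAt_trace (hFS : FactorialStalks) {φ : DomHom X Y} (hφ : φ.Alg)
    (hfin : letI := φ.pull.toAlgebra; Module.Finite Y.K X.K) {κ : Div Y.X} {κ₀ E : Div X.X}
    (hκ₀ : IsPullback φ κ κ₀)
    (hE : ∀ x : X.X, coheight x = 1 → ∀ (s : Fin Y.dim → Y.K) (w : Fin Y.dim → Y.Der)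
        (u : Fin Y.dim → X.K) (δ : Fin Y.dim → X.Der), Fr (φ.f x) s w → Fr x u δ →
        (jac φ s δ).det ≠ 0 ∧ coef E x = Scheme.ord (jac φ s δ).det x)
    {D : Div Y.X} {D' : Div X.X} (hD : IsPullback φ D D') {y : Y.X} {h : Y.K}
    (hh : GenAt (κ + D) h y) {n : ℕ} (a : Fin n → Y.X.presheaf.stalk y) (σ : Fin n → X.K)
    (hσ : ∀ i, σ i ∈ H0 (coef (κ₀ + E + D')))
    (hsum : φ.pull h = ∑ i, φ.pull (algebraMap _ Y.K (a i)) * σ i) :
    ∃ s ∈ H0 (coef (κ + D)), GenAt (κ + D) s y := by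
  let _ := φ.pull.toAlgebra
  have htr : ∀ i, Algebra.trace Y.K X.K (σ i) ∈ H0 (coef (κ + D)) := fun i =>
    hφ.trace_mem_H0 hfin hκ₀ hE hD (hσ i)
  have hsum' : (Module.finrank Y.K X.K : Y.K) * h =
      ∑ i, algebraMap _ Y.K (a i) * Algebra.trace Y.K X.K (σ i) := by
    rw [← trace_pull_one φ h, hsum, map_sum]
    exact Finset.sum_congr rfl fun i _ => trace_pull φ _ _
  have := hFS Y y
  have hb : ∀ i, ∃ b : Y.X.presheaf.stalk y, toK y b = Algebra.trace Y.K X.K (σ i) / h := by
    intro i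
    by_cases h0 : Algebra.trace Y.K X.K (σ i) = 0
    · exact ⟨0, by rw [map_zero, h0, zero_div]⟩
    · refine exists_of_forall_ord_nonneg Y.dvr y _ fun z hz hzy => ?_
      rw [Q.ord_div h0 hh.1]
      have h1 := mem_H0.1 (htr i) z hz h0
      have h2 := hh.2 z hz hzy
      linarith
  choose b hb using hb
  have hd0 : Module.finrank Y.K X.K ≠ 0 := Module.finrank_pos.ne'
  have hdC : (Module.finrank Y.K X.K : ℂ) ≠ 0 := Nat.cast_ne_zero.2 hd0
  have hdu : IsUnit ((Module.finrank Y.K X.K : ℕ) : Y.X.presheaf.stalk y) := by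
    have h1 := (IsUnit.mk0 _ hdC).map (cstStalk y)
    rwa [map_natCast] at h1
  have hdsum : ((Module.finrank Y.K X.K : ℕ) : Y.X.presheaf.stalk y) = ∑ i, a i * b i := by
    apply toK_injective y
    rw [map_natCast, map_sum]
    apply mul_right_cancel₀ hh.1
    rw [hsum', Finset.sum_mul]
    refine Finset.sum_congr rfl fun i _ => ?_
    rw [map_mul, hb, mul_assoc, div_mul_cancel₀ _ hh.1]
  obtain ⟨i, hi⟩ : ∃ i, IsUnit (b i) := by
    by_contra hcon
    push Not at hcon
    have h1 : ∑ i, a i * b i ∈ IsLocalRing.maximalIdeal (Y.X.presheaf.stalk y) :=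
      Ideal.sum_mem _ fun i _ => Ideal.mul_mem_left _ _
        ((IsLocalRing.mem_maximalIdeal _).2 (hcon i))
    rw [← hdsum] at h1
    exact (IsLocalRing.mem_maximalIdeal _).1 h1 hdu
  refine ⟨_, htr i, ?_, fun z hz hzy => ?_⟩
  · intro h0
    have h1 := hb i
    rw [h0, zero_div] at h1
    exact toK_ne_zero hi.ne_zero h1
  · have h1 : Algebra.trace Y.K X.K (σ i) = toK y (b i) * h := by
      rw [hb, div_mul_cancel₀ _ hh.1]
    have h2 : Scheme.ord (toK y (b i)) z = 0 := by
      rw [← toK_toStalk hzy]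
      exact ord_toK_of_isUnit (hi.map _)
    rw [h1, Scheme.ord_mul (toK_ne_zero hi.ne_zero) hh.1, h2, zero_add]
    exact hh.2 z hz hzy

end Vale.Agent.P299.Q
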