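import Vale.Agent.P299.Q.Sheaf
import Vale.Agent.P299.G.Glue

/-!
# The sheaves `O(D)` of a family of primes on an irreducible space

`T` is an irreducible topological space, `K` a field over `ℂ`, `P` a family of primes with their
points `pt p ∈ T` and their orders `O.ord p` on `K`.  For `D : P → ℤ` the sheaf `O.sheaf pt D` has
as its sections over a nonempty open set `U` the elements `f ∈ K` with `ord_p f + D_p ≥ 0` for all
`p` with `pt p ∈ U`.

* `T = X` a normal scheme, `K` its function field, `P` the points of codimension one: `O_X(D)`;
* `T = Z` with the topology of the `G`-stable Zariski open sets, `K = ℂ(Z)^G`, `P` the `G`-stable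
  primes: the sheaf of the `G`-invariant sections of `O_Z(D)`.
-/

open CategoryTheory TopologicalSpace Opposite TopCat AlgebraicGeometry Order

namespace Vale.Agent.P299.Q

open Vale.Agent.P299.G2

section Gen

variable {T : TopCat.{0}} {K : Type} [Field K] [Algebra ℂ K] {P : Type} (O : Orders ℂ K P)
  (pt : P → T)

/-- The elements `f` of `K` with `ord_p f + D_p ≥ 0` for all primes `p` at the point `x`. -/
noncomputable def polarGen (D : P → ℤ) (x : T) : Submodule ℂ K := O.H0on {p | pt p = x} D

theorem mem_polarGen {D : P → ℤ} {x : T} {f : K} :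
    f ∈ polarGen O pt D x ↔ f = 0 ∨ ∀ p, pt p = x → 0 ≤ O.ord p f + D p := Iff.rfl

theorem iInf_polarGen (D : P → ℤ) : ⨅ x, polarGen O pt D x = O.H0 D := by
  ext f
  simp only [Submodule.mem_iInf, mem_polarGen, Orders.mem_H0]
  constructor
  · intro h
    by_cases hf : f = 0
    · exact Or.inl hf
    · exact Or.inr fun p => ((h (pt p)).resolve_left hf) p rfl
  · intro h x
    exact h.imp_right fun h p _ => h p

/-- The sheaf `O(D)` of the elements `f` with `ord_p f + D_p ≥ 0` (`D` a divisor). -/
noncomputable def sheafGen [PreirreducibleSpace T] (D : P → ℤ) :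
    Sheaf (Opens.grothendieckTopology T) (ModuleCat.{0} ℂ) :=
  constSheaf (T := T) (polarGen O pt D)

end Gen

section SchemeCase

variable (X : Scheme.{0}) [IsIntegral X] [IsLocallyNoetherian X] [X.Over SpecC] [RegOne X]

/-- The orders at the points of codimension one of a scheme. -/
noncomputable def schemeOrders : Orders ℂ X.functionField {x : X // coheight x = 1} where
  ord x f := Scheme.ord f x.1
  ord_mul x _ _ hf hg := Scheme.ord_mul hf hg
  ord_add x _ _ _ _ hfg := by
    have := RegOne.dvr (X := X) x.1 x.2
    exact Scheme.ord_add (x := x.1) hfg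
  ord_algebraMap x _ hc := ord_constant _ hc _

variable {X}

theorem polarGen_schemeOrders (D : X → ℤ) (x : X) :
    polarGen (T := (X : TopCat.{0})) (schemeOrders X) (fun p => p.1) (fun p => D p.1) x =
      polar D x := by
  ext f
  rw [mem_polarGen, mem_polar]
  constructor
  · rintro h hx hf
    exact h.resolve_left hf ⟨x, hx⟩ rfl
  · intro h
    by_cases hf : f = 0
    · exact Or.inl hf
    · right
      rintro ⟨p, hp⟩ rfl
      exact h hp hf

/-- The sheaf `O_X(D)` is the sheaf of the family of the points of codimension one. -/
theorem sheafGen_schemeOrders (D : X → ℤ) :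
    sheafGen (T := (X : TopCat.{0})) (schemeOrders X) (fun p => p.1) (fun p => D p.1) = OX D := by
  unfold sheafGen OX
  congr 1
  funext x
  exact polarGen_schemeOrders D x

theorem schemeOrders_H0 (D : X → ℤ) : (schemeOrders X).H0 (fun p => D p.1) = H0 D := by
  rw [← iInf_polarGen (T := (X : TopCat.{0})) (schemeOrders X) (fun p => p.1) (fun p => D p.1), H0]
  exact iInf_congr fun x => polarGen_schemeOrders D x

end SchemeCase

end Vale.Agent.P299.Q
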